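import Vale.Agent.P098.Exact.Sos6.Q93.Box0
import Vale.Agent.P098.Exact.Sos6.Q93.EOK2

/-! Generated data of the dimension six interior check. -/

noncomputable section

namespace Vale.Agent.P098.Exact.Sos6.Q93

set_option maxRecDepth 100000

theorem bucket0_2 : boxS tbl.W 12 tbl.gl (2 * 256) 256 (partsOf posN rowsA rowsB rowsC) bx0 hd0
    (dtbl.checkR 256 28 22 rls0 (planOf lams0) 190 dD0 dE0 els0 2) = true :=
  boxS_of_lit (EO := (eoE2, eoO2)) eoOK_2 (by decide +kernel)


end Vale.Agent.P098.Exact.Sos6.Q93
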