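import Vale.Agent.P098.Exact.Sos6.Q93.Defs
import Vale.Agent.P098.Exact.Sos6.Q93.EOE5
import Vale.Agent.P098.Exact.Sos6.Q93.EOO5
import Vale.Agent.P098.Exact.Sos6.Lit

noncomputable section

namespace Vale.Agent.P098.Exact.Sos6.Q93

set_option maxRecDepth 100000

theorem eoOK_5 : eoOK 272 12 1280 256 parts (eoE5, eoO5) = true := by decide +kernel

end Vale.Agent.P098.Exact.Sos6.Q93
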