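import Vale.Agent.P098.Exact.Sos6.Q93.Common
import Vale.Agent.P098.Exact.Sos6.Q93.Box0B0
import Vale.Agent.P098.Exact.Sos6.Q93.Box0B1
import Vale.Agent.P098.Exact.Sos6.Q93.Box0B2
import Vale.Agent.P098.Exact.Sos6.Q93.Box0B3
import Vale.Agent.P098.Exact.Sos6.Q93.Box0B4
import Vale.Agent.P098.Exact.Sos6.Q93.Box0B5
import Vale.Agent.P098.Exact.Sos6.Q93.Box0B6
import Vale.Agent.P098.Exact.Sos6.Q93.Box0B7

/-! Generated data of the dimension six interior check. -/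

noncomputable section

namespace Vale.Agent.P098.Exact.Sos6.Q93

set_option maxRecDepth 100000

theorem pay0 : dtbl.payOK 190 dD0 dE0 (elTot els0) = true := by decide +kernel

theorem rls_ok0 : ∀ G ∈ rls0, ∃ Ns, tbl.facR 72 b0 28 22 Ns G = true := by
  intro G hG
  simp only [rls0, List.mem_cons, List.not_mem_nil, or_false] at hG
  rcases hG with rfl | rfl | rfl | rfl | rfl | rfl | rfl | rfl | rfl | rfl | rfl | rfl | rfl | rfl | rfl | rfl | rfl | rfl | rfl | rfl | rfl | rfl | rfl | rfl | rfl | rfl | rfl | rfl | rfl | rfl | rfl | rfl | rfl | rfl | rfl | rfl | rfl | rfl | rfl | rfl | rfl | rfl | rfl | rfl | rfl | rfl | rfl | rfl | rfl | rfl | rfl | rfl | rfl | rfl | rfl | rfl | rfl | rfl | rfl | rfl | rfl | rfl | rfl | rfl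
  · exact ⟨_, fac0⟩
  · exact ⟨_, fac1⟩
  · exact ⟨_, fac2⟩
  · exact ⟨_, fac3⟩
  · exact ⟨_, fac4⟩
  · exact ⟨_, fac5⟩
  · exact ⟨_, fac6⟩
  · exact ⟨_, fac7⟩
  · exact ⟨_, fac8⟩
  · exact ⟨_, fac9⟩
  · exact ⟨_, fac10⟩
  · exact ⟨_, fac11⟩
  · exact ⟨_, fac12⟩
  · exact ⟨_, fac13⟩
  · exact ⟨_, fac14⟩
  · exact ⟨_, fac15⟩
  · exact ⟨_, fac16⟩
  · exact ⟨_, fac17⟩
  · exact ⟨_, fac18⟩
  · exact ⟨_, fac19⟩
  · exact ⟨_, fac20⟩
  · exact ⟨_, fac21⟩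
  · exact ⟨_, fac22⟩
  · exact ⟨_, fac23⟩
  · exact ⟨_, fac24⟩
  · exact ⟨_, fac25⟩
  · exact ⟨_, fac26⟩
  · exact ⟨_, fac27⟩
  · exact ⟨_, fac28⟩
  · exact ⟨_, fac29⟩
  · exact ⟨_, fac30⟩
  · exact ⟨_, fac31⟩
  · exact ⟨_, fac32⟩
  · exact ⟨_, fac33⟩
  · exact ⟨_, fac34⟩
  · exact ⟨_, fac35⟩
  · exact ⟨_, fac36⟩
  · exact ⟨_, fac37⟩
  · exact ⟨_, fac38⟩
  · exact ⟨_, fac39⟩
  · exact ⟨_, fac40⟩
  · exact ⟨_, fac41⟩
  · exact ⟨_, fac42⟩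
  · exact ⟨_, fac43⟩
  · exact ⟨_, fac44⟩
  · exact ⟨_, fac45⟩
  · exact ⟨_, fac46⟩
  · exact ⟨_, fac47⟩
  · exact ⟨_, fac48⟩
  · exact ⟨_, fac49⟩
  · exact ⟨_, fac50⟩
  · exact ⟨_, fac51⟩
  · exact ⟨_, fac52⟩
  · exact ⟨_, fac53⟩
  · exact ⟨_, fac54⟩
  · exact ⟨_, fac55⟩
  · exact ⟨_, fac56⟩
  · exact ⟨_, fac57⟩
  · exact ⟨_, fac58⟩
  · exact ⟨_, fac59⟩
  · exact ⟨_, fac60⟩
  · exact ⟨_, fac61⟩
  · exact ⟨_, fac62⟩
  · exact ⟨_, fac63⟩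

theorem good0 : bx0.GoodK ((an : ℝ) / 100) (L.map (ITerm.term den)) (L2.map (ITerm.term den))
    (KL.map (KI.term den)) delta :=
  goodK_of_checkR an den (by decide) L L2 KL dtbl dtbl_ok rfl codes posN rowsA rowsB rowsC rows_tbl 12 256 8 72 b0 28 22
    (by decide) parts_ok (by decide +kernel) slice_ok lit_ok 1 (by decide +kernel) delta bx0 hd0
    (by decide) rls0 rls_ok0 (by decide) (planOf lams0) 190 dD0 dE0 els0 rfl pay0 delta_le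
    (fun b hb => by
      interval_cases b
      · exact bucket0_0
      · exact bucket0_1
      · exact bucket0_2
      · exact bucket0_3
      · exact bucket0_4
      · exact bucket0_5
      · exact bucket0_6
      · exact bucket0_7)

end Vale.Agent.P098.Exact.Sos6.Q93
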