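import Vale.Agent.P098.Exact.Sos6.Q93.Common
import Vale.Agent.P098.Exact.Sos6.Q93.Box100B0
import Vale.Agent.P098.Exact.Sos6.Q93.Box100B1
import Vale.Agent.P098.Exact.Sos6.Q93.Box100B2
import Vale.Agent.P098.Exact.Sos6.Q93.Box100B3
import Vale.Agent.P098.Exact.Sos6.Q93.Box100B4
import Vale.Agent.P098.Exact.Sos6.Q93.Box100B5
import Vale.Agent.P098.Exact.Sos6.Q93.Box100B6
import Vale.Agent.P098.Exact.Sos6.Q93.Box100B7

/-! Generated data of the dimension six interior check. -/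

noncomputable section

namespace Vale.Agent.P098.Exact.Sos6.Q93

set_option maxRecDepth 100000

theorem pay100 : dtbl.payOK 190 dD100 dE100 (elTot els100) = true := by decide +kernel

theorem rls_ok100 : ∀ G ∈ rls100, ∃ Ns, tbl.facR 72 b0 28 22 Ns G = true := by
  intro G hG
  simp only [rls100, List.mem_cons, List.not_mem_nil, or_false] at hG
  rcases hG with rfl | rfl | rfl | rfl | rfl | rfl | rfl | rfl | rfl | rfl | rfl | rfl | rfl | rfl | rfl | rfl | rfl | rfl | rfl | rfl | rfl | rfl | rfl | rfl | rfl | rfl | rfl | rfl | rfl | rfl | rfl | rfl | rfl | rfl | rfl | rfl | rfl | rfl | rfl | rfl | rfl | rfl | rfl | rfl | rfl | rfl | rfl | rfl | rfl | rfl | rfl | rfl | rfl | rfl | rfl | rfl | rfl | rfl | rfl | rfl | rfl | rfl | rfl | rfl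
  · exact ⟨_, fac6400⟩
  · exact ⟨_, fac6401⟩
  · exact ⟨_, fac6402⟩
  · exact ⟨_, fac6403⟩
  · exact ⟨_, fac6404⟩
  · exact ⟨_, fac6405⟩
  · exact ⟨_, fac6406⟩
  · exact ⟨_, fac6407⟩
  · exact ⟨_, fac6408⟩
  · exact ⟨_, fac6409⟩
  · exact ⟨_, fac6410⟩
  · exact ⟨_, fac6411⟩
  · exact ⟨_, fac6412⟩
  · exact ⟨_, fac6413⟩
  · exact ⟨_, fac6414⟩
  · exact ⟨_, fac6415⟩
  · exact ⟨_, fac6416⟩
  · exact ⟨_, fac6417⟩
  · exact ⟨_, fac6418⟩
  · exact ⟨_, fac6419⟩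
  · exact ⟨_, fac6420⟩
  · exact ⟨_, fac6421⟩
  · exact ⟨_, fac6422⟩
  · exact ⟨_, fac6423⟩
  · exact ⟨_, fac6424⟩
  · exact ⟨_, fac6425⟩
  · exact ⟨_, fac6426⟩
  · exact ⟨_, fac6427⟩
  · exact ⟨_, fac6428⟩
  · exact ⟨_, fac6429⟩
  · exact ⟨_, fac6430⟩
  · exact ⟨_, fac6431⟩
  · exact ⟨_, fac6432⟩
  · exact ⟨_, fac6433⟩
  · exact ⟨_, fac6434⟩
  · exact ⟨_, fac6435⟩
  · exact ⟨_, fac6436⟩
  · exact ⟨_, fac6437⟩
  · exact ⟨_, fac6438⟩
  · exact ⟨_, fac6439⟩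
  · exact ⟨_, fac6440⟩
  · exact ⟨_, fac6441⟩
  · exact ⟨_, fac6442⟩
  · exact ⟨_, fac6443⟩
  · exact ⟨_, fac6444⟩
  · exact ⟨_, fac6445⟩
  · exact ⟨_, fac6446⟩
  · exact ⟨_, fac6447⟩
  · exact ⟨_, fac6448⟩
  · exact ⟨_, fac6449⟩
  · exact ⟨_, fac6450⟩
  · exact ⟨_, fac6451⟩
  · exact ⟨_, fac6452⟩
  · exact ⟨_, fac6453⟩
  · exact ⟨_, fac6454⟩
  · exact ⟨_, fac6455⟩
  · exact ⟨_, fac6456⟩
  · exact ⟨_, fac6457⟩
  · exact ⟨_, fac6458⟩
  · exact ⟨_, fac6459⟩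
  · exact ⟨_, fac6460⟩
  · exact ⟨_, fac6461⟩
  · exact ⟨_, fac6462⟩
  · exact ⟨_, fac6463⟩

theorem good100 : bx100.GoodK ((an : ℝ) / 100) (L.map (ITerm.term den)) (L2.map (ITerm.term den))
    (KL.map (KI.term den)) delta :=
  goodK_of_checkR an den (by decide) L L2 KL dtbl dtbl_ok rfl codes posN rowsA rowsB rowsC rows_tbl 12 256 8 72 b0 28 22
    (by decide) parts_ok (by decide +kernel) slice_ok lit_ok 1 (by decide +kernel) delta bx100 hd100
    (by decide) rls100 rls_ok100 (by decide) (planOf lams100) 190 dD100 dE100 els100 rfl pay100 delta_le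
    (fun b hb => by
      interval_cases b
      · exact bucket100_0
      · exact bucket100_1
      · exact bucket100_2
      · exact bucket100_3
      · exact bucket100_4
      · exact bucket100_5
      · exact bucket100_6
      · exact bucket100_7)

end Vale.Agent.P098.Exact.Sos6.Q93
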