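import Vale.Agent.P098.Exact.Sos6.Q93.Box101
import Vale.Agent.P098.Exact.Sos6.Q93.EOK3

/-! Generated data of the dimension six interior check. -/

noncomputable section

namespace Vale.Agent.P098.Exact.Sos6.Q93

set_option maxRecDepth 100000

theorem bucket101_3 : boxS tbl.W 12 tbl.gl (3 * 256) 256 (partsOf posN rowsA rowsB rowsC) bx101 hd101
    (dtbl.checkR 256 28 22 rls101 (planOf lams101) 190 dD101 dE101 els101 3) = true :=
  boxS_of_lit (EO := (eoE3, eoO3)) eoOK_3 (by decide +kernel)


end Vale.Agent.P098.Exact.Sos6.Q93
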