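import Vale.Agent.P098.Exact.Sos6.Q93.Common
import Vale.Agent.P098.Exact.Sos6.Q93.Box101B0
import Vale.Agent.P098.Exact.Sos6.Q93.Box101B1
import Vale.Agent.P098.Exact.Sos6.Q93.Box101B2
import Vale.Agent.P098.Exact.Sos6.Q93.Box101B3
import Vale.Agent.P098.Exact.Sos6.Q93.Box101B4
import Vale.Agent.P098.Exact.Sos6.Q93.Box101B5
import Vale.Agent.P098.Exact.Sos6.Q93.Box101B6
import Vale.Agent.P098.Exact.Sos6.Q93.Box101B7

/-! Generated data of the dimension six interior check. -/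

noncomputable section

namespace Vale.Agent.P098.Exact.Sos6.Q93

set_option maxRecDepth 100000

theorem pay101 : dtbl.payOK 190 dD101 dE101 (elTot els101) = true := by decide +kernel

theorem rls_ok101 : ∀ G ∈ rls101, ∃ Ns, tbl.facR 72 b0 28 22 Ns G = true := by
  intro G hG
  simp only [rls101, List.mem_cons, List.not_mem_nil, or_false] at hG
  rcases hG with rfl | rfl | rfl | rfl | rfl | rfl | rfl | rfl | rfl | rfl | rfl | rfl | rfl | rfl | rfl | rfl | rfl | rfl | rfl | rfl | rfl | rfl | rfl | rfl | rfl | rfl | rfl | rfl | rfl | rfl | rfl | rfl | rfl | rfl | rfl | rfl | rfl | rfl | rfl | rfl | rfl | rfl | rfl | rfl | rfl | rfl | rfl | rfl | rfl | rfl | rfl | rfl | rfl | rfl | rfl | rfl | rfl | rfl | rfl | rfl | rfl | rfl | rfl | rfl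
  · exact ⟨_, fac6464⟩
  · exact ⟨_, fac6465⟩
  · exact ⟨_, fac6466⟩
  · exact ⟨_, fac6467⟩
  · exact ⟨_, fac6468⟩
  · exact ⟨_, fac6469⟩
  · exact ⟨_, fac6470⟩
  · exact ⟨_, fac6471⟩
  · exact ⟨_, fac6472⟩
  · exact ⟨_, fac6473⟩
  · exact ⟨_, fac6474⟩
  · exact ⟨_, fac6475⟩
  · exact ⟨_, fac6476⟩
  · exact ⟨_, fac6477⟩
  · exact ⟨_, fac6478⟩
  · exact ⟨_, fac6479⟩
  · exact ⟨_, fac6480⟩
  · exact ⟨_, fac6481⟩
  · exact ⟨_, fac6482⟩
  · exact ⟨_, fac6483⟩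
  · exact ⟨_, fac6484⟩
  · exact ⟨_, fac6485⟩
  · exact ⟨_, fac6486⟩
  · exact ⟨_, fac6487⟩
  · exact ⟨_, fac6488⟩
  · exact ⟨_, fac6489⟩
  · exact ⟨_, fac6490⟩
  · exact ⟨_, fac6491⟩
  · exact ⟨_, fac6492⟩
  · exact ⟨_, fac6493⟩
  · exact ⟨_, fac6494⟩
  · exact ⟨_, fac6495⟩
  · exact ⟨_, fac6496⟩
  · exact ⟨_, fac6497⟩
  · exact ⟨_, fac6498⟩
  · exact ⟨_, fac6499⟩
  · exact ⟨_, fac6500⟩
  · exact ⟨_, fac6501⟩
  · exact ⟨_, fac6502⟩
  · exact ⟨_, fac6503⟩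
  · exact ⟨_, fac6504⟩
  · exact ⟨_, fac6505⟩
  · exact ⟨_, fac6506⟩
  · exact ⟨_, fac6507⟩
  · exact ⟨_, fac6508⟩
  · exact ⟨_, fac6509⟩
  · exact ⟨_, fac6510⟩
  · exact ⟨_, fac6511⟩
  · exact ⟨_, fac6512⟩
  · exact ⟨_, fac6513⟩
  · exact ⟨_, fac6514⟩
  · exact ⟨_, fac6515⟩
  · exact ⟨_, fac6516⟩
  · exact ⟨_, fac6517⟩
  · exact ⟨_, fac6518⟩
  · exact ⟨_, fac6519⟩
  · exact ⟨_, fac6520⟩
  · exact ⟨_, fac6521⟩
  · exact ⟨_, fac6522⟩
  · exact ⟨_, fac6523⟩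
  · exact ⟨_, fac6524⟩
  · exact ⟨_, fac6525⟩
  · exact ⟨_, fac6526⟩
  · exact ⟨_, fac6527⟩

theorem good101 : bx101.GoodK ((an : ℝ) / 100) (L.map (ITerm.term den)) (L2.map (ITerm.term den))
    (KL.map (KI.term den)) delta :=
  goodK_of_checkR an den (by decide) L L2 KL dtbl dtbl_ok rfl codes posN rowsA rowsB rowsC rows_tbl 12 256 8 72 b0 28 22
    (by decide) parts_ok (by decide +kernel) slice_ok lit_ok 1 (by decide +kernel) delta bx101 hd101
    (by decide) rls101 rls_ok101 (by decide) (planOf lams101) 190 dD101 dE101 els101 rfl pay101 delta_le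
    (fun b hb => by
      interval_cases b
      · exact bucket101_0
      · exact bucket101_1
      · exact bucket101_2
      · exact bucket101_3
      · exact bucket101_4
      · exact bucket101_5
      · exact bucket101_6
      · exact bucket101_7)

end Vale.Agent.P098.Exact.Sos6.Q93
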