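import Vale.Agent.P098.Exact.Sos6.Q93.Common
import Vale.Agent.P098.Exact.Sos6.Q93.Box102B0
import Vale.Agent.P098.Exact.Sos6.Q93.Box102B1
import Vale.Agent.P098.Exact.Sos6.Q93.Box102B2
import Vale.Agent.P098.Exact.Sos6.Q93.Box102B3
import Vale.Agent.P098.Exact.Sos6.Q93.Box102B4
import Vale.Agent.P098.Exact.Sos6.Q93.Box102B5
import Vale.Agent.P098.Exact.Sos6.Q93.Box102B6
import Vale.Agent.P098.Exact.Sos6.Q93.Box102B7

/-! Generated data of the dimension six interior check. -/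

noncomputable section

namespace Vale.Agent.P098.Exact.Sos6.Q93

set_option maxRecDepth 100000

theorem pay102 : dtbl.payOK 190 dD102 dE102 (elTot els102) = true := by decide +kernel

theorem rls_ok102 : ∀ G ∈ rls102, ∃ Ns, tbl.facR 72 b0 28 22 Ns G = true := by
  intro G hG
  simp only [rls102, List.mem_cons, List.not_mem_nil, or_false] at hG
  rcases hG with rfl | rfl | rfl | rfl | rfl | rfl | rfl | rfl | rfl | rfl | rfl | rfl | rfl | rfl | rfl | rfl | rfl | rfl | rfl | rfl | rfl | rfl | rfl | rfl | rfl | rfl | rfl | rfl | rfl | rfl | rfl | rfl | rfl | rfl | rfl | rfl | rfl | rfl | rfl | rfl | rfl | rfl | rfl | rfl | rfl | rfl | rfl | rfl | rfl | rfl | rfl | rfl | rfl | rfl | rfl | rfl | rfl | rfl | rfl | rfl | rfl | rfl | rfl | rfl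
  · exact ⟨_, fac6528⟩
  · exact ⟨_, fac6529⟩
  · exact ⟨_, fac6530⟩
  · exact ⟨_, fac6531⟩
  · exact ⟨_, fac6532⟩
  · exact ⟨_, fac6533⟩
  · exact ⟨_, fac6534⟩
  · exact ⟨_, fac6535⟩
  · exact ⟨_, fac6536⟩
  · exact ⟨_, fac6537⟩
  · exact ⟨_, fac6538⟩
  · exact ⟨_, fac6539⟩
  · exact ⟨_, fac6540⟩
  · exact ⟨_, fac6541⟩
  · exact ⟨_, fac6542⟩
  · exact ⟨_, fac6543⟩
  · exact ⟨_, fac6544⟩
  · exact ⟨_, fac6545⟩
  · exact ⟨_, fac6546⟩
  · exact ⟨_, fac6547⟩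
  · exact ⟨_, fac6548⟩
  · exact ⟨_, fac6549⟩
  · exact ⟨_, fac6550⟩
  · exact ⟨_, fac6551⟩
  · exact ⟨_, fac6552⟩
  · exact ⟨_, fac6553⟩
  · exact ⟨_, fac6554⟩
  · exact ⟨_, fac6555⟩
  · exact ⟨_, fac6556⟩
  · exact ⟨_, fac6557⟩
  · exact ⟨_, fac6558⟩
  · exact ⟨_, fac6559⟩
  · exact ⟨_, fac6560⟩
  · exact ⟨_, fac6561⟩
  · exact ⟨_, fac6562⟩
  · exact ⟨_, fac6563⟩
  · exact ⟨_, fac6564⟩
  · exact ⟨_, fac6565⟩
  · exact ⟨_, fac6566⟩
  · exact ⟨_, fac6567⟩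
  · exact ⟨_, fac6568⟩
  · exact ⟨_, fac6569⟩
  · exact ⟨_, fac6570⟩
  · exact ⟨_, fac6571⟩
  · exact ⟨_, fac6572⟩
  · exact ⟨_, fac6573⟩
  · exact ⟨_, fac6574⟩
  · exact ⟨_, fac6575⟩
  · exact ⟨_, fac6576⟩
  · exact ⟨_, fac6577⟩
  · exact ⟨_, fac6578⟩
  · exact ⟨_, fac6579⟩
  · exact ⟨_, fac6580⟩
  · exact ⟨_, fac6581⟩
  · exact ⟨_, fac6582⟩
  · exact ⟨_, fac6583⟩
  · exact ⟨_, fac6584⟩
  · exact ⟨_, fac6585⟩
  · exact ⟨_, fac6586⟩
  · exact ⟨_, fac6587⟩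
  · exact ⟨_, fac6588⟩
  · exact ⟨_, fac6589⟩
  · exact ⟨_, fac6590⟩
  · exact ⟨_, fac6591⟩

theorem good102 : bx102.GoodK ((an : ℝ) / 100) (L.map (ITerm.term den)) (L2.map (ITerm.term den))
    (KL.map (KI.term den)) delta :=
  goodK_of_checkR an den (by decide) L L2 KL dtbl dtbl_ok rfl codes posN rowsA rowsB rowsC rows_tbl 12 256 8 72 b0 28 22
    (by decide) parts_ok (by decide +kernel) slice_ok lit_ok 1 (by decide +kernel) delta bx102 hd102
    (by decide) rls102 rls_ok102 (by decide) (planOf lams102) 190 dD102 dE102 els102 rfl pay102 delta_le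
    (fun b hb => by
      interval_cases b
      · exact bucket102_0
      · exact bucket102_1
      · exact bucket102_2
      · exact bucket102_3
      · exact bucket102_4
      · exact bucket102_5
      · exact bucket102_6
      · exact bucket102_7)

end Vale.Agent.P098.Exact.Sos6.Q93
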