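import Vale.Agent.P098.Exact.Sos6.Q93.Common
import Vale.Agent.P098.Exact.Sos6.Q93.Box103B0
import Vale.Agent.P098.Exact.Sos6.Q93.Box103B1
import Vale.Agent.P098.Exact.Sos6.Q93.Box103B2
import Vale.Agent.P098.Exact.Sos6.Q93.Box103B3
import Vale.Agent.P098.Exact.Sos6.Q93.Box103B4
import Vale.Agent.P098.Exact.Sos6.Q93.Box103B5
import Vale.Agent.P098.Exact.Sos6.Q93.Box103B6
import Vale.Agent.P098.Exact.Sos6.Q93.Box103B7

/-! Generated data of the dimension six interior check. -/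

noncomputable section

namespace Vale.Agent.P098.Exact.Sos6.Q93

set_option maxRecDepth 100000

theorem pay103 : dtbl.payOK 190 dD103 dE103 (elTot els103) = true := by decide +kernel

theorem rls_ok103 : ∀ G ∈ rls103, ∃ Ns, tbl.facR 72 b0 28 22 Ns G = true := by
  intro G hG
  simp only [rls103, List.mem_cons, List.not_mem_nil, or_false] at hG
  rcases hG with rfl | rfl | rfl | rfl | rfl | rfl | rfl | rfl | rfl | rfl | rfl | rfl | rfl | rfl | rfl | rfl | rfl | rfl | rfl | rfl | rfl | rfl | rfl | rfl | rfl | rfl | rfl | rfl | rfl | rfl | rfl | rfl | rfl | rfl | rfl | rfl | rfl | rfl | rfl | rfl | rfl | rfl | rfl | rfl | rfl | rfl | rfl | rfl | rfl | rfl | rfl | rfl | rfl | rfl | rfl | rfl | rfl | rfl | rfl | rfl | rfl | rfl | rfl | rfl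
  · exact ⟨_, fac6592⟩
  · exact ⟨_, fac6593⟩
  · exact ⟨_, fac6594⟩
  · exact ⟨_, fac6595⟩
  · exact ⟨_, fac6596⟩
  · exact ⟨_, fac6597⟩
  · exact ⟨_, fac6598⟩
  · exact ⟨_, fac6599⟩
  · exact ⟨_, fac6600⟩
  · exact ⟨_, fac6601⟩
  · exact ⟨_, fac6602⟩
  · exact ⟨_, fac6603⟩
  · exact ⟨_, fac6604⟩
  · exact ⟨_, fac6605⟩
  · exact ⟨_, fac6606⟩
  · exact ⟨_, fac6607⟩
  · exact ⟨_, fac6608⟩
  · exact ⟨_, fac6609⟩
  · exact ⟨_, fac6610⟩
  · exact ⟨_, fac6611⟩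
  · exact ⟨_, fac6612⟩
  · exact ⟨_, fac6613⟩
  · exact ⟨_, fac6614⟩
  · exact ⟨_, fac6615⟩
  · exact ⟨_, fac6616⟩
  · exact ⟨_, fac6617⟩
  · exact ⟨_, fac6618⟩
  · exact ⟨_, fac6619⟩
  · exact ⟨_, fac6620⟩
  · exact ⟨_, fac6621⟩
  · exact ⟨_, fac6622⟩
  · exact ⟨_, fac6623⟩
  · exact ⟨_, fac6624⟩
  · exact ⟨_, fac6625⟩
  · exact ⟨_, fac6626⟩
  · exact ⟨_, fac6627⟩
  · exact ⟨_, fac6628⟩
  · exact ⟨_, fac6629⟩
  · exact ⟨_, fac6630⟩
  · exact ⟨_, fac6631⟩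
  · exact ⟨_, fac6632⟩
  · exact ⟨_, fac6633⟩
  · exact ⟨_, fac6634⟩
  · exact ⟨_, fac6635⟩
  · exact ⟨_, fac6636⟩
  · exact ⟨_, fac6637⟩
  · exact ⟨_, fac6638⟩
  · exact ⟨_, fac6639⟩
  · exact ⟨_, fac6640⟩
  · exact ⟨_, fac6641⟩
  · exact ⟨_, fac6642⟩
  · exact ⟨_, fac6643⟩
  · exact ⟨_, fac6644⟩
  · exact ⟨_, fac6645⟩
  · exact ⟨_, fac6646⟩
  · exact ⟨_, fac6647⟩
  · exact ⟨_, fac6648⟩
  · exact ⟨_, fac6649⟩
  · exact ⟨_, fac6650⟩
  · exact ⟨_, fac6651⟩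
  · exact ⟨_, fac6652⟩
  · exact ⟨_, fac6653⟩
  · exact ⟨_, fac6654⟩
  · exact ⟨_, fac6655⟩

theorem good103 : bx103.GoodK ((an : ℝ) / 100) (L.map (ITerm.term den)) (L2.map (ITerm.term den))
    (KL.map (KI.term den)) delta :=
  goodK_of_checkR an den (by decide) L L2 KL dtbl dtbl_ok rfl codes posN rowsA rowsB rowsC rows_tbl 12 256 8 72 b0 28 22
    (by decide) parts_ok (by decide +kernel) slice_ok lit_ok 1 (by decide +kernel) delta bx103 hd103
    (by decide) rls103 rls_ok103 (by decide) (planOf lams103) 190 dD103 dE103 els103 rfl pay103 delta_le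
    (fun b hb => by
      interval_cases b
      · exact bucket103_0
      · exact bucket103_1
      · exact bucket103_2
      · exact bucket103_3
      · exact bucket103_4
      · exact bucket103_5
      · exact bucket103_6
      · exact bucket103_7)

end Vale.Agent.P098.Exact.Sos6.Q93
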