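import Vale.Agent.P098.Exact.Sos6.Q93.Common
import Vale.Agent.P098.Exact.Sos6.Q93.Box104B0
import Vale.Agent.P098.Exact.Sos6.Q93.Box104B1
import Vale.Agent.P098.Exact.Sos6.Q93.Box104B2
import Vale.Agent.P098.Exact.Sos6.Q93.Box104B3
import Vale.Agent.P098.Exact.Sos6.Q93.Box104B4
import Vale.Agent.P098.Exact.Sos6.Q93.Box104B5
import Vale.Agent.P098.Exact.Sos6.Q93.Box104B6
import Vale.Agent.P098.Exact.Sos6.Q93.Box104B7

/-! Generated data of the dimension six interior check. -/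

noncomputable section

namespace Vale.Agent.P098.Exact.Sos6.Q93

set_option maxRecDepth 100000

theorem pay104 : dtbl.payOK 190 dD104 dE104 (elTot els104) = true := by decide +kernel

theorem rls_ok104 : ∀ G ∈ rls104, ∃ Ns, tbl.facR 72 b0 28 22 Ns G = true := by
  intro G hG
  simp only [rls104, List.mem_cons, List.not_mem_nil, or_false] at hG
  rcases hG with rfl | rfl | rfl | rfl | rfl | rfl | rfl | rfl | rfl | rfl | rfl | rfl | rfl | rfl | rfl | rfl | rfl | rfl | rfl | rfl | rfl | rfl | rfl | rfl | rfl | rfl | rfl | rfl | rfl | rfl | rfl | rfl | rfl | rfl | rfl | rfl | rfl | rfl | rfl | rfl | rfl | rfl | rfl | rfl | rfl | rfl | rfl | rfl | rfl | rfl | rfl | rfl | rfl | rfl | rfl | rfl | rfl | rfl | rfl | rfl | rfl | rfl | rfl | rfl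
  · exact ⟨_, fac6656⟩
  · exact ⟨_, fac6657⟩
  · exact ⟨_, fac6658⟩
  · exact ⟨_, fac6659⟩
  · exact ⟨_, fac6660⟩
  · exact ⟨_, fac6661⟩
  · exact ⟨_, fac6662⟩
  · exact ⟨_, fac6663⟩
  · exact ⟨_, fac6664⟩
  · exact ⟨_, fac6665⟩
  · exact ⟨_, fac6666⟩
  · exact ⟨_, fac6667⟩
  · exact ⟨_, fac6668⟩
  · exact ⟨_, fac6669⟩
  · exact ⟨_, fac6670⟩
  · exact ⟨_, fac6671⟩
  · exact ⟨_, fac6672⟩
  · exact ⟨_, fac6673⟩
  · exact ⟨_, fac6674⟩
  · exact ⟨_, fac6675⟩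
  · exact ⟨_, fac6676⟩
  · exact ⟨_, fac6677⟩
  · exact ⟨_, fac6678⟩
  · exact ⟨_, fac6679⟩
  · exact ⟨_, fac6680⟩
  · exact ⟨_, fac6681⟩
  · exact ⟨_, fac6682⟩
  · exact ⟨_, fac6683⟩
  · exact ⟨_, fac6684⟩
  · exact ⟨_, fac6685⟩
  · exact ⟨_, fac6686⟩
  · exact ⟨_, fac6687⟩
  · exact ⟨_, fac6688⟩
  · exact ⟨_, fac6689⟩
  · exact ⟨_, fac6690⟩
  · exact ⟨_, fac6691⟩
  · exact ⟨_, fac6692⟩
  · exact ⟨_, fac6693⟩
  · exact ⟨_, fac6694⟩
  · exact ⟨_, fac6695⟩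
  · exact ⟨_, fac6696⟩
  · exact ⟨_, fac6697⟩
  · exact ⟨_, fac6698⟩
  · exact ⟨_, fac6699⟩
  · exact ⟨_, fac6700⟩
  · exact ⟨_, fac6701⟩
  · exact ⟨_, fac6702⟩
  · exact ⟨_, fac6703⟩
  · exact ⟨_, fac6704⟩
  · exact ⟨_, fac6705⟩
  · exact ⟨_, fac6706⟩
  · exact ⟨_, fac6707⟩
  · exact ⟨_, fac6708⟩
  · exact ⟨_, fac6709⟩
  · exact ⟨_, fac6710⟩
  · exact ⟨_, fac6711⟩
  · exact ⟨_, fac6712⟩
  · exact ⟨_, fac6713⟩
  · exact ⟨_, fac6714⟩
  · exact ⟨_, fac6715⟩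
  · exact ⟨_, fac6716⟩
  · exact ⟨_, fac6717⟩
  · exact ⟨_, fac6718⟩
  · exact ⟨_, fac6719⟩

theorem good104 : bx104.GoodK ((an : ℝ) / 100) (L.map (ITerm.term den)) (L2.map (ITerm.term den))
    (KL.map (KI.term den)) delta :=
  goodK_of_checkR an den (by decide) L L2 KL dtbl dtbl_ok rfl codes posN rowsA rowsB rowsC rows_tbl 12 256 8 72 b0 28 22
    (by decide) parts_ok (by decide +kernel) slice_ok lit_ok 1 (by decide +kernel) delta bx104 hd104
    (by decide) rls104 rls_ok104 (by decide) (planOf lams104) 190 dD104 dE104 els104 rfl pay104 delta_le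
    (fun b hb => by
      interval_cases b
      · exact bucket104_0
      · exact bucket104_1
      · exact bucket104_2
      · exact bucket104_3
      · exact bucket104_4
      · exact bucket104_5
      · exact bucket104_6
      · exact bucket104_7)

end Vale.Agent.P098.Exact.Sos6.Q93
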