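import Vale.Agent.P098.Exact.Sos6.Q93.Common
import Vale.Agent.P098.Exact.Sos6.Q93.Box105B0
import Vale.Agent.P098.Exact.Sos6.Q93.Box105B1
import Vale.Agent.P098.Exact.Sos6.Q93.Box105B2
import Vale.Agent.P098.Exact.Sos6.Q93.Box105B3
import Vale.Agent.P098.Exact.Sos6.Q93.Box105B4
import Vale.Agent.P098.Exact.Sos6.Q93.Box105B5
import Vale.Agent.P098.Exact.Sos6.Q93.Box105B6
import Vale.Agent.P098.Exact.Sos6.Q93.Box105B7

/-! Generated data of the dimension six interior check. -/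

noncomputable section

namespace Vale.Agent.P098.Exact.Sos6.Q93

set_option maxRecDepth 100000

theorem pay105 : dtbl.payOK 190 dD105 dE105 (elTot els105) = true := by decide +kernel

theorem rls_ok105 : ∀ G ∈ rls105, ∃ Ns, tbl.facR 72 b0 28 22 Ns G = true := by
  intro G hG
  simp only [rls105, List.mem_cons, List.not_mem_nil, or_false] at hG
  rcases hG with rfl | rfl | rfl | rfl | rfl | rfl | rfl | rfl | rfl | rfl | rfl | rfl | rfl | rfl | rfl | rfl | rfl | rfl | rfl | rfl | rfl | rfl | rfl | rfl | rfl | rfl | rfl | rfl | rfl | rfl | rfl | rfl | rfl | rfl | rfl | rfl | rfl | rfl | rfl | rfl | rfl | rfl | rfl | rfl | rfl | rfl | rfl | rfl | rfl | rfl | rfl | rfl | rfl | rfl | rfl | rfl | rfl | rfl | rfl | rfl | rfl | rfl | rfl | rfl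
  · exact ⟨_, fac6720⟩
  · exact ⟨_, fac6721⟩
  · exact ⟨_, fac6722⟩
  · exact ⟨_, fac6723⟩
  · exact ⟨_, fac6724⟩
  · exact ⟨_, fac6725⟩
  · exact ⟨_, fac6726⟩
  · exact ⟨_, fac6727⟩
  · exact ⟨_, fac6728⟩
  · exact ⟨_, fac6729⟩
  · exact ⟨_, fac6730⟩
  · exact ⟨_, fac6731⟩
  · exact ⟨_, fac6732⟩
  · exact ⟨_, fac6733⟩
  · exact ⟨_, fac6734⟩
  · exact ⟨_, fac6735⟩
  · exact ⟨_, fac6736⟩
  · exact ⟨_, fac6737⟩
  · exact ⟨_, fac6738⟩
  · exact ⟨_, fac6739⟩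
  · exact ⟨_, fac6740⟩
  · exact ⟨_, fac6741⟩
  · exact ⟨_, fac6742⟩
  · exact ⟨_, fac6743⟩
  · exact ⟨_, fac6744⟩
  · exact ⟨_, fac6745⟩
  · exact ⟨_, fac6746⟩
  · exact ⟨_, fac6747⟩
  · exact ⟨_, fac6748⟩
  · exact ⟨_, fac6749⟩
  · exact ⟨_, fac6750⟩
  · exact ⟨_, fac6751⟩
  · exact ⟨_, fac6752⟩
  · exact ⟨_, fac6753⟩
  · exact ⟨_, fac6754⟩
  · exact ⟨_, fac6755⟩
  · exact ⟨_, fac6756⟩
  · exact ⟨_, fac6757⟩
  · exact ⟨_, fac6758⟩
  · exact ⟨_, fac6759⟩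
  · exact ⟨_, fac6760⟩
  · exact ⟨_, fac6761⟩
  · exact ⟨_, fac6762⟩
  · exact ⟨_, fac6763⟩
  · exact ⟨_, fac6764⟩
  · exact ⟨_, fac6765⟩
  · exact ⟨_, fac6766⟩
  · exact ⟨_, fac6767⟩
  · exact ⟨_, fac6768⟩
  · exact ⟨_, fac6769⟩
  · exact ⟨_, fac6770⟩
  · exact ⟨_, fac6771⟩
  · exact ⟨_, fac6772⟩
  · exact ⟨_, fac6773⟩
  · exact ⟨_, fac6774⟩
  · exact ⟨_, fac6775⟩
  · exact ⟨_, fac6776⟩
  · exact ⟨_, fac6777⟩
  · exact ⟨_, fac6778⟩
  · exact ⟨_, fac6779⟩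
  · exact ⟨_, fac6780⟩
  · exact ⟨_, fac6781⟩
  · exact ⟨_, fac6782⟩
  · exact ⟨_, fac6783⟩

theorem good105 : bx105.GoodK ((an : ℝ) / 100) (L.map (ITerm.term den)) (L2.map (ITerm.term den))
    (KL.map (KI.term den)) delta :=
  goodK_of_checkR an den (by decide) L L2 KL dtbl dtbl_ok rfl codes posN rowsA rowsB rowsC rows_tbl 12 256 8 72 b0 28 22
    (by decide) parts_ok (by decide +kernel) slice_ok lit_ok 1 (by decide +kernel) delta bx105 hd105
    (by decide) rls105 rls_ok105 (by decide) (planOf lams105) 190 dD105 dE105 els105 rfl pay105 delta_le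
    (fun b hb => by
      interval_cases b
      · exact bucket105_0
      · exact bucket105_1
      · exact bucket105_2
      · exact bucket105_3
      · exact bucket105_4
      · exact bucket105_5
      · exact bucket105_6
      · exact bucket105_7)

end Vale.Agent.P098.Exact.Sos6.Q93
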