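import Vale.Agent.P098.Exact.Sos6.Q93.Common
import Vale.Agent.P098.Exact.Sos6.Q93.Box106B0
import Vale.Agent.P098.Exact.Sos6.Q93.Box106B1
import Vale.Agent.P098.Exact.Sos6.Q93.Box106B2
import Vale.Agent.P098.Exact.Sos6.Q93.Box106B3
import Vale.Agent.P098.Exact.Sos6.Q93.Box106B4
import Vale.Agent.P098.Exact.Sos6.Q93.Box106B5
import Vale.Agent.P098.Exact.Sos6.Q93.Box106B6
import Vale.Agent.P098.Exact.Sos6.Q93.Box106B7

/-! Generated data of the dimension six interior check. -/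

noncomputable section

namespace Vale.Agent.P098.Exact.Sos6.Q93

set_option maxRecDepth 100000

theorem pay106 : dtbl.payOK 190 dD106 dE106 (elTot els106) = true := by decide +kernel

theorem rls_ok106 : ∀ G ∈ rls106, ∃ Ns, tbl.facR 72 b0 28 22 Ns G = true := by
  intro G hG
  simp only [rls106, List.mem_cons, List.not_mem_nil, or_false] at hG
  rcases hG with rfl | rfl | rfl | rfl | rfl | rfl | rfl | rfl | rfl | rfl | rfl | rfl | rfl | rfl | rfl | rfl | rfl | rfl | rfl | rfl | rfl | rfl | rfl | rfl | rfl | rfl | rfl | rfl | rfl | rfl | rfl | rfl | rfl | rfl | rfl | rfl | rfl | rfl | rfl | rfl | rfl | rfl | rfl | rfl | rfl | rfl | rfl | rfl | rfl | rfl | rfl | rfl | rfl | rfl | rfl | rfl | rfl | rfl | rfl | rfl | rfl | rfl | rfl | rfl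
  · exact ⟨_, fac6784⟩
  · exact ⟨_, fac6785⟩
  · exact ⟨_, fac6786⟩
  · exact ⟨_, fac6787⟩
  · exact ⟨_, fac6788⟩
  · exact ⟨_, fac6789⟩
  · exact ⟨_, fac6790⟩
  · exact ⟨_, fac6791⟩
  · exact ⟨_, fac6792⟩
  · exact ⟨_, fac6793⟩
  · exact ⟨_, fac6794⟩
  · exact ⟨_, fac6795⟩
  · exact ⟨_, fac6796⟩
  · exact ⟨_, fac6797⟩
  · exact ⟨_, fac6798⟩
  · exact ⟨_, fac6799⟩
  · exact ⟨_, fac6800⟩
  · exact ⟨_, fac6801⟩
  · exact ⟨_, fac6802⟩
  · exact ⟨_, fac6803⟩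
  · exact ⟨_, fac6804⟩
  · exact ⟨_, fac6805⟩
  · exact ⟨_, fac6806⟩
  · exact ⟨_, fac6807⟩
  · exact ⟨_, fac6808⟩
  · exact ⟨_, fac6809⟩
  · exact ⟨_, fac6810⟩
  · exact ⟨_, fac6811⟩
  · exact ⟨_, fac6812⟩
  · exact ⟨_, fac6813⟩
  · exact ⟨_, fac6814⟩
  · exact ⟨_, fac6815⟩
  · exact ⟨_, fac6816⟩
  · exact ⟨_, fac6817⟩
  · exact ⟨_, fac6818⟩
  · exact ⟨_, fac6819⟩
  · exact ⟨_, fac6820⟩
  · exact ⟨_, fac6821⟩
  · exact ⟨_, fac6822⟩
  · exact ⟨_, fac6823⟩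
  · exact ⟨_, fac6824⟩
  · exact ⟨_, fac6825⟩
  · exact ⟨_, fac6826⟩
  · exact ⟨_, fac6827⟩
  · exact ⟨_, fac6828⟩
  · exact ⟨_, fac6829⟩
  · exact ⟨_, fac6830⟩
  · exact ⟨_, fac6831⟩
  · exact ⟨_, fac6832⟩
  · exact ⟨_, fac6833⟩
  · exact ⟨_, fac6834⟩
  · exact ⟨_, fac6835⟩
  · exact ⟨_, fac6836⟩
  · exact ⟨_, fac6837⟩
  · exact ⟨_, fac6838⟩
  · exact ⟨_, fac6839⟩
  · exact ⟨_, fac6840⟩
  · exact ⟨_, fac6841⟩
  · exact ⟨_, fac6842⟩
  · exact ⟨_, fac6843⟩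
  · exact ⟨_, fac6844⟩
  · exact ⟨_, fac6845⟩
  · exact ⟨_, fac6846⟩
  · exact ⟨_, fac6847⟩

theorem good106 : bx106.GoodK ((an : ℝ) / 100) (L.map (ITerm.term den)) (L2.map (ITerm.term den))
    (KL.map (KI.term den)) delta :=
  goodK_of_checkR an den (by decide) L L2 KL dtbl dtbl_ok rfl codes posN rowsA rowsB rowsC rows_tbl 12 256 8 72 b0 28 22
    (by decide) parts_ok (by decide +kernel) slice_ok lit_ok 1 (by decide +kernel) delta bx106 hd106
    (by decide) rls106 rls_ok106 (by decide) (planOf lams106) 190 dD106 dE106 els106 rfl pay106 delta_le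
    (fun b hb => by
      interval_cases b
      · exact bucket106_0
      · exact bucket106_1
      · exact bucket106_2
      · exact bucket106_3
      · exact bucket106_4
      · exact bucket106_5
      · exact bucket106_6
      · exact bucket106_7)

end Vale.Agent.P098.Exact.Sos6.Q93
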