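import Vale.Agent.P098.Exact.Sos6.Q93.Common
import Vale.Agent.P098.Exact.Sos6.Q93.Box107B0
import Vale.Agent.P098.Exact.Sos6.Q93.Box107B1
import Vale.Agent.P098.Exact.Sos6.Q93.Box107B2
import Vale.Agent.P098.Exact.Sos6.Q93.Box107B3
import Vale.Agent.P098.Exact.Sos6.Q93.Box107B4
import Vale.Agent.P098.Exact.Sos6.Q93.Box107B5
import Vale.Agent.P098.Exact.Sos6.Q93.Box107B6
import Vale.Agent.P098.Exact.Sos6.Q93.Box107B7

/-! Generated data of the dimension six interior check. -/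

noncomputable section

namespace Vale.Agent.P098.Exact.Sos6.Q93

set_option maxRecDepth 100000

theorem pay107 : dtbl.payOK 190 dD107 dE107 (elTot els107) = true := by decide +kernel

theorem rls_ok107 : ∀ G ∈ rls107, ∃ Ns, tbl.facR 72 b0 28 22 Ns G = true := by
  intro G hG
  simp only [rls107, List.mem_cons, List.not_mem_nil, or_false] at hG
  rcases hG with rfl | rfl | rfl | rfl | rfl | rfl | rfl | rfl | rfl | rfl | rfl | rfl | rfl | rfl | rfl | rfl | rfl | rfl | rfl | rfl | rfl | rfl | rfl | rfl | rfl | rfl | rfl | rfl | rfl | rfl | rfl | rfl | rfl | rfl | rfl | rfl | rfl | rfl | rfl | rfl | rfl | rfl | rfl | rfl | rfl | rfl | rfl | rfl | rfl | rfl | rfl | rfl | rfl | rfl | rfl | rfl | rfl | rfl | rfl | rfl | rfl | rfl | rfl | rfl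
  · exact ⟨_, fac6848⟩
  · exact ⟨_, fac6849⟩
  · exact ⟨_, fac6850⟩
  · exact ⟨_, fac6851⟩
  · exact ⟨_, fac6852⟩
  · exact ⟨_, fac6853⟩
  · exact ⟨_, fac6854⟩
  · exact ⟨_, fac6855⟩
  · exact ⟨_, fac6856⟩
  · exact ⟨_, fac6857⟩
  · exact ⟨_, fac6858⟩
  · exact ⟨_, fac6859⟩
  · exact ⟨_, fac6860⟩
  · exact ⟨_, fac6861⟩
  · exact ⟨_, fac6862⟩
  · exact ⟨_, fac6863⟩
  · exact ⟨_, fac6864⟩
  · exact ⟨_, fac6865⟩
  · exact ⟨_, fac6866⟩
  · exact ⟨_, fac6867⟩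
  · exact ⟨_, fac6868⟩
  · exact ⟨_, fac6869⟩
  · exact ⟨_, fac6870⟩
  · exact ⟨_, fac6871⟩
  · exact ⟨_, fac6872⟩
  · exact ⟨_, fac6873⟩
  · exact ⟨_, fac6874⟩
  · exact ⟨_, fac6875⟩
  · exact ⟨_, fac6876⟩
  · exact ⟨_, fac6877⟩
  · exact ⟨_, fac6878⟩
  · exact ⟨_, fac6879⟩
  · exact ⟨_, fac6880⟩
  · exact ⟨_, fac6881⟩
  · exact ⟨_, fac6882⟩
  · exact ⟨_, fac6883⟩
  · exact ⟨_, fac6884⟩
  · exact ⟨_, fac6885⟩
  · exact ⟨_, fac6886⟩
  · exact ⟨_, fac6887⟩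
  · exact ⟨_, fac6888⟩
  · exact ⟨_, fac6889⟩
  · exact ⟨_, fac6890⟩
  · exact ⟨_, fac6891⟩
  · exact ⟨_, fac6892⟩
  · exact ⟨_, fac6893⟩
  · exact ⟨_, fac6894⟩
  · exact ⟨_, fac6895⟩
  · exact ⟨_, fac6896⟩
  · exact ⟨_, fac6897⟩
  · exact ⟨_, fac6898⟩
  · exact ⟨_, fac6899⟩
  · exact ⟨_, fac6900⟩
  · exact ⟨_, fac6901⟩
  · exact ⟨_, fac6902⟩
  · exact ⟨_, fac6903⟩
  · exact ⟨_, fac6904⟩
  · exact ⟨_, fac6905⟩
  · exact ⟨_, fac6906⟩
  · exact ⟨_, fac6907⟩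
  · exact ⟨_, fac6908⟩
  · exact ⟨_, fac6909⟩
  · exact ⟨_, fac6910⟩
  · exact ⟨_, fac6911⟩

theorem good107 : bx107.GoodK ((an : ℝ) / 100) (L.map (ITerm.term den)) (L2.map (ITerm.term den))
    (KL.map (KI.term den)) delta :=
  goodK_of_checkR an den (by decide) L L2 KL dtbl dtbl_ok rfl codes posN rowsA rowsB rowsC rows_tbl 12 256 8 72 b0 28 22
    (by decide) parts_ok (by decide +kernel) slice_ok lit_ok 1 (by decide +kernel) delta bx107 hd107
    (by decide) rls107 rls_ok107 (by decide) (planOf lams107) 190 dD107 dE107 els107 rfl pay107 delta_le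
    (fun b hb => by
      interval_cases b
      · exact bucket107_0
      · exact bucket107_1
      · exact bucket107_2
      · exact bucket107_3
      · exact bucket107_4
      · exact bucket107_5
      · exact bucket107_6
      · exact bucket107_7)

end Vale.Agent.P098.Exact.Sos6.Q93
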