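import Vale.Agent.P098.Exact.Sos6.Q93.Common
import Vale.Agent.P098.Exact.Sos6.Q93.Box108B0
import Vale.Agent.P098.Exact.Sos6.Q93.Box108B1
import Vale.Agent.P098.Exact.Sos6.Q93.Box108B2
import Vale.Agent.P098.Exact.Sos6.Q93.Box108B3
import Vale.Agent.P098.Exact.Sos6.Q93.Box108B4
import Vale.Agent.P098.Exact.Sos6.Q93.Box108B5
import Vale.Agent.P098.Exact.Sos6.Q93.Box108B6
import Vale.Agent.P098.Exact.Sos6.Q93.Box108B7

/-! Generated data of the dimension six interior check. -/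

noncomputable section

namespace Vale.Agent.P098.Exact.Sos6.Q93

set_option maxRecDepth 100000

theorem pay108 : dtbl.payOK 190 dD108 dE108 (elTot els108) = true := by decide +kernel

theorem rls_ok108 : ∀ G ∈ rls108, ∃ Ns, tbl.facR 72 b0 28 22 Ns G = true := by
  intro G hG
  simp only [rls108, List.mem_cons, List.not_mem_nil, or_false] at hG
  rcases hG with rfl | rfl | rfl | rfl | rfl | rfl | rfl | rfl | rfl | rfl | rfl | rfl | rfl | rfl | rfl | rfl | rfl | rfl | rfl | rfl | rfl | rfl | rfl | rfl | rfl | rfl | rfl | rfl | rfl | rfl | rfl | rfl | rfl | rfl | rfl | rfl | rfl | rfl | rfl | rfl | rfl | rfl | rfl | rfl | rfl | rfl | rfl | rfl | rfl | rfl | rfl | rfl | rfl | rfl | rfl | rfl | rfl | rfl | rfl | rfl | rfl | rfl | rfl | rfl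
  · exact ⟨_, fac6912⟩
  · exact ⟨_, fac6913⟩
  · exact ⟨_, fac6914⟩
  · exact ⟨_, fac6915⟩
  · exact ⟨_, fac6916⟩
  · exact ⟨_, fac6917⟩
  · exact ⟨_, fac6918⟩
  · exact ⟨_, fac6919⟩
  · exact ⟨_, fac6920⟩
  · exact ⟨_, fac6921⟩
  · exact ⟨_, fac6922⟩
  · exact ⟨_, fac6923⟩
  · exact ⟨_, fac6924⟩
  · exact ⟨_, fac6925⟩
  · exact ⟨_, fac6926⟩
  · exact ⟨_, fac6927⟩
  · exact ⟨_, fac6928⟩
  · exact ⟨_, fac6929⟩
  · exact ⟨_, fac6930⟩
  · exact ⟨_, fac6931⟩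
  · exact ⟨_, fac6932⟩
  · exact ⟨_, fac6933⟩
  · exact ⟨_, fac6934⟩
  · exact ⟨_, fac6935⟩
  · exact ⟨_, fac6936⟩
  · exact ⟨_, fac6937⟩
  · exact ⟨_, fac6938⟩
  · exact ⟨_, fac6939⟩
  · exact ⟨_, fac6940⟩
  · exact ⟨_, fac6941⟩
  · exact ⟨_, fac6942⟩
  · exact ⟨_, fac6943⟩
  · exact ⟨_, fac6944⟩
  · exact ⟨_, fac6945⟩
  · exact ⟨_, fac6946⟩
  · exact ⟨_, fac6947⟩
  · exact ⟨_, fac6948⟩
  · exact ⟨_, fac6949⟩
  · exact ⟨_, fac6950⟩
  · exact ⟨_, fac6951⟩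
  · exact ⟨_, fac6952⟩
  · exact ⟨_, fac6953⟩
  · exact ⟨_, fac6954⟩
  · exact ⟨_, fac6955⟩
  · exact ⟨_, fac6956⟩
  · exact ⟨_, fac6957⟩
  · exact ⟨_, fac6958⟩
  · exact ⟨_, fac6959⟩
  · exact ⟨_, fac6960⟩
  · exact ⟨_, fac6961⟩
  · exact ⟨_, fac6962⟩
  · exact ⟨_, fac6963⟩
  · exact ⟨_, fac6964⟩
  · exact ⟨_, fac6965⟩
  · exact ⟨_, fac6966⟩
  · exact ⟨_, fac6967⟩
  · exact ⟨_, fac6968⟩
  · exact ⟨_, fac6969⟩
  · exact ⟨_, fac6970⟩
  · exact ⟨_, fac6971⟩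
  · exact ⟨_, fac6972⟩
  · exact ⟨_, fac6973⟩
  · exact ⟨_, fac6974⟩
  · exact ⟨_, fac6975⟩

theorem good108 : bx108.GoodK ((an : ℝ) / 100) (L.map (ITerm.term den)) (L2.map (ITerm.term den))
    (KL.map (KI.term den)) delta :=
  goodK_of_checkR an den (by decide) L L2 KL dtbl dtbl_ok rfl codes posN rowsA rowsB rowsC rows_tbl 12 256 8 72 b0 28 22
    (by decide) parts_ok (by decide +kernel) slice_ok lit_ok 1 (by decide +kernel) delta bx108 hd108
    (by decide) rls108 rls_ok108 (by decide) (planOf lams108) 190 dD108 dE108 els108 rfl pay108 delta_le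
    (fun b hb => by
      interval_cases b
      · exact bucket108_0
      · exact bucket108_1
      · exact bucket108_2
      · exact bucket108_3
      · exact bucket108_4
      · exact bucket108_5
      · exact bucket108_6
      · exact bucket108_7)

end Vale.Agent.P098.Exact.Sos6.Q93
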