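import Vale.Agent.P098.Exact.Sos6.Q93.Common
import Vale.Agent.P098.Exact.Sos6.Q93.Box109B0
import Vale.Agent.P098.Exact.Sos6.Q93.Box109B1
import Vale.Agent.P098.Exact.Sos6.Q93.Box109B2
import Vale.Agent.P098.Exact.Sos6.Q93.Box109B3
import Vale.Agent.P098.Exact.Sos6.Q93.Box109B4
import Vale.Agent.P098.Exact.Sos6.Q93.Box109B5
import Vale.Agent.P098.Exact.Sos6.Q93.Box109B6
import Vale.Agent.P098.Exact.Sos6.Q93.Box109B7

/-! Generated data of the dimension six interior check. -/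

noncomputable section

namespace Vale.Agent.P098.Exact.Sos6.Q93

set_option maxRecDepth 100000

theorem pay109 : dtbl.payOK 190 dD109 dE109 (elTot els109) = true := by decide +kernel

theorem rls_ok109 : ∀ G ∈ rls109, ∃ Ns, tbl.facR 72 b0 28 22 Ns G = true := by
  intro G hG
  simp only [rls109, List.mem_cons, List.not_mem_nil, or_false] at hG
  rcases hG with rfl | rfl | rfl | rfl | rfl | rfl | rfl | rfl | rfl | rfl | rfl | rfl | rfl | rfl | rfl | rfl | rfl | rfl | rfl | rfl | rfl | rfl | rfl | rfl | rfl | rfl | rfl | rfl | rfl | rfl | rfl | rfl | rfl | rfl | rfl | rfl | rfl | rfl | rfl | rfl | rfl | rfl | rfl | rfl | rfl | rfl | rfl | rfl | rfl | rfl | rfl | rfl | rfl | rfl | rfl | rfl | rfl | rfl | rfl | rfl | rfl | rfl | rfl | rfl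
  · exact ⟨_, fac6976⟩
  · exact ⟨_, fac6977⟩
  · exact ⟨_, fac6978⟩
  · exact ⟨_, fac6979⟩
  · exact ⟨_, fac6980⟩
  · exact ⟨_, fac6981⟩
  · exact ⟨_, fac6982⟩
  · exact ⟨_, fac6983⟩
  · exact ⟨_, fac6984⟩
  · exact ⟨_, fac6985⟩
  · exact ⟨_, fac6986⟩
  · exact ⟨_, fac6987⟩
  · exact ⟨_, fac6988⟩
  · exact ⟨_, fac6989⟩
  · exact ⟨_, fac6990⟩
  · exact ⟨_, fac6991⟩
  · exact ⟨_, fac6992⟩
  · exact ⟨_, fac6993⟩
  · exact ⟨_, fac6994⟩
  · exact ⟨_, fac6995⟩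
  · exact ⟨_, fac6996⟩
  · exact ⟨_, fac6997⟩
  · exact ⟨_, fac6998⟩
  · exact ⟨_, fac6999⟩
  · exact ⟨_, fac7000⟩
  · exact ⟨_, fac7001⟩
  · exact ⟨_, fac7002⟩
  · exact ⟨_, fac7003⟩
  · exact ⟨_, fac7004⟩
  · exact ⟨_, fac7005⟩
  · exact ⟨_, fac7006⟩
  · exact ⟨_, fac7007⟩
  · exact ⟨_, fac7008⟩
  · exact ⟨_, fac7009⟩
  · exact ⟨_, fac7010⟩
  · exact ⟨_, fac7011⟩
  · exact ⟨_, fac7012⟩
  · exact ⟨_, fac7013⟩
  · exact ⟨_, fac7014⟩
  · exact ⟨_, fac7015⟩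
  · exact ⟨_, fac7016⟩
  · exact ⟨_, fac7017⟩
  · exact ⟨_, fac7018⟩
  · exact ⟨_, fac7019⟩
  · exact ⟨_, fac7020⟩
  · exact ⟨_, fac7021⟩
  · exact ⟨_, fac7022⟩
  · exact ⟨_, fac7023⟩
  · exact ⟨_, fac7024⟩
  · exact ⟨_, fac7025⟩
  · exact ⟨_, fac7026⟩
  · exact ⟨_, fac7027⟩
  · exact ⟨_, fac7028⟩
  · exact ⟨_, fac7029⟩
  · exact ⟨_, fac7030⟩
  · exact ⟨_, fac7031⟩
  · exact ⟨_, fac7032⟩
  · exact ⟨_, fac7033⟩
  · exact ⟨_, fac7034⟩
  · exact ⟨_, fac7035⟩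
  · exact ⟨_, fac7036⟩
  · exact ⟨_, fac7037⟩
  · exact ⟨_, fac7038⟩
  · exact ⟨_, fac7039⟩

theorem good109 : bx109.GoodK ((an : ℝ) / 100) (L.map (ITerm.term den)) (L2.map (ITerm.term den))
    (KL.map (KI.term den)) delta :=
  goodK_of_checkR an den (by decide) L L2 KL dtbl dtbl_ok rfl codes posN rowsA rowsB rowsC rows_tbl 12 256 8 72 b0 28 22
    (by decide) parts_ok (by decide +kernel) slice_ok lit_ok 1 (by decide +kernel) delta bx109 hd109
    (by decide) rls109 rls_ok109 (by decide) (planOf lams109) 190 dD109 dE109 els109 rfl pay109 delta_le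
    (fun b hb => by
      interval_cases b
      · exact bucket109_0
      · exact bucket109_1
      · exact bucket109_2
      · exact bucket109_3
      · exact bucket109_4
      · exact bucket109_5
      · exact bucket109_6
      · exact bucket109_7)

end Vale.Agent.P098.Exact.Sos6.Q93
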