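import Vale.Agent.P098.Exact.Sos6.Q93.Common
import Vale.Agent.P098.Exact.Sos6.Q93.Box10B0
import Vale.Agent.P098.Exact.Sos6.Q93.Box10B1
import Vale.Agent.P098.Exact.Sos6.Q93.Box10B2
import Vale.Agent.P098.Exact.Sos6.Q93.Box10B3
import Vale.Agent.P098.Exact.Sos6.Q93.Box10B4
import Vale.Agent.P098.Exact.Sos6.Q93.Box10B5
import Vale.Agent.P098.Exact.Sos6.Q93.Box10B6
import Vale.Agent.P098.Exact.Sos6.Q93.Box10B7

/-! Generated data of the dimension six interior check. -/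

noncomputable section

namespace Vale.Agent.P098.Exact.Sos6.Q93

set_option maxRecDepth 100000

theorem pay10 : dtbl.payOK 190 dD10 dE10 (elTot els10) = true := by decide +kernel

theorem rls_ok10 : ∀ G ∈ rls10, ∃ Ns, tbl.facR 72 b0 28 22 Ns G = true := by
  intro G hG
  simp only [rls10, List.mem_cons, List.not_mem_nil, or_false] at hG
  rcases hG with rfl | rfl | rfl | rfl | rfl | rfl | rfl | rfl | rfl | rfl | rfl | rfl | rfl | rfl | rfl | rfl | rfl | rfl | rfl | rfl | rfl | rfl | rfl | rfl | rfl | rfl | rfl | rfl | rfl | rfl | rfl | rfl | rfl | rfl | rfl | rfl | rfl | rfl | rfl | rfl | rfl | rfl | rfl | rfl | rfl | rfl | rfl | rfl | rfl | rfl | rfl | rfl | rfl | rfl | rfl | rfl | rfl | rfl | rfl | rfl | rfl | rfl | rfl | rfl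
  · exact ⟨_, fac640⟩
  · exact ⟨_, fac641⟩
  · exact ⟨_, fac642⟩
  · exact ⟨_, fac643⟩
  · exact ⟨_, fac644⟩
  · exact ⟨_, fac645⟩
  · exact ⟨_, fac646⟩
  · exact ⟨_, fac647⟩
  · exact ⟨_, fac648⟩
  · exact ⟨_, fac649⟩
  · exact ⟨_, fac650⟩
  · exact ⟨_, fac651⟩
  · exact ⟨_, fac652⟩
  · exact ⟨_, fac653⟩
  · exact ⟨_, fac654⟩
  · exact ⟨_, fac655⟩
  · exact ⟨_, fac656⟩
  · exact ⟨_, fac657⟩
  · exact ⟨_, fac658⟩
  · exact ⟨_, fac659⟩
  · exact ⟨_, fac660⟩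
  · exact ⟨_, fac661⟩
  · exact ⟨_, fac662⟩
  · exact ⟨_, fac663⟩
  · exact ⟨_, fac664⟩
  · exact ⟨_, fac665⟩
  · exact ⟨_, fac666⟩
  · exact ⟨_, fac667⟩
  · exact ⟨_, fac668⟩
  · exact ⟨_, fac669⟩
  · exact ⟨_, fac670⟩
  · exact ⟨_, fac671⟩
  · exact ⟨_, fac672⟩
  · exact ⟨_, fac673⟩
  · exact ⟨_, fac674⟩
  · exact ⟨_, fac675⟩
  · exact ⟨_, fac676⟩
  · exact ⟨_, fac677⟩
  · exact ⟨_, fac678⟩
  · exact ⟨_, fac679⟩
  · exact ⟨_, fac680⟩
  · exact ⟨_, fac681⟩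
  · exact ⟨_, fac682⟩
  · exact ⟨_, fac683⟩
  · exact ⟨_, fac684⟩
  · exact ⟨_, fac685⟩
  · exact ⟨_, fac686⟩
  · exact ⟨_, fac687⟩
  · exact ⟨_, fac688⟩
  · exact ⟨_, fac689⟩
  · exact ⟨_, fac690⟩
  · exact ⟨_, fac691⟩
  · exact ⟨_, fac692⟩
  · exact ⟨_, fac693⟩
  · exact ⟨_, fac694⟩
  · exact ⟨_, fac695⟩
  · exact ⟨_, fac696⟩
  · exact ⟨_, fac697⟩
  · exact ⟨_, fac698⟩
  · exact ⟨_, fac699⟩
  · exact ⟨_, fac700⟩
  · exact ⟨_, fac701⟩
  · exact ⟨_, fac702⟩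
  · exact ⟨_, fac703⟩

theorem good10 : bx10.GoodK ((an : ℝ) / 100) (L.map (ITerm.term den)) (L2.map (ITerm.term den))
    (KL.map (KI.term den)) delta :=
  goodK_of_checkR an den (by decide) L L2 KL dtbl dtbl_ok rfl codes posN rowsA rowsB rowsC rows_tbl 12 256 8 72 b0 28 22
    (by decide) parts_ok (by decide +kernel) slice_ok lit_ok 1 (by decide +kernel) delta bx10 hd10
    (by decide) rls10 rls_ok10 (by decide) (planOf lams10) 190 dD10 dE10 els10 rfl pay10 delta_le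
    (fun b hb => by
      interval_cases b
      · exact bucket10_0
      · exact bucket10_1
      · exact bucket10_2
      · exact bucket10_3
      · exact bucket10_4
      · exact bucket10_5
      · exact bucket10_6
      · exact bucket10_7)

end Vale.Agent.P098.Exact.Sos6.Q93
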