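import Vale.Agent.P098.Exact.Sos6.Q93.Common
import Vale.Agent.P098.Exact.Sos6.Q93.Box110B0
import Vale.Agent.P098.Exact.Sos6.Q93.Box110B1
import Vale.Agent.P098.Exact.Sos6.Q93.Box110B2
import Vale.Agent.P098.Exact.Sos6.Q93.Box110B3
import Vale.Agent.P098.Exact.Sos6.Q93.Box110B4
import Vale.Agent.P098.Exact.Sos6.Q93.Box110B5
import Vale.Agent.P098.Exact.Sos6.Q93.Box110B6
import Vale.Agent.P098.Exact.Sos6.Q93.Box110B7

/-! Generated data of the dimension six interior check. -/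

noncomputable section

namespace Vale.Agent.P098.Exact.Sos6.Q93

set_option maxRecDepth 100000

theorem pay110 : dtbl.payOK 190 dD110 dE110 (elTot els110) = true := by decide +kernel

theorem rls_ok110 : ∀ G ∈ rls110, ∃ Ns, tbl.facR 72 b0 28 22 Ns G = true := by
  intro G hG
  simp only [rls110, List.mem_cons, List.not_mem_nil, or_false] at hG
  rcases hG with rfl | rfl | rfl | rfl | rfl | rfl | rfl | rfl | rfl | rfl | rfl | rfl | rfl | rfl | rfl | rfl | rfl | rfl | rfl | rfl | rfl | rfl | rfl | rfl | rfl | rfl | rfl | rfl | rfl | rfl | rfl | rfl | rfl | rfl | rfl | rfl | rfl | rfl | rfl | rfl | rfl | rfl | rfl | rfl | rfl | rfl | rfl | rfl | rfl | rfl | rfl | rfl | rfl | rfl | rfl | rfl | rfl | rfl | rfl | rfl | rfl | rfl | rfl | rfl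
  · exact ⟨_, fac7040⟩
  · exact ⟨_, fac7041⟩
  · exact ⟨_, fac7042⟩
  · exact ⟨_, fac7043⟩
  · exact ⟨_, fac7044⟩
  · exact ⟨_, fac7045⟩
  · exact ⟨_, fac7046⟩
  · exact ⟨_, fac7047⟩
  · exact ⟨_, fac7048⟩
  · exact ⟨_, fac7049⟩
  · exact ⟨_, fac7050⟩
  · exact ⟨_, fac7051⟩
  · exact ⟨_, fac7052⟩
  · exact ⟨_, fac7053⟩
  · exact ⟨_, fac7054⟩
  · exact ⟨_, fac7055⟩
  · exact ⟨_, fac7056⟩
  · exact ⟨_, fac7057⟩
  · exact ⟨_, fac7058⟩
  · exact ⟨_, fac7059⟩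
  · exact ⟨_, fac7060⟩
  · exact ⟨_, fac7061⟩
  · exact ⟨_, fac7062⟩
  · exact ⟨_, fac7063⟩
  · exact ⟨_, fac7064⟩
  · exact ⟨_, fac7065⟩
  · exact ⟨_, fac7066⟩
  · exact ⟨_, fac7067⟩
  · exact ⟨_, fac7068⟩
  · exact ⟨_, fac7069⟩
  · exact ⟨_, fac7070⟩
  · exact ⟨_, fac7071⟩
  · exact ⟨_, fac7072⟩
  · exact ⟨_, fac7073⟩
  · exact ⟨_, fac7074⟩
  · exact ⟨_, fac7075⟩
  · exact ⟨_, fac7076⟩
  · exact ⟨_, fac7077⟩
  · exact ⟨_, fac7078⟩
  · exact ⟨_, fac7079⟩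
  · exact ⟨_, fac7080⟩
  · exact ⟨_, fac7081⟩
  · exact ⟨_, fac7082⟩
  · exact ⟨_, fac7083⟩
  · exact ⟨_, fac7084⟩
  · exact ⟨_, fac7085⟩
  · exact ⟨_, fac7086⟩
  · exact ⟨_, fac7087⟩
  · exact ⟨_, fac7088⟩
  · exact ⟨_, fac7089⟩
  · exact ⟨_, fac7090⟩
  · exact ⟨_, fac7091⟩
  · exact ⟨_, fac7092⟩
  · exact ⟨_, fac7093⟩
  · exact ⟨_, fac7094⟩
  · exact ⟨_, fac7095⟩
  · exact ⟨_, fac7096⟩
  · exact ⟨_, fac7097⟩
  · exact ⟨_, fac7098⟩
  · exact ⟨_, fac7099⟩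
  · exact ⟨_, fac7100⟩
  · exact ⟨_, fac7101⟩
  · exact ⟨_, fac7102⟩
  · exact ⟨_, fac7103⟩

theorem good110 : bx110.GoodK ((an : ℝ) / 100) (L.map (ITerm.term den)) (L2.map (ITerm.term den))
    (KL.map (KI.term den)) delta :=
  goodK_of_checkR an den (by decide) L L2 KL dtbl dtbl_ok rfl codes posN rowsA rowsB rowsC rows_tbl 12 256 8 72 b0 28 22
    (by decide) parts_ok (by decide +kernel) slice_ok lit_ok 1 (by decide +kernel) delta bx110 hd110
    (by decide) rls110 rls_ok110 (by decide) (planOf lams110) 190 dD110 dE110 els110 rfl pay110 delta_le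
    (fun b hb => by
      interval_cases b
      · exact bucket110_0
      · exact bucket110_1
      · exact bucket110_2
      · exact bucket110_3
      · exact bucket110_4
      · exact bucket110_5
      · exact bucket110_6
      · exact bucket110_7)

end Vale.Agent.P098.Exact.Sos6.Q93
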