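import Vale.Agent.P098.Exact.Sos6.Q93.Common
import Vale.Agent.P098.Exact.Sos6.Q93.Box111B0
import Vale.Agent.P098.Exact.Sos6.Q93.Box111B1
import Vale.Agent.P098.Exact.Sos6.Q93.Box111B2
import Vale.Agent.P098.Exact.Sos6.Q93.Box111B3
import Vale.Agent.P098.Exact.Sos6.Q93.Box111B4
import Vale.Agent.P098.Exact.Sos6.Q93.Box111B5
import Vale.Agent.P098.Exact.Sos6.Q93.Box111B6
import Vale.Agent.P098.Exact.Sos6.Q93.Box111B7

/-! Generated data of the dimension six interior check. -/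

noncomputable section

namespace Vale.Agent.P098.Exact.Sos6.Q93

set_option maxRecDepth 100000

theorem pay111 : dtbl.payOK 190 dD111 dE111 (elTot els111) = true := by decide +kernel

theorem rls_ok111 : ∀ G ∈ rls111, ∃ Ns, tbl.facR 72 b0 28 22 Ns G = true := by
  intro G hG
  simp only [rls111, List.mem_cons, List.not_mem_nil, or_false] at hG
  rcases hG with rfl | rfl | rfl | rfl | rfl | rfl | rfl | rfl | rfl | rfl | rfl | rfl | rfl | rfl | rfl | rfl | rfl | rfl | rfl | rfl | rfl | rfl | rfl | rfl | rfl | rfl | rfl | rfl | rfl | rfl | rfl | rfl | rfl | rfl | rfl | rfl | rfl | rfl | rfl | rfl | rfl | rfl | rfl | rfl | rfl | rfl | rfl | rfl | rfl | rfl | rfl | rfl | rfl | rfl | rfl | rfl | rfl | rfl | rfl | rfl | rfl | rfl | rfl | rfl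
  · exact ⟨_, fac7104⟩
  · exact ⟨_, fac7105⟩
  · exact ⟨_, fac7106⟩
  · exact ⟨_, fac7107⟩
  · exact ⟨_, fac7108⟩
  · exact ⟨_, fac7109⟩
  · exact ⟨_, fac7110⟩
  · exact ⟨_, fac7111⟩
  · exact ⟨_, fac7112⟩
  · exact ⟨_, fac7113⟩
  · exact ⟨_, fac7114⟩
  · exact ⟨_, fac7115⟩
  · exact ⟨_, fac7116⟩
  · exact ⟨_, fac7117⟩
  · exact ⟨_, fac7118⟩
  · exact ⟨_, fac7119⟩
  · exact ⟨_, fac7120⟩
  · exact ⟨_, fac7121⟩
  · exact ⟨_, fac7122⟩
  · exact ⟨_, fac7123⟩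
  · exact ⟨_, fac7124⟩
  · exact ⟨_, fac7125⟩
  · exact ⟨_, fac7126⟩
  · exact ⟨_, fac7127⟩
  · exact ⟨_, fac7128⟩
  · exact ⟨_, fac7129⟩
  · exact ⟨_, fac7130⟩
  · exact ⟨_, fac7131⟩
  · exact ⟨_, fac7132⟩
  · exact ⟨_, fac7133⟩
  · exact ⟨_, fac7134⟩
  · exact ⟨_, fac7135⟩
  · exact ⟨_, fac7136⟩
  · exact ⟨_, fac7137⟩
  · exact ⟨_, fac7138⟩
  · exact ⟨_, fac7139⟩
  · exact ⟨_, fac7140⟩
  · exact ⟨_, fac7141⟩
  · exact ⟨_, fac7142⟩
  · exact ⟨_, fac7143⟩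
  · exact ⟨_, fac7144⟩
  · exact ⟨_, fac7145⟩
  · exact ⟨_, fac7146⟩
  · exact ⟨_, fac7147⟩
  · exact ⟨_, fac7148⟩
  · exact ⟨_, fac7149⟩
  · exact ⟨_, fac7150⟩
  · exact ⟨_, fac7151⟩
  · exact ⟨_, fac7152⟩
  · exact ⟨_, fac7153⟩
  · exact ⟨_, fac7154⟩
  · exact ⟨_, fac7155⟩
  · exact ⟨_, fac7156⟩
  · exact ⟨_, fac7157⟩
  · exact ⟨_, fac7158⟩
  · exact ⟨_, fac7159⟩
  · exact ⟨_, fac7160⟩
  · exact ⟨_, fac7161⟩
  · exact ⟨_, fac7162⟩
  · exact ⟨_, fac7163⟩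
  · exact ⟨_, fac7164⟩
  · exact ⟨_, fac7165⟩
  · exact ⟨_, fac7166⟩
  · exact ⟨_, fac7167⟩

theorem good111 : bx111.GoodK ((an : ℝ) / 100) (L.map (ITerm.term den)) (L2.map (ITerm.term den))
    (KL.map (KI.term den)) delta :=
  goodK_of_checkR an den (by decide) L L2 KL dtbl dtbl_ok rfl codes posN rowsA rowsB rowsC rows_tbl 12 256 8 72 b0 28 22
    (by decide) parts_ok (by decide +kernel) slice_ok lit_ok 1 (by decide +kernel) delta bx111 hd111
    (by decide) rls111 rls_ok111 (by decide) (planOf lams111) 190 dD111 dE111 els111 rfl pay111 delta_le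
    (fun b hb => by
      interval_cases b
      · exact bucket111_0
      · exact bucket111_1
      · exact bucket111_2
      · exact bucket111_3
      · exact bucket111_4
      · exact bucket111_5
      · exact bucket111_6
      · exact bucket111_7)

end Vale.Agent.P098.Exact.Sos6.Q93
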