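import Vale.Agent.P098.Exact.Sos6.Q93.Common
import Vale.Agent.P098.Exact.Sos6.Q93.Box112B0
import Vale.Agent.P098.Exact.Sos6.Q93.Box112B1
import Vale.Agent.P098.Exact.Sos6.Q93.Box112B2
import Vale.Agent.P098.Exact.Sos6.Q93.Box112B3
import Vale.Agent.P098.Exact.Sos6.Q93.Box112B4
import Vale.Agent.P098.Exact.Sos6.Q93.Box112B5
import Vale.Agent.P098.Exact.Sos6.Q93.Box112B6
import Vale.Agent.P098.Exact.Sos6.Q93.Box112B7

/-! Generated data of the dimension six interior check. -/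

noncomputable section

namespace Vale.Agent.P098.Exact.Sos6.Q93

set_option maxRecDepth 100000

theorem pay112 : dtbl.payOK 190 dD112 dE112 (elTot els112) = true := by decide +kernel

theorem rls_ok112 : ∀ G ∈ rls112, ∃ Ns, tbl.facR 72 b0 28 22 Ns G = true := by
  intro G hG
  simp only [rls112, List.mem_cons, List.not_mem_nil, or_false] at hG
  rcases hG with rfl | rfl | rfl | rfl | rfl | rfl | rfl | rfl | rfl | rfl | rfl | rfl | rfl | rfl | rfl | rfl | rfl | rfl | rfl | rfl | rfl | rfl | rfl | rfl | rfl | rfl | rfl | rfl | rfl | rfl | rfl | rfl | rfl | rfl | rfl | rfl | rfl | rfl | rfl | rfl | rfl | rfl | rfl | rfl | rfl | rfl | rfl | rfl | rfl | rfl | rfl | rfl | rfl | rfl | rfl | rfl | rfl | rfl | rfl | rfl | rfl | rfl | rfl | rfl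
  · exact ⟨_, fac7168⟩
  · exact ⟨_, fac7169⟩
  · exact ⟨_, fac7170⟩
  · exact ⟨_, fac7171⟩
  · exact ⟨_, fac7172⟩
  · exact ⟨_, fac7173⟩
  · exact ⟨_, fac7174⟩
  · exact ⟨_, fac7175⟩
  · exact ⟨_, fac7176⟩
  · exact ⟨_, fac7177⟩
  · exact ⟨_, fac7178⟩
  · exact ⟨_, fac7179⟩
  · exact ⟨_, fac7180⟩
  · exact ⟨_, fac7181⟩
  · exact ⟨_, fac7182⟩
  · exact ⟨_, fac7183⟩
  · exact ⟨_, fac7184⟩
  · exact ⟨_, fac7185⟩
  · exact ⟨_, fac7186⟩
  · exact ⟨_, fac7187⟩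
  · exact ⟨_, fac7188⟩
  · exact ⟨_, fac7189⟩
  · exact ⟨_, fac7190⟩
  · exact ⟨_, fac7191⟩
  · exact ⟨_, fac7192⟩
  · exact ⟨_, fac7193⟩
  · exact ⟨_, fac7194⟩
  · exact ⟨_, fac7195⟩
  · exact ⟨_, fac7196⟩
  · exact ⟨_, fac7197⟩
  · exact ⟨_, fac7198⟩
  · exact ⟨_, fac7199⟩
  · exact ⟨_, fac7200⟩
  · exact ⟨_, fac7201⟩
  · exact ⟨_, fac7202⟩
  · exact ⟨_, fac7203⟩
  · exact ⟨_, fac7204⟩
  · exact ⟨_, fac7205⟩
  · exact ⟨_, fac7206⟩
  · exact ⟨_, fac7207⟩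
  · exact ⟨_, fac7208⟩
  · exact ⟨_, fac7209⟩
  · exact ⟨_, fac7210⟩
  · exact ⟨_, fac7211⟩
  · exact ⟨_, fac7212⟩
  · exact ⟨_, fac7213⟩
  · exact ⟨_, fac7214⟩
  · exact ⟨_, fac7215⟩
  · exact ⟨_, fac7216⟩
  · exact ⟨_, fac7217⟩
  · exact ⟨_, fac7218⟩
  · exact ⟨_, fac7219⟩
  · exact ⟨_, fac7220⟩
  · exact ⟨_, fac7221⟩
  · exact ⟨_, fac7222⟩
  · exact ⟨_, fac7223⟩
  · exact ⟨_, fac7224⟩
  · exact ⟨_, fac7225⟩
  · exact ⟨_, fac7226⟩
  · exact ⟨_, fac7227⟩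
  · exact ⟨_, fac7228⟩
  · exact ⟨_, fac7229⟩
  · exact ⟨_, fac7230⟩
  · exact ⟨_, fac7231⟩

theorem good112 : bx112.GoodK ((an : ℝ) / 100) (L.map (ITerm.term den)) (L2.map (ITerm.term den))
    (KL.map (KI.term den)) delta :=
  goodK_of_checkR an den (by decide) L L2 KL dtbl dtbl_ok rfl codes posN rowsA rowsB rowsC rows_tbl 12 256 8 72 b0 28 22
    (by decide) parts_ok (by decide +kernel) slice_ok lit_ok 1 (by decide +kernel) delta bx112 hd112
    (by decide) rls112 rls_ok112 (by decide) (planOf lams112) 190 dD112 dE112 els112 rfl pay112 delta_le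
    (fun b hb => by
      interval_cases b
      · exact bucket112_0
      · exact bucket112_1
      · exact bucket112_2
      · exact bucket112_3
      · exact bucket112_4
      · exact bucket112_5
      · exact bucket112_6
      · exact bucket112_7)

end Vale.Agent.P098.Exact.Sos6.Q93
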