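import Vale.Agent.P098.Exact.Sos6.Q93.Common
import Vale.Agent.P098.Exact.Sos6.Q93.Box113B0
import Vale.Agent.P098.Exact.Sos6.Q93.Box113B1
import Vale.Agent.P098.Exact.Sos6.Q93.Box113B2
import Vale.Agent.P098.Exact.Sos6.Q93.Box113B3
import Vale.Agent.P098.Exact.Sos6.Q93.Box113B4
import Vale.Agent.P098.Exact.Sos6.Q93.Box113B5
import Vale.Agent.P098.Exact.Sos6.Q93.Box113B6
import Vale.Agent.P098.Exact.Sos6.Q93.Box113B7

/-! Generated data of the dimension six interior check. -/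

noncomputable section

namespace Vale.Agent.P098.Exact.Sos6.Q93

set_option maxRecDepth 100000

theorem pay113 : dtbl.payOK 190 dD113 dE113 (elTot els113) = true := by decide +kernel

theorem rls_ok113 : ∀ G ∈ rls113, ∃ Ns, tbl.facR 72 b0 28 22 Ns G = true := by
  intro G hG
  simp only [rls113, List.mem_cons, List.not_mem_nil, or_false] at hG
  rcases hG with rfl | rfl | rfl | rfl | rfl | rfl | rfl | rfl | rfl | rfl | rfl | rfl | rfl | rfl | rfl | rfl | rfl | rfl | rfl | rfl | rfl | rfl | rfl | rfl | rfl | rfl | rfl | rfl | rfl | rfl | rfl | rfl | rfl | rfl | rfl | rfl | rfl | rfl | rfl | rfl | rfl | rfl | rfl | rfl | rfl | rfl | rfl | rfl | rfl | rfl | rfl | rfl | rfl | rfl | rfl | rfl | rfl | rfl | rfl | rfl | rfl | rfl | rfl | rfl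
  · exact ⟨_, fac7232⟩
  · exact ⟨_, fac7233⟩
  · exact ⟨_, fac7234⟩
  · exact ⟨_, fac7235⟩
  · exact ⟨_, fac7236⟩
  · exact ⟨_, fac7237⟩
  · exact ⟨_, fac7238⟩
  · exact ⟨_, fac7239⟩
  · exact ⟨_, fac7240⟩
  · exact ⟨_, fac7241⟩
  · exact ⟨_, fac7242⟩
  · exact ⟨_, fac7243⟩
  · exact ⟨_, fac7244⟩
  · exact ⟨_, fac7245⟩
  · exact ⟨_, fac7246⟩
  · exact ⟨_, fac7247⟩
  · exact ⟨_, fac7248⟩
  · exact ⟨_, fac7249⟩
  · exact ⟨_, fac7250⟩
  · exact ⟨_, fac7251⟩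
  · exact ⟨_, fac7252⟩
  · exact ⟨_, fac7253⟩
  · exact ⟨_, fac7254⟩
  · exact ⟨_, fac7255⟩
  · exact ⟨_, fac7256⟩
  · exact ⟨_, fac7257⟩
  · exact ⟨_, fac7258⟩
  · exact ⟨_, fac7259⟩
  · exact ⟨_, fac7260⟩
  · exact ⟨_, fac7261⟩
  · exact ⟨_, fac7262⟩
  · exact ⟨_, fac7263⟩
  · exact ⟨_, fac7264⟩
  · exact ⟨_, fac7265⟩
  · exact ⟨_, fac7266⟩
  · exact ⟨_, fac7267⟩
  · exact ⟨_, fac7268⟩
  · exact ⟨_, fac7269⟩
  · exact ⟨_, fac7270⟩
  · exact ⟨_, fac7271⟩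
  · exact ⟨_, fac7272⟩
  · exact ⟨_, fac7273⟩
  · exact ⟨_, fac7274⟩
  · exact ⟨_, fac7275⟩
  · exact ⟨_, fac7276⟩
  · exact ⟨_, fac7277⟩
  · exact ⟨_, fac7278⟩
  · exact ⟨_, fac7279⟩
  · exact ⟨_, fac7280⟩
  · exact ⟨_, fac7281⟩
  · exact ⟨_, fac7282⟩
  · exact ⟨_, fac7283⟩
  · exact ⟨_, fac7284⟩
  · exact ⟨_, fac7285⟩
  · exact ⟨_, fac7286⟩
  · exact ⟨_, fac7287⟩
  · exact ⟨_, fac7288⟩
  · exact ⟨_, fac7289⟩
  · exact ⟨_, fac7290⟩
  · exact ⟨_, fac7291⟩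
  · exact ⟨_, fac7292⟩
  · exact ⟨_, fac7293⟩
  · exact ⟨_, fac7294⟩
  · exact ⟨_, fac7295⟩

theorem good113 : bx113.GoodK ((an : ℝ) / 100) (L.map (ITerm.term den)) (L2.map (ITerm.term den))
    (KL.map (KI.term den)) delta :=
  goodK_of_checkR an den (by decide) L L2 KL dtbl dtbl_ok rfl codes posN rowsA rowsB rowsC rows_tbl 12 256 8 72 b0 28 22
    (by decide) parts_ok (by decide +kernel) slice_ok lit_ok 1 (by decide +kernel) delta bx113 hd113
    (by decide) rls113 rls_ok113 (by decide) (planOf lams113) 190 dD113 dE113 els113 rfl pay113 delta_le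
    (fun b hb => by
      interval_cases b
      · exact bucket113_0
      · exact bucket113_1
      · exact bucket113_2
      · exact bucket113_3
      · exact bucket113_4
      · exact bucket113_5
      · exact bucket113_6
      · exact bucket113_7)

end Vale.Agent.P098.Exact.Sos6.Q93
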