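import Vale.Agent.P098.Exact.Sos6.Q93.Common
import Vale.Agent.P098.Exact.Sos6.Q93.Box114B0
import Vale.Agent.P098.Exact.Sos6.Q93.Box114B1
import Vale.Agent.P098.Exact.Sos6.Q93.Box114B2
import Vale.Agent.P098.Exact.Sos6.Q93.Box114B3
import Vale.Agent.P098.Exact.Sos6.Q93.Box114B4
import Vale.Agent.P098.Exact.Sos6.Q93.Box114B5
import Vale.Agent.P098.Exact.Sos6.Q93.Box114B6
import Vale.Agent.P098.Exact.Sos6.Q93.Box114B7

/-! Generated data of the dimension six interior check. -/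

noncomputable section

namespace Vale.Agent.P098.Exact.Sos6.Q93

set_option maxRecDepth 100000

theorem pay114 : dtbl.payOK 190 dD114 dE114 (elTot els114) = true := by decide +kernel

theorem rls_ok114 : ∀ G ∈ rls114, ∃ Ns, tbl.facR 72 b0 28 22 Ns G = true := by
  intro G hG
  simp only [rls114, List.mem_cons, List.not_mem_nil, or_false] at hG
  rcases hG with rfl | rfl | rfl | rfl | rfl | rfl | rfl | rfl | rfl | rfl | rfl | rfl | rfl | rfl | rfl | rfl | rfl | rfl | rfl | rfl | rfl | rfl | rfl | rfl | rfl | rfl | rfl | rfl | rfl | rfl | rfl | rfl | rfl | rfl | rfl | rfl | rfl | rfl | rfl | rfl | rfl | rfl | rfl | rfl | rfl | rfl | rfl | rfl | rfl | rfl | rfl | rfl | rfl | rfl | rfl | rfl | rfl | rfl | rfl | rfl | rfl | rfl | rfl | rfl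
  · exact ⟨_, fac7296⟩
  · exact ⟨_, fac7297⟩
  · exact ⟨_, fac7298⟩
  · exact ⟨_, fac7299⟩
  · exact ⟨_, fac7300⟩
  · exact ⟨_, fac7301⟩
  · exact ⟨_, fac7302⟩
  · exact ⟨_, fac7303⟩
  · exact ⟨_, fac7304⟩
  · exact ⟨_, fac7305⟩
  · exact ⟨_, fac7306⟩
  · exact ⟨_, fac7307⟩
  · exact ⟨_, fac7308⟩
  · exact ⟨_, fac7309⟩
  · exact ⟨_, fac7310⟩
  · exact ⟨_, fac7311⟩
  · exact ⟨_, fac7312⟩
  · exact ⟨_, fac7313⟩
  · exact ⟨_, fac7314⟩
  · exact ⟨_, fac7315⟩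
  · exact ⟨_, fac7316⟩
  · exact ⟨_, fac7317⟩
  · exact ⟨_, fac7318⟩
  · exact ⟨_, fac7319⟩
  · exact ⟨_, fac7320⟩
  · exact ⟨_, fac7321⟩
  · exact ⟨_, fac7322⟩
  · exact ⟨_, fac7323⟩
  · exact ⟨_, fac7324⟩
  · exact ⟨_, fac7325⟩
  · exact ⟨_, fac7326⟩
  · exact ⟨_, fac7327⟩
  · exact ⟨_, fac7328⟩
  · exact ⟨_, fac7329⟩
  · exact ⟨_, fac7330⟩
  · exact ⟨_, fac7331⟩
  · exact ⟨_, fac7332⟩
  · exact ⟨_, fac7333⟩
  · exact ⟨_, fac7334⟩
  · exact ⟨_, fac7335⟩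
  · exact ⟨_, fac7336⟩
  · exact ⟨_, fac7337⟩
  · exact ⟨_, fac7338⟩
  · exact ⟨_, fac7339⟩
  · exact ⟨_, fac7340⟩
  · exact ⟨_, fac7341⟩
  · exact ⟨_, fac7342⟩
  · exact ⟨_, fac7343⟩
  · exact ⟨_, fac7344⟩
  · exact ⟨_, fac7345⟩
  · exact ⟨_, fac7346⟩
  · exact ⟨_, fac7347⟩
  · exact ⟨_, fac7348⟩
  · exact ⟨_, fac7349⟩
  · exact ⟨_, fac7350⟩
  · exact ⟨_, fac7351⟩
  · exact ⟨_, fac7352⟩
  · exact ⟨_, fac7353⟩
  · exact ⟨_, fac7354⟩
  · exact ⟨_, fac7355⟩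
  · exact ⟨_, fac7356⟩
  · exact ⟨_, fac7357⟩
  · exact ⟨_, fac7358⟩
  · exact ⟨_, fac7359⟩

theorem good114 : bx114.GoodK ((an : ℝ) / 100) (L.map (ITerm.term den)) (L2.map (ITerm.term den))
    (KL.map (KI.term den)) delta :=
  goodK_of_checkR an den (by decide) L L2 KL dtbl dtbl_ok rfl codes posN rowsA rowsB rowsC rows_tbl 12 256 8 72 b0 28 22
    (by decide) parts_ok (by decide +kernel) slice_ok lit_ok 1 (by decide +kernel) delta bx114 hd114
    (by decide) rls114 rls_ok114 (by decide) (planOf lams114) 190 dD114 dE114 els114 rfl pay114 delta_le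
    (fun b hb => by
      interval_cases b
      · exact bucket114_0
      · exact bucket114_1
      · exact bucket114_2
      · exact bucket114_3
      · exact bucket114_4
      · exact bucket114_5
      · exact bucket114_6
      · exact bucket114_7)

end Vale.Agent.P098.Exact.Sos6.Q93
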