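import Vale.Agent.P098.Exact.Sos6.Q93.Common
import Vale.Agent.P098.Exact.Sos6.Q93.Box115B0
import Vale.Agent.P098.Exact.Sos6.Q93.Box115B1
import Vale.Agent.P098.Exact.Sos6.Q93.Box115B2
import Vale.Agent.P098.Exact.Sos6.Q93.Box115B3
import Vale.Agent.P098.Exact.Sos6.Q93.Box115B4
import Vale.Agent.P098.Exact.Sos6.Q93.Box115B5
import Vale.Agent.P098.Exact.Sos6.Q93.Box115B6
import Vale.Agent.P098.Exact.Sos6.Q93.Box115B7

/-! Generated data of the dimension six interior check. -/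

noncomputable section

namespace Vale.Agent.P098.Exact.Sos6.Q93

set_option maxRecDepth 100000

theorem pay115 : dtbl.payOK 190 dD115 dE115 (elTot els115) = true := by decide +kernel

theorem rls_ok115 : ∀ G ∈ rls115, ∃ Ns, tbl.facR 72 b0 28 22 Ns G = true := by
  intro G hG
  simp only [rls115, List.mem_cons, List.not_mem_nil, or_false] at hG
  rcases hG with rfl | rfl | rfl | rfl | rfl | rfl | rfl | rfl | rfl | rfl | rfl | rfl | rfl | rfl | rfl | rfl | rfl | rfl | rfl | rfl | rfl | rfl | rfl | rfl | rfl | rfl | rfl | rfl | rfl | rfl | rfl | rfl | rfl | rfl | rfl | rfl | rfl | rfl | rfl | rfl | rfl | rfl | rfl | rfl | rfl | rfl | rfl | rfl | rfl | rfl | rfl | rfl | rfl | rfl | rfl | rfl | rfl | rfl | rfl | rfl | rfl | rfl | rfl | rfl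
  · exact ⟨_, fac7360⟩
  · exact ⟨_, fac7361⟩
  · exact ⟨_, fac7362⟩
  · exact ⟨_, fac7363⟩
  · exact ⟨_, fac7364⟩
  · exact ⟨_, fac7365⟩
  · exact ⟨_, fac7366⟩
  · exact ⟨_, fac7367⟩
  · exact ⟨_, fac7368⟩
  · exact ⟨_, fac7369⟩
  · exact ⟨_, fac7370⟩
  · exact ⟨_, fac7371⟩
  · exact ⟨_, fac7372⟩
  · exact ⟨_, fac7373⟩
  · exact ⟨_, fac7374⟩
  · exact ⟨_, fac7375⟩
  · exact ⟨_, fac7376⟩
  · exact ⟨_, fac7377⟩
  · exact ⟨_, fac7378⟩
  · exact ⟨_, fac7379⟩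
  · exact ⟨_, fac7380⟩
  · exact ⟨_, fac7381⟩
  · exact ⟨_, fac7382⟩
  · exact ⟨_, fac7383⟩
  · exact ⟨_, fac7384⟩
  · exact ⟨_, fac7385⟩
  · exact ⟨_, fac7386⟩
  · exact ⟨_, fac7387⟩
  · exact ⟨_, fac7388⟩
  · exact ⟨_, fac7389⟩
  · exact ⟨_, fac7390⟩
  · exact ⟨_, fac7391⟩
  · exact ⟨_, fac7392⟩
  · exact ⟨_, fac7393⟩
  · exact ⟨_, fac7394⟩
  · exact ⟨_, fac7395⟩
  · exact ⟨_, fac7396⟩
  · exact ⟨_, fac7397⟩
  · exact ⟨_, fac7398⟩
  · exact ⟨_, fac7399⟩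
  · exact ⟨_, fac7400⟩
  · exact ⟨_, fac7401⟩
  · exact ⟨_, fac7402⟩
  · exact ⟨_, fac7403⟩
  · exact ⟨_, fac7404⟩
  · exact ⟨_, fac7405⟩
  · exact ⟨_, fac7406⟩
  · exact ⟨_, fac7407⟩
  · exact ⟨_, fac7408⟩
  · exact ⟨_, fac7409⟩
  · exact ⟨_, fac7410⟩
  · exact ⟨_, fac7411⟩
  · exact ⟨_, fac7412⟩
  · exact ⟨_, fac7413⟩
  · exact ⟨_, fac7414⟩
  · exact ⟨_, fac7415⟩
  · exact ⟨_, fac7416⟩
  · exact ⟨_, fac7417⟩
  · exact ⟨_, fac7418⟩
  · exact ⟨_, fac7419⟩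
  · exact ⟨_, fac7420⟩
  · exact ⟨_, fac7421⟩
  · exact ⟨_, fac7422⟩
  · exact ⟨_, fac7423⟩

theorem good115 : bx115.GoodK ((an : ℝ) / 100) (L.map (ITerm.term den)) (L2.map (ITerm.term den))
    (KL.map (KI.term den)) delta :=
  goodK_of_checkR an den (by decide) L L2 KL dtbl dtbl_ok rfl codes posN rowsA rowsB rowsC rows_tbl 12 256 8 72 b0 28 22
    (by decide) parts_ok (by decide +kernel) slice_ok lit_ok 1 (by decide +kernel) delta bx115 hd115
    (by decide) rls115 rls_ok115 (by decide) (planOf lams115) 190 dD115 dE115 els115 rfl pay115 delta_le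
    (fun b hb => by
      interval_cases b
      · exact bucket115_0
      · exact bucket115_1
      · exact bucket115_2
      · exact bucket115_3
      · exact bucket115_4
      · exact bucket115_5
      · exact bucket115_6
      · exact bucket115_7)

end Vale.Agent.P098.Exact.Sos6.Q93
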