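import Vale.Agent.P098.Exact.Sos6.Q93.Common
import Vale.Agent.P098.Exact.Sos6.Q93.Box116B0
import Vale.Agent.P098.Exact.Sos6.Q93.Box116B1
import Vale.Agent.P098.Exact.Sos6.Q93.Box116B2
import Vale.Agent.P098.Exact.Sos6.Q93.Box116B3
import Vale.Agent.P098.Exact.Sos6.Q93.Box116B4
import Vale.Agent.P098.Exact.Sos6.Q93.Box116B5
import Vale.Agent.P098.Exact.Sos6.Q93.Box116B6
import Vale.Agent.P098.Exact.Sos6.Q93.Box116B7

/-! Generated data of the dimension six interior check. -/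

noncomputable section

namespace Vale.Agent.P098.Exact.Sos6.Q93

set_option maxRecDepth 100000

theorem pay116 : dtbl.payOK 190 dD116 dE116 (elTot els116) = true := by decide +kernel

theorem rls_ok116 : ∀ G ∈ rls116, ∃ Ns, tbl.facR 72 b0 28 22 Ns G = true := by
  intro G hG
  simp only [rls116, List.mem_cons, List.not_mem_nil, or_false] at hG
  rcases hG with rfl | rfl | rfl | rfl | rfl | rfl | rfl | rfl | rfl | rfl | rfl | rfl | rfl | rfl | rfl | rfl | rfl | rfl | rfl | rfl | rfl | rfl | rfl | rfl | rfl | rfl | rfl | rfl | rfl | rfl | rfl | rfl | rfl | rfl | rfl | rfl | rfl | rfl | rfl | rfl | rfl | rfl | rfl | rfl | rfl | rfl | rfl | rfl | rfl | rfl | rfl | rfl | rfl | rfl | rfl | rfl | rfl | rfl | rfl | rfl | rfl | rfl | rfl | rfl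
  · exact ⟨_, fac7424⟩
  · exact ⟨_, fac7425⟩
  · exact ⟨_, fac7426⟩
  · exact ⟨_, fac7427⟩
  · exact ⟨_, fac7428⟩
  · exact ⟨_, fac7429⟩
  · exact ⟨_, fac7430⟩
  · exact ⟨_, fac7431⟩
  · exact ⟨_, fac7432⟩
  · exact ⟨_, fac7433⟩
  · exact ⟨_, fac7434⟩
  · exact ⟨_, fac7435⟩
  · exact ⟨_, fac7436⟩
  · exact ⟨_, fac7437⟩
  · exact ⟨_, fac7438⟩
  · exact ⟨_, fac7439⟩
  · exact ⟨_, fac7440⟩
  · exact ⟨_, fac7441⟩
  · exact ⟨_, fac7442⟩
  · exact ⟨_, fac7443⟩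
  · exact ⟨_, fac7444⟩
  · exact ⟨_, fac7445⟩
  · exact ⟨_, fac7446⟩
  · exact ⟨_, fac7447⟩
  · exact ⟨_, fac7448⟩
  · exact ⟨_, fac7449⟩
  · exact ⟨_, fac7450⟩
  · exact ⟨_, fac7451⟩
  · exact ⟨_, fac7452⟩
  · exact ⟨_, fac7453⟩
  · exact ⟨_, fac7454⟩
  · exact ⟨_, fac7455⟩
  · exact ⟨_, fac7456⟩
  · exact ⟨_, fac7457⟩
  · exact ⟨_, fac7458⟩
  · exact ⟨_, fac7459⟩
  · exact ⟨_, fac7460⟩
  · exact ⟨_, fac7461⟩
  · exact ⟨_, fac7462⟩
  · exact ⟨_, fac7463⟩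
  · exact ⟨_, fac7464⟩
  · exact ⟨_, fac7465⟩
  · exact ⟨_, fac7466⟩
  · exact ⟨_, fac7467⟩
  · exact ⟨_, fac7468⟩
  · exact ⟨_, fac7469⟩
  · exact ⟨_, fac7470⟩
  · exact ⟨_, fac7471⟩
  · exact ⟨_, fac7472⟩
  · exact ⟨_, fac7473⟩
  · exact ⟨_, fac7474⟩
  · exact ⟨_, fac7475⟩
  · exact ⟨_, fac7476⟩
  · exact ⟨_, fac7477⟩
  · exact ⟨_, fac7478⟩
  · exact ⟨_, fac7479⟩
  · exact ⟨_, fac7480⟩
  · exact ⟨_, fac7481⟩
  · exact ⟨_, fac7482⟩
  · exact ⟨_, fac7483⟩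
  · exact ⟨_, fac7484⟩
  · exact ⟨_, fac7485⟩
  · exact ⟨_, fac7486⟩
  · exact ⟨_, fac7487⟩

theorem good116 : bx116.GoodK ((an : ℝ) / 100) (L.map (ITerm.term den)) (L2.map (ITerm.term den))
    (KL.map (KI.term den)) delta :=
  goodK_of_checkR an den (by decide) L L2 KL dtbl dtbl_ok rfl codes posN rowsA rowsB rowsC rows_tbl 12 256 8 72 b0 28 22
    (by decide) parts_ok (by decide +kernel) slice_ok lit_ok 1 (by decide +kernel) delta bx116 hd116
    (by decide) rls116 rls_ok116 (by decide) (planOf lams116) 190 dD116 dE116 els116 rfl pay116 delta_le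
    (fun b hb => by
      interval_cases b
      · exact bucket116_0
      · exact bucket116_1
      · exact bucket116_2
      · exact bucket116_3
      · exact bucket116_4
      · exact bucket116_5
      · exact bucket116_6
      · exact bucket116_7)

end Vale.Agent.P098.Exact.Sos6.Q93
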