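import Vale.Agent.P098.Exact.Sos6.Q93.Common
import Vale.Agent.P098.Exact.Sos6.Q93.Box117B0
import Vale.Agent.P098.Exact.Sos6.Q93.Box117B1
import Vale.Agent.P098.Exact.Sos6.Q93.Box117B2
import Vale.Agent.P098.Exact.Sos6.Q93.Box117B3
import Vale.Agent.P098.Exact.Sos6.Q93.Box117B4
import Vale.Agent.P098.Exact.Sos6.Q93.Box117B5
import Vale.Agent.P098.Exact.Sos6.Q93.Box117B6
import Vale.Agent.P098.Exact.Sos6.Q93.Box117B7

/-! Generated data of the dimension six interior check. -/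

noncomputable section

namespace Vale.Agent.P098.Exact.Sos6.Q93

set_option maxRecDepth 100000

theorem pay117 : dtbl.payOK 190 dD117 dE117 (elTot els117) = true := by decide +kernel

theorem rls_ok117 : ∀ G ∈ rls117, ∃ Ns, tbl.facR 72 b0 28 22 Ns G = true := by
  intro G hG
  simp only [rls117, List.mem_cons, List.not_mem_nil, or_false] at hG
  rcases hG with rfl | rfl | rfl | rfl | rfl | rfl | rfl | rfl | rfl | rfl | rfl | rfl | rfl | rfl | rfl | rfl | rfl | rfl | rfl | rfl | rfl | rfl | rfl | rfl | rfl | rfl | rfl | rfl | rfl | rfl | rfl | rfl | rfl | rfl | rfl | rfl | rfl | rfl | rfl | rfl | rfl | rfl | rfl | rfl | rfl | rfl | rfl | rfl | rfl | rfl | rfl | rfl | rfl | rfl | rfl | rfl | rfl | rfl | rfl | rfl | rfl | rfl | rfl | rfl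
  · exact ⟨_, fac7488⟩
  · exact ⟨_, fac7489⟩
  · exact ⟨_, fac7490⟩
  · exact ⟨_, fac7491⟩
  · exact ⟨_, fac7492⟩
  · exact ⟨_, fac7493⟩
  · exact ⟨_, fac7494⟩
  · exact ⟨_, fac7495⟩
  · exact ⟨_, fac7496⟩
  · exact ⟨_, fac7497⟩
  · exact ⟨_, fac7498⟩
  · exact ⟨_, fac7499⟩
  · exact ⟨_, fac7500⟩
  · exact ⟨_, fac7501⟩
  · exact ⟨_, fac7502⟩
  · exact ⟨_, fac7503⟩
  · exact ⟨_, fac7504⟩
  · exact ⟨_, fac7505⟩
  · exact ⟨_, fac7506⟩
  · exact ⟨_, fac7507⟩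
  · exact ⟨_, fac7508⟩
  · exact ⟨_, fac7509⟩
  · exact ⟨_, fac7510⟩
  · exact ⟨_, fac7511⟩
  · exact ⟨_, fac7512⟩
  · exact ⟨_, fac7513⟩
  · exact ⟨_, fac7514⟩
  · exact ⟨_, fac7515⟩
  · exact ⟨_, fac7516⟩
  · exact ⟨_, fac7517⟩
  · exact ⟨_, fac7518⟩
  · exact ⟨_, fac7519⟩
  · exact ⟨_, fac7520⟩
  · exact ⟨_, fac7521⟩
  · exact ⟨_, fac7522⟩
  · exact ⟨_, fac7523⟩
  · exact ⟨_, fac7524⟩
  · exact ⟨_, fac7525⟩
  · exact ⟨_, fac7526⟩
  · exact ⟨_, fac7527⟩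
  · exact ⟨_, fac7528⟩
  · exact ⟨_, fac7529⟩
  · exact ⟨_, fac7530⟩
  · exact ⟨_, fac7531⟩
  · exact ⟨_, fac7532⟩
  · exact ⟨_, fac7533⟩
  · exact ⟨_, fac7534⟩
  · exact ⟨_, fac7535⟩
  · exact ⟨_, fac7536⟩
  · exact ⟨_, fac7537⟩
  · exact ⟨_, fac7538⟩
  · exact ⟨_, fac7539⟩
  · exact ⟨_, fac7540⟩
  · exact ⟨_, fac7541⟩
  · exact ⟨_, fac7542⟩
  · exact ⟨_, fac7543⟩
  · exact ⟨_, fac7544⟩
  · exact ⟨_, fac7545⟩
  · exact ⟨_, fac7546⟩
  · exact ⟨_, fac7547⟩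
  · exact ⟨_, fac7548⟩
  · exact ⟨_, fac7549⟩
  · exact ⟨_, fac7550⟩
  · exact ⟨_, fac7551⟩

theorem good117 : bx117.GoodK ((an : ℝ) / 100) (L.map (ITerm.term den)) (L2.map (ITerm.term den))
    (KL.map (KI.term den)) delta :=
  goodK_of_checkR an den (by decide) L L2 KL dtbl dtbl_ok rfl codes posN rowsA rowsB rowsC rows_tbl 12 256 8 72 b0 28 22
    (by decide) parts_ok (by decide +kernel) slice_ok lit_ok 1 (by decide +kernel) delta bx117 hd117
    (by decide) rls117 rls_ok117 (by decide) (planOf lams117) 190 dD117 dE117 els117 rfl pay117 delta_le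
    (fun b hb => by
      interval_cases b
      · exact bucket117_0
      · exact bucket117_1
      · exact bucket117_2
      · exact bucket117_3
      · exact bucket117_4
      · exact bucket117_5
      · exact bucket117_6
      · exact bucket117_7)

end Vale.Agent.P098.Exact.Sos6.Q93
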