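import Vale.Agent.P098.Exact.Sos6.Q93.Common
import Vale.Agent.P098.Exact.Sos6.Q93.Box118B0
import Vale.Agent.P098.Exact.Sos6.Q93.Box118B1
import Vale.Agent.P098.Exact.Sos6.Q93.Box118B2
import Vale.Agent.P098.Exact.Sos6.Q93.Box118B3
import Vale.Agent.P098.Exact.Sos6.Q93.Box118B4
import Vale.Agent.P098.Exact.Sos6.Q93.Box118B5
import Vale.Agent.P098.Exact.Sos6.Q93.Box118B6
import Vale.Agent.P098.Exact.Sos6.Q93.Box118B7

/-! Generated data of the dimension six interior check. -/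

noncomputable section

namespace Vale.Agent.P098.Exact.Sos6.Q93

set_option maxRecDepth 100000

theorem pay118 : dtbl.payOK 190 dD118 dE118 (elTot els118) = true := by decide +kernel

theorem rls_ok118 : ∀ G ∈ rls118, ∃ Ns, tbl.facR 72 b0 28 22 Ns G = true := by
  intro G hG
  simp only [rls118, List.mem_cons, List.not_mem_nil, or_false] at hG
  rcases hG with rfl | rfl | rfl | rfl | rfl | rfl | rfl | rfl | rfl | rfl | rfl | rfl | rfl | rfl | rfl | rfl | rfl | rfl | rfl | rfl | rfl | rfl | rfl | rfl | rfl | rfl | rfl | rfl | rfl | rfl | rfl | rfl | rfl | rfl | rfl | rfl | rfl | rfl | rfl | rfl | rfl | rfl | rfl | rfl | rfl | rfl | rfl | rfl | rfl | rfl | rfl | rfl | rfl | rfl | rfl | rfl | rfl | rfl | rfl | rfl | rfl | rfl | rfl | rfl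
  · exact ⟨_, fac7552⟩
  · exact ⟨_, fac7553⟩
  · exact ⟨_, fac7554⟩
  · exact ⟨_, fac7555⟩
  · exact ⟨_, fac7556⟩
  · exact ⟨_, fac7557⟩
  · exact ⟨_, fac7558⟩
  · exact ⟨_, fac7559⟩
  · exact ⟨_, fac7560⟩
  · exact ⟨_, fac7561⟩
  · exact ⟨_, fac7562⟩
  · exact ⟨_, fac7563⟩
  · exact ⟨_, fac7564⟩
  · exact ⟨_, fac7565⟩
  · exact ⟨_, fac7566⟩
  · exact ⟨_, fac7567⟩
  · exact ⟨_, fac7568⟩
  · exact ⟨_, fac7569⟩
  · exact ⟨_, fac7570⟩
  · exact ⟨_, fac7571⟩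
  · exact ⟨_, fac7572⟩
  · exact ⟨_, fac7573⟩
  · exact ⟨_, fac7574⟩
  · exact ⟨_, fac7575⟩
  · exact ⟨_, fac7576⟩
  · exact ⟨_, fac7577⟩
  · exact ⟨_, fac7578⟩
  · exact ⟨_, fac7579⟩
  · exact ⟨_, fac7580⟩
  · exact ⟨_, fac7581⟩
  · exact ⟨_, fac7582⟩
  · exact ⟨_, fac7583⟩
  · exact ⟨_, fac7584⟩
  · exact ⟨_, fac7585⟩
  · exact ⟨_, fac7586⟩
  · exact ⟨_, fac7587⟩
  · exact ⟨_, fac7588⟩
  · exact ⟨_, fac7589⟩
  · exact ⟨_, fac7590⟩
  · exact ⟨_, fac7591⟩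
  · exact ⟨_, fac7592⟩
  · exact ⟨_, fac7593⟩
  · exact ⟨_, fac7594⟩
  · exact ⟨_, fac7595⟩
  · exact ⟨_, fac7596⟩
  · exact ⟨_, fac7597⟩
  · exact ⟨_, fac7598⟩
  · exact ⟨_, fac7599⟩
  · exact ⟨_, fac7600⟩
  · exact ⟨_, fac7601⟩
  · exact ⟨_, fac7602⟩
  · exact ⟨_, fac7603⟩
  · exact ⟨_, fac7604⟩
  · exact ⟨_, fac7605⟩
  · exact ⟨_, fac7606⟩
  · exact ⟨_, fac7607⟩
  · exact ⟨_, fac7608⟩
  · exact ⟨_, fac7609⟩
  · exact ⟨_, fac7610⟩
  · exact ⟨_, fac7611⟩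
  · exact ⟨_, fac7612⟩
  · exact ⟨_, fac7613⟩
  · exact ⟨_, fac7614⟩
  · exact ⟨_, fac7615⟩

theorem good118 : bx118.GoodK ((an : ℝ) / 100) (L.map (ITerm.term den)) (L2.map (ITerm.term den))
    (KL.map (KI.term den)) delta :=
  goodK_of_checkR an den (by decide) L L2 KL dtbl dtbl_ok rfl codes posN rowsA rowsB rowsC rows_tbl 12 256 8 72 b0 28 22
    (by decide) parts_ok (by decide +kernel) slice_ok lit_ok 1 (by decide +kernel) delta bx118 hd118
    (by decide) rls118 rls_ok118 (by decide) (planOf lams118) 190 dD118 dE118 els118 rfl pay118 delta_le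
    (fun b hb => by
      interval_cases b
      · exact bucket118_0
      · exact bucket118_1
      · exact bucket118_2
      · exact bucket118_3
      · exact bucket118_4
      · exact bucket118_5
      · exact bucket118_6
      · exact bucket118_7)

end Vale.Agent.P098.Exact.Sos6.Q93
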