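import Vale.Agent.P098.Exact.Sos6.Q93.Common
import Vale.Agent.P098.Exact.Sos6.Q93.Box119B0
import Vale.Agent.P098.Exact.Sos6.Q93.Box119B1
import Vale.Agent.P098.Exact.Sos6.Q93.Box119B2
import Vale.Agent.P098.Exact.Sos6.Q93.Box119B3
import Vale.Agent.P098.Exact.Sos6.Q93.Box119B4
import Vale.Agent.P098.Exact.Sos6.Q93.Box119B5
import Vale.Agent.P098.Exact.Sos6.Q93.Box119B6
import Vale.Agent.P098.Exact.Sos6.Q93.Box119B7

/-! Generated data of the dimension six interior check. -/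

noncomputable section

namespace Vale.Agent.P098.Exact.Sos6.Q93

set_option maxRecDepth 100000

theorem pay119 : dtbl.payOK 190 dD119 dE119 (elTot els119) = true := by decide +kernel

theorem rls_ok119 : ∀ G ∈ rls119, ∃ Ns, tbl.facR 72 b0 28 22 Ns G = true := by
  intro G hG
  simp only [rls119, List.mem_cons, List.not_mem_nil, or_false] at hG
  rcases hG with rfl | rfl | rfl | rfl | rfl | rfl | rfl | rfl | rfl | rfl | rfl | rfl | rfl | rfl | rfl | rfl | rfl | rfl | rfl | rfl | rfl | rfl | rfl | rfl | rfl | rfl | rfl | rfl | rfl | rfl | rfl | rfl | rfl | rfl | rfl | rfl | rfl | rfl | rfl | rfl | rfl | rfl | rfl | rfl | rfl | rfl | rfl | rfl | rfl | rfl | rfl | rfl | rfl | rfl | rfl | rfl | rfl | rfl | rfl | rfl | rfl | rfl | rfl | rfl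
  · exact ⟨_, fac7616⟩
  · exact ⟨_, fac7617⟩
  · exact ⟨_, fac7618⟩
  · exact ⟨_, fac7619⟩
  · exact ⟨_, fac7620⟩
  · exact ⟨_, fac7621⟩
  · exact ⟨_, fac7622⟩
  · exact ⟨_, fac7623⟩
  · exact ⟨_, fac7624⟩
  · exact ⟨_, fac7625⟩
  · exact ⟨_, fac7626⟩
  · exact ⟨_, fac7627⟩
  · exact ⟨_, fac7628⟩
  · exact ⟨_, fac7629⟩
  · exact ⟨_, fac7630⟩
  · exact ⟨_, fac7631⟩
  · exact ⟨_, fac7632⟩
  · exact ⟨_, fac7633⟩
  · exact ⟨_, fac7634⟩
  · exact ⟨_, fac7635⟩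
  · exact ⟨_, fac7636⟩
  · exact ⟨_, fac7637⟩
  · exact ⟨_, fac7638⟩
  · exact ⟨_, fac7639⟩
  · exact ⟨_, fac7640⟩
  · exact ⟨_, fac7641⟩
  · exact ⟨_, fac7642⟩
  · exact ⟨_, fac7643⟩
  · exact ⟨_, fac7644⟩
  · exact ⟨_, fac7645⟩
  · exact ⟨_, fac7646⟩
  · exact ⟨_, fac7647⟩
  · exact ⟨_, fac7648⟩
  · exact ⟨_, fac7649⟩
  · exact ⟨_, fac7650⟩
  · exact ⟨_, fac7651⟩
  · exact ⟨_, fac7652⟩
  · exact ⟨_, fac7653⟩
  · exact ⟨_, fac7654⟩
  · exact ⟨_, fac7655⟩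
  · exact ⟨_, fac7656⟩
  · exact ⟨_, fac7657⟩
  · exact ⟨_, fac7658⟩
  · exact ⟨_, fac7659⟩
  · exact ⟨_, fac7660⟩
  · exact ⟨_, fac7661⟩
  · exact ⟨_, fac7662⟩
  · exact ⟨_, fac7663⟩
  · exact ⟨_, fac7664⟩
  · exact ⟨_, fac7665⟩
  · exact ⟨_, fac7666⟩
  · exact ⟨_, fac7667⟩
  · exact ⟨_, fac7668⟩
  · exact ⟨_, fac7669⟩
  · exact ⟨_, fac7670⟩
  · exact ⟨_, fac7671⟩
  · exact ⟨_, fac7672⟩
  · exact ⟨_, fac7673⟩
  · exact ⟨_, fac7674⟩
  · exact ⟨_, fac7675⟩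
  · exact ⟨_, fac7676⟩
  · exact ⟨_, fac7677⟩
  · exact ⟨_, fac7678⟩
  · exact ⟨_, fac7679⟩

theorem good119 : bx119.GoodK ((an : ℝ) / 100) (L.map (ITerm.term den)) (L2.map (ITerm.term den))
    (KL.map (KI.term den)) delta :=
  goodK_of_checkR an den (by decide) L L2 KL dtbl dtbl_ok rfl codes posN rowsA rowsB rowsC rows_tbl 12 256 8 72 b0 28 22
    (by decide) parts_ok (by decide +kernel) slice_ok lit_ok 1 (by decide +kernel) delta bx119 hd119
    (by decide) rls119 rls_ok119 (by decide) (planOf lams119) 190 dD119 dE119 els119 rfl pay119 delta_le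
    (fun b hb => by
      interval_cases b
      · exact bucket119_0
      · exact bucket119_1
      · exact bucket119_2
      · exact bucket119_3
      · exact bucket119_4
      · exact bucket119_5
      · exact bucket119_6
      · exact bucket119_7)

end Vale.Agent.P098.Exact.Sos6.Q93
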