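import Vale.Agent.P098.Exact.Sos6.Q93.Common
import Vale.Agent.P098.Exact.Sos6.Q93.Box11B0
import Vale.Agent.P098.Exact.Sos6.Q93.Box11B1
import Vale.Agent.P098.Exact.Sos6.Q93.Box11B2
import Vale.Agent.P098.Exact.Sos6.Q93.Box11B3
import Vale.Agent.P098.Exact.Sos6.Q93.Box11B4
import Vale.Agent.P098.Exact.Sos6.Q93.Box11B5
import Vale.Agent.P098.Exact.Sos6.Q93.Box11B6
import Vale.Agent.P098.Exact.Sos6.Q93.Box11B7

/-! Generated data of the dimension six interior check. -/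

noncomputable section

namespace Vale.Agent.P098.Exact.Sos6.Q93

set_option maxRecDepth 100000

theorem pay11 : dtbl.payOK 190 dD11 dE11 (elTot els11) = true := by decide +kernel

theorem rls_ok11 : ∀ G ∈ rls11, ∃ Ns, tbl.facR 72 b0 28 22 Ns G = true := by
  intro G hG
  simp only [rls11, List.mem_cons, List.not_mem_nil, or_false] at hG
  rcases hG with rfl | rfl | rfl | rfl | rfl | rfl | rfl | rfl | rfl | rfl | rfl | rfl | rfl | rfl | rfl | rfl | rfl | rfl | rfl | rfl | rfl | rfl | rfl | rfl | rfl | rfl | rfl | rfl | rfl | rfl | rfl | rfl | rfl | rfl | rfl | rfl | rfl | rfl | rfl | rfl | rfl | rfl | rfl | rfl | rfl | rfl | rfl | rfl | rfl | rfl | rfl | rfl | rfl | rfl | rfl | rfl | rfl | rfl | rfl | rfl | rfl | rfl | rfl | rfl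
  · exact ⟨_, fac704⟩
  · exact ⟨_, fac705⟩
  · exact ⟨_, fac706⟩
  · exact ⟨_, fac707⟩
  · exact ⟨_, fac708⟩
  · exact ⟨_, fac709⟩
  · exact ⟨_, fac710⟩
  · exact ⟨_, fac711⟩
  · exact ⟨_, fac712⟩
  · exact ⟨_, fac713⟩
  · exact ⟨_, fac714⟩
  · exact ⟨_, fac715⟩
  · exact ⟨_, fac716⟩
  · exact ⟨_, fac717⟩
  · exact ⟨_, fac718⟩
  · exact ⟨_, fac719⟩
  · exact ⟨_, fac720⟩
  · exact ⟨_, fac721⟩
  · exact ⟨_, fac722⟩
  · exact ⟨_, fac723⟩
  · exact ⟨_, fac724⟩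
  · exact ⟨_, fac725⟩
  · exact ⟨_, fac726⟩
  · exact ⟨_, fac727⟩
  · exact ⟨_, fac728⟩
  · exact ⟨_, fac729⟩
  · exact ⟨_, fac730⟩
  · exact ⟨_, fac731⟩
  · exact ⟨_, fac732⟩
  · exact ⟨_, fac733⟩
  · exact ⟨_, fac734⟩
  · exact ⟨_, fac735⟩
  · exact ⟨_, fac736⟩
  · exact ⟨_, fac737⟩
  · exact ⟨_, fac738⟩
  · exact ⟨_, fac739⟩
  · exact ⟨_, fac740⟩
  · exact ⟨_, fac741⟩
  · exact ⟨_, fac742⟩
  · exact ⟨_, fac743⟩
  · exact ⟨_, fac744⟩
  · exact ⟨_, fac745⟩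
  · exact ⟨_, fac746⟩
  · exact ⟨_, fac747⟩
  · exact ⟨_, fac748⟩
  · exact ⟨_, fac749⟩
  · exact ⟨_, fac750⟩
  · exact ⟨_, fac751⟩
  · exact ⟨_, fac752⟩
  · exact ⟨_, fac753⟩
  · exact ⟨_, fac754⟩
  · exact ⟨_, fac755⟩
  · exact ⟨_, fac756⟩
  · exact ⟨_, fac757⟩
  · exact ⟨_, fac758⟩
  · exact ⟨_, fac759⟩
  · exact ⟨_, fac760⟩
  · exact ⟨_, fac761⟩
  · exact ⟨_, fac762⟩
  · exact ⟨_, fac763⟩
  · exact ⟨_, fac764⟩
  · exact ⟨_, fac765⟩
  · exact ⟨_, fac766⟩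
  · exact ⟨_, fac767⟩

theorem good11 : bx11.GoodK ((an : ℝ) / 100) (L.map (ITerm.term den)) (L2.map (ITerm.term den))
    (KL.map (KI.term den)) delta :=
  goodK_of_checkR an den (by decide) L L2 KL dtbl dtbl_ok rfl codes posN rowsA rowsB rowsC rows_tbl 12 256 8 72 b0 28 22
    (by decide) parts_ok (by decide +kernel) slice_ok lit_ok 1 (by decide +kernel) delta bx11 hd11
    (by decide) rls11 rls_ok11 (by decide) (planOf lams11) 190 dD11 dE11 els11 rfl pay11 delta_le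
    (fun b hb => by
      interval_cases b
      · exact bucket11_0
      · exact bucket11_1
      · exact bucket11_2
      · exact bucket11_3
      · exact bucket11_4
      · exact bucket11_5
      · exact bucket11_6
      · exact bucket11_7)

end Vale.Agent.P098.Exact.Sos6.Q93
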