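import Vale.Agent.P098.Exact.Sos6.Q93.Common
import Vale.Agent.P098.Exact.Sos6.Q93.Box120B0
import Vale.Agent.P098.Exact.Sos6.Q93.Box120B1
import Vale.Agent.P098.Exact.Sos6.Q93.Box120B2
import Vale.Agent.P098.Exact.Sos6.Q93.Box120B3
import Vale.Agent.P098.Exact.Sos6.Q93.Box120B4
import Vale.Agent.P098.Exact.Sos6.Q93.Box120B5
import Vale.Agent.P098.Exact.Sos6.Q93.Box120B6
import Vale.Agent.P098.Exact.Sos6.Q93.Box120B7

/-! Generated data of the dimension six interior check. -/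

noncomputable section

namespace Vale.Agent.P098.Exact.Sos6.Q93

set_option maxRecDepth 100000

theorem pay120 : dtbl.payOK 190 dD120 dE120 (elTot els120) = true := by decide +kernel

theorem rls_ok120 : ∀ G ∈ rls120, ∃ Ns, tbl.facR 72 b0 28 22 Ns G = true := by
  intro G hG
  simp only [rls120, List.mem_cons, List.not_mem_nil, or_false] at hG
  rcases hG with rfl | rfl | rfl | rfl | rfl | rfl | rfl | rfl | rfl | rfl | rfl | rfl | rfl | rfl | rfl | rfl | rfl | rfl | rfl | rfl | rfl | rfl | rfl | rfl | rfl | rfl | rfl | rfl | rfl | rfl | rfl | rfl | rfl | rfl | rfl | rfl | rfl | rfl | rfl | rfl | rfl | rfl | rfl | rfl | rfl | rfl | rfl | rfl | rfl | rfl | rfl | rfl | rfl | rfl | rfl | rfl | rfl | rfl | rfl | rfl | rfl | rfl | rfl | rfl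
  · exact ⟨_, fac7680⟩
  · exact ⟨_, fac7681⟩
  · exact ⟨_, fac7682⟩
  · exact ⟨_, fac7683⟩
  · exact ⟨_, fac7684⟩
  · exact ⟨_, fac7685⟩
  · exact ⟨_, fac7686⟩
  · exact ⟨_, fac7687⟩
  · exact ⟨_, fac7688⟩
  · exact ⟨_, fac7689⟩
  · exact ⟨_, fac7690⟩
  · exact ⟨_, fac7691⟩
  · exact ⟨_, fac7692⟩
  · exact ⟨_, fac7693⟩
  · exact ⟨_, fac7694⟩
  · exact ⟨_, fac7695⟩
  · exact ⟨_, fac7696⟩
  · exact ⟨_, fac7697⟩
  · exact ⟨_, fac7698⟩
  · exact ⟨_, fac7699⟩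
  · exact ⟨_, fac7700⟩
  · exact ⟨_, fac7701⟩
  · exact ⟨_, fac7702⟩
  · exact ⟨_, fac7703⟩
  · exact ⟨_, fac7704⟩
  · exact ⟨_, fac7705⟩
  · exact ⟨_, fac7706⟩
  · exact ⟨_, fac7707⟩
  · exact ⟨_, fac7708⟩
  · exact ⟨_, fac7709⟩
  · exact ⟨_, fac7710⟩
  · exact ⟨_, fac7711⟩
  · exact ⟨_, fac7712⟩
  · exact ⟨_, fac7713⟩
  · exact ⟨_, fac7714⟩
  · exact ⟨_, fac7715⟩
  · exact ⟨_, fac7716⟩
  · exact ⟨_, fac7717⟩
  · exact ⟨_, fac7718⟩
  · exact ⟨_, fac7719⟩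
  · exact ⟨_, fac7720⟩
  · exact ⟨_, fac7721⟩
  · exact ⟨_, fac7722⟩
  · exact ⟨_, fac7723⟩
  · exact ⟨_, fac7724⟩
  · exact ⟨_, fac7725⟩
  · exact ⟨_, fac7726⟩
  · exact ⟨_, fac7727⟩
  · exact ⟨_, fac7728⟩
  · exact ⟨_, fac7729⟩
  · exact ⟨_, fac7730⟩
  · exact ⟨_, fac7731⟩
  · exact ⟨_, fac7732⟩
  · exact ⟨_, fac7733⟩
  · exact ⟨_, fac7734⟩
  · exact ⟨_, fac7735⟩
  · exact ⟨_, fac7736⟩
  · exact ⟨_, fac7737⟩
  · exact ⟨_, fac7738⟩
  · exact ⟨_, fac7739⟩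
  · exact ⟨_, fac7740⟩
  · exact ⟨_, fac7741⟩
  · exact ⟨_, fac7742⟩
  · exact ⟨_, fac7743⟩

theorem good120 : bx120.GoodK ((an : ℝ) / 100) (L.map (ITerm.term den)) (L2.map (ITerm.term den))
    (KL.map (KI.term den)) delta :=
  goodK_of_checkR an den (by decide) L L2 KL dtbl dtbl_ok rfl codes posN rowsA rowsB rowsC rows_tbl 12 256 8 72 b0 28 22
    (by decide) parts_ok (by decide +kernel) slice_ok lit_ok 1 (by decide +kernel) delta bx120 hd120
    (by decide) rls120 rls_ok120 (by decide) (planOf lams120) 190 dD120 dE120 els120 rfl pay120 delta_le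
    (fun b hb => by
      interval_cases b
      · exact bucket120_0
      · exact bucket120_1
      · exact bucket120_2
      · exact bucket120_3
      · exact bucket120_4
      · exact bucket120_5
      · exact bucket120_6
      · exact bucket120_7)

end Vale.Agent.P098.Exact.Sos6.Q93
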