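import Vale.Agent.P098.Exact.Sos6.Q93.Common
import Vale.Agent.P098.Exact.Sos6.Q93.Box121B0
import Vale.Agent.P098.Exact.Sos6.Q93.Box121B1
import Vale.Agent.P098.Exact.Sos6.Q93.Box121B2
import Vale.Agent.P098.Exact.Sos6.Q93.Box121B3
import Vale.Agent.P098.Exact.Sos6.Q93.Box121B4
import Vale.Agent.P098.Exact.Sos6.Q93.Box121B5
import Vale.Agent.P098.Exact.Sos6.Q93.Box121B6
import Vale.Agent.P098.Exact.Sos6.Q93.Box121B7

/-! Generated data of the dimension six interior check. -/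

noncomputable section

namespace Vale.Agent.P098.Exact.Sos6.Q93

set_option maxRecDepth 100000

theorem pay121 : dtbl.payOK 190 dD121 dE121 (elTot els121) = true := by decide +kernel

theorem rls_ok121 : ∀ G ∈ rls121, ∃ Ns, tbl.facR 72 b0 28 22 Ns G = true := by
  intro G hG
  simp only [rls121, List.mem_cons, List.not_mem_nil, or_false] at hG
  rcases hG with rfl | rfl | rfl | rfl | rfl | rfl | rfl | rfl | rfl | rfl | rfl | rfl | rfl | rfl | rfl | rfl | rfl | rfl | rfl | rfl | rfl | rfl | rfl | rfl | rfl | rfl | rfl | rfl | rfl | rfl | rfl | rfl | rfl | rfl | rfl | rfl | rfl | rfl | rfl | rfl | rfl | rfl | rfl | rfl | rfl | rfl | rfl | rfl | rfl | rfl | rfl | rfl | rfl | rfl | rfl | rfl | rfl | rfl | rfl | rfl | rfl | rfl | rfl | rfl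
  · exact ⟨_, fac7744⟩
  · exact ⟨_, fac7745⟩
  · exact ⟨_, fac7746⟩
  · exact ⟨_, fac7747⟩
  · exact ⟨_, fac7748⟩
  · exact ⟨_, fac7749⟩
  · exact ⟨_, fac7750⟩
  · exact ⟨_, fac7751⟩
  · exact ⟨_, fac7752⟩
  · exact ⟨_, fac7753⟩
  · exact ⟨_, fac7754⟩
  · exact ⟨_, fac7755⟩
  · exact ⟨_, fac7756⟩
  · exact ⟨_, fac7757⟩
  · exact ⟨_, fac7758⟩
  · exact ⟨_, fac7759⟩
  · exact ⟨_, fac7760⟩
  · exact ⟨_, fac7761⟩
  · exact ⟨_, fac7762⟩
  · exact ⟨_, fac7763⟩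
  · exact ⟨_, fac7764⟩
  · exact ⟨_, fac7765⟩
  · exact ⟨_, fac7766⟩
  · exact ⟨_, fac7767⟩
  · exact ⟨_, fac7768⟩
  · exact ⟨_, fac7769⟩
  · exact ⟨_, fac7770⟩
  · exact ⟨_, fac7771⟩
  · exact ⟨_, fac7772⟩
  · exact ⟨_, fac7773⟩
  · exact ⟨_, fac7774⟩
  · exact ⟨_, fac7775⟩
  · exact ⟨_, fac7776⟩
  · exact ⟨_, fac7777⟩
  · exact ⟨_, fac7778⟩
  · exact ⟨_, fac7779⟩
  · exact ⟨_, fac7780⟩
  · exact ⟨_, fac7781⟩
  · exact ⟨_, fac7782⟩
  · exact ⟨_, fac7783⟩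
  · exact ⟨_, fac7784⟩
  · exact ⟨_, fac7785⟩
  · exact ⟨_, fac7786⟩
  · exact ⟨_, fac7787⟩
  · exact ⟨_, fac7788⟩
  · exact ⟨_, fac7789⟩
  · exact ⟨_, fac7790⟩
  · exact ⟨_, fac7791⟩
  · exact ⟨_, fac7792⟩
  · exact ⟨_, fac7793⟩
  · exact ⟨_, fac7794⟩
  · exact ⟨_, fac7795⟩
  · exact ⟨_, fac7796⟩
  · exact ⟨_, fac7797⟩
  · exact ⟨_, fac7798⟩
  · exact ⟨_, fac7799⟩
  · exact ⟨_, fac7800⟩
  · exact ⟨_, fac7801⟩
  · exact ⟨_, fac7802⟩
  · exact ⟨_, fac7803⟩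
  · exact ⟨_, fac7804⟩
  · exact ⟨_, fac7805⟩
  · exact ⟨_, fac7806⟩
  · exact ⟨_, fac7807⟩

theorem good121 : bx121.GoodK ((an : ℝ) / 100) (L.map (ITerm.term den)) (L2.map (ITerm.term den))
    (KL.map (KI.term den)) delta :=
  goodK_of_checkR an den (by decide) L L2 KL dtbl dtbl_ok rfl codes posN rowsA rowsB rowsC rows_tbl 12 256 8 72 b0 28 22
    (by decide) parts_ok (by decide +kernel) slice_ok lit_ok 1 (by decide +kernel) delta bx121 hd121
    (by decide) rls121 rls_ok121 (by decide) (planOf lams121) 190 dD121 dE121 els121 rfl pay121 delta_le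
    (fun b hb => by
      interval_cases b
      · exact bucket121_0
      · exact bucket121_1
      · exact bucket121_2
      · exact bucket121_3
      · exact bucket121_4
      · exact bucket121_5
      · exact bucket121_6
      · exact bucket121_7)

end Vale.Agent.P098.Exact.Sos6.Q93
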