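import Vale.Agent.P098.Exact.Sos6.Q93.Common
import Vale.Agent.P098.Exact.Sos6.Q93.Box122B0
import Vale.Agent.P098.Exact.Sos6.Q93.Box122B1
import Vale.Agent.P098.Exact.Sos6.Q93.Box122B2
import Vale.Agent.P098.Exact.Sos6.Q93.Box122B3
import Vale.Agent.P098.Exact.Sos6.Q93.Box122B4
import Vale.Agent.P098.Exact.Sos6.Q93.Box122B5
import Vale.Agent.P098.Exact.Sos6.Q93.Box122B6
import Vale.Agent.P098.Exact.Sos6.Q93.Box122B7

/-! Generated data of the dimension six interior check. -/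

noncomputable section

namespace Vale.Agent.P098.Exact.Sos6.Q93

set_option maxRecDepth 100000

theorem pay122 : dtbl.payOK 190 dD122 dE122 (elTot els122) = true := by decide +kernel

theorem rls_ok122 : ∀ G ∈ rls122, ∃ Ns, tbl.facR 72 b0 28 22 Ns G = true := by
  intro G hG
  simp only [rls122, List.mem_cons, List.not_mem_nil, or_false] at hG
  rcases hG with rfl | rfl | rfl | rfl | rfl | rfl | rfl | rfl | rfl | rfl | rfl | rfl | rfl | rfl | rfl | rfl | rfl | rfl | rfl | rfl | rfl | rfl | rfl | rfl | rfl | rfl | rfl | rfl | rfl | rfl | rfl | rfl | rfl | rfl | rfl | rfl | rfl | rfl | rfl | rfl | rfl | rfl | rfl | rfl | rfl | rfl | rfl | rfl | rfl | rfl | rfl | rfl | rfl | rfl | rfl | rfl | rfl | rfl | rfl | rfl | rfl | rfl | rfl | rfl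
  · exact ⟨_, fac7808⟩
  · exact ⟨_, fac7809⟩
  · exact ⟨_, fac7810⟩
  · exact ⟨_, fac7811⟩
  · exact ⟨_, fac7812⟩
  · exact ⟨_, fac7813⟩
  · exact ⟨_, fac7814⟩
  · exact ⟨_, fac7815⟩
  · exact ⟨_, fac7816⟩
  · exact ⟨_, fac7817⟩
  · exact ⟨_, fac7818⟩
  · exact ⟨_, fac7819⟩
  · exact ⟨_, fac7820⟩
  · exact ⟨_, fac7821⟩
  · exact ⟨_, fac7822⟩
  · exact ⟨_, fac7823⟩
  · exact ⟨_, fac7824⟩
  · exact ⟨_, fac7825⟩
  · exact ⟨_, fac7826⟩
  · exact ⟨_, fac7827⟩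
  · exact ⟨_, fac7828⟩
  · exact ⟨_, fac7829⟩
  · exact ⟨_, fac7830⟩
  · exact ⟨_, fac7831⟩
  · exact ⟨_, fac7832⟩
  · exact ⟨_, fac7833⟩
  · exact ⟨_, fac7834⟩
  · exact ⟨_, fac7835⟩
  · exact ⟨_, fac7836⟩
  · exact ⟨_, fac7837⟩
  · exact ⟨_, fac7838⟩
  · exact ⟨_, fac7839⟩
  · exact ⟨_, fac7840⟩
  · exact ⟨_, fac7841⟩
  · exact ⟨_, fac7842⟩
  · exact ⟨_, fac7843⟩
  · exact ⟨_, fac7844⟩
  · exact ⟨_, fac7845⟩
  · exact ⟨_, fac7846⟩
  · exact ⟨_, fac7847⟩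
  · exact ⟨_, fac7848⟩
  · exact ⟨_, fac7849⟩
  · exact ⟨_, fac7850⟩
  · exact ⟨_, fac7851⟩
  · exact ⟨_, fac7852⟩
  · exact ⟨_, fac7853⟩
  · exact ⟨_, fac7854⟩
  · exact ⟨_, fac7855⟩
  · exact ⟨_, fac7856⟩
  · exact ⟨_, fac7857⟩
  · exact ⟨_, fac7858⟩
  · exact ⟨_, fac7859⟩
  · exact ⟨_, fac7860⟩
  · exact ⟨_, fac7861⟩
  · exact ⟨_, fac7862⟩
  · exact ⟨_, fac7863⟩
  · exact ⟨_, fac7864⟩
  · exact ⟨_, fac7865⟩
  · exact ⟨_, fac7866⟩
  · exact ⟨_, fac7867⟩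
  · exact ⟨_, fac7868⟩
  · exact ⟨_, fac7869⟩
  · exact ⟨_, fac7870⟩
  · exact ⟨_, fac7871⟩

theorem good122 : bx122.GoodK ((an : ℝ) / 100) (L.map (ITerm.term den)) (L2.map (ITerm.term den))
    (KL.map (KI.term den)) delta :=
  goodK_of_checkR an den (by decide) L L2 KL dtbl dtbl_ok rfl codes posN rowsA rowsB rowsC rows_tbl 12 256 8 72 b0 28 22
    (by decide) parts_ok (by decide +kernel) slice_ok lit_ok 1 (by decide +kernel) delta bx122 hd122
    (by decide) rls122 rls_ok122 (by decide) (planOf lams122) 190 dD122 dE122 els122 rfl pay122 delta_le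
    (fun b hb => by
      interval_cases b
      · exact bucket122_0
      · exact bucket122_1
      · exact bucket122_2
      · exact bucket122_3
      · exact bucket122_4
      · exact bucket122_5
      · exact bucket122_6
      · exact bucket122_7)

end Vale.Agent.P098.Exact.Sos6.Q93
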