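import Vale.Agent.P098.Exact.Sos6.Q93.Common
import Vale.Agent.P098.Exact.Sos6.Q93.Box123B0
import Vale.Agent.P098.Exact.Sos6.Q93.Box123B1
import Vale.Agent.P098.Exact.Sos6.Q93.Box123B2
import Vale.Agent.P098.Exact.Sos6.Q93.Box123B3
import Vale.Agent.P098.Exact.Sos6.Q93.Box123B4
import Vale.Agent.P098.Exact.Sos6.Q93.Box123B5
import Vale.Agent.P098.Exact.Sos6.Q93.Box123B6
import Vale.Agent.P098.Exact.Sos6.Q93.Box123B7

/-! Generated data of the dimension six interior check. -/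

noncomputable section

namespace Vale.Agent.P098.Exact.Sos6.Q93

set_option maxRecDepth 100000

theorem pay123 : dtbl.payOK 190 dD123 dE123 (elTot els123) = true := by decide +kernel

theorem rls_ok123 : ∀ G ∈ rls123, ∃ Ns, tbl.facR 72 b0 28 22 Ns G = true := by
  intro G hG
  simp only [rls123, List.mem_cons, List.not_mem_nil, or_false] at hG
  rcases hG with rfl | rfl | rfl | rfl | rfl | rfl | rfl | rfl | rfl | rfl | rfl | rfl | rfl | rfl | rfl | rfl | rfl | rfl | rfl | rfl | rfl | rfl | rfl | rfl | rfl | rfl | rfl | rfl | rfl | rfl | rfl | rfl | rfl | rfl | rfl | rfl | rfl | rfl | rfl | rfl | rfl | rfl | rfl | rfl | rfl | rfl | rfl | rfl | rfl | rfl | rfl | rfl | rfl | rfl | rfl | rfl | rfl | rfl | rfl | rfl | rfl | rfl | rfl | rfl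
  · exact ⟨_, fac7872⟩
  · exact ⟨_, fac7873⟩
  · exact ⟨_, fac7874⟩
  · exact ⟨_, fac7875⟩
  · exact ⟨_, fac7876⟩
  · exact ⟨_, fac7877⟩
  · exact ⟨_, fac7878⟩
  · exact ⟨_, fac7879⟩
  · exact ⟨_, fac7880⟩
  · exact ⟨_, fac7881⟩
  · exact ⟨_, fac7882⟩
  · exact ⟨_, fac7883⟩
  · exact ⟨_, fac7884⟩
  · exact ⟨_, fac7885⟩
  · exact ⟨_, fac7886⟩
  · exact ⟨_, fac7887⟩
  · exact ⟨_, fac7888⟩
  · exact ⟨_, fac7889⟩
  · exact ⟨_, fac7890⟩
  · exact ⟨_, fac7891⟩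
  · exact ⟨_, fac7892⟩
  · exact ⟨_, fac7893⟩
  · exact ⟨_, fac7894⟩
  · exact ⟨_, fac7895⟩
  · exact ⟨_, fac7896⟩
  · exact ⟨_, fac7897⟩
  · exact ⟨_, fac7898⟩
  · exact ⟨_, fac7899⟩
  · exact ⟨_, fac7900⟩
  · exact ⟨_, fac7901⟩
  · exact ⟨_, fac7902⟩
  · exact ⟨_, fac7903⟩
  · exact ⟨_, fac7904⟩
  · exact ⟨_, fac7905⟩
  · exact ⟨_, fac7906⟩
  · exact ⟨_, fac7907⟩
  · exact ⟨_, fac7908⟩
  · exact ⟨_, fac7909⟩
  · exact ⟨_, fac7910⟩
  · exact ⟨_, fac7911⟩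
  · exact ⟨_, fac7912⟩
  · exact ⟨_, fac7913⟩
  · exact ⟨_, fac7914⟩
  · exact ⟨_, fac7915⟩
  · exact ⟨_, fac7916⟩
  · exact ⟨_, fac7917⟩
  · exact ⟨_, fac7918⟩
  · exact ⟨_, fac7919⟩
  · exact ⟨_, fac7920⟩
  · exact ⟨_, fac7921⟩
  · exact ⟨_, fac7922⟩
  · exact ⟨_, fac7923⟩
  · exact ⟨_, fac7924⟩
  · exact ⟨_, fac7925⟩
  · exact ⟨_, fac7926⟩
  · exact ⟨_, fac7927⟩
  · exact ⟨_, fac7928⟩
  · exact ⟨_, fac7929⟩
  · exact ⟨_, fac7930⟩
  · exact ⟨_, fac7931⟩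
  · exact ⟨_, fac7932⟩
  · exact ⟨_, fac7933⟩
  · exact ⟨_, fac7934⟩
  · exact ⟨_, fac7935⟩

theorem good123 : bx123.GoodK ((an : ℝ) / 100) (L.map (ITerm.term den)) (L2.map (ITerm.term den))
    (KL.map (KI.term den)) delta :=
  goodK_of_checkR an den (by decide) L L2 KL dtbl dtbl_ok rfl codes posN rowsA rowsB rowsC rows_tbl 12 256 8 72 b0 28 22
    (by decide) parts_ok (by decide +kernel) slice_ok lit_ok 1 (by decide +kernel) delta bx123 hd123
    (by decide) rls123 rls_ok123 (by decide) (planOf lams123) 190 dD123 dE123 els123 rfl pay123 delta_le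
    (fun b hb => by
      interval_cases b
      · exact bucket123_0
      · exact bucket123_1
      · exact bucket123_2
      · exact bucket123_3
      · exact bucket123_4
      · exact bucket123_5
      · exact bucket123_6
      · exact bucket123_7)

end Vale.Agent.P098.Exact.Sos6.Q93
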