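import Vale.Agent.P098.Exact.Sos6.Q93.Common
import Vale.Agent.P098.Exact.Sos6.Q93.Box124B0
import Vale.Agent.P098.Exact.Sos6.Q93.Box124B1
import Vale.Agent.P098.Exact.Sos6.Q93.Box124B2
import Vale.Agent.P098.Exact.Sos6.Q93.Box124B3
import Vale.Agent.P098.Exact.Sos6.Q93.Box124B4
import Vale.Agent.P098.Exact.Sos6.Q93.Box124B5
import Vale.Agent.P098.Exact.Sos6.Q93.Box124B6
import Vale.Agent.P098.Exact.Sos6.Q93.Box124B7

/-! Generated data of the dimension six interior check. -/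

noncomputable section

namespace Vale.Agent.P098.Exact.Sos6.Q93

set_option maxRecDepth 100000

theorem pay124 : dtbl.payOK 190 dD124 dE124 (elTot els124) = true := by decide +kernel

theorem rls_ok124 : ∀ G ∈ rls124, ∃ Ns, tbl.facR 72 b0 28 22 Ns G = true := by
  intro G hG
  simp only [rls124, List.mem_cons, List.not_mem_nil, or_false] at hG
  rcases hG with rfl | rfl | rfl | rfl | rfl | rfl | rfl | rfl | rfl | rfl | rfl | rfl | rfl | rfl | rfl | rfl | rfl | rfl | rfl | rfl | rfl | rfl | rfl | rfl | rfl | rfl | rfl | rfl | rfl | rfl | rfl | rfl | rfl | rfl | rfl | rfl | rfl | rfl | rfl | rfl | rfl | rfl | rfl | rfl | rfl | rfl | rfl | rfl | rfl | rfl | rfl | rfl | rfl | rfl | rfl | rfl | rfl | rfl | rfl | rfl | rfl | rfl | rfl | rfl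
  · exact ⟨_, fac7936⟩
  · exact ⟨_, fac7937⟩
  · exact ⟨_, fac7938⟩
  · exact ⟨_, fac7939⟩
  · exact ⟨_, fac7940⟩
  · exact ⟨_, fac7941⟩
  · exact ⟨_, fac7942⟩
  · exact ⟨_, fac7943⟩
  · exact ⟨_, fac7944⟩
  · exact ⟨_, fac7945⟩
  · exact ⟨_, fac7946⟩
  · exact ⟨_, fac7947⟩
  · exact ⟨_, fac7948⟩
  · exact ⟨_, fac7949⟩
  · exact ⟨_, fac7950⟩
  · exact ⟨_, fac7951⟩
  · exact ⟨_, fac7952⟩
  · exact ⟨_, fac7953⟩
  · exact ⟨_, fac7954⟩
  · exact ⟨_, fac7955⟩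
  · exact ⟨_, fac7956⟩
  · exact ⟨_, fac7957⟩
  · exact ⟨_, fac7958⟩
  · exact ⟨_, fac7959⟩
  · exact ⟨_, fac7960⟩
  · exact ⟨_, fac7961⟩
  · exact ⟨_, fac7962⟩
  · exact ⟨_, fac7963⟩
  · exact ⟨_, fac7964⟩
  · exact ⟨_, fac7965⟩
  · exact ⟨_, fac7966⟩
  · exact ⟨_, fac7967⟩
  · exact ⟨_, fac7968⟩
  · exact ⟨_, fac7969⟩
  · exact ⟨_, fac7970⟩
  · exact ⟨_, fac7971⟩
  · exact ⟨_, fac7972⟩
  · exact ⟨_, fac7973⟩
  · exact ⟨_, fac7974⟩
  · exact ⟨_, fac7975⟩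
  · exact ⟨_, fac7976⟩
  · exact ⟨_, fac7977⟩
  · exact ⟨_, fac7978⟩
  · exact ⟨_, fac7979⟩
  · exact ⟨_, fac7980⟩
  · exact ⟨_, fac7981⟩
  · exact ⟨_, fac7982⟩
  · exact ⟨_, fac7983⟩
  · exact ⟨_, fac7984⟩
  · exact ⟨_, fac7985⟩
  · exact ⟨_, fac7986⟩
  · exact ⟨_, fac7987⟩
  · exact ⟨_, fac7988⟩
  · exact ⟨_, fac7989⟩
  · exact ⟨_, fac7990⟩
  · exact ⟨_, fac7991⟩
  · exact ⟨_, fac7992⟩
  · exact ⟨_, fac7993⟩
  · exact ⟨_, fac7994⟩
  · exact ⟨_, fac7995⟩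
  · exact ⟨_, fac7996⟩
  · exact ⟨_, fac7997⟩
  · exact ⟨_, fac7998⟩
  · exact ⟨_, fac7999⟩

theorem good124 : bx124.GoodK ((an : ℝ) / 100) (L.map (ITerm.term den)) (L2.map (ITerm.term den))
    (KL.map (KI.term den)) delta :=
  goodK_of_checkR an den (by decide) L L2 KL dtbl dtbl_ok rfl codes posN rowsA rowsB rowsC rows_tbl 12 256 8 72 b0 28 22
    (by decide) parts_ok (by decide +kernel) slice_ok lit_ok 1 (by decide +kernel) delta bx124 hd124
    (by decide) rls124 rls_ok124 (by decide) (planOf lams124) 190 dD124 dE124 els124 rfl pay124 delta_le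
    (fun b hb => by
      interval_cases b
      · exact bucket124_0
      · exact bucket124_1
      · exact bucket124_2
      · exact bucket124_3
      · exact bucket124_4
      · exact bucket124_5
      · exact bucket124_6
      · exact bucket124_7)

end Vale.Agent.P098.Exact.Sos6.Q93
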