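import Vale.Agent.P098.Exact.Sos6.Q93.Common
import Vale.Agent.P098.Exact.Sos6.Q93.Box125B0
import Vale.Agent.P098.Exact.Sos6.Q93.Box125B1
import Vale.Agent.P098.Exact.Sos6.Q93.Box125B2
import Vale.Agent.P098.Exact.Sos6.Q93.Box125B3
import Vale.Agent.P098.Exact.Sos6.Q93.Box125B4
import Vale.Agent.P098.Exact.Sos6.Q93.Box125B5
import Vale.Agent.P098.Exact.Sos6.Q93.Box125B6
import Vale.Agent.P098.Exact.Sos6.Q93.Box125B7

/-! Generated data of the dimension six interior check. -/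

noncomputable section

namespace Vale.Agent.P098.Exact.Sos6.Q93

set_option maxRecDepth 100000

theorem pay125 : dtbl.payOK 190 dD125 dE125 (elTot els125) = true := by decide +kernel

theorem rls_ok125 : ∀ G ∈ rls125, ∃ Ns, tbl.facR 72 b0 28 22 Ns G = true := by
  intro G hG
  simp only [rls125, List.mem_cons, List.not_mem_nil, or_false] at hG
  rcases hG with rfl | rfl | rfl | rfl | rfl | rfl | rfl | rfl | rfl | rfl | rfl | rfl | rfl | rfl | rfl | rfl | rfl | rfl | rfl | rfl | rfl | rfl | rfl | rfl | rfl | rfl | rfl | rfl | rfl | rfl | rfl | rfl | rfl | rfl | rfl | rfl | rfl | rfl | rfl | rfl | rfl | rfl | rfl | rfl | rfl | rfl | rfl | rfl | rfl | rfl | rfl | rfl | rfl | rfl | rfl | rfl | rfl | rfl | rfl | rfl | rfl | rfl | rfl | rfl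
  · exact ⟨_, fac8000⟩
  · exact ⟨_, fac8001⟩
  · exact ⟨_, fac8002⟩
  · exact ⟨_, fac8003⟩
  · exact ⟨_, fac8004⟩
  · exact ⟨_, fac8005⟩
  · exact ⟨_, fac8006⟩
  · exact ⟨_, fac8007⟩
  · exact ⟨_, fac8008⟩
  · exact ⟨_, fac8009⟩
  · exact ⟨_, fac8010⟩
  · exact ⟨_, fac8011⟩
  · exact ⟨_, fac8012⟩
  · exact ⟨_, fac8013⟩
  · exact ⟨_, fac8014⟩
  · exact ⟨_, fac8015⟩
  · exact ⟨_, fac8016⟩
  · exact ⟨_, fac8017⟩
  · exact ⟨_, fac8018⟩
  · exact ⟨_, fac8019⟩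
  · exact ⟨_, fac8020⟩
  · exact ⟨_, fac8021⟩
  · exact ⟨_, fac8022⟩
  · exact ⟨_, fac8023⟩
  · exact ⟨_, fac8024⟩
  · exact ⟨_, fac8025⟩
  · exact ⟨_, fac8026⟩
  · exact ⟨_, fac8027⟩
  · exact ⟨_, fac8028⟩
  · exact ⟨_, fac8029⟩
  · exact ⟨_, fac8030⟩
  · exact ⟨_, fac8031⟩
  · exact ⟨_, fac8032⟩
  · exact ⟨_, fac8033⟩
  · exact ⟨_, fac8034⟩
  · exact ⟨_, fac8035⟩
  · exact ⟨_, fac8036⟩
  · exact ⟨_, fac8037⟩
  · exact ⟨_, fac8038⟩
  · exact ⟨_, fac8039⟩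
  · exact ⟨_, fac8040⟩
  · exact ⟨_, fac8041⟩
  · exact ⟨_, fac8042⟩
  · exact ⟨_, fac8043⟩
  · exact ⟨_, fac8044⟩
  · exact ⟨_, fac8045⟩
  · exact ⟨_, fac8046⟩
  · exact ⟨_, fac8047⟩
  · exact ⟨_, fac8048⟩
  · exact ⟨_, fac8049⟩
  · exact ⟨_, fac8050⟩
  · exact ⟨_, fac8051⟩
  · exact ⟨_, fac8052⟩
  · exact ⟨_, fac8053⟩
  · exact ⟨_, fac8054⟩
  · exact ⟨_, fac8055⟩
  · exact ⟨_, fac8056⟩
  · exact ⟨_, fac8057⟩
  · exact ⟨_, fac8058⟩
  · exact ⟨_, fac8059⟩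
  · exact ⟨_, fac8060⟩
  · exact ⟨_, fac8061⟩
  · exact ⟨_, fac8062⟩
  · exact ⟨_, fac8063⟩

theorem good125 : bx125.GoodK ((an : ℝ) / 100) (L.map (ITerm.term den)) (L2.map (ITerm.term den))
    (KL.map (KI.term den)) delta :=
  goodK_of_checkR an den (by decide) L L2 KL dtbl dtbl_ok rfl codes posN rowsA rowsB rowsC rows_tbl 12 256 8 72 b0 28 22
    (by decide) parts_ok (by decide +kernel) slice_ok lit_ok 1 (by decide +kernel) delta bx125 hd125
    (by decide) rls125 rls_ok125 (by decide) (planOf lams125) 190 dD125 dE125 els125 rfl pay125 delta_le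
    (fun b hb => by
      interval_cases b
      · exact bucket125_0
      · exact bucket125_1
      · exact bucket125_2
      · exact bucket125_3
      · exact bucket125_4
      · exact bucket125_5
      · exact bucket125_6
      · exact bucket125_7)

end Vale.Agent.P098.Exact.Sos6.Q93
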