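import Vale.Agent.P098.Exact.Sos6.Q93.Common
import Vale.Agent.P098.Exact.Sos6.Q93.Box126B0
import Vale.Agent.P098.Exact.Sos6.Q93.Box126B1
import Vale.Agent.P098.Exact.Sos6.Q93.Box126B2
import Vale.Agent.P098.Exact.Sos6.Q93.Box126B3
import Vale.Agent.P098.Exact.Sos6.Q93.Box126B4
import Vale.Agent.P098.Exact.Sos6.Q93.Box126B5
import Vale.Agent.P098.Exact.Sos6.Q93.Box126B6
import Vale.Agent.P098.Exact.Sos6.Q93.Box126B7

/-! Generated data of the dimension six interior check. -/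

noncomputable section

namespace Vale.Agent.P098.Exact.Sos6.Q93

set_option maxRecDepth 100000

theorem pay126 : dtbl.payOK 190 dD126 dE126 (elTot els126) = true := by decide +kernel

theorem rls_ok126 : ∀ G ∈ rls126, ∃ Ns, tbl.facR 72 b0 28 22 Ns G = true := by
  intro G hG
  simp only [rls126, List.mem_cons, List.not_mem_nil, or_false] at hG
  rcases hG with rfl | rfl | rfl | rfl | rfl | rfl | rfl | rfl | rfl | rfl | rfl | rfl | rfl | rfl | rfl | rfl | rfl | rfl | rfl | rfl | rfl | rfl | rfl | rfl | rfl | rfl | rfl | rfl | rfl | rfl | rfl | rfl | rfl | rfl | rfl | rfl | rfl | rfl | rfl | rfl | rfl | rfl | rfl | rfl | rfl | rfl | rfl | rfl | rfl | rfl | rfl | rfl | rfl | rfl | rfl | rfl | rfl | rfl | rfl | rfl | rfl | rfl | rfl | rfl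
  · exact ⟨_, fac8064⟩
  · exact ⟨_, fac8065⟩
  · exact ⟨_, fac8066⟩
  · exact ⟨_, fac8067⟩
  · exact ⟨_, fac8068⟩
  · exact ⟨_, fac8069⟩
  · exact ⟨_, fac8070⟩
  · exact ⟨_, fac8071⟩
  · exact ⟨_, fac8072⟩
  · exact ⟨_, fac8073⟩
  · exact ⟨_, fac8074⟩
  · exact ⟨_, fac8075⟩
  · exact ⟨_, fac8076⟩
  · exact ⟨_, fac8077⟩
  · exact ⟨_, fac8078⟩
  · exact ⟨_, fac8079⟩
  · exact ⟨_, fac8080⟩
  · exact ⟨_, fac8081⟩
  · exact ⟨_, fac8082⟩
  · exact ⟨_, fac8083⟩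
  · exact ⟨_, fac8084⟩
  · exact ⟨_, fac8085⟩
  · exact ⟨_, fac8086⟩
  · exact ⟨_, fac8087⟩
  · exact ⟨_, fac8088⟩
  · exact ⟨_, fac8089⟩
  · exact ⟨_, fac8090⟩
  · exact ⟨_, fac8091⟩
  · exact ⟨_, fac8092⟩
  · exact ⟨_, fac8093⟩
  · exact ⟨_, fac8094⟩
  · exact ⟨_, fac8095⟩
  · exact ⟨_, fac8096⟩
  · exact ⟨_, fac8097⟩
  · exact ⟨_, fac8098⟩
  · exact ⟨_, fac8099⟩
  · exact ⟨_, fac8100⟩
  · exact ⟨_, fac8101⟩
  · exact ⟨_, fac8102⟩
  · exact ⟨_, fac8103⟩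
  · exact ⟨_, fac8104⟩
  · exact ⟨_, fac8105⟩
  · exact ⟨_, fac8106⟩
  · exact ⟨_, fac8107⟩
  · exact ⟨_, fac8108⟩
  · exact ⟨_, fac8109⟩
  · exact ⟨_, fac8110⟩
  · exact ⟨_, fac8111⟩
  · exact ⟨_, fac8112⟩
  · exact ⟨_, fac8113⟩
  · exact ⟨_, fac8114⟩
  · exact ⟨_, fac8115⟩
  · exact ⟨_, fac8116⟩
  · exact ⟨_, fac8117⟩
  · exact ⟨_, fac8118⟩
  · exact ⟨_, fac8119⟩
  · exact ⟨_, fac8120⟩
  · exact ⟨_, fac8121⟩
  · exact ⟨_, fac8122⟩
  · exact ⟨_, fac8123⟩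
  · exact ⟨_, fac8124⟩
  · exact ⟨_, fac8125⟩
  · exact ⟨_, fac8126⟩
  · exact ⟨_, fac8127⟩

theorem good126 : bx126.GoodK ((an : ℝ) / 100) (L.map (ITerm.term den)) (L2.map (ITerm.term den))
    (KL.map (KI.term den)) delta :=
  goodK_of_checkR an den (by decide) L L2 KL dtbl dtbl_ok rfl codes posN rowsA rowsB rowsC rows_tbl 12 256 8 72 b0 28 22
    (by decide) parts_ok (by decide +kernel) slice_ok lit_ok 1 (by decide +kernel) delta bx126 hd126
    (by decide) rls126 rls_ok126 (by decide) (planOf lams126) 190 dD126 dE126 els126 rfl pay126 delta_le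
    (fun b hb => by
      interval_cases b
      · exact bucket126_0
      · exact bucket126_1
      · exact bucket126_2
      · exact bucket126_3
      · exact bucket126_4
      · exact bucket126_5
      · exact bucket126_6
      · exact bucket126_7)

end Vale.Agent.P098.Exact.Sos6.Q93
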