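import Vale.Agent.P098.Exact.Sos6.Q93.Common
import Vale.Agent.P098.Exact.Sos6.Q93.Box127B0
import Vale.Agent.P098.Exact.Sos6.Q93.Box127B1
import Vale.Agent.P098.Exact.Sos6.Q93.Box127B2
import Vale.Agent.P098.Exact.Sos6.Q93.Box127B3
import Vale.Agent.P098.Exact.Sos6.Q93.Box127B4
import Vale.Agent.P098.Exact.Sos6.Q93.Box127B5
import Vale.Agent.P098.Exact.Sos6.Q93.Box127B6
import Vale.Agent.P098.Exact.Sos6.Q93.Box127B7

/-! Generated data of the dimension six interior check. -/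

noncomputable section

namespace Vale.Agent.P098.Exact.Sos6.Q93

set_option maxRecDepth 100000

theorem pay127 : dtbl.payOK 190 dD127 dE127 (elTot els127) = true := by decide +kernel

theorem rls_ok127 : ∀ G ∈ rls127, ∃ Ns, tbl.facR 72 b0 28 22 Ns G = true := by
  intro G hG
  simp only [rls127, List.mem_cons, List.not_mem_nil, or_false] at hG
  rcases hG with rfl | rfl | rfl | rfl | rfl | rfl | rfl | rfl | rfl | rfl | rfl | rfl | rfl | rfl | rfl | rfl | rfl | rfl | rfl | rfl | rfl | rfl | rfl | rfl | rfl | rfl | rfl | rfl | rfl | rfl | rfl | rfl | rfl | rfl | rfl | rfl | rfl | rfl | rfl | rfl | rfl | rfl | rfl | rfl | rfl | rfl | rfl | rfl | rfl | rfl | rfl | rfl | rfl | rfl | rfl | rfl | rfl | rfl | rfl | rfl | rfl | rfl | rfl | rfl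
  · exact ⟨_, fac8128⟩
  · exact ⟨_, fac8129⟩
  · exact ⟨_, fac8130⟩
  · exact ⟨_, fac8131⟩
  · exact ⟨_, fac8132⟩
  · exact ⟨_, fac8133⟩
  · exact ⟨_, fac8134⟩
  · exact ⟨_, fac8135⟩
  · exact ⟨_, fac8136⟩
  · exact ⟨_, fac8137⟩
  · exact ⟨_, fac8138⟩
  · exact ⟨_, fac8139⟩
  · exact ⟨_, fac8140⟩
  · exact ⟨_, fac8141⟩
  · exact ⟨_, fac8142⟩
  · exact ⟨_, fac8143⟩
  · exact ⟨_, fac8144⟩
  · exact ⟨_, fac8145⟩
  · exact ⟨_, fac8146⟩
  · exact ⟨_, fac8147⟩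
  · exact ⟨_, fac8148⟩
  · exact ⟨_, fac8149⟩
  · exact ⟨_, fac8150⟩
  · exact ⟨_, fac8151⟩
  · exact ⟨_, fac8152⟩
  · exact ⟨_, fac8153⟩
  · exact ⟨_, fac8154⟩
  · exact ⟨_, fac8155⟩
  · exact ⟨_, fac8156⟩
  · exact ⟨_, fac8157⟩
  · exact ⟨_, fac8158⟩
  · exact ⟨_, fac8159⟩
  · exact ⟨_, fac8160⟩
  · exact ⟨_, fac8161⟩
  · exact ⟨_, fac8162⟩
  · exact ⟨_, fac8163⟩
  · exact ⟨_, fac8164⟩
  · exact ⟨_, fac8165⟩
  · exact ⟨_, fac8166⟩
  · exact ⟨_, fac8167⟩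
  · exact ⟨_, fac8168⟩
  · exact ⟨_, fac8169⟩
  · exact ⟨_, fac8170⟩
  · exact ⟨_, fac8171⟩
  · exact ⟨_, fac8172⟩
  · exact ⟨_, fac8173⟩
  · exact ⟨_, fac8174⟩
  · exact ⟨_, fac8175⟩
  · exact ⟨_, fac8176⟩
  · exact ⟨_, fac8177⟩
  · exact ⟨_, fac8178⟩
  · exact ⟨_, fac8179⟩
  · exact ⟨_, fac8180⟩
  · exact ⟨_, fac8181⟩
  · exact ⟨_, fac8182⟩
  · exact ⟨_, fac8183⟩
  · exact ⟨_, fac8184⟩
  · exact ⟨_, fac8185⟩
  · exact ⟨_, fac8186⟩
  · exact ⟨_, fac8187⟩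
  · exact ⟨_, fac8188⟩
  · exact ⟨_, fac8189⟩
  · exact ⟨_, fac8190⟩
  · exact ⟨_, fac8191⟩

theorem good127 : bx127.GoodK ((an : ℝ) / 100) (L.map (ITerm.term den)) (L2.map (ITerm.term den))
    (KL.map (KI.term den)) delta :=
  goodK_of_checkR an den (by decide) L L2 KL dtbl dtbl_ok rfl codes posN rowsA rowsB rowsC rows_tbl 12 256 8 72 b0 28 22
    (by decide) parts_ok (by decide +kernel) slice_ok lit_ok 1 (by decide +kernel) delta bx127 hd127
    (by decide) rls127 rls_ok127 (by decide) (planOf lams127) 190 dD127 dE127 els127 rfl pay127 delta_le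
    (fun b hb => by
      interval_cases b
      · exact bucket127_0
      · exact bucket127_1
      · exact bucket127_2
      · exact bucket127_3
      · exact bucket127_4
      · exact bucket127_5
      · exact bucket127_6
      · exact bucket127_7)

end Vale.Agent.P098.Exact.Sos6.Q93
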