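import Vale.Agent.P098.Exact.Sos6.Q93.Common
import Vale.Agent.P098.Exact.Sos6.Q93.Box128B0
import Vale.Agent.P098.Exact.Sos6.Q93.Box128B1
import Vale.Agent.P098.Exact.Sos6.Q93.Box128B2
import Vale.Agent.P098.Exact.Sos6.Q93.Box128B3
import Vale.Agent.P098.Exact.Sos6.Q93.Box128B4
import Vale.Agent.P098.Exact.Sos6.Q93.Box128B5
import Vale.Agent.P098.Exact.Sos6.Q93.Box128B6
import Vale.Agent.P098.Exact.Sos6.Q93.Box128B7

/-! Generated data of the dimension six interior check. -/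

noncomputable section

namespace Vale.Agent.P098.Exact.Sos6.Q93

set_option maxRecDepth 100000

theorem pay128 : dtbl.payOK 190 dD128 dE128 (elTot els128) = true := by decide +kernel

theorem rls_ok128 : ∀ G ∈ rls128, ∃ Ns, tbl.facR 72 b0 28 22 Ns G = true := by
  intro G hG
  simp only [rls128, List.mem_cons, List.not_mem_nil, or_false] at hG
  rcases hG with rfl | rfl | rfl | rfl | rfl | rfl | rfl | rfl | rfl | rfl | rfl | rfl | rfl | rfl | rfl | rfl | rfl | rfl | rfl | rfl | rfl | rfl | rfl | rfl | rfl | rfl | rfl | rfl | rfl | rfl | rfl | rfl | rfl | rfl | rfl | rfl | rfl | rfl | rfl | rfl | rfl | rfl | rfl | rfl | rfl | rfl | rfl | rfl | rfl | rfl | rfl | rfl | rfl | rfl | rfl | rfl | rfl | rfl | rfl | rfl | rfl | rfl | rfl | rfl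
  · exact ⟨_, fac8192⟩
  · exact ⟨_, fac8193⟩
  · exact ⟨_, fac8194⟩
  · exact ⟨_, fac8195⟩
  · exact ⟨_, fac8196⟩
  · exact ⟨_, fac8197⟩
  · exact ⟨_, fac8198⟩
  · exact ⟨_, fac8199⟩
  · exact ⟨_, fac8200⟩
  · exact ⟨_, fac8201⟩
  · exact ⟨_, fac8202⟩
  · exact ⟨_, fac8203⟩
  · exact ⟨_, fac8204⟩
  · exact ⟨_, fac8205⟩
  · exact ⟨_, fac8206⟩
  · exact ⟨_, fac8207⟩
  · exact ⟨_, fac8208⟩
  · exact ⟨_, fac8209⟩
  · exact ⟨_, fac8210⟩
  · exact ⟨_, fac8211⟩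
  · exact ⟨_, fac8212⟩
  · exact ⟨_, fac8213⟩
  · exact ⟨_, fac8214⟩
  · exact ⟨_, fac8215⟩
  · exact ⟨_, fac8216⟩
  · exact ⟨_, fac8217⟩
  · exact ⟨_, fac8218⟩
  · exact ⟨_, fac8219⟩
  · exact ⟨_, fac8220⟩
  · exact ⟨_, fac8221⟩
  · exact ⟨_, fac8222⟩
  · exact ⟨_, fac8223⟩
  · exact ⟨_, fac8224⟩
  · exact ⟨_, fac8225⟩
  · exact ⟨_, fac8226⟩
  · exact ⟨_, fac8227⟩
  · exact ⟨_, fac8228⟩
  · exact ⟨_, fac8229⟩
  · exact ⟨_, fac8230⟩
  · exact ⟨_, fac8231⟩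
  · exact ⟨_, fac8232⟩
  · exact ⟨_, fac8233⟩
  · exact ⟨_, fac8234⟩
  · exact ⟨_, fac8235⟩
  · exact ⟨_, fac8236⟩
  · exact ⟨_, fac8237⟩
  · exact ⟨_, fac8238⟩
  · exact ⟨_, fac8239⟩
  · exact ⟨_, fac8240⟩
  · exact ⟨_, fac8241⟩
  · exact ⟨_, fac8242⟩
  · exact ⟨_, fac8243⟩
  · exact ⟨_, fac8244⟩
  · exact ⟨_, fac8245⟩
  · exact ⟨_, fac8246⟩
  · exact ⟨_, fac8247⟩
  · exact ⟨_, fac8248⟩
  · exact ⟨_, fac8249⟩
  · exact ⟨_, fac8250⟩
  · exact ⟨_, fac8251⟩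
  · exact ⟨_, fac8252⟩
  · exact ⟨_, fac8253⟩
  · exact ⟨_, fac8254⟩
  · exact ⟨_, fac8255⟩

theorem good128 : bx128.GoodK ((an : ℝ) / 100) (L.map (ITerm.term den)) (L2.map (ITerm.term den))
    (KL.map (KI.term den)) delta :=
  goodK_of_checkR an den (by decide) L L2 KL dtbl dtbl_ok rfl codes posN rowsA rowsB rowsC rows_tbl 12 256 8 72 b0 28 22
    (by decide) parts_ok (by decide +kernel) slice_ok lit_ok 1 (by decide +kernel) delta bx128 hd128
    (by decide) rls128 rls_ok128 (by decide) (planOf lams128) 190 dD128 dE128 els128 rfl pay128 delta_le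
    (fun b hb => by
      interval_cases b
      · exact bucket128_0
      · exact bucket128_1
      · exact bucket128_2
      · exact bucket128_3
      · exact bucket128_4
      · exact bucket128_5
      · exact bucket128_6
      · exact bucket128_7)

end Vale.Agent.P098.Exact.Sos6.Q93
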