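import Vale.Agent.P098.Exact.Sos6.Q93.Common
import Vale.Agent.P098.Exact.Sos6.Q93.Box129B0
import Vale.Agent.P098.Exact.Sos6.Q93.Box129B1
import Vale.Agent.P098.Exact.Sos6.Q93.Box129B2
import Vale.Agent.P098.Exact.Sos6.Q93.Box129B3
import Vale.Agent.P098.Exact.Sos6.Q93.Box129B4
import Vale.Agent.P098.Exact.Sos6.Q93.Box129B5
import Vale.Agent.P098.Exact.Sos6.Q93.Box129B6
import Vale.Agent.P098.Exact.Sos6.Q93.Box129B7

/-! Generated data of the dimension six interior check. -/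

noncomputable section

namespace Vale.Agent.P098.Exact.Sos6.Q93

set_option maxRecDepth 100000

theorem pay129 : dtbl.payOK 190 dD129 dE129 (elTot els129) = true := by decide +kernel

theorem rls_ok129 : ∀ G ∈ rls129, ∃ Ns, tbl.facR 72 b0 28 22 Ns G = true := by
  intro G hG
  simp only [rls129, List.mem_cons, List.not_mem_nil, or_false] at hG
  rcases hG with rfl | rfl | rfl | rfl | rfl | rfl | rfl | rfl | rfl | rfl | rfl | rfl | rfl | rfl | rfl | rfl | rfl | rfl | rfl | rfl | rfl | rfl | rfl | rfl | rfl | rfl | rfl | rfl | rfl | rfl | rfl | rfl | rfl | rfl | rfl | rfl | rfl | rfl | rfl | rfl | rfl | rfl | rfl | rfl | rfl | rfl | rfl | rfl | rfl | rfl | rfl | rfl | rfl | rfl | rfl | rfl | rfl | rfl | rfl | rfl | rfl | rfl | rfl | rfl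
  · exact ⟨_, fac8256⟩
  · exact ⟨_, fac8257⟩
  · exact ⟨_, fac8258⟩
  · exact ⟨_, fac8259⟩
  · exact ⟨_, fac8260⟩
  · exact ⟨_, fac8261⟩
  · exact ⟨_, fac8262⟩
  · exact ⟨_, fac8263⟩
  · exact ⟨_, fac8264⟩
  · exact ⟨_, fac8265⟩
  · exact ⟨_, fac8266⟩
  · exact ⟨_, fac8267⟩
  · exact ⟨_, fac8268⟩
  · exact ⟨_, fac8269⟩
  · exact ⟨_, fac8270⟩
  · exact ⟨_, fac8271⟩
  · exact ⟨_, fac8272⟩
  · exact ⟨_, fac8273⟩
  · exact ⟨_, fac8274⟩
  · exact ⟨_, fac8275⟩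
  · exact ⟨_, fac8276⟩
  · exact ⟨_, fac8277⟩
  · exact ⟨_, fac8278⟩
  · exact ⟨_, fac8279⟩
  · exact ⟨_, fac8280⟩
  · exact ⟨_, fac8281⟩
  · exact ⟨_, fac8282⟩
  · exact ⟨_, fac8283⟩
  · exact ⟨_, fac8284⟩
  · exact ⟨_, fac8285⟩
  · exact ⟨_, fac8286⟩
  · exact ⟨_, fac8287⟩
  · exact ⟨_, fac8288⟩
  · exact ⟨_, fac8289⟩
  · exact ⟨_, fac8290⟩
  · exact ⟨_, fac8291⟩
  · exact ⟨_, fac8292⟩
  · exact ⟨_, fac8293⟩
  · exact ⟨_, fac8294⟩
  · exact ⟨_, fac8295⟩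
  · exact ⟨_, fac8296⟩
  · exact ⟨_, fac8297⟩
  · exact ⟨_, fac8298⟩
  · exact ⟨_, fac8299⟩
  · exact ⟨_, fac8300⟩
  · exact ⟨_, fac8301⟩
  · exact ⟨_, fac8302⟩
  · exact ⟨_, fac8303⟩
  · exact ⟨_, fac8304⟩
  · exact ⟨_, fac8305⟩
  · exact ⟨_, fac8306⟩
  · exact ⟨_, fac8307⟩
  · exact ⟨_, fac8308⟩
  · exact ⟨_, fac8309⟩
  · exact ⟨_, fac8310⟩
  · exact ⟨_, fac8311⟩
  · exact ⟨_, fac8312⟩
  · exact ⟨_, fac8313⟩
  · exact ⟨_, fac8314⟩
  · exact ⟨_, fac8315⟩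
  · exact ⟨_, fac8316⟩
  · exact ⟨_, fac8317⟩
  · exact ⟨_, fac8318⟩
  · exact ⟨_, fac8319⟩

theorem good129 : bx129.GoodK ((an : ℝ) / 100) (L.map (ITerm.term den)) (L2.map (ITerm.term den))
    (KL.map (KI.term den)) delta :=
  goodK_of_checkR an den (by decide) L L2 KL dtbl dtbl_ok rfl codes posN rowsA rowsB rowsC rows_tbl 12 256 8 72 b0 28 22
    (by decide) parts_ok (by decide +kernel) slice_ok lit_ok 1 (by decide +kernel) delta bx129 hd129
    (by decide) rls129 rls_ok129 (by decide) (planOf lams129) 190 dD129 dE129 els129 rfl pay129 delta_le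
    (fun b hb => by
      interval_cases b
      · exact bucket129_0
      · exact bucket129_1
      · exact bucket129_2
      · exact bucket129_3
      · exact bucket129_4
      · exact bucket129_5
      · exact bucket129_6
      · exact bucket129_7)

end Vale.Agent.P098.Exact.Sos6.Q93
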