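import Vale.Agent.P098.Exact.Sos6.Q93.Common
import Vale.Agent.P098.Exact.Sos6.Q93.Box12B0
import Vale.Agent.P098.Exact.Sos6.Q93.Box12B1
import Vale.Agent.P098.Exact.Sos6.Q93.Box12B2
import Vale.Agent.P098.Exact.Sos6.Q93.Box12B3
import Vale.Agent.P098.Exact.Sos6.Q93.Box12B4
import Vale.Agent.P098.Exact.Sos6.Q93.Box12B5
import Vale.Agent.P098.Exact.Sos6.Q93.Box12B6
import Vale.Agent.P098.Exact.Sos6.Q93.Box12B7

/-! Generated data of the dimension six interior check. -/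

noncomputable section

namespace Vale.Agent.P098.Exact.Sos6.Q93

set_option maxRecDepth 100000

theorem pay12 : dtbl.payOK 190 dD12 dE12 (elTot els12) = true := by decide +kernel

theorem rls_ok12 : ∀ G ∈ rls12, ∃ Ns, tbl.facR 72 b0 28 22 Ns G = true := by
  intro G hG
  simp only [rls12, List.mem_cons, List.not_mem_nil, or_false] at hG
  rcases hG with rfl | rfl | rfl | rfl | rfl | rfl | rfl | rfl | rfl | rfl | rfl | rfl | rfl | rfl | rfl | rfl | rfl | rfl | rfl | rfl | rfl | rfl | rfl | rfl | rfl | rfl | rfl | rfl | rfl | rfl | rfl | rfl | rfl | rfl | rfl | rfl | rfl | rfl | rfl | rfl | rfl | rfl | rfl | rfl | rfl | rfl | rfl | rfl | rfl | rfl | rfl | rfl | rfl | rfl | rfl | rfl | rfl | rfl | rfl | rfl | rfl | rfl | rfl | rfl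
  · exact ⟨_, fac768⟩
  · exact ⟨_, fac769⟩
  · exact ⟨_, fac770⟩
  · exact ⟨_, fac771⟩
  · exact ⟨_, fac772⟩
  · exact ⟨_, fac773⟩
  · exact ⟨_, fac774⟩
  · exact ⟨_, fac775⟩
  · exact ⟨_, fac776⟩
  · exact ⟨_, fac777⟩
  · exact ⟨_, fac778⟩
  · exact ⟨_, fac779⟩
  · exact ⟨_, fac780⟩
  · exact ⟨_, fac781⟩
  · exact ⟨_, fac782⟩
  · exact ⟨_, fac783⟩
  · exact ⟨_, fac784⟩
  · exact ⟨_, fac785⟩
  · exact ⟨_, fac786⟩
  · exact ⟨_, fac787⟩
  · exact ⟨_, fac788⟩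
  · exact ⟨_, fac789⟩
  · exact ⟨_, fac790⟩
  · exact ⟨_, fac791⟩
  · exact ⟨_, fac792⟩
  · exact ⟨_, fac793⟩
  · exact ⟨_, fac794⟩
  · exact ⟨_, fac795⟩
  · exact ⟨_, fac796⟩
  · exact ⟨_, fac797⟩
  · exact ⟨_, fac798⟩
  · exact ⟨_, fac799⟩
  · exact ⟨_, fac800⟩
  · exact ⟨_, fac801⟩
  · exact ⟨_, fac802⟩
  · exact ⟨_, fac803⟩
  · exact ⟨_, fac804⟩
  · exact ⟨_, fac805⟩
  · exact ⟨_, fac806⟩
  · exact ⟨_, fac807⟩
  · exact ⟨_, fac808⟩
  · exact ⟨_, fac809⟩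
  · exact ⟨_, fac810⟩
  · exact ⟨_, fac811⟩
  · exact ⟨_, fac812⟩
  · exact ⟨_, fac813⟩
  · exact ⟨_, fac814⟩
  · exact ⟨_, fac815⟩
  · exact ⟨_, fac816⟩
  · exact ⟨_, fac817⟩
  · exact ⟨_, fac818⟩
  · exact ⟨_, fac819⟩
  · exact ⟨_, fac820⟩
  · exact ⟨_, fac821⟩
  · exact ⟨_, fac822⟩
  · exact ⟨_, fac823⟩
  · exact ⟨_, fac824⟩
  · exact ⟨_, fac825⟩
  · exact ⟨_, fac826⟩
  · exact ⟨_, fac827⟩
  · exact ⟨_, fac828⟩
  · exact ⟨_, fac829⟩
  · exact ⟨_, fac830⟩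
  · exact ⟨_, fac831⟩

theorem good12 : bx12.GoodK ((an : ℝ) / 100) (L.map (ITerm.term den)) (L2.map (ITerm.term den))
    (KL.map (KI.term den)) delta :=
  goodK_of_checkR an den (by decide) L L2 KL dtbl dtbl_ok rfl codes posN rowsA rowsB rowsC rows_tbl 12 256 8 72 b0 28 22
    (by decide) parts_ok (by decide +kernel) slice_ok lit_ok 1 (by decide +kernel) delta bx12 hd12
    (by decide) rls12 rls_ok12 (by decide) (planOf lams12) 190 dD12 dE12 els12 rfl pay12 delta_le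
    (fun b hb => by
      interval_cases b
      · exact bucket12_0
      · exact bucket12_1
      · exact bucket12_2
      · exact bucket12_3
      · exact bucket12_4
      · exact bucket12_5
      · exact bucket12_6
      · exact bucket12_7)

end Vale.Agent.P098.Exact.Sos6.Q93
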