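import Vale.Agent.P098.Exact.Sos6.Q93.Common
import Vale.Agent.P098.Exact.Sos6.Q93.Box130B0
import Vale.Agent.P098.Exact.Sos6.Q93.Box130B1
import Vale.Agent.P098.Exact.Sos6.Q93.Box130B2
import Vale.Agent.P098.Exact.Sos6.Q93.Box130B3
import Vale.Agent.P098.Exact.Sos6.Q93.Box130B4
import Vale.Agent.P098.Exact.Sos6.Q93.Box130B5
import Vale.Agent.P098.Exact.Sos6.Q93.Box130B6
import Vale.Agent.P098.Exact.Sos6.Q93.Box130B7

/-! Generated data of the dimension six interior check. -/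

noncomputable section

namespace Vale.Agent.P098.Exact.Sos6.Q93

set_option maxRecDepth 100000

theorem pay130 : dtbl.payOK 190 dD130 dE130 (elTot els130) = true := by decide +kernel

theorem rls_ok130 : ∀ G ∈ rls130, ∃ Ns, tbl.facR 72 b0 28 22 Ns G = true := by
  intro G hG
  simp only [rls130, List.mem_cons, List.not_mem_nil, or_false] at hG
  rcases hG with rfl | rfl | rfl | rfl | rfl | rfl | rfl | rfl | rfl | rfl | rfl | rfl | rfl | rfl | rfl | rfl | rfl | rfl | rfl | rfl | rfl | rfl | rfl | rfl | rfl | rfl | rfl | rfl | rfl | rfl | rfl | rfl | rfl | rfl | rfl | rfl | rfl | rfl | rfl | rfl | rfl | rfl | rfl | rfl | rfl | rfl | rfl | rfl | rfl | rfl | rfl | rfl | rfl | rfl | rfl | rfl | rfl | rfl | rfl | rfl | rfl | rfl | rfl | rfl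
  · exact ⟨_, fac8320⟩
  · exact ⟨_, fac8321⟩
  · exact ⟨_, fac8322⟩
  · exact ⟨_, fac8323⟩
  · exact ⟨_, fac8324⟩
  · exact ⟨_, fac8325⟩
  · exact ⟨_, fac8326⟩
  · exact ⟨_, fac8327⟩
  · exact ⟨_, fac8328⟩
  · exact ⟨_, fac8329⟩
  · exact ⟨_, fac8330⟩
  · exact ⟨_, fac8331⟩
  · exact ⟨_, fac8332⟩
  · exact ⟨_, fac8333⟩
  · exact ⟨_, fac8334⟩
  · exact ⟨_, fac8335⟩
  · exact ⟨_, fac8336⟩
  · exact ⟨_, fac8337⟩
  · exact ⟨_, fac8338⟩
  · exact ⟨_, fac8339⟩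
  · exact ⟨_, fac8340⟩
  · exact ⟨_, fac8341⟩
  · exact ⟨_, fac8342⟩
  · exact ⟨_, fac8343⟩
  · exact ⟨_, fac8344⟩
  · exact ⟨_, fac8345⟩
  · exact ⟨_, fac8346⟩
  · exact ⟨_, fac8347⟩
  · exact ⟨_, fac8348⟩
  · exact ⟨_, fac8349⟩
  · exact ⟨_, fac8350⟩
  · exact ⟨_, fac8351⟩
  · exact ⟨_, fac8352⟩
  · exact ⟨_, fac8353⟩
  · exact ⟨_, fac8354⟩
  · exact ⟨_, fac8355⟩
  · exact ⟨_, fac8356⟩
  · exact ⟨_, fac8357⟩
  · exact ⟨_, fac8358⟩
  · exact ⟨_, fac8359⟩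
  · exact ⟨_, fac8360⟩
  · exact ⟨_, fac8361⟩
  · exact ⟨_, fac8362⟩
  · exact ⟨_, fac8363⟩
  · exact ⟨_, fac8364⟩
  · exact ⟨_, fac8365⟩
  · exact ⟨_, fac8366⟩
  · exact ⟨_, fac8367⟩
  · exact ⟨_, fac8368⟩
  · exact ⟨_, fac8369⟩
  · exact ⟨_, fac8370⟩
  · exact ⟨_, fac8371⟩
  · exact ⟨_, fac8372⟩
  · exact ⟨_, fac8373⟩
  · exact ⟨_, fac8374⟩
  · exact ⟨_, fac8375⟩
  · exact ⟨_, fac8376⟩
  · exact ⟨_, fac8377⟩
  · exact ⟨_, fac8378⟩
  · exact ⟨_, fac8379⟩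
  · exact ⟨_, fac8380⟩
  · exact ⟨_, fac8381⟩
  · exact ⟨_, fac8382⟩
  · exact ⟨_, fac8383⟩

theorem good130 : bx130.GoodK ((an : ℝ) / 100) (L.map (ITerm.term den)) (L2.map (ITerm.term den))
    (KL.map (KI.term den)) delta :=
  goodK_of_checkR an den (by decide) L L2 KL dtbl dtbl_ok rfl codes posN rowsA rowsB rowsC rows_tbl 12 256 8 72 b0 28 22
    (by decide) parts_ok (by decide +kernel) slice_ok lit_ok 1 (by decide +kernel) delta bx130 hd130
    (by decide) rls130 rls_ok130 (by decide) (planOf lams130) 190 dD130 dE130 els130 rfl pay130 delta_le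
    (fun b hb => by
      interval_cases b
      · exact bucket130_0
      · exact bucket130_1
      · exact bucket130_2
      · exact bucket130_3
      · exact bucket130_4
      · exact bucket130_5
      · exact bucket130_6
      · exact bucket130_7)

end Vale.Agent.P098.Exact.Sos6.Q93
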