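import Vale.Agent.P098.Exact.Sos6.Q93.Common
import Vale.Agent.P098.Exact.Sos6.Q93.Box131B0
import Vale.Agent.P098.Exact.Sos6.Q93.Box131B1
import Vale.Agent.P098.Exact.Sos6.Q93.Box131B2
import Vale.Agent.P098.Exact.Sos6.Q93.Box131B3
import Vale.Agent.P098.Exact.Sos6.Q93.Box131B4
import Vale.Agent.P098.Exact.Sos6.Q93.Box131B5
import Vale.Agent.P098.Exact.Sos6.Q93.Box131B6
import Vale.Agent.P098.Exact.Sos6.Q93.Box131B7

/-! Generated data of the dimension six interior check. -/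

noncomputable section

namespace Vale.Agent.P098.Exact.Sos6.Q93

set_option maxRecDepth 100000

theorem pay131 : dtbl.payOK 190 dD131 dE131 (elTot els131) = true := by decide +kernel

theorem rls_ok131 : ∀ G ∈ rls131, ∃ Ns, tbl.facR 72 b0 28 22 Ns G = true := by
  intro G hG
  simp only [rls131, List.mem_cons, List.not_mem_nil, or_false] at hG
  rcases hG with rfl | rfl | rfl | rfl | rfl | rfl | rfl | rfl | rfl | rfl | rfl | rfl | rfl | rfl | rfl | rfl | rfl | rfl | rfl | rfl | rfl | rfl | rfl | rfl | rfl | rfl | rfl | rfl | rfl | rfl | rfl | rfl | rfl | rfl | rfl | rfl | rfl | rfl | rfl | rfl | rfl | rfl | rfl | rfl | rfl | rfl | rfl | rfl | rfl | rfl | rfl | rfl | rfl | rfl | rfl | rfl | rfl | rfl | rfl | rfl | rfl | rfl | rfl | rfl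
  · exact ⟨_, fac8384⟩
  · exact ⟨_, fac8385⟩
  · exact ⟨_, fac8386⟩
  · exact ⟨_, fac8387⟩
  · exact ⟨_, fac8388⟩
  · exact ⟨_, fac8389⟩
  · exact ⟨_, fac8390⟩
  · exact ⟨_, fac8391⟩
  · exact ⟨_, fac8392⟩
  · exact ⟨_, fac8393⟩
  · exact ⟨_, fac8394⟩
  · exact ⟨_, fac8395⟩
  · exact ⟨_, fac8396⟩
  · exact ⟨_, fac8397⟩
  · exact ⟨_, fac8398⟩
  · exact ⟨_, fac8399⟩
  · exact ⟨_, fac8400⟩
  · exact ⟨_, fac8401⟩
  · exact ⟨_, fac8402⟩
  · exact ⟨_, fac8403⟩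
  · exact ⟨_, fac8404⟩
  · exact ⟨_, fac8405⟩
  · exact ⟨_, fac8406⟩
  · exact ⟨_, fac8407⟩
  · exact ⟨_, fac8408⟩
  · exact ⟨_, fac8409⟩
  · exact ⟨_, fac8410⟩
  · exact ⟨_, fac8411⟩
  · exact ⟨_, fac8412⟩
  · exact ⟨_, fac8413⟩
  · exact ⟨_, fac8414⟩
  · exact ⟨_, fac8415⟩
  · exact ⟨_, fac8416⟩
  · exact ⟨_, fac8417⟩
  · exact ⟨_, fac8418⟩
  · exact ⟨_, fac8419⟩
  · exact ⟨_, fac8420⟩
  · exact ⟨_, fac8421⟩
  · exact ⟨_, fac8422⟩
  · exact ⟨_, fac8423⟩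
  · exact ⟨_, fac8424⟩
  · exact ⟨_, fac8425⟩
  · exact ⟨_, fac8426⟩
  · exact ⟨_, fac8427⟩
  · exact ⟨_, fac8428⟩
  · exact ⟨_, fac8429⟩
  · exact ⟨_, fac8430⟩
  · exact ⟨_, fac8431⟩
  · exact ⟨_, fac8432⟩
  · exact ⟨_, fac8433⟩
  · exact ⟨_, fac8434⟩
  · exact ⟨_, fac8435⟩
  · exact ⟨_, fac8436⟩
  · exact ⟨_, fac8437⟩
  · exact ⟨_, fac8438⟩
  · exact ⟨_, fac8439⟩
  · exact ⟨_, fac8440⟩
  · exact ⟨_, fac8441⟩
  · exact ⟨_, fac8442⟩
  · exact ⟨_, fac8443⟩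
  · exact ⟨_, fac8444⟩
  · exact ⟨_, fac8445⟩
  · exact ⟨_, fac8446⟩
  · exact ⟨_, fac8447⟩

theorem good131 : bx131.GoodK ((an : ℝ) / 100) (L.map (ITerm.term den)) (L2.map (ITerm.term den))
    (KL.map (KI.term den)) delta :=
  goodK_of_checkR an den (by decide) L L2 KL dtbl dtbl_ok rfl codes posN rowsA rowsB rowsC rows_tbl 12 256 8 72 b0 28 22
    (by decide) parts_ok (by decide +kernel) slice_ok lit_ok 1 (by decide +kernel) delta bx131 hd131
    (by decide) rls131 rls_ok131 (by decide) (planOf lams131) 190 dD131 dE131 els131 rfl pay131 delta_le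
    (fun b hb => by
      interval_cases b
      · exact bucket131_0
      · exact bucket131_1
      · exact bucket131_2
      · exact bucket131_3
      · exact bucket131_4
      · exact bucket131_5
      · exact bucket131_6
      · exact bucket131_7)

end Vale.Agent.P098.Exact.Sos6.Q93
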