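import Vale.Agent.P098.Exact.Sos6.Q93.Common
import Vale.Agent.P098.Exact.Sos6.Q93.Box132B0
import Vale.Agent.P098.Exact.Sos6.Q93.Box132B1
import Vale.Agent.P098.Exact.Sos6.Q93.Box132B2
import Vale.Agent.P098.Exact.Sos6.Q93.Box132B3
import Vale.Agent.P098.Exact.Sos6.Q93.Box132B4
import Vale.Agent.P098.Exact.Sos6.Q93.Box132B5
import Vale.Agent.P098.Exact.Sos6.Q93.Box132B6
import Vale.Agent.P098.Exact.Sos6.Q93.Box132B7

/-! Generated data of the dimension six interior check. -/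

noncomputable section

namespace Vale.Agent.P098.Exact.Sos6.Q93

set_option maxRecDepth 100000

theorem pay132 : dtbl.payOK 190 dD132 dE132 (elTot els132) = true := by decide +kernel

theorem rls_ok132 : ∀ G ∈ rls132, ∃ Ns, tbl.facR 72 b0 28 22 Ns G = true := by
  intro G hG
  simp only [rls132, List.mem_cons, List.not_mem_nil, or_false] at hG
  rcases hG with rfl | rfl | rfl | rfl | rfl | rfl | rfl | rfl | rfl | rfl | rfl | rfl | rfl | rfl | rfl | rfl | rfl | rfl | rfl | rfl | rfl | rfl | rfl | rfl | rfl | rfl | rfl | rfl | rfl | rfl | rfl | rfl | rfl | rfl | rfl | rfl | rfl | rfl | rfl | rfl | rfl | rfl | rfl | rfl | rfl | rfl | rfl | rfl | rfl | rfl | rfl | rfl | rfl | rfl | rfl | rfl | rfl | rfl | rfl | rfl | rfl | rfl | rfl | rfl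
  · exact ⟨_, fac8448⟩
  · exact ⟨_, fac8449⟩
  · exact ⟨_, fac8450⟩
  · exact ⟨_, fac8451⟩
  · exact ⟨_, fac8452⟩
  · exact ⟨_, fac8453⟩
  · exact ⟨_, fac8454⟩
  · exact ⟨_, fac8455⟩
  · exact ⟨_, fac8456⟩
  · exact ⟨_, fac8457⟩
  · exact ⟨_, fac8458⟩
  · exact ⟨_, fac8459⟩
  · exact ⟨_, fac8460⟩
  · exact ⟨_, fac8461⟩
  · exact ⟨_, fac8462⟩
  · exact ⟨_, fac8463⟩
  · exact ⟨_, fac8464⟩
  · exact ⟨_, fac8465⟩
  · exact ⟨_, fac8466⟩
  · exact ⟨_, fac8467⟩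
  · exact ⟨_, fac8468⟩
  · exact ⟨_, fac8469⟩
  · exact ⟨_, fac8470⟩
  · exact ⟨_, fac8471⟩
  · exact ⟨_, fac8472⟩
  · exact ⟨_, fac8473⟩
  · exact ⟨_, fac8474⟩
  · exact ⟨_, fac8475⟩
  · exact ⟨_, fac8476⟩
  · exact ⟨_, fac8477⟩
  · exact ⟨_, fac8478⟩
  · exact ⟨_, fac8479⟩
  · exact ⟨_, fac8480⟩
  · exact ⟨_, fac8481⟩
  · exact ⟨_, fac8482⟩
  · exact ⟨_, fac8483⟩
  · exact ⟨_, fac8484⟩
  · exact ⟨_, fac8485⟩
  · exact ⟨_, fac8486⟩
  · exact ⟨_, fac8487⟩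
  · exact ⟨_, fac8488⟩
  · exact ⟨_, fac8489⟩
  · exact ⟨_, fac8490⟩
  · exact ⟨_, fac8491⟩
  · exact ⟨_, fac8492⟩
  · exact ⟨_, fac8493⟩
  · exact ⟨_, fac8494⟩
  · exact ⟨_, fac8495⟩
  · exact ⟨_, fac8496⟩
  · exact ⟨_, fac8497⟩
  · exact ⟨_, fac8498⟩
  · exact ⟨_, fac8499⟩
  · exact ⟨_, fac8500⟩
  · exact ⟨_, fac8501⟩
  · exact ⟨_, fac8502⟩
  · exact ⟨_, fac8503⟩
  · exact ⟨_, fac8504⟩
  · exact ⟨_, fac8505⟩
  · exact ⟨_, fac8506⟩
  · exact ⟨_, fac8507⟩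
  · exact ⟨_, fac8508⟩
  · exact ⟨_, fac8509⟩
  · exact ⟨_, fac8510⟩
  · exact ⟨_, fac8511⟩

theorem good132 : bx132.GoodK ((an : ℝ) / 100) (L.map (ITerm.term den)) (L2.map (ITerm.term den))
    (KL.map (KI.term den)) delta :=
  goodK_of_checkR an den (by decide) L L2 KL dtbl dtbl_ok rfl codes posN rowsA rowsB rowsC rows_tbl 12 256 8 72 b0 28 22
    (by decide) parts_ok (by decide +kernel) slice_ok lit_ok 1 (by decide +kernel) delta bx132 hd132
    (by decide) rls132 rls_ok132 (by decide) (planOf lams132) 190 dD132 dE132 els132 rfl pay132 delta_le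
    (fun b hb => by
      interval_cases b
      · exact bucket132_0
      · exact bucket132_1
      · exact bucket132_2
      · exact bucket132_3
      · exact bucket132_4
      · exact bucket132_5
      · exact bucket132_6
      · exact bucket132_7)

end Vale.Agent.P098.Exact.Sos6.Q93
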