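import Vale.Agent.P098.Exact.Sos6.Q93.Common
import Vale.Agent.P098.Exact.Sos6.Q93.Box133B0
import Vale.Agent.P098.Exact.Sos6.Q93.Box133B1
import Vale.Agent.P098.Exact.Sos6.Q93.Box133B2
import Vale.Agent.P098.Exact.Sos6.Q93.Box133B3
import Vale.Agent.P098.Exact.Sos6.Q93.Box133B4
import Vale.Agent.P098.Exact.Sos6.Q93.Box133B5
import Vale.Agent.P098.Exact.Sos6.Q93.Box133B6
import Vale.Agent.P098.Exact.Sos6.Q93.Box133B7

/-! Generated data of the dimension six interior check. -/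

noncomputable section

namespace Vale.Agent.P098.Exact.Sos6.Q93

set_option maxRecDepth 100000

theorem pay133 : dtbl.payOK 190 dD133 dE133 (elTot els133) = true := by decide +kernel

theorem rls_ok133 : ∀ G ∈ rls133, ∃ Ns, tbl.facR 72 b0 28 22 Ns G = true := by
  intro G hG
  simp only [rls133, List.mem_cons, List.not_mem_nil, or_false] at hG
  rcases hG with rfl | rfl | rfl | rfl | rfl | rfl | rfl | rfl | rfl | rfl | rfl | rfl | rfl | rfl | rfl | rfl | rfl | rfl | rfl | rfl | rfl | rfl | rfl | rfl | rfl | rfl | rfl | rfl | rfl | rfl | rfl | rfl | rfl | rfl | rfl | rfl | rfl | rfl | rfl | rfl | rfl | rfl | rfl | rfl | rfl | rfl | rfl | rfl | rfl | rfl | rfl | rfl | rfl | rfl | rfl | rfl | rfl | rfl | rfl | rfl | rfl | rfl | rfl | rfl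
  · exact ⟨_, fac8512⟩
  · exact ⟨_, fac8513⟩
  · exact ⟨_, fac8514⟩
  · exact ⟨_, fac8515⟩
  · exact ⟨_, fac8516⟩
  · exact ⟨_, fac8517⟩
  · exact ⟨_, fac8518⟩
  · exact ⟨_, fac8519⟩
  · exact ⟨_, fac8520⟩
  · exact ⟨_, fac8521⟩
  · exact ⟨_, fac8522⟩
  · exact ⟨_, fac8523⟩
  · exact ⟨_, fac8524⟩
  · exact ⟨_, fac8525⟩
  · exact ⟨_, fac8526⟩
  · exact ⟨_, fac8527⟩
  · exact ⟨_, fac8528⟩
  · exact ⟨_, fac8529⟩
  · exact ⟨_, fac8530⟩
  · exact ⟨_, fac8531⟩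
  · exact ⟨_, fac8532⟩
  · exact ⟨_, fac8533⟩
  · exact ⟨_, fac8534⟩
  · exact ⟨_, fac8535⟩
  · exact ⟨_, fac8536⟩
  · exact ⟨_, fac8537⟩
  · exact ⟨_, fac8538⟩
  · exact ⟨_, fac8539⟩
  · exact ⟨_, fac8540⟩
  · exact ⟨_, fac8541⟩
  · exact ⟨_, fac8542⟩
  · exact ⟨_, fac8543⟩
  · exact ⟨_, fac8544⟩
  · exact ⟨_, fac8545⟩
  · exact ⟨_, fac8546⟩
  · exact ⟨_, fac8547⟩
  · exact ⟨_, fac8548⟩
  · exact ⟨_, fac8549⟩
  · exact ⟨_, fac8550⟩
  · exact ⟨_, fac8551⟩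
  · exact ⟨_, fac8552⟩
  · exact ⟨_, fac8553⟩
  · exact ⟨_, fac8554⟩
  · exact ⟨_, fac8555⟩
  · exact ⟨_, fac8556⟩
  · exact ⟨_, fac8557⟩
  · exact ⟨_, fac8558⟩
  · exact ⟨_, fac8559⟩
  · exact ⟨_, fac8560⟩
  · exact ⟨_, fac8561⟩
  · exact ⟨_, fac8562⟩
  · exact ⟨_, fac8563⟩
  · exact ⟨_, fac8564⟩
  · exact ⟨_, fac8565⟩
  · exact ⟨_, fac8566⟩
  · exact ⟨_, fac8567⟩
  · exact ⟨_, fac8568⟩
  · exact ⟨_, fac8569⟩
  · exact ⟨_, fac8570⟩
  · exact ⟨_, fac8571⟩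
  · exact ⟨_, fac8572⟩
  · exact ⟨_, fac8573⟩
  · exact ⟨_, fac8574⟩
  · exact ⟨_, fac8575⟩

theorem good133 : bx133.GoodK ((an : ℝ) / 100) (L.map (ITerm.term den)) (L2.map (ITerm.term den))
    (KL.map (KI.term den)) delta :=
  goodK_of_checkR an den (by decide) L L2 KL dtbl dtbl_ok rfl codes posN rowsA rowsB rowsC rows_tbl 12 256 8 72 b0 28 22
    (by decide) parts_ok (by decide +kernel) slice_ok lit_ok 1 (by decide +kernel) delta bx133 hd133
    (by decide) rls133 rls_ok133 (by decide) (planOf lams133) 190 dD133 dE133 els133 rfl pay133 delta_le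
    (fun b hb => by
      interval_cases b
      · exact bucket133_0
      · exact bucket133_1
      · exact bucket133_2
      · exact bucket133_3
      · exact bucket133_4
      · exact bucket133_5
      · exact bucket133_6
      · exact bucket133_7)

end Vale.Agent.P098.Exact.Sos6.Q93
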