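import Vale.Agent.P098.Exact.Sos6.Q93.Common
import Vale.Agent.P098.Exact.Sos6.Q93.Box134B0
import Vale.Agent.P098.Exact.Sos6.Q93.Box134B1
import Vale.Agent.P098.Exact.Sos6.Q93.Box134B2
import Vale.Agent.P098.Exact.Sos6.Q93.Box134B3
import Vale.Agent.P098.Exact.Sos6.Q93.Box134B4
import Vale.Agent.P098.Exact.Sos6.Q93.Box134B5
import Vale.Agent.P098.Exact.Sos6.Q93.Box134B6
import Vale.Agent.P098.Exact.Sos6.Q93.Box134B7

/-! Generated data of the dimension six interior check. -/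

noncomputable section

namespace Vale.Agent.P098.Exact.Sos6.Q93

set_option maxRecDepth 100000

theorem pay134 : dtbl.payOK 190 dD134 dE134 (elTot els134) = true := by decide +kernel

theorem rls_ok134 : ∀ G ∈ rls134, ∃ Ns, tbl.facR 72 b0 28 22 Ns G = true := by
  intro G hG
  simp only [rls134, List.mem_cons, List.not_mem_nil, or_false] at hG
  rcases hG with rfl | rfl | rfl | rfl | rfl | rfl | rfl | rfl | rfl | rfl | rfl | rfl | rfl | rfl | rfl | rfl | rfl | rfl | rfl | rfl | rfl | rfl | rfl | rfl | rfl | rfl | rfl | rfl | rfl | rfl | rfl | rfl | rfl | rfl | rfl | rfl | rfl | rfl | rfl | rfl | rfl | rfl | rfl | rfl | rfl | rfl | rfl | rfl | rfl | rfl | rfl | rfl | rfl | rfl | rfl | rfl | rfl | rfl | rfl | rfl | rfl | rfl | rfl | rfl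
  · exact ⟨_, fac8576⟩
  · exact ⟨_, fac8577⟩
  · exact ⟨_, fac8578⟩
  · exact ⟨_, fac8579⟩
  · exact ⟨_, fac8580⟩
  · exact ⟨_, fac8581⟩
  · exact ⟨_, fac8582⟩
  · exact ⟨_, fac8583⟩
  · exact ⟨_, fac8584⟩
  · exact ⟨_, fac8585⟩
  · exact ⟨_, fac8586⟩
  · exact ⟨_, fac8587⟩
  · exact ⟨_, fac8588⟩
  · exact ⟨_, fac8589⟩
  · exact ⟨_, fac8590⟩
  · exact ⟨_, fac8591⟩
  · exact ⟨_, fac8592⟩
  · exact ⟨_, fac8593⟩
  · exact ⟨_, fac8594⟩
  · exact ⟨_, fac8595⟩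
  · exact ⟨_, fac8596⟩
  · exact ⟨_, fac8597⟩
  · exact ⟨_, fac8598⟩
  · exact ⟨_, fac8599⟩
  · exact ⟨_, fac8600⟩
  · exact ⟨_, fac8601⟩
  · exact ⟨_, fac8602⟩
  · exact ⟨_, fac8603⟩
  · exact ⟨_, fac8604⟩
  · exact ⟨_, fac8605⟩
  · exact ⟨_, fac8606⟩
  · exact ⟨_, fac8607⟩
  · exact ⟨_, fac8608⟩
  · exact ⟨_, fac8609⟩
  · exact ⟨_, fac8610⟩
  · exact ⟨_, fac8611⟩
  · exact ⟨_, fac8612⟩
  · exact ⟨_, fac8613⟩
  · exact ⟨_, fac8614⟩
  · exact ⟨_, fac8615⟩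
  · exact ⟨_, fac8616⟩
  · exact ⟨_, fac8617⟩
  · exact ⟨_, fac8618⟩
  · exact ⟨_, fac8619⟩
  · exact ⟨_, fac8620⟩
  · exact ⟨_, fac8621⟩
  · exact ⟨_, fac8622⟩
  · exact ⟨_, fac8623⟩
  · exact ⟨_, fac8624⟩
  · exact ⟨_, fac8625⟩
  · exact ⟨_, fac8626⟩
  · exact ⟨_, fac8627⟩
  · exact ⟨_, fac8628⟩
  · exact ⟨_, fac8629⟩
  · exact ⟨_, fac8630⟩
  · exact ⟨_, fac8631⟩
  · exact ⟨_, fac8632⟩
  · exact ⟨_, fac8633⟩
  · exact ⟨_, fac8634⟩
  · exact ⟨_, fac8635⟩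
  · exact ⟨_, fac8636⟩
  · exact ⟨_, fac8637⟩
  · exact ⟨_, fac8638⟩
  · exact ⟨_, fac8639⟩

theorem good134 : bx134.GoodK ((an : ℝ) / 100) (L.map (ITerm.term den)) (L2.map (ITerm.term den))
    (KL.map (KI.term den)) delta :=
  goodK_of_checkR an den (by decide) L L2 KL dtbl dtbl_ok rfl codes posN rowsA rowsB rowsC rows_tbl 12 256 8 72 b0 28 22
    (by decide) parts_ok (by decide +kernel) slice_ok lit_ok 1 (by decide +kernel) delta bx134 hd134
    (by decide) rls134 rls_ok134 (by decide) (planOf lams134) 190 dD134 dE134 els134 rfl pay134 delta_le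
    (fun b hb => by
      interval_cases b
      · exact bucket134_0
      · exact bucket134_1
      · exact bucket134_2
      · exact bucket134_3
      · exact bucket134_4
      · exact bucket134_5
      · exact bucket134_6
      · exact bucket134_7)

end Vale.Agent.P098.Exact.Sos6.Q93
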