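import Vale.Agent.P098.Exact.Sos6.Q93.Common
import Vale.Agent.P098.Exact.Sos6.Q93.Box135B0
import Vale.Agent.P098.Exact.Sos6.Q93.Box135B1
import Vale.Agent.P098.Exact.Sos6.Q93.Box135B2
import Vale.Agent.P098.Exact.Sos6.Q93.Box135B3
import Vale.Agent.P098.Exact.Sos6.Q93.Box135B4
import Vale.Agent.P098.Exact.Sos6.Q93.Box135B5
import Vale.Agent.P098.Exact.Sos6.Q93.Box135B6
import Vale.Agent.P098.Exact.Sos6.Q93.Box135B7

/-! Generated data of the dimension six interior check. -/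

noncomputable section

namespace Vale.Agent.P098.Exact.Sos6.Q93

set_option maxRecDepth 100000

theorem pay135 : dtbl.payOK 190 dD135 dE135 (elTot els135) = true := by decide +kernel

theorem rls_ok135 : ∀ G ∈ rls135, ∃ Ns, tbl.facR 72 b0 28 22 Ns G = true := by
  intro G hG
  simp only [rls135, List.mem_cons, List.not_mem_nil, or_false] at hG
  rcases hG with rfl | rfl | rfl | rfl | rfl | rfl | rfl | rfl | rfl | rfl | rfl | rfl | rfl | rfl | rfl | rfl | rfl | rfl | rfl | rfl | rfl | rfl | rfl | rfl | rfl | rfl | rfl | rfl | rfl | rfl | rfl | rfl | rfl | rfl | rfl | rfl | rfl | rfl | rfl | rfl | rfl | rfl | rfl | rfl | rfl | rfl | rfl | rfl | rfl | rfl | rfl | rfl | rfl | rfl | rfl | rfl | rfl | rfl | rfl | rfl | rfl | rfl | rfl | rfl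
  · exact ⟨_, fac8640⟩
  · exact ⟨_, fac8641⟩
  · exact ⟨_, fac8642⟩
  · exact ⟨_, fac8643⟩
  · exact ⟨_, fac8644⟩
  · exact ⟨_, fac8645⟩
  · exact ⟨_, fac8646⟩
  · exact ⟨_, fac8647⟩
  · exact ⟨_, fac8648⟩
  · exact ⟨_, fac8649⟩
  · exact ⟨_, fac8650⟩
  · exact ⟨_, fac8651⟩
  · exact ⟨_, fac8652⟩
  · exact ⟨_, fac8653⟩
  · exact ⟨_, fac8654⟩
  · exact ⟨_, fac8655⟩
  · exact ⟨_, fac8656⟩
  · exact ⟨_, fac8657⟩
  · exact ⟨_, fac8658⟩
  · exact ⟨_, fac8659⟩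
  · exact ⟨_, fac8660⟩
  · exact ⟨_, fac8661⟩
  · exact ⟨_, fac8662⟩
  · exact ⟨_, fac8663⟩
  · exact ⟨_, fac8664⟩
  · exact ⟨_, fac8665⟩
  · exact ⟨_, fac8666⟩
  · exact ⟨_, fac8667⟩
  · exact ⟨_, fac8668⟩
  · exact ⟨_, fac8669⟩
  · exact ⟨_, fac8670⟩
  · exact ⟨_, fac8671⟩
  · exact ⟨_, fac8672⟩
  · exact ⟨_, fac8673⟩
  · exact ⟨_, fac8674⟩
  · exact ⟨_, fac8675⟩
  · exact ⟨_, fac8676⟩
  · exact ⟨_, fac8677⟩
  · exact ⟨_, fac8678⟩
  · exact ⟨_, fac8679⟩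
  · exact ⟨_, fac8680⟩
  · exact ⟨_, fac8681⟩
  · exact ⟨_, fac8682⟩
  · exact ⟨_, fac8683⟩
  · exact ⟨_, fac8684⟩
  · exact ⟨_, fac8685⟩
  · exact ⟨_, fac8686⟩
  · exact ⟨_, fac8687⟩
  · exact ⟨_, fac8688⟩
  · exact ⟨_, fac8689⟩
  · exact ⟨_, fac8690⟩
  · exact ⟨_, fac8691⟩
  · exact ⟨_, fac8692⟩
  · exact ⟨_, fac8693⟩
  · exact ⟨_, fac8694⟩
  · exact ⟨_, fac8695⟩
  · exact ⟨_, fac8696⟩
  · exact ⟨_, fac8697⟩
  · exact ⟨_, fac8698⟩
  · exact ⟨_, fac8699⟩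
  · exact ⟨_, fac8700⟩
  · exact ⟨_, fac8701⟩
  · exact ⟨_, fac8702⟩
  · exact ⟨_, fac8703⟩

theorem good135 : bx135.GoodK ((an : ℝ) / 100) (L.map (ITerm.term den)) (L2.map (ITerm.term den))
    (KL.map (KI.term den)) delta :=
  goodK_of_checkR an den (by decide) L L2 KL dtbl dtbl_ok rfl codes posN rowsA rowsB rowsC rows_tbl 12 256 8 72 b0 28 22
    (by decide) parts_ok (by decide +kernel) slice_ok lit_ok 1 (by decide +kernel) delta bx135 hd135
    (by decide) rls135 rls_ok135 (by decide) (planOf lams135) 190 dD135 dE135 els135 rfl pay135 delta_le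
    (fun b hb => by
      interval_cases b
      · exact bucket135_0
      · exact bucket135_1
      · exact bucket135_2
      · exact bucket135_3
      · exact bucket135_4
      · exact bucket135_5
      · exact bucket135_6
      · exact bucket135_7)

end Vale.Agent.P098.Exact.Sos6.Q93
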