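import Vale.Agent.P098.Exact.Sos6.Q93.Common
import Vale.Agent.P098.Exact.Sos6.Q93.Box136B0
import Vale.Agent.P098.Exact.Sos6.Q93.Box136B1
import Vale.Agent.P098.Exact.Sos6.Q93.Box136B2
import Vale.Agent.P098.Exact.Sos6.Q93.Box136B3
import Vale.Agent.P098.Exact.Sos6.Q93.Box136B4
import Vale.Agent.P098.Exact.Sos6.Q93.Box136B5
import Vale.Agent.P098.Exact.Sos6.Q93.Box136B6
import Vale.Agent.P098.Exact.Sos6.Q93.Box136B7

/-! Generated data of the dimension six interior check. -/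

noncomputable section

namespace Vale.Agent.P098.Exact.Sos6.Q93

set_option maxRecDepth 100000

theorem pay136 : dtbl.payOK 190 dD136 dE136 (elTot els136) = true := by decide +kernel

theorem rls_ok136 : ∀ G ∈ rls136, ∃ Ns, tbl.facR 72 b0 28 22 Ns G = true := by
  intro G hG
  simp only [rls136, List.mem_cons, List.not_mem_nil, or_false] at hG
  rcases hG with rfl | rfl | rfl | rfl | rfl | rfl | rfl | rfl | rfl | rfl | rfl | rfl | rfl | rfl | rfl | rfl | rfl | rfl | rfl | rfl | rfl | rfl | rfl | rfl | rfl | rfl | rfl | rfl | rfl | rfl | rfl | rfl | rfl | rfl | rfl | rfl | rfl | rfl | rfl | rfl | rfl | rfl | rfl | rfl | rfl | rfl | rfl | rfl | rfl | rfl | rfl | rfl | rfl | rfl | rfl | rfl | rfl | rfl | rfl | rfl | rfl | rfl | rfl | rfl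
  · exact ⟨_, fac8704⟩
  · exact ⟨_, fac8705⟩
  · exact ⟨_, fac8706⟩
  · exact ⟨_, fac8707⟩
  · exact ⟨_, fac8708⟩
  · exact ⟨_, fac8709⟩
  · exact ⟨_, fac8710⟩
  · exact ⟨_, fac8711⟩
  · exact ⟨_, fac8712⟩
  · exact ⟨_, fac8713⟩
  · exact ⟨_, fac8714⟩
  · exact ⟨_, fac8715⟩
  · exact ⟨_, fac8716⟩
  · exact ⟨_, fac8717⟩
  · exact ⟨_, fac8718⟩
  · exact ⟨_, fac8719⟩
  · exact ⟨_, fac8720⟩
  · exact ⟨_, fac8721⟩
  · exact ⟨_, fac8722⟩
  · exact ⟨_, fac8723⟩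
  · exact ⟨_, fac8724⟩
  · exact ⟨_, fac8725⟩
  · exact ⟨_, fac8726⟩
  · exact ⟨_, fac8727⟩
  · exact ⟨_, fac8728⟩
  · exact ⟨_, fac8729⟩
  · exact ⟨_, fac8730⟩
  · exact ⟨_, fac8731⟩
  · exact ⟨_, fac8732⟩
  · exact ⟨_, fac8733⟩
  · exact ⟨_, fac8734⟩
  · exact ⟨_, fac8735⟩
  · exact ⟨_, fac8736⟩
  · exact ⟨_, fac8737⟩
  · exact ⟨_, fac8738⟩
  · exact ⟨_, fac8739⟩
  · exact ⟨_, fac8740⟩
  · exact ⟨_, fac8741⟩
  · exact ⟨_, fac8742⟩
  · exact ⟨_, fac8743⟩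
  · exact ⟨_, fac8744⟩
  · exact ⟨_, fac8745⟩
  · exact ⟨_, fac8746⟩
  · exact ⟨_, fac8747⟩
  · exact ⟨_, fac8748⟩
  · exact ⟨_, fac8749⟩
  · exact ⟨_, fac8750⟩
  · exact ⟨_, fac8751⟩
  · exact ⟨_, fac8752⟩
  · exact ⟨_, fac8753⟩
  · exact ⟨_, fac8754⟩
  · exact ⟨_, fac8755⟩
  · exact ⟨_, fac8756⟩
  · exact ⟨_, fac8757⟩
  · exact ⟨_, fac8758⟩
  · exact ⟨_, fac8759⟩
  · exact ⟨_, fac8760⟩
  · exact ⟨_, fac8761⟩
  · exact ⟨_, fac8762⟩
  · exact ⟨_, fac8763⟩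
  · exact ⟨_, fac8764⟩
  · exact ⟨_, fac8765⟩
  · exact ⟨_, fac8766⟩
  · exact ⟨_, fac8767⟩

theorem good136 : bx136.GoodK ((an : ℝ) / 100) (L.map (ITerm.term den)) (L2.map (ITerm.term den))
    (KL.map (KI.term den)) delta :=
  goodK_of_checkR an den (by decide) L L2 KL dtbl dtbl_ok rfl codes posN rowsA rowsB rowsC rows_tbl 12 256 8 72 b0 28 22
    (by decide) parts_ok (by decide +kernel) slice_ok lit_ok 1 (by decide +kernel) delta bx136 hd136
    (by decide) rls136 rls_ok136 (by decide) (planOf lams136) 190 dD136 dE136 els136 rfl pay136 delta_le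
    (fun b hb => by
      interval_cases b
      · exact bucket136_0
      · exact bucket136_1
      · exact bucket136_2
      · exact bucket136_3
      · exact bucket136_4
      · exact bucket136_5
      · exact bucket136_6
      · exact bucket136_7)

end Vale.Agent.P098.Exact.Sos6.Q93
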