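import Vale.Agent.P098.Exact.Sos6.Q93.Common
import Vale.Agent.P098.Exact.Sos6.Q93.Box137B0
import Vale.Agent.P098.Exact.Sos6.Q93.Box137B1
import Vale.Agent.P098.Exact.Sos6.Q93.Box137B2
import Vale.Agent.P098.Exact.Sos6.Q93.Box137B3
import Vale.Agent.P098.Exact.Sos6.Q93.Box137B4
import Vale.Agent.P098.Exact.Sos6.Q93.Box137B5
import Vale.Agent.P098.Exact.Sos6.Q93.Box137B6
import Vale.Agent.P098.Exact.Sos6.Q93.Box137B7

/-! Generated data of the dimension six interior check. -/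

noncomputable section

namespace Vale.Agent.P098.Exact.Sos6.Q93

set_option maxRecDepth 100000

theorem pay137 : dtbl.payOK 190 dD137 dE137 (elTot els137) = true := by decide +kernel

theorem rls_ok137 : ∀ G ∈ rls137, ∃ Ns, tbl.facR 72 b0 28 22 Ns G = true := by
  intro G hG
  simp only [rls137, List.mem_cons, List.not_mem_nil, or_false] at hG
  rcases hG with rfl | rfl | rfl | rfl | rfl | rfl | rfl | rfl | rfl | rfl | rfl | rfl | rfl | rfl | rfl | rfl | rfl | rfl | rfl | rfl | rfl | rfl | rfl | rfl | rfl | rfl | rfl | rfl | rfl | rfl | rfl | rfl | rfl | rfl | rfl | rfl | rfl | rfl | rfl | rfl | rfl | rfl | rfl | rfl | rfl | rfl | rfl | rfl | rfl | rfl | rfl | rfl | rfl | rfl | rfl | rfl | rfl | rfl | rfl | rfl | rfl | rfl | rfl | rfl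
  · exact ⟨_, fac8768⟩
  · exact ⟨_, fac8769⟩
  · exact ⟨_, fac8770⟩
  · exact ⟨_, fac8771⟩
  · exact ⟨_, fac8772⟩
  · exact ⟨_, fac8773⟩
  · exact ⟨_, fac8774⟩
  · exact ⟨_, fac8775⟩
  · exact ⟨_, fac8776⟩
  · exact ⟨_, fac8777⟩
  · exact ⟨_, fac8778⟩
  · exact ⟨_, fac8779⟩
  · exact ⟨_, fac8780⟩
  · exact ⟨_, fac8781⟩
  · exact ⟨_, fac8782⟩
  · exact ⟨_, fac8783⟩
  · exact ⟨_, fac8784⟩
  · exact ⟨_, fac8785⟩
  · exact ⟨_, fac8786⟩
  · exact ⟨_, fac8787⟩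
  · exact ⟨_, fac8788⟩
  · exact ⟨_, fac8789⟩
  · exact ⟨_, fac8790⟩
  · exact ⟨_, fac8791⟩
  · exact ⟨_, fac8792⟩
  · exact ⟨_, fac8793⟩
  · exact ⟨_, fac8794⟩
  · exact ⟨_, fac8795⟩
  · exact ⟨_, fac8796⟩
  · exact ⟨_, fac8797⟩
  · exact ⟨_, fac8798⟩
  · exact ⟨_, fac8799⟩
  · exact ⟨_, fac8800⟩
  · exact ⟨_, fac8801⟩
  · exact ⟨_, fac8802⟩
  · exact ⟨_, fac8803⟩
  · exact ⟨_, fac8804⟩
  · exact ⟨_, fac8805⟩
  · exact ⟨_, fac8806⟩
  · exact ⟨_, fac8807⟩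
  · exact ⟨_, fac8808⟩
  · exact ⟨_, fac8809⟩
  · exact ⟨_, fac8810⟩
  · exact ⟨_, fac8811⟩
  · exact ⟨_, fac8812⟩
  · exact ⟨_, fac8813⟩
  · exact ⟨_, fac8814⟩
  · exact ⟨_, fac8815⟩
  · exact ⟨_, fac8816⟩
  · exact ⟨_, fac8817⟩
  · exact ⟨_, fac8818⟩
  · exact ⟨_, fac8819⟩
  · exact ⟨_, fac8820⟩
  · exact ⟨_, fac8821⟩
  · exact ⟨_, fac8822⟩
  · exact ⟨_, fac8823⟩
  · exact ⟨_, fac8824⟩
  · exact ⟨_, fac8825⟩
  · exact ⟨_, fac8826⟩
  · exact ⟨_, fac8827⟩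
  · exact ⟨_, fac8828⟩
  · exact ⟨_, fac8829⟩
  · exact ⟨_, fac8830⟩
  · exact ⟨_, fac8831⟩

theorem good137 : bx137.GoodK ((an : ℝ) / 100) (L.map (ITerm.term den)) (L2.map (ITerm.term den))
    (KL.map (KI.term den)) delta :=
  goodK_of_checkR an den (by decide) L L2 KL dtbl dtbl_ok rfl codes posN rowsA rowsB rowsC rows_tbl 12 256 8 72 b0 28 22
    (by decide) parts_ok (by decide +kernel) slice_ok lit_ok 1 (by decide +kernel) delta bx137 hd137
    (by decide) rls137 rls_ok137 (by decide) (planOf lams137) 190 dD137 dE137 els137 rfl pay137 delta_le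
    (fun b hb => by
      interval_cases b
      · exact bucket137_0
      · exact bucket137_1
      · exact bucket137_2
      · exact bucket137_3
      · exact bucket137_4
      · exact bucket137_5
      · exact bucket137_6
      · exact bucket137_7)

end Vale.Agent.P098.Exact.Sos6.Q93
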