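import Vale.Agent.P098.Exact.Sos6.Q93.Common
import Vale.Agent.P098.Exact.Sos6.Q93.Box138B0
import Vale.Agent.P098.Exact.Sos6.Q93.Box138B1
import Vale.Agent.P098.Exact.Sos6.Q93.Box138B2
import Vale.Agent.P098.Exact.Sos6.Q93.Box138B3
import Vale.Agent.P098.Exact.Sos6.Q93.Box138B4
import Vale.Agent.P098.Exact.Sos6.Q93.Box138B5
import Vale.Agent.P098.Exact.Sos6.Q93.Box138B6
import Vale.Agent.P098.Exact.Sos6.Q93.Box138B7

/-! Generated data of the dimension six interior check. -/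

noncomputable section

namespace Vale.Agent.P098.Exact.Sos6.Q93

set_option maxRecDepth 100000

theorem pay138 : dtbl.payOK 190 dD138 dE138 (elTot els138) = true := by decide +kernel

theorem rls_ok138 : ∀ G ∈ rls138, ∃ Ns, tbl.facR 72 b0 28 22 Ns G = true := by
  intro G hG
  simp only [rls138, List.mem_cons, List.not_mem_nil, or_false] at hG
  rcases hG with rfl | rfl | rfl | rfl | rfl | rfl | rfl | rfl | rfl | rfl | rfl | rfl | rfl | rfl | rfl | rfl | rfl | rfl | rfl | rfl | rfl | rfl | rfl | rfl | rfl | rfl | rfl | rfl | rfl | rfl | rfl | rfl | rfl | rfl | rfl | rfl | rfl | rfl | rfl | rfl | rfl | rfl | rfl | rfl | rfl | rfl | rfl | rfl | rfl | rfl | rfl | rfl | rfl | rfl | rfl | rfl | rfl | rfl | rfl | rfl | rfl | rfl | rfl | rfl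
  · exact ⟨_, fac8832⟩
  · exact ⟨_, fac8833⟩
  · exact ⟨_, fac8834⟩
  · exact ⟨_, fac8835⟩
  · exact ⟨_, fac8836⟩
  · exact ⟨_, fac8837⟩
  · exact ⟨_, fac8838⟩
  · exact ⟨_, fac8839⟩
  · exact ⟨_, fac8840⟩
  · exact ⟨_, fac8841⟩
  · exact ⟨_, fac8842⟩
  · exact ⟨_, fac8843⟩
  · exact ⟨_, fac8844⟩
  · exact ⟨_, fac8845⟩
  · exact ⟨_, fac8846⟩
  · exact ⟨_, fac8847⟩
  · exact ⟨_, fac8848⟩
  · exact ⟨_, fac8849⟩
  · exact ⟨_, fac8850⟩
  · exact ⟨_, fac8851⟩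
  · exact ⟨_, fac8852⟩
  · exact ⟨_, fac8853⟩
  · exact ⟨_, fac8854⟩
  · exact ⟨_, fac8855⟩
  · exact ⟨_, fac8856⟩
  · exact ⟨_, fac8857⟩
  · exact ⟨_, fac8858⟩
  · exact ⟨_, fac8859⟩
  · exact ⟨_, fac8860⟩
  · exact ⟨_, fac8861⟩
  · exact ⟨_, fac8862⟩
  · exact ⟨_, fac8863⟩
  · exact ⟨_, fac8864⟩
  · exact ⟨_, fac8865⟩
  · exact ⟨_, fac8866⟩
  · exact ⟨_, fac8867⟩
  · exact ⟨_, fac8868⟩
  · exact ⟨_, fac8869⟩
  · exact ⟨_, fac8870⟩
  · exact ⟨_, fac8871⟩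
  · exact ⟨_, fac8872⟩
  · exact ⟨_, fac8873⟩
  · exact ⟨_, fac8874⟩
  · exact ⟨_, fac8875⟩
  · exact ⟨_, fac8876⟩
  · exact ⟨_, fac8877⟩
  · exact ⟨_, fac8878⟩
  · exact ⟨_, fac8879⟩
  · exact ⟨_, fac8880⟩
  · exact ⟨_, fac8881⟩
  · exact ⟨_, fac8882⟩
  · exact ⟨_, fac8883⟩
  · exact ⟨_, fac8884⟩
  · exact ⟨_, fac8885⟩
  · exact ⟨_, fac8886⟩
  · exact ⟨_, fac8887⟩
  · exact ⟨_, fac8888⟩
  · exact ⟨_, fac8889⟩
  · exact ⟨_, fac8890⟩
  · exact ⟨_, fac8891⟩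
  · exact ⟨_, fac8892⟩
  · exact ⟨_, fac8893⟩
  · exact ⟨_, fac8894⟩
  · exact ⟨_, fac8895⟩

theorem good138 : bx138.GoodK ((an : ℝ) / 100) (L.map (ITerm.term den)) (L2.map (ITerm.term den))
    (KL.map (KI.term den)) delta :=
  goodK_of_checkR an den (by decide) L L2 KL dtbl dtbl_ok rfl codes posN rowsA rowsB rowsC rows_tbl 12 256 8 72 b0 28 22
    (by decide) parts_ok (by decide +kernel) slice_ok lit_ok 1 (by decide +kernel) delta bx138 hd138
    (by decide) rls138 rls_ok138 (by decide) (planOf lams138) 190 dD138 dE138 els138 rfl pay138 delta_le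
    (fun b hb => by
      interval_cases b
      · exact bucket138_0
      · exact bucket138_1
      · exact bucket138_2
      · exact bucket138_3
      · exact bucket138_4
      · exact bucket138_5
      · exact bucket138_6
      · exact bucket138_7)

end Vale.Agent.P098.Exact.Sos6.Q93
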