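import Vale.Agent.P098.Exact.Sos6.Q93.Common
import Vale.Agent.P098.Exact.Sos6.Q93.Box139B0
import Vale.Agent.P098.Exact.Sos6.Q93.Box139B1
import Vale.Agent.P098.Exact.Sos6.Q93.Box139B2
import Vale.Agent.P098.Exact.Sos6.Q93.Box139B3
import Vale.Agent.P098.Exact.Sos6.Q93.Box139B4
import Vale.Agent.P098.Exact.Sos6.Q93.Box139B5
import Vale.Agent.P098.Exact.Sos6.Q93.Box139B6
import Vale.Agent.P098.Exact.Sos6.Q93.Box139B7

/-! Generated data of the dimension six interior check. -/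

noncomputable section

namespace Vale.Agent.P098.Exact.Sos6.Q93

set_option maxRecDepth 100000

theorem pay139 : dtbl.payOK 190 dD139 dE139 (elTot els139) = true := by decide +kernel

theorem rls_ok139 : ∀ G ∈ rls139, ∃ Ns, tbl.facR 72 b0 28 22 Ns G = true := by
  intro G hG
  simp only [rls139, List.mem_cons, List.not_mem_nil, or_false] at hG
  rcases hG with rfl | rfl | rfl | rfl | rfl | rfl | rfl | rfl | rfl | rfl | rfl | rfl | rfl | rfl | rfl | rfl | rfl | rfl | rfl | rfl | rfl | rfl | rfl | rfl | rfl | rfl | rfl | rfl | rfl | rfl | rfl | rfl | rfl | rfl | rfl | rfl | rfl | rfl | rfl | rfl | rfl | rfl | rfl | rfl | rfl | rfl | rfl | rfl | rfl | rfl | rfl | rfl | rfl | rfl | rfl | rfl | rfl | rfl | rfl | rfl | rfl | rfl | rfl | rfl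
  · exact ⟨_, fac8896⟩
  · exact ⟨_, fac8897⟩
  · exact ⟨_, fac8898⟩
  · exact ⟨_, fac8899⟩
  · exact ⟨_, fac8900⟩
  · exact ⟨_, fac8901⟩
  · exact ⟨_, fac8902⟩
  · exact ⟨_, fac8903⟩
  · exact ⟨_, fac8904⟩
  · exact ⟨_, fac8905⟩
  · exact ⟨_, fac8906⟩
  · exact ⟨_, fac8907⟩
  · exact ⟨_, fac8908⟩
  · exact ⟨_, fac8909⟩
  · exact ⟨_, fac8910⟩
  · exact ⟨_, fac8911⟩
  · exact ⟨_, fac8912⟩
  · exact ⟨_, fac8913⟩
  · exact ⟨_, fac8914⟩
  · exact ⟨_, fac8915⟩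
  · exact ⟨_, fac8916⟩
  · exact ⟨_, fac8917⟩
  · exact ⟨_, fac8918⟩
  · exact ⟨_, fac8919⟩
  · exact ⟨_, fac8920⟩
  · exact ⟨_, fac8921⟩
  · exact ⟨_, fac8922⟩
  · exact ⟨_, fac8923⟩
  · exact ⟨_, fac8924⟩
  · exact ⟨_, fac8925⟩
  · exact ⟨_, fac8926⟩
  · exact ⟨_, fac8927⟩
  · exact ⟨_, fac8928⟩
  · exact ⟨_, fac8929⟩
  · exact ⟨_, fac8930⟩
  · exact ⟨_, fac8931⟩
  · exact ⟨_, fac8932⟩
  · exact ⟨_, fac8933⟩
  · exact ⟨_, fac8934⟩
  · exact ⟨_, fac8935⟩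
  · exact ⟨_, fac8936⟩
  · exact ⟨_, fac8937⟩
  · exact ⟨_, fac8938⟩
  · exact ⟨_, fac8939⟩
  · exact ⟨_, fac8940⟩
  · exact ⟨_, fac8941⟩
  · exact ⟨_, fac8942⟩
  · exact ⟨_, fac8943⟩
  · exact ⟨_, fac8944⟩
  · exact ⟨_, fac8945⟩
  · exact ⟨_, fac8946⟩
  · exact ⟨_, fac8947⟩
  · exact ⟨_, fac8948⟩
  · exact ⟨_, fac8949⟩
  · exact ⟨_, fac8950⟩
  · exact ⟨_, fac8951⟩
  · exact ⟨_, fac8952⟩
  · exact ⟨_, fac8953⟩
  · exact ⟨_, fac8954⟩
  · exact ⟨_, fac8955⟩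
  · exact ⟨_, fac8956⟩
  · exact ⟨_, fac8957⟩
  · exact ⟨_, fac8958⟩
  · exact ⟨_, fac8959⟩

theorem good139 : bx139.GoodK ((an : ℝ) / 100) (L.map (ITerm.term den)) (L2.map (ITerm.term den))
    (KL.map (KI.term den)) delta :=
  goodK_of_checkR an den (by decide) L L2 KL dtbl dtbl_ok rfl codes posN rowsA rowsB rowsC rows_tbl 12 256 8 72 b0 28 22
    (by decide) parts_ok (by decide +kernel) slice_ok lit_ok 1 (by decide +kernel) delta bx139 hd139
    (by decide) rls139 rls_ok139 (by decide) (planOf lams139) 190 dD139 dE139 els139 rfl pay139 delta_le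
    (fun b hb => by
      interval_cases b
      · exact bucket139_0
      · exact bucket139_1
      · exact bucket139_2
      · exact bucket139_3
      · exact bucket139_4
      · exact bucket139_5
      · exact bucket139_6
      · exact bucket139_7)

end Vale.Agent.P098.Exact.Sos6.Q93
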