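import Vale.Agent.P098.Exact.Sos6.Q93.Common
import Vale.Agent.P098.Exact.Sos6.Q93.Box13B0
import Vale.Agent.P098.Exact.Sos6.Q93.Box13B1
import Vale.Agent.P098.Exact.Sos6.Q93.Box13B2
import Vale.Agent.P098.Exact.Sos6.Q93.Box13B3
import Vale.Agent.P098.Exact.Sos6.Q93.Box13B4
import Vale.Agent.P098.Exact.Sos6.Q93.Box13B5
import Vale.Agent.P098.Exact.Sos6.Q93.Box13B6
import Vale.Agent.P098.Exact.Sos6.Q93.Box13B7

/-! Generated data of the dimension six interior check. -/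

noncomputable section

namespace Vale.Agent.P098.Exact.Sos6.Q93

set_option maxRecDepth 100000

theorem pay13 : dtbl.payOK 190 dD13 dE13 (elTot els13) = true := by decide +kernel

theorem rls_ok13 : ∀ G ∈ rls13, ∃ Ns, tbl.facR 72 b0 28 22 Ns G = true := by
  intro G hG
  simp only [rls13, List.mem_cons, List.not_mem_nil, or_false] at hG
  rcases hG with rfl | rfl | rfl | rfl | rfl | rfl | rfl | rfl | rfl | rfl | rfl | rfl | rfl | rfl | rfl | rfl | rfl | rfl | rfl | rfl | rfl | rfl | rfl | rfl | rfl | rfl | rfl | rfl | rfl | rfl | rfl | rfl | rfl | rfl | rfl | rfl | rfl | rfl | rfl | rfl | rfl | rfl | rfl | rfl | rfl | rfl | rfl | rfl | rfl | rfl | rfl | rfl | rfl | rfl | rfl | rfl | rfl | rfl | rfl | rfl | rfl | rfl | rfl | rfl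
  · exact ⟨_, fac832⟩
  · exact ⟨_, fac833⟩
  · exact ⟨_, fac834⟩
  · exact ⟨_, fac835⟩
  · exact ⟨_, fac836⟩
  · exact ⟨_, fac837⟩
  · exact ⟨_, fac838⟩
  · exact ⟨_, fac839⟩
  · exact ⟨_, fac840⟩
  · exact ⟨_, fac841⟩
  · exact ⟨_, fac842⟩
  · exact ⟨_, fac843⟩
  · exact ⟨_, fac844⟩
  · exact ⟨_, fac845⟩
  · exact ⟨_, fac846⟩
  · exact ⟨_, fac847⟩
  · exact ⟨_, fac848⟩
  · exact ⟨_, fac849⟩
  · exact ⟨_, fac850⟩
  · exact ⟨_, fac851⟩
  · exact ⟨_, fac852⟩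
  · exact ⟨_, fac853⟩
  · exact ⟨_, fac854⟩
  · exact ⟨_, fac855⟩
  · exact ⟨_, fac856⟩
  · exact ⟨_, fac857⟩
  · exact ⟨_, fac858⟩
  · exact ⟨_, fac859⟩
  · exact ⟨_, fac860⟩
  · exact ⟨_, fac861⟩
  · exact ⟨_, fac862⟩
  · exact ⟨_, fac863⟩
  · exact ⟨_, fac864⟩
  · exact ⟨_, fac865⟩
  · exact ⟨_, fac866⟩
  · exact ⟨_, fac867⟩
  · exact ⟨_, fac868⟩
  · exact ⟨_, fac869⟩
  · exact ⟨_, fac870⟩
  · exact ⟨_, fac871⟩
  · exact ⟨_, fac872⟩
  · exact ⟨_, fac873⟩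
  · exact ⟨_, fac874⟩
  · exact ⟨_, fac875⟩
  · exact ⟨_, fac876⟩
  · exact ⟨_, fac877⟩
  · exact ⟨_, fac878⟩
  · exact ⟨_, fac879⟩
  · exact ⟨_, fac880⟩
  · exact ⟨_, fac881⟩
  · exact ⟨_, fac882⟩
  · exact ⟨_, fac883⟩
  · exact ⟨_, fac884⟩
  · exact ⟨_, fac885⟩
  · exact ⟨_, fac886⟩
  · exact ⟨_, fac887⟩
  · exact ⟨_, fac888⟩
  · exact ⟨_, fac889⟩
  · exact ⟨_, fac890⟩
  · exact ⟨_, fac891⟩
  · exact ⟨_, fac892⟩
  · exact ⟨_, fac893⟩
  · exact ⟨_, fac894⟩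
  · exact ⟨_, fac895⟩

theorem good13 : bx13.GoodK ((an : ℝ) / 100) (L.map (ITerm.term den)) (L2.map (ITerm.term den))
    (KL.map (KI.term den)) delta :=
  goodK_of_checkR an den (by decide) L L2 KL dtbl dtbl_ok rfl codes posN rowsA rowsB rowsC rows_tbl 12 256 8 72 b0 28 22
    (by decide) parts_ok (by decide +kernel) slice_ok lit_ok 1 (by decide +kernel) delta bx13 hd13
    (by decide) rls13 rls_ok13 (by decide) (planOf lams13) 190 dD13 dE13 els13 rfl pay13 delta_le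
    (fun b hb => by
      interval_cases b
      · exact bucket13_0
      · exact bucket13_1
      · exact bucket13_2
      · exact bucket13_3
      · exact bucket13_4
      · exact bucket13_5
      · exact bucket13_6
      · exact bucket13_7)

end Vale.Agent.P098.Exact.Sos6.Q93
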