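import Vale.Agent.P098.Exact.Sos6.Q93.Common
import Vale.Agent.P098.Exact.Sos6.Q93.Box140B0
import Vale.Agent.P098.Exact.Sos6.Q93.Box140B1
import Vale.Agent.P098.Exact.Sos6.Q93.Box140B2
import Vale.Agent.P098.Exact.Sos6.Q93.Box140B3
import Vale.Agent.P098.Exact.Sos6.Q93.Box140B4
import Vale.Agent.P098.Exact.Sos6.Q93.Box140B5
import Vale.Agent.P098.Exact.Sos6.Q93.Box140B6
import Vale.Agent.P098.Exact.Sos6.Q93.Box140B7

/-! Generated data of the dimension six interior check. -/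

noncomputable section

namespace Vale.Agent.P098.Exact.Sos6.Q93

set_option maxRecDepth 100000

theorem pay140 : dtbl.payOK 190 dD140 dE140 (elTot els140) = true := by decide +kernel

theorem rls_ok140 : ∀ G ∈ rls140, ∃ Ns, tbl.facR 72 b0 28 22 Ns G = true := by
  intro G hG
  simp only [rls140, List.mem_cons, List.not_mem_nil, or_false] at hG
  rcases hG with rfl | rfl | rfl | rfl | rfl | rfl | rfl | rfl | rfl | rfl | rfl | rfl | rfl | rfl | rfl | rfl | rfl | rfl | rfl | rfl | rfl | rfl | rfl | rfl | rfl | rfl | rfl | rfl | rfl | rfl | rfl | rfl | rfl | rfl | rfl | rfl | rfl | rfl | rfl | rfl | rfl | rfl | rfl | rfl | rfl | rfl | rfl | rfl | rfl | rfl | rfl | rfl | rfl | rfl | rfl | rfl | rfl | rfl | rfl | rfl | rfl | rfl | rfl | rfl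
  · exact ⟨_, fac8960⟩
  · exact ⟨_, fac8961⟩
  · exact ⟨_, fac8962⟩
  · exact ⟨_, fac8963⟩
  · exact ⟨_, fac8964⟩
  · exact ⟨_, fac8965⟩
  · exact ⟨_, fac8966⟩
  · exact ⟨_, fac8967⟩
  · exact ⟨_, fac8968⟩
  · exact ⟨_, fac8969⟩
  · exact ⟨_, fac8970⟩
  · exact ⟨_, fac8971⟩
  · exact ⟨_, fac8972⟩
  · exact ⟨_, fac8973⟩
  · exact ⟨_, fac8974⟩
  · exact ⟨_, fac8975⟩
  · exact ⟨_, fac8976⟩
  · exact ⟨_, fac8977⟩
  · exact ⟨_, fac8978⟩
  · exact ⟨_, fac8979⟩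
  · exact ⟨_, fac8980⟩
  · exact ⟨_, fac8981⟩
  · exact ⟨_, fac8982⟩
  · exact ⟨_, fac8983⟩
  · exact ⟨_, fac8984⟩
  · exact ⟨_, fac8985⟩
  · exact ⟨_, fac8986⟩
  · exact ⟨_, fac8987⟩
  · exact ⟨_, fac8988⟩
  · exact ⟨_, fac8989⟩
  · exact ⟨_, fac8990⟩
  · exact ⟨_, fac8991⟩
  · exact ⟨_, fac8992⟩
  · exact ⟨_, fac8993⟩
  · exact ⟨_, fac8994⟩
  · exact ⟨_, fac8995⟩
  · exact ⟨_, fac8996⟩
  · exact ⟨_, fac8997⟩
  · exact ⟨_, fac8998⟩
  · exact ⟨_, fac8999⟩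
  · exact ⟨_, fac9000⟩
  · exact ⟨_, fac9001⟩
  · exact ⟨_, fac9002⟩
  · exact ⟨_, fac9003⟩
  · exact ⟨_, fac9004⟩
  · exact ⟨_, fac9005⟩
  · exact ⟨_, fac9006⟩
  · exact ⟨_, fac9007⟩
  · exact ⟨_, fac9008⟩
  · exact ⟨_, fac9009⟩
  · exact ⟨_, fac9010⟩
  · exact ⟨_, fac9011⟩
  · exact ⟨_, fac9012⟩
  · exact ⟨_, fac9013⟩
  · exact ⟨_, fac9014⟩
  · exact ⟨_, fac9015⟩
  · exact ⟨_, fac9016⟩
  · exact ⟨_, fac9017⟩
  · exact ⟨_, fac9018⟩
  · exact ⟨_, fac9019⟩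
  · exact ⟨_, fac9020⟩
  · exact ⟨_, fac9021⟩
  · exact ⟨_, fac9022⟩
  · exact ⟨_, fac9023⟩

theorem good140 : bx140.GoodK ((an : ℝ) / 100) (L.map (ITerm.term den)) (L2.map (ITerm.term den))
    (KL.map (KI.term den)) delta :=
  goodK_of_checkR an den (by decide) L L2 KL dtbl dtbl_ok rfl codes posN rowsA rowsB rowsC rows_tbl 12 256 8 72 b0 28 22
    (by decide) parts_ok (by decide +kernel) slice_ok lit_ok 1 (by decide +kernel) delta bx140 hd140
    (by decide) rls140 rls_ok140 (by decide) (planOf lams140) 190 dD140 dE140 els140 rfl pay140 delta_le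
    (fun b hb => by
      interval_cases b
      · exact bucket140_0
      · exact bucket140_1
      · exact bucket140_2
      · exact bucket140_3
      · exact bucket140_4
      · exact bucket140_5
      · exact bucket140_6
      · exact bucket140_7)

end Vale.Agent.P098.Exact.Sos6.Q93
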