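import Vale.Agent.P098.Exact.Sos6.Q93.Common
import Vale.Agent.P098.Exact.Sos6.Q93.Box141B0
import Vale.Agent.P098.Exact.Sos6.Q93.Box141B1
import Vale.Agent.P098.Exact.Sos6.Q93.Box141B2
import Vale.Agent.P098.Exact.Sos6.Q93.Box141B3
import Vale.Agent.P098.Exact.Sos6.Q93.Box141B4
import Vale.Agent.P098.Exact.Sos6.Q93.Box141B5
import Vale.Agent.P098.Exact.Sos6.Q93.Box141B6
import Vale.Agent.P098.Exact.Sos6.Q93.Box141B7

/-! Generated data of the dimension six interior check. -/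

noncomputable section

namespace Vale.Agent.P098.Exact.Sos6.Q93

set_option maxRecDepth 100000

theorem pay141 : dtbl.payOK 190 dD141 dE141 (elTot els141) = true := by decide +kernel

theorem rls_ok141 : ∀ G ∈ rls141, ∃ Ns, tbl.facR 72 b0 28 22 Ns G = true := by
  intro G hG
  simp only [rls141, List.mem_cons, List.not_mem_nil, or_false] at hG
  rcases hG with rfl | rfl | rfl | rfl | rfl | rfl | rfl | rfl | rfl | rfl | rfl | rfl | rfl | rfl | rfl | rfl | rfl | rfl | rfl | rfl | rfl | rfl | rfl | rfl | rfl | rfl | rfl | rfl | rfl | rfl | rfl | rfl | rfl | rfl | rfl | rfl | rfl | rfl | rfl | rfl | rfl | rfl | rfl | rfl | rfl | rfl | rfl | rfl | rfl | rfl | rfl | rfl | rfl | rfl | rfl | rfl | rfl | rfl | rfl | rfl | rfl | rfl | rfl | rfl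
  · exact ⟨_, fac9024⟩
  · exact ⟨_, fac9025⟩
  · exact ⟨_, fac9026⟩
  · exact ⟨_, fac9027⟩
  · exact ⟨_, fac9028⟩
  · exact ⟨_, fac9029⟩
  · exact ⟨_, fac9030⟩
  · exact ⟨_, fac9031⟩
  · exact ⟨_, fac9032⟩
  · exact ⟨_, fac9033⟩
  · exact ⟨_, fac9034⟩
  · exact ⟨_, fac9035⟩
  · exact ⟨_, fac9036⟩
  · exact ⟨_, fac9037⟩
  · exact ⟨_, fac9038⟩
  · exact ⟨_, fac9039⟩
  · exact ⟨_, fac9040⟩
  · exact ⟨_, fac9041⟩
  · exact ⟨_, fac9042⟩
  · exact ⟨_, fac9043⟩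
  · exact ⟨_, fac9044⟩
  · exact ⟨_, fac9045⟩
  · exact ⟨_, fac9046⟩
  · exact ⟨_, fac9047⟩
  · exact ⟨_, fac9048⟩
  · exact ⟨_, fac9049⟩
  · exact ⟨_, fac9050⟩
  · exact ⟨_, fac9051⟩
  · exact ⟨_, fac9052⟩
  · exact ⟨_, fac9053⟩
  · exact ⟨_, fac9054⟩
  · exact ⟨_, fac9055⟩
  · exact ⟨_, fac9056⟩
  · exact ⟨_, fac9057⟩
  · exact ⟨_, fac9058⟩
  · exact ⟨_, fac9059⟩
  · exact ⟨_, fac9060⟩
  · exact ⟨_, fac9061⟩
  · exact ⟨_, fac9062⟩
  · exact ⟨_, fac9063⟩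
  · exact ⟨_, fac9064⟩
  · exact ⟨_, fac9065⟩
  · exact ⟨_, fac9066⟩
  · exact ⟨_, fac9067⟩
  · exact ⟨_, fac9068⟩
  · exact ⟨_, fac9069⟩
  · exact ⟨_, fac9070⟩
  · exact ⟨_, fac9071⟩
  · exact ⟨_, fac9072⟩
  · exact ⟨_, fac9073⟩
  · exact ⟨_, fac9074⟩
  · exact ⟨_, fac9075⟩
  · exact ⟨_, fac9076⟩
  · exact ⟨_, fac9077⟩
  · exact ⟨_, fac9078⟩
  · exact ⟨_, fac9079⟩
  · exact ⟨_, fac9080⟩
  · exact ⟨_, fac9081⟩
  · exact ⟨_, fac9082⟩
  · exact ⟨_, fac9083⟩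
  · exact ⟨_, fac9084⟩
  · exact ⟨_, fac9085⟩
  · exact ⟨_, fac9086⟩
  · exact ⟨_, fac9087⟩

theorem good141 : bx141.GoodK ((an : ℝ) / 100) (L.map (ITerm.term den)) (L2.map (ITerm.term den))
    (KL.map (KI.term den)) delta :=
  goodK_of_checkR an den (by decide) L L2 KL dtbl dtbl_ok rfl codes posN rowsA rowsB rowsC rows_tbl 12 256 8 72 b0 28 22
    (by decide) parts_ok (by decide +kernel) slice_ok lit_ok 1 (by decide +kernel) delta bx141 hd141
    (by decide) rls141 rls_ok141 (by decide) (planOf lams141) 190 dD141 dE141 els141 rfl pay141 delta_le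
    (fun b hb => by
      interval_cases b
      · exact bucket141_0
      · exact bucket141_1
      · exact bucket141_2
      · exact bucket141_3
      · exact bucket141_4
      · exact bucket141_5
      · exact bucket141_6
      · exact bucket141_7)

end Vale.Agent.P098.Exact.Sos6.Q93
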