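import Vale.Agent.P098.Exact.Sos6.Q93.Common
import Vale.Agent.P098.Exact.Sos6.Q93.Box142B0
import Vale.Agent.P098.Exact.Sos6.Q93.Box142B1
import Vale.Agent.P098.Exact.Sos6.Q93.Box142B2
import Vale.Agent.P098.Exact.Sos6.Q93.Box142B3
import Vale.Agent.P098.Exact.Sos6.Q93.Box142B4
import Vale.Agent.P098.Exact.Sos6.Q93.Box142B5
import Vale.Agent.P098.Exact.Sos6.Q93.Box142B6
import Vale.Agent.P098.Exact.Sos6.Q93.Box142B7

/-! Generated data of the dimension six interior check. -/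

noncomputable section

namespace Vale.Agent.P098.Exact.Sos6.Q93

set_option maxRecDepth 100000

theorem pay142 : dtbl.payOK 190 dD142 dE142 (elTot els142) = true := by decide +kernel

theorem rls_ok142 : ∀ G ∈ rls142, ∃ Ns, tbl.facR 72 b0 28 22 Ns G = true := by
  intro G hG
  simp only [rls142, List.mem_cons, List.not_mem_nil, or_false] at hG
  rcases hG with rfl | rfl | rfl | rfl | rfl | rfl | rfl | rfl | rfl | rfl | rfl | rfl | rfl | rfl | rfl | rfl | rfl | rfl | rfl | rfl | rfl | rfl | rfl | rfl | rfl | rfl | rfl | rfl | rfl | rfl | rfl | rfl | rfl | rfl | rfl | rfl | rfl | rfl | rfl | rfl | rfl | rfl | rfl | rfl | rfl | rfl | rfl | rfl | rfl | rfl | rfl | rfl | rfl | rfl | rfl | rfl | rfl | rfl | rfl | rfl | rfl | rfl | rfl | rfl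
  · exact ⟨_, fac9088⟩
  · exact ⟨_, fac9089⟩
  · exact ⟨_, fac9090⟩
  · exact ⟨_, fac9091⟩
  · exact ⟨_, fac9092⟩
  · exact ⟨_, fac9093⟩
  · exact ⟨_, fac9094⟩
  · exact ⟨_, fac9095⟩
  · exact ⟨_, fac9096⟩
  · exact ⟨_, fac9097⟩
  · exact ⟨_, fac9098⟩
  · exact ⟨_, fac9099⟩
  · exact ⟨_, fac9100⟩
  · exact ⟨_, fac9101⟩
  · exact ⟨_, fac9102⟩
  · exact ⟨_, fac9103⟩
  · exact ⟨_, fac9104⟩
  · exact ⟨_, fac9105⟩
  · exact ⟨_, fac9106⟩
  · exact ⟨_, fac9107⟩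
  · exact ⟨_, fac9108⟩
  · exact ⟨_, fac9109⟩
  · exact ⟨_, fac9110⟩
  · exact ⟨_, fac9111⟩
  · exact ⟨_, fac9112⟩
  · exact ⟨_, fac9113⟩
  · exact ⟨_, fac9114⟩
  · exact ⟨_, fac9115⟩
  · exact ⟨_, fac9116⟩
  · exact ⟨_, fac9117⟩
  · exact ⟨_, fac9118⟩
  · exact ⟨_, fac9119⟩
  · exact ⟨_, fac9120⟩
  · exact ⟨_, fac9121⟩
  · exact ⟨_, fac9122⟩
  · exact ⟨_, fac9123⟩
  · exact ⟨_, fac9124⟩
  · exact ⟨_, fac9125⟩
  · exact ⟨_, fac9126⟩
  · exact ⟨_, fac9127⟩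
  · exact ⟨_, fac9128⟩
  · exact ⟨_, fac9129⟩
  · exact ⟨_, fac9130⟩
  · exact ⟨_, fac9131⟩
  · exact ⟨_, fac9132⟩
  · exact ⟨_, fac9133⟩
  · exact ⟨_, fac9134⟩
  · exact ⟨_, fac9135⟩
  · exact ⟨_, fac9136⟩
  · exact ⟨_, fac9137⟩
  · exact ⟨_, fac9138⟩
  · exact ⟨_, fac9139⟩
  · exact ⟨_, fac9140⟩
  · exact ⟨_, fac9141⟩
  · exact ⟨_, fac9142⟩
  · exact ⟨_, fac9143⟩
  · exact ⟨_, fac9144⟩
  · exact ⟨_, fac9145⟩
  · exact ⟨_, fac9146⟩
  · exact ⟨_, fac9147⟩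
  · exact ⟨_, fac9148⟩
  · exact ⟨_, fac9149⟩
  · exact ⟨_, fac9150⟩
  · exact ⟨_, fac9151⟩

theorem good142 : bx142.GoodK ((an : ℝ) / 100) (L.map (ITerm.term den)) (L2.map (ITerm.term den))
    (KL.map (KI.term den)) delta :=
  goodK_of_checkR an den (by decide) L L2 KL dtbl dtbl_ok rfl codes posN rowsA rowsB rowsC rows_tbl 12 256 8 72 b0 28 22
    (by decide) parts_ok (by decide +kernel) slice_ok lit_ok 1 (by decide +kernel) delta bx142 hd142
    (by decide) rls142 rls_ok142 (by decide) (planOf lams142) 190 dD142 dE142 els142 rfl pay142 delta_le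
    (fun b hb => by
      interval_cases b
      · exact bucket142_0
      · exact bucket142_1
      · exact bucket142_2
      · exact bucket142_3
      · exact bucket142_4
      · exact bucket142_5
      · exact bucket142_6
      · exact bucket142_7)

end Vale.Agent.P098.Exact.Sos6.Q93
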