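import Vale.Agent.P098.Exact.Sos6.Q93.Common
import Vale.Agent.P098.Exact.Sos6.Q93.Box143B0
import Vale.Agent.P098.Exact.Sos6.Q93.Box143B1
import Vale.Agent.P098.Exact.Sos6.Q93.Box143B2
import Vale.Agent.P098.Exact.Sos6.Q93.Box143B3
import Vale.Agent.P098.Exact.Sos6.Q93.Box143B4
import Vale.Agent.P098.Exact.Sos6.Q93.Box143B5
import Vale.Agent.P098.Exact.Sos6.Q93.Box143B6
import Vale.Agent.P098.Exact.Sos6.Q93.Box143B7

/-! Generated data of the dimension six interior check. -/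

noncomputable section

namespace Vale.Agent.P098.Exact.Sos6.Q93

set_option maxRecDepth 100000

theorem pay143 : dtbl.payOK 190 dD143 dE143 (elTot els143) = true := by decide +kernel

theorem rls_ok143 : ∀ G ∈ rls143, ∃ Ns, tbl.facR 72 b0 28 22 Ns G = true := by
  intro G hG
  simp only [rls143, List.mem_cons, List.not_mem_nil, or_false] at hG
  rcases hG with rfl | rfl | rfl | rfl | rfl | rfl | rfl | rfl | rfl | rfl | rfl | rfl | rfl | rfl | rfl | rfl | rfl | rfl | rfl | rfl | rfl | rfl | rfl | rfl | rfl | rfl | rfl | rfl | rfl | rfl | rfl | rfl | rfl | rfl | rfl | rfl | rfl | rfl | rfl | rfl | rfl | rfl | rfl | rfl | rfl | rfl | rfl | rfl | rfl | rfl | rfl | rfl | rfl | rfl | rfl | rfl | rfl | rfl | rfl | rfl | rfl | rfl | rfl | rfl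
  · exact ⟨_, fac9152⟩
  · exact ⟨_, fac9153⟩
  · exact ⟨_, fac9154⟩
  · exact ⟨_, fac9155⟩
  · exact ⟨_, fac9156⟩
  · exact ⟨_, fac9157⟩
  · exact ⟨_, fac9158⟩
  · exact ⟨_, fac9159⟩
  · exact ⟨_, fac9160⟩
  · exact ⟨_, fac9161⟩
  · exact ⟨_, fac9162⟩
  · exact ⟨_, fac9163⟩
  · exact ⟨_, fac9164⟩
  · exact ⟨_, fac9165⟩
  · exact ⟨_, fac9166⟩
  · exact ⟨_, fac9167⟩
  · exact ⟨_, fac9168⟩
  · exact ⟨_, fac9169⟩
  · exact ⟨_, fac9170⟩
  · exact ⟨_, fac9171⟩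
  · exact ⟨_, fac9172⟩
  · exact ⟨_, fac9173⟩
  · exact ⟨_, fac9174⟩
  · exact ⟨_, fac9175⟩
  · exact ⟨_, fac9176⟩
  · exact ⟨_, fac9177⟩
  · exact ⟨_, fac9178⟩
  · exact ⟨_, fac9179⟩
  · exact ⟨_, fac9180⟩
  · exact ⟨_, fac9181⟩
  · exact ⟨_, fac9182⟩
  · exact ⟨_, fac9183⟩
  · exact ⟨_, fac9184⟩
  · exact ⟨_, fac9185⟩
  · exact ⟨_, fac9186⟩
  · exact ⟨_, fac9187⟩
  · exact ⟨_, fac9188⟩
  · exact ⟨_, fac9189⟩
  · exact ⟨_, fac9190⟩
  · exact ⟨_, fac9191⟩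
  · exact ⟨_, fac9192⟩
  · exact ⟨_, fac9193⟩
  · exact ⟨_, fac9194⟩
  · exact ⟨_, fac9195⟩
  · exact ⟨_, fac9196⟩
  · exact ⟨_, fac9197⟩
  · exact ⟨_, fac9198⟩
  · exact ⟨_, fac9199⟩
  · exact ⟨_, fac9200⟩
  · exact ⟨_, fac9201⟩
  · exact ⟨_, fac9202⟩
  · exact ⟨_, fac9203⟩
  · exact ⟨_, fac9204⟩
  · exact ⟨_, fac9205⟩
  · exact ⟨_, fac9206⟩
  · exact ⟨_, fac9207⟩
  · exact ⟨_, fac9208⟩
  · exact ⟨_, fac9209⟩
  · exact ⟨_, fac9210⟩
  · exact ⟨_, fac9211⟩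
  · exact ⟨_, fac9212⟩
  · exact ⟨_, fac9213⟩
  · exact ⟨_, fac9214⟩
  · exact ⟨_, fac9215⟩

theorem good143 : bx143.GoodK ((an : ℝ) / 100) (L.map (ITerm.term den)) (L2.map (ITerm.term den))
    (KL.map (KI.term den)) delta :=
  goodK_of_checkR an den (by decide) L L2 KL dtbl dtbl_ok rfl codes posN rowsA rowsB rowsC rows_tbl 12 256 8 72 b0 28 22
    (by decide) parts_ok (by decide +kernel) slice_ok lit_ok 1 (by decide +kernel) delta bx143 hd143
    (by decide) rls143 rls_ok143 (by decide) (planOf lams143) 190 dD143 dE143 els143 rfl pay143 delta_le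
    (fun b hb => by
      interval_cases b
      · exact bucket143_0
      · exact bucket143_1
      · exact bucket143_2
      · exact bucket143_3
      · exact bucket143_4
      · exact bucket143_5
      · exact bucket143_6
      · exact bucket143_7)

end Vale.Agent.P098.Exact.Sos6.Q93
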