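import Vale.Agent.P098.Exact.Sos6.Q93.Common
import Vale.Agent.P098.Exact.Sos6.Q93.Box144B0
import Vale.Agent.P098.Exact.Sos6.Q93.Box144B1
import Vale.Agent.P098.Exact.Sos6.Q93.Box144B2
import Vale.Agent.P098.Exact.Sos6.Q93.Box144B3
import Vale.Agent.P098.Exact.Sos6.Q93.Box144B4
import Vale.Agent.P098.Exact.Sos6.Q93.Box144B5
import Vale.Agent.P098.Exact.Sos6.Q93.Box144B6
import Vale.Agent.P098.Exact.Sos6.Q93.Box144B7

/-! Generated data of the dimension six interior check. -/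

noncomputable section

namespace Vale.Agent.P098.Exact.Sos6.Q93

set_option maxRecDepth 100000

theorem pay144 : dtbl.payOK 190 dD144 dE144 (elTot els144) = true := by decide +kernel

theorem rls_ok144 : ∀ G ∈ rls144, ∃ Ns, tbl.facR 72 b0 28 22 Ns G = true := by
  intro G hG
  simp only [rls144, List.mem_cons, List.not_mem_nil, or_false] at hG
  rcases hG with rfl | rfl | rfl | rfl | rfl | rfl | rfl | rfl | rfl | rfl | rfl | rfl | rfl | rfl | rfl | rfl | rfl | rfl | rfl | rfl | rfl | rfl | rfl | rfl | rfl | rfl | rfl | rfl | rfl | rfl | rfl | rfl | rfl | rfl | rfl | rfl | rfl | rfl | rfl | rfl | rfl | rfl | rfl | rfl | rfl | rfl | rfl | rfl | rfl | rfl | rfl | rfl | rfl | rfl | rfl | rfl | rfl | rfl | rfl | rfl | rfl | rfl | rfl | rfl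
  · exact ⟨_, fac9216⟩
  · exact ⟨_, fac9217⟩
  · exact ⟨_, fac9218⟩
  · exact ⟨_, fac9219⟩
  · exact ⟨_, fac9220⟩
  · exact ⟨_, fac9221⟩
  · exact ⟨_, fac9222⟩
  · exact ⟨_, fac9223⟩
  · exact ⟨_, fac9224⟩
  · exact ⟨_, fac9225⟩
  · exact ⟨_, fac9226⟩
  · exact ⟨_, fac9227⟩
  · exact ⟨_, fac9228⟩
  · exact ⟨_, fac9229⟩
  · exact ⟨_, fac9230⟩
  · exact ⟨_, fac9231⟩
  · exact ⟨_, fac9232⟩
  · exact ⟨_, fac9233⟩
  · exact ⟨_, fac9234⟩
  · exact ⟨_, fac9235⟩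
  · exact ⟨_, fac9236⟩
  · exact ⟨_, fac9237⟩
  · exact ⟨_, fac9238⟩
  · exact ⟨_, fac9239⟩
  · exact ⟨_, fac9240⟩
  · exact ⟨_, fac9241⟩
  · exact ⟨_, fac9242⟩
  · exact ⟨_, fac9243⟩
  · exact ⟨_, fac9244⟩
  · exact ⟨_, fac9245⟩
  · exact ⟨_, fac9246⟩
  · exact ⟨_, fac9247⟩
  · exact ⟨_, fac9248⟩
  · exact ⟨_, fac9249⟩
  · exact ⟨_, fac9250⟩
  · exact ⟨_, fac9251⟩
  · exact ⟨_, fac9252⟩
  · exact ⟨_, fac9253⟩
  · exact ⟨_, fac9254⟩
  · exact ⟨_, fac9255⟩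
  · exact ⟨_, fac9256⟩
  · exact ⟨_, fac9257⟩
  · exact ⟨_, fac9258⟩
  · exact ⟨_, fac9259⟩
  · exact ⟨_, fac9260⟩
  · exact ⟨_, fac9261⟩
  · exact ⟨_, fac9262⟩
  · exact ⟨_, fac9263⟩
  · exact ⟨_, fac9264⟩
  · exact ⟨_, fac9265⟩
  · exact ⟨_, fac9266⟩
  · exact ⟨_, fac9267⟩
  · exact ⟨_, fac9268⟩
  · exact ⟨_, fac9269⟩
  · exact ⟨_, fac9270⟩
  · exact ⟨_, fac9271⟩
  · exact ⟨_, fac9272⟩
  · exact ⟨_, fac9273⟩
  · exact ⟨_, fac9274⟩
  · exact ⟨_, fac9275⟩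
  · exact ⟨_, fac9276⟩
  · exact ⟨_, fac9277⟩
  · exact ⟨_, fac9278⟩
  · exact ⟨_, fac9279⟩

theorem good144 : bx144.GoodK ((an : ℝ) / 100) (L.map (ITerm.term den)) (L2.map (ITerm.term den))
    (KL.map (KI.term den)) delta :=
  goodK_of_checkR an den (by decide) L L2 KL dtbl dtbl_ok rfl codes posN rowsA rowsB rowsC rows_tbl 12 256 8 72 b0 28 22
    (by decide) parts_ok (by decide +kernel) slice_ok lit_ok 1 (by decide +kernel) delta bx144 hd144
    (by decide) rls144 rls_ok144 (by decide) (planOf lams144) 190 dD144 dE144 els144 rfl pay144 delta_le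
    (fun b hb => by
      interval_cases b
      · exact bucket144_0
      · exact bucket144_1
      · exact bucket144_2
      · exact bucket144_3
      · exact bucket144_4
      · exact bucket144_5
      · exact bucket144_6
      · exact bucket144_7)

end Vale.Agent.P098.Exact.Sos6.Q93
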