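import Vale.Agent.P098.Exact.Sos6.Q93.Common
import Vale.Agent.P098.Exact.Sos6.Q93.Box145B0
import Vale.Agent.P098.Exact.Sos6.Q93.Box145B1
import Vale.Agent.P098.Exact.Sos6.Q93.Box145B2
import Vale.Agent.P098.Exact.Sos6.Q93.Box145B3
import Vale.Agent.P098.Exact.Sos6.Q93.Box145B4
import Vale.Agent.P098.Exact.Sos6.Q93.Box145B5
import Vale.Agent.P098.Exact.Sos6.Q93.Box145B6
import Vale.Agent.P098.Exact.Sos6.Q93.Box145B7

/-! Generated data of the dimension six interior check. -/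

noncomputable section

namespace Vale.Agent.P098.Exact.Sos6.Q93

set_option maxRecDepth 100000

theorem pay145 : dtbl.payOK 190 dD145 dE145 (elTot els145) = true := by decide +kernel

theorem rls_ok145 : ∀ G ∈ rls145, ∃ Ns, tbl.facR 72 b0 28 22 Ns G = true := by
  intro G hG
  simp only [rls145, List.mem_cons, List.not_mem_nil, or_false] at hG
  rcases hG with rfl | rfl | rfl | rfl | rfl | rfl | rfl | rfl | rfl | rfl | rfl | rfl | rfl | rfl | rfl | rfl | rfl | rfl | rfl | rfl | rfl | rfl | rfl | rfl | rfl | rfl | rfl | rfl | rfl | rfl | rfl | rfl | rfl | rfl | rfl | rfl | rfl | rfl | rfl | rfl | rfl | rfl | rfl | rfl | rfl | rfl | rfl | rfl | rfl | rfl | rfl | rfl | rfl | rfl | rfl | rfl | rfl | rfl | rfl | rfl | rfl | rfl | rfl | rfl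
  · exact ⟨_, fac9280⟩
  · exact ⟨_, fac9281⟩
  · exact ⟨_, fac9282⟩
  · exact ⟨_, fac9283⟩
  · exact ⟨_, fac9284⟩
  · exact ⟨_, fac9285⟩
  · exact ⟨_, fac9286⟩
  · exact ⟨_, fac9287⟩
  · exact ⟨_, fac9288⟩
  · exact ⟨_, fac9289⟩
  · exact ⟨_, fac9290⟩
  · exact ⟨_, fac9291⟩
  · exact ⟨_, fac9292⟩
  · exact ⟨_, fac9293⟩
  · exact ⟨_, fac9294⟩
  · exact ⟨_, fac9295⟩
  · exact ⟨_, fac9296⟩
  · exact ⟨_, fac9297⟩
  · exact ⟨_, fac9298⟩
  · exact ⟨_, fac9299⟩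
  · exact ⟨_, fac9300⟩
  · exact ⟨_, fac9301⟩
  · exact ⟨_, fac9302⟩
  · exact ⟨_, fac9303⟩
  · exact ⟨_, fac9304⟩
  · exact ⟨_, fac9305⟩
  · exact ⟨_, fac9306⟩
  · exact ⟨_, fac9307⟩
  · exact ⟨_, fac9308⟩
  · exact ⟨_, fac9309⟩
  · exact ⟨_, fac9310⟩
  · exact ⟨_, fac9311⟩
  · exact ⟨_, fac9312⟩
  · exact ⟨_, fac9313⟩
  · exact ⟨_, fac9314⟩
  · exact ⟨_, fac9315⟩
  · exact ⟨_, fac9316⟩
  · exact ⟨_, fac9317⟩
  · exact ⟨_, fac9318⟩
  · exact ⟨_, fac9319⟩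
  · exact ⟨_, fac9320⟩
  · exact ⟨_, fac9321⟩
  · exact ⟨_, fac9322⟩
  · exact ⟨_, fac9323⟩
  · exact ⟨_, fac9324⟩
  · exact ⟨_, fac9325⟩
  · exact ⟨_, fac9326⟩
  · exact ⟨_, fac9327⟩
  · exact ⟨_, fac9328⟩
  · exact ⟨_, fac9329⟩
  · exact ⟨_, fac9330⟩
  · exact ⟨_, fac9331⟩
  · exact ⟨_, fac9332⟩
  · exact ⟨_, fac9333⟩
  · exact ⟨_, fac9334⟩
  · exact ⟨_, fac9335⟩
  · exact ⟨_, fac9336⟩
  · exact ⟨_, fac9337⟩
  · exact ⟨_, fac9338⟩
  · exact ⟨_, fac9339⟩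
  · exact ⟨_, fac9340⟩
  · exact ⟨_, fac9341⟩
  · exact ⟨_, fac9342⟩
  · exact ⟨_, fac9343⟩

theorem good145 : bx145.GoodK ((an : ℝ) / 100) (L.map (ITerm.term den)) (L2.map (ITerm.term den))
    (KL.map (KI.term den)) delta :=
  goodK_of_checkR an den (by decide) L L2 KL dtbl dtbl_ok rfl codes posN rowsA rowsB rowsC rows_tbl 12 256 8 72 b0 28 22
    (by decide) parts_ok (by decide +kernel) slice_ok lit_ok 1 (by decide +kernel) delta bx145 hd145
    (by decide) rls145 rls_ok145 (by decide) (planOf lams145) 190 dD145 dE145 els145 rfl pay145 delta_le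
    (fun b hb => by
      interval_cases b
      · exact bucket145_0
      · exact bucket145_1
      · exact bucket145_2
      · exact bucket145_3
      · exact bucket145_4
      · exact bucket145_5
      · exact bucket145_6
      · exact bucket145_7)

end Vale.Agent.P098.Exact.Sos6.Q93
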