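import Vale.Agent.P098.Exact.Sos6.Q93.Common
import Vale.Agent.P098.Exact.Sos6.Q93.Box146B0
import Vale.Agent.P098.Exact.Sos6.Q93.Box146B1
import Vale.Agent.P098.Exact.Sos6.Q93.Box146B2
import Vale.Agent.P098.Exact.Sos6.Q93.Box146B3
import Vale.Agent.P098.Exact.Sos6.Q93.Box146B4
import Vale.Agent.P098.Exact.Sos6.Q93.Box146B5
import Vale.Agent.P098.Exact.Sos6.Q93.Box146B6
import Vale.Agent.P098.Exact.Sos6.Q93.Box146B7

/-! Generated data of the dimension six interior check. -/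

noncomputable section

namespace Vale.Agent.P098.Exact.Sos6.Q93

set_option maxRecDepth 100000

theorem pay146 : dtbl.payOK 190 dD146 dE146 (elTot els146) = true := by decide +kernel

theorem rls_ok146 : ∀ G ∈ rls146, ∃ Ns, tbl.facR 72 b0 28 22 Ns G = true := by
  intro G hG
  simp only [rls146, List.mem_cons, List.not_mem_nil, or_false] at hG
  rcases hG with rfl | rfl | rfl | rfl | rfl | rfl | rfl | rfl | rfl | rfl | rfl | rfl | rfl | rfl | rfl | rfl | rfl | rfl | rfl | rfl | rfl | rfl | rfl | rfl | rfl | rfl | rfl | rfl | rfl | rfl | rfl | rfl | rfl | rfl | rfl | rfl | rfl | rfl | rfl | rfl | rfl | rfl | rfl | rfl | rfl | rfl | rfl | rfl | rfl | rfl | rfl | rfl | rfl | rfl | rfl | rfl | rfl | rfl | rfl | rfl | rfl | rfl | rfl | rfl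
  · exact ⟨_, fac9344⟩
  · exact ⟨_, fac9345⟩
  · exact ⟨_, fac9346⟩
  · exact ⟨_, fac9347⟩
  · exact ⟨_, fac9348⟩
  · exact ⟨_, fac9349⟩
  · exact ⟨_, fac9350⟩
  · exact ⟨_, fac9351⟩
  · exact ⟨_, fac9352⟩
  · exact ⟨_, fac9353⟩
  · exact ⟨_, fac9354⟩
  · exact ⟨_, fac9355⟩
  · exact ⟨_, fac9356⟩
  · exact ⟨_, fac9357⟩
  · exact ⟨_, fac9358⟩
  · exact ⟨_, fac9359⟩
  · exact ⟨_, fac9360⟩
  · exact ⟨_, fac9361⟩
  · exact ⟨_, fac9362⟩
  · exact ⟨_, fac9363⟩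
  · exact ⟨_, fac9364⟩
  · exact ⟨_, fac9365⟩
  · exact ⟨_, fac9366⟩
  · exact ⟨_, fac9367⟩
  · exact ⟨_, fac9368⟩
  · exact ⟨_, fac9369⟩
  · exact ⟨_, fac9370⟩
  · exact ⟨_, fac9371⟩
  · exact ⟨_, fac9372⟩
  · exact ⟨_, fac9373⟩
  · exact ⟨_, fac9374⟩
  · exact ⟨_, fac9375⟩
  · exact ⟨_, fac9376⟩
  · exact ⟨_, fac9377⟩
  · exact ⟨_, fac9378⟩
  · exact ⟨_, fac9379⟩
  · exact ⟨_, fac9380⟩
  · exact ⟨_, fac9381⟩
  · exact ⟨_, fac9382⟩
  · exact ⟨_, fac9383⟩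
  · exact ⟨_, fac9384⟩
  · exact ⟨_, fac9385⟩
  · exact ⟨_, fac9386⟩
  · exact ⟨_, fac9387⟩
  · exact ⟨_, fac9388⟩
  · exact ⟨_, fac9389⟩
  · exact ⟨_, fac9390⟩
  · exact ⟨_, fac9391⟩
  · exact ⟨_, fac9392⟩
  · exact ⟨_, fac9393⟩
  · exact ⟨_, fac9394⟩
  · exact ⟨_, fac9395⟩
  · exact ⟨_, fac9396⟩
  · exact ⟨_, fac9397⟩
  · exact ⟨_, fac9398⟩
  · exact ⟨_, fac9399⟩
  · exact ⟨_, fac9400⟩
  · exact ⟨_, fac9401⟩
  · exact ⟨_, fac9402⟩
  · exact ⟨_, fac9403⟩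
  · exact ⟨_, fac9404⟩
  · exact ⟨_, fac9405⟩
  · exact ⟨_, fac9406⟩
  · exact ⟨_, fac9407⟩

theorem good146 : bx146.GoodK ((an : ℝ) / 100) (L.map (ITerm.term den)) (L2.map (ITerm.term den))
    (KL.map (KI.term den)) delta :=
  goodK_of_checkR an den (by decide) L L2 KL dtbl dtbl_ok rfl codes posN rowsA rowsB rowsC rows_tbl 12 256 8 72 b0 28 22
    (by decide) parts_ok (by decide +kernel) slice_ok lit_ok 1 (by decide +kernel) delta bx146 hd146
    (by decide) rls146 rls_ok146 (by decide) (planOf lams146) 190 dD146 dE146 els146 rfl pay146 delta_le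
    (fun b hb => by
      interval_cases b
      · exact bucket146_0
      · exact bucket146_1
      · exact bucket146_2
      · exact bucket146_3
      · exact bucket146_4
      · exact bucket146_5
      · exact bucket146_6
      · exact bucket146_7)

end Vale.Agent.P098.Exact.Sos6.Q93
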