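import Vale.Agent.P098.Exact.Sos6.Q93.Common
import Vale.Agent.P098.Exact.Sos6.Q93.Box147B0
import Vale.Agent.P098.Exact.Sos6.Q93.Box147B1
import Vale.Agent.P098.Exact.Sos6.Q93.Box147B2
import Vale.Agent.P098.Exact.Sos6.Q93.Box147B3
import Vale.Agent.P098.Exact.Sos6.Q93.Box147B4
import Vale.Agent.P098.Exact.Sos6.Q93.Box147B5
import Vale.Agent.P098.Exact.Sos6.Q93.Box147B6
import Vale.Agent.P098.Exact.Sos6.Q93.Box147B7

/-! Generated data of the dimension six interior check. -/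

noncomputable section

namespace Vale.Agent.P098.Exact.Sos6.Q93

set_option maxRecDepth 100000

theorem pay147 : dtbl.payOK 190 dD147 dE147 (elTot els147) = true := by decide +kernel

theorem rls_ok147 : ∀ G ∈ rls147, ∃ Ns, tbl.facR 72 b0 28 22 Ns G = true := by
  intro G hG
  simp only [rls147, List.mem_cons, List.not_mem_nil, or_false] at hG
  rcases hG with rfl | rfl | rfl | rfl | rfl | rfl | rfl | rfl | rfl | rfl | rfl | rfl | rfl | rfl | rfl | rfl | rfl | rfl | rfl | rfl | rfl | rfl | rfl | rfl | rfl | rfl | rfl | rfl | rfl | rfl | rfl | rfl | rfl | rfl | rfl | rfl | rfl | rfl | rfl | rfl | rfl | rfl | rfl | rfl | rfl | rfl | rfl | rfl | rfl | rfl | rfl | rfl | rfl | rfl | rfl | rfl | rfl | rfl | rfl | rfl | rfl | rfl | rfl | rfl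
  · exact ⟨_, fac9408⟩
  · exact ⟨_, fac9409⟩
  · exact ⟨_, fac9410⟩
  · exact ⟨_, fac9411⟩
  · exact ⟨_, fac9412⟩
  · exact ⟨_, fac9413⟩
  · exact ⟨_, fac9414⟩
  · exact ⟨_, fac9415⟩
  · exact ⟨_, fac9416⟩
  · exact ⟨_, fac9417⟩
  · exact ⟨_, fac9418⟩
  · exact ⟨_, fac9419⟩
  · exact ⟨_, fac9420⟩
  · exact ⟨_, fac9421⟩
  · exact ⟨_, fac9422⟩
  · exact ⟨_, fac9423⟩
  · exact ⟨_, fac9424⟩
  · exact ⟨_, fac9425⟩
  · exact ⟨_, fac9426⟩
  · exact ⟨_, fac9427⟩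
  · exact ⟨_, fac9428⟩
  · exact ⟨_, fac9429⟩
  · exact ⟨_, fac9430⟩
  · exact ⟨_, fac9431⟩
  · exact ⟨_, fac9432⟩
  · exact ⟨_, fac9433⟩
  · exact ⟨_, fac9434⟩
  · exact ⟨_, fac9435⟩
  · exact ⟨_, fac9436⟩
  · exact ⟨_, fac9437⟩
  · exact ⟨_, fac9438⟩
  · exact ⟨_, fac9439⟩
  · exact ⟨_, fac9440⟩
  · exact ⟨_, fac9441⟩
  · exact ⟨_, fac9442⟩
  · exact ⟨_, fac9443⟩
  · exact ⟨_, fac9444⟩
  · exact ⟨_, fac9445⟩
  · exact ⟨_, fac9446⟩
  · exact ⟨_, fac9447⟩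
  · exact ⟨_, fac9448⟩
  · exact ⟨_, fac9449⟩
  · exact ⟨_, fac9450⟩
  · exact ⟨_, fac9451⟩
  · exact ⟨_, fac9452⟩
  · exact ⟨_, fac9453⟩
  · exact ⟨_, fac9454⟩
  · exact ⟨_, fac9455⟩
  · exact ⟨_, fac9456⟩
  · exact ⟨_, fac9457⟩
  · exact ⟨_, fac9458⟩
  · exact ⟨_, fac9459⟩
  · exact ⟨_, fac9460⟩
  · exact ⟨_, fac9461⟩
  · exact ⟨_, fac9462⟩
  · exact ⟨_, fac9463⟩
  · exact ⟨_, fac9464⟩
  · exact ⟨_, fac9465⟩
  · exact ⟨_, fac9466⟩
  · exact ⟨_, fac9467⟩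
  · exact ⟨_, fac9468⟩
  · exact ⟨_, fac9469⟩
  · exact ⟨_, fac9470⟩
  · exact ⟨_, fac9471⟩

theorem good147 : bx147.GoodK ((an : ℝ) / 100) (L.map (ITerm.term den)) (L2.map (ITerm.term den))
    (KL.map (KI.term den)) delta :=
  goodK_of_checkR an den (by decide) L L2 KL dtbl dtbl_ok rfl codes posN rowsA rowsB rowsC rows_tbl 12 256 8 72 b0 28 22
    (by decide) parts_ok (by decide +kernel) slice_ok lit_ok 1 (by decide +kernel) delta bx147 hd147
    (by decide) rls147 rls_ok147 (by decide) (planOf lams147) 190 dD147 dE147 els147 rfl pay147 delta_le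
    (fun b hb => by
      interval_cases b
      · exact bucket147_0
      · exact bucket147_1
      · exact bucket147_2
      · exact bucket147_3
      · exact bucket147_4
      · exact bucket147_5
      · exact bucket147_6
      · exact bucket147_7)

end Vale.Agent.P098.Exact.Sos6.Q93
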