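import Vale.Agent.P098.Exact.Sos6.Q93.Common
import Vale.Agent.P098.Exact.Sos6.Q93.Box148B0
import Vale.Agent.P098.Exact.Sos6.Q93.Box148B1
import Vale.Agent.P098.Exact.Sos6.Q93.Box148B2
import Vale.Agent.P098.Exact.Sos6.Q93.Box148B3
import Vale.Agent.P098.Exact.Sos6.Q93.Box148B4
import Vale.Agent.P098.Exact.Sos6.Q93.Box148B5
import Vale.Agent.P098.Exact.Sos6.Q93.Box148B6
import Vale.Agent.P098.Exact.Sos6.Q93.Box148B7

/-! Generated data of the dimension six interior check. -/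

noncomputable section

namespace Vale.Agent.P098.Exact.Sos6.Q93

set_option maxRecDepth 100000

theorem pay148 : dtbl.payOK 190 dD148 dE148 (elTot els148) = true := by decide +kernel

theorem rls_ok148 : ∀ G ∈ rls148, ∃ Ns, tbl.facR 72 b0 28 22 Ns G = true := by
  intro G hG
  simp only [rls148, List.mem_cons, List.not_mem_nil, or_false] at hG
  rcases hG with rfl | rfl | rfl | rfl | rfl | rfl | rfl | rfl | rfl | rfl | rfl | rfl | rfl | rfl | rfl | rfl | rfl | rfl | rfl | rfl | rfl | rfl | rfl | rfl | rfl | rfl | rfl | rfl | rfl | rfl | rfl | rfl | rfl | rfl | rfl | rfl | rfl | rfl | rfl | rfl | rfl | rfl | rfl | rfl | rfl | rfl | rfl | rfl | rfl | rfl | rfl | rfl | rfl | rfl | rfl | rfl | rfl | rfl | rfl | rfl | rfl | rfl | rfl | rfl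
  · exact ⟨_, fac9472⟩
  · exact ⟨_, fac9473⟩
  · exact ⟨_, fac9474⟩
  · exact ⟨_, fac9475⟩
  · exact ⟨_, fac9476⟩
  · exact ⟨_, fac9477⟩
  · exact ⟨_, fac9478⟩
  · exact ⟨_, fac9479⟩
  · exact ⟨_, fac9480⟩
  · exact ⟨_, fac9481⟩
  · exact ⟨_, fac9482⟩
  · exact ⟨_, fac9483⟩
  · exact ⟨_, fac9484⟩
  · exact ⟨_, fac9485⟩
  · exact ⟨_, fac9486⟩
  · exact ⟨_, fac9487⟩
  · exact ⟨_, fac9488⟩
  · exact ⟨_, fac9489⟩
  · exact ⟨_, fac9490⟩
  · exact ⟨_, fac9491⟩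
  · exact ⟨_, fac9492⟩
  · exact ⟨_, fac9493⟩
  · exact ⟨_, fac9494⟩
  · exact ⟨_, fac9495⟩
  · exact ⟨_, fac9496⟩
  · exact ⟨_, fac9497⟩
  · exact ⟨_, fac9498⟩
  · exact ⟨_, fac9499⟩
  · exact ⟨_, fac9500⟩
  · exact ⟨_, fac9501⟩
  · exact ⟨_, fac9502⟩
  · exact ⟨_, fac9503⟩
  · exact ⟨_, fac9504⟩
  · exact ⟨_, fac9505⟩
  · exact ⟨_, fac9506⟩
  · exact ⟨_, fac9507⟩
  · exact ⟨_, fac9508⟩
  · exact ⟨_, fac9509⟩
  · exact ⟨_, fac9510⟩
  · exact ⟨_, fac9511⟩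
  · exact ⟨_, fac9512⟩
  · exact ⟨_, fac9513⟩
  · exact ⟨_, fac9514⟩
  · exact ⟨_, fac9515⟩
  · exact ⟨_, fac9516⟩
  · exact ⟨_, fac9517⟩
  · exact ⟨_, fac9518⟩
  · exact ⟨_, fac9519⟩
  · exact ⟨_, fac9520⟩
  · exact ⟨_, fac9521⟩
  · exact ⟨_, fac9522⟩
  · exact ⟨_, fac9523⟩
  · exact ⟨_, fac9524⟩
  · exact ⟨_, fac9525⟩
  · exact ⟨_, fac9526⟩
  · exact ⟨_, fac9527⟩
  · exact ⟨_, fac9528⟩
  · exact ⟨_, fac9529⟩
  · exact ⟨_, fac9530⟩
  · exact ⟨_, fac9531⟩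
  · exact ⟨_, fac9532⟩
  · exact ⟨_, fac9533⟩
  · exact ⟨_, fac9534⟩
  · exact ⟨_, fac9535⟩

theorem good148 : bx148.GoodK ((an : ℝ) / 100) (L.map (ITerm.term den)) (L2.map (ITerm.term den))
    (KL.map (KI.term den)) delta :=
  goodK_of_checkR an den (by decide) L L2 KL dtbl dtbl_ok rfl codes posN rowsA rowsB rowsC rows_tbl 12 256 8 72 b0 28 22
    (by decide) parts_ok (by decide +kernel) slice_ok lit_ok 1 (by decide +kernel) delta bx148 hd148
    (by decide) rls148 rls_ok148 (by decide) (planOf lams148) 190 dD148 dE148 els148 rfl pay148 delta_le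
    (fun b hb => by
      interval_cases b
      · exact bucket148_0
      · exact bucket148_1
      · exact bucket148_2
      · exact bucket148_3
      · exact bucket148_4
      · exact bucket148_5
      · exact bucket148_6
      · exact bucket148_7)

end Vale.Agent.P098.Exact.Sos6.Q93
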