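import Vale.Agent.P098.Exact.Sos6.Q93.Common
import Vale.Agent.P098.Exact.Sos6.Q93.Box149B0
import Vale.Agent.P098.Exact.Sos6.Q93.Box149B1
import Vale.Agent.P098.Exact.Sos6.Q93.Box149B2
import Vale.Agent.P098.Exact.Sos6.Q93.Box149B3
import Vale.Agent.P098.Exact.Sos6.Q93.Box149B4
import Vale.Agent.P098.Exact.Sos6.Q93.Box149B5
import Vale.Agent.P098.Exact.Sos6.Q93.Box149B6
import Vale.Agent.P098.Exact.Sos6.Q93.Box149B7

/-! Generated data of the dimension six interior check. -/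

noncomputable section

namespace Vale.Agent.P098.Exact.Sos6.Q93

set_option maxRecDepth 100000

theorem pay149 : dtbl.payOK 190 dD149 dE149 (elTot els149) = true := by decide +kernel

theorem rls_ok149 : ∀ G ∈ rls149, ∃ Ns, tbl.facR 72 b0 28 22 Ns G = true := by
  intro G hG
  simp only [rls149, List.mem_cons, List.not_mem_nil, or_false] at hG
  rcases hG with rfl | rfl | rfl | rfl | rfl | rfl | rfl | rfl | rfl | rfl | rfl | rfl | rfl | rfl | rfl | rfl | rfl | rfl | rfl | rfl | rfl | rfl | rfl | rfl | rfl | rfl | rfl | rfl | rfl | rfl | rfl | rfl | rfl | rfl | rfl | rfl | rfl | rfl | rfl | rfl | rfl | rfl | rfl | rfl | rfl | rfl | rfl | rfl | rfl | rfl | rfl | rfl | rfl | rfl | rfl | rfl | rfl | rfl | rfl | rfl | rfl | rfl | rfl | rfl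
  · exact ⟨_, fac9536⟩
  · exact ⟨_, fac9537⟩
  · exact ⟨_, fac9538⟩
  · exact ⟨_, fac9539⟩
  · exact ⟨_, fac9540⟩
  · exact ⟨_, fac9541⟩
  · exact ⟨_, fac9542⟩
  · exact ⟨_, fac9543⟩
  · exact ⟨_, fac9544⟩
  · exact ⟨_, fac9545⟩
  · exact ⟨_, fac9546⟩
  · exact ⟨_, fac9547⟩
  · exact ⟨_, fac9548⟩
  · exact ⟨_, fac9549⟩
  · exact ⟨_, fac9550⟩
  · exact ⟨_, fac9551⟩
  · exact ⟨_, fac9552⟩
  · exact ⟨_, fac9553⟩
  · exact ⟨_, fac9554⟩
  · exact ⟨_, fac9555⟩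
  · exact ⟨_, fac9556⟩
  · exact ⟨_, fac9557⟩
  · exact ⟨_, fac9558⟩
  · exact ⟨_, fac9559⟩
  · exact ⟨_, fac9560⟩
  · exact ⟨_, fac9561⟩
  · exact ⟨_, fac9562⟩
  · exact ⟨_, fac9563⟩
  · exact ⟨_, fac9564⟩
  · exact ⟨_, fac9565⟩
  · exact ⟨_, fac9566⟩
  · exact ⟨_, fac9567⟩
  · exact ⟨_, fac9568⟩
  · exact ⟨_, fac9569⟩
  · exact ⟨_, fac9570⟩
  · exact ⟨_, fac9571⟩
  · exact ⟨_, fac9572⟩
  · exact ⟨_, fac9573⟩
  · exact ⟨_, fac9574⟩
  · exact ⟨_, fac9575⟩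
  · exact ⟨_, fac9576⟩
  · exact ⟨_, fac9577⟩
  · exact ⟨_, fac9578⟩
  · exact ⟨_, fac9579⟩
  · exact ⟨_, fac9580⟩
  · exact ⟨_, fac9581⟩
  · exact ⟨_, fac9582⟩
  · exact ⟨_, fac9583⟩
  · exact ⟨_, fac9584⟩
  · exact ⟨_, fac9585⟩
  · exact ⟨_, fac9586⟩
  · exact ⟨_, fac9587⟩
  · exact ⟨_, fac9588⟩
  · exact ⟨_, fac9589⟩
  · exact ⟨_, fac9590⟩
  · exact ⟨_, fac9591⟩
  · exact ⟨_, fac9592⟩
  · exact ⟨_, fac9593⟩
  · exact ⟨_, fac9594⟩
  · exact ⟨_, fac9595⟩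
  · exact ⟨_, fac9596⟩
  · exact ⟨_, fac9597⟩
  · exact ⟨_, fac9598⟩
  · exact ⟨_, fac9599⟩

theorem good149 : bx149.GoodK ((an : ℝ) / 100) (L.map (ITerm.term den)) (L2.map (ITerm.term den))
    (KL.map (KI.term den)) delta :=
  goodK_of_checkR an den (by decide) L L2 KL dtbl dtbl_ok rfl codes posN rowsA rowsB rowsC rows_tbl 12 256 8 72 b0 28 22
    (by decide) parts_ok (by decide +kernel) slice_ok lit_ok 1 (by decide +kernel) delta bx149 hd149
    (by decide) rls149 rls_ok149 (by decide) (planOf lams149) 190 dD149 dE149 els149 rfl pay149 delta_le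
    (fun b hb => by
      interval_cases b
      · exact bucket149_0
      · exact bucket149_1
      · exact bucket149_2
      · exact bucket149_3
      · exact bucket149_4
      · exact bucket149_5
      · exact bucket149_6
      · exact bucket149_7)

end Vale.Agent.P098.Exact.Sos6.Q93
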