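import Vale.Agent.P098.Exact.Sos6.Q93.Common
import Vale.Agent.P098.Exact.Sos6.Q93.Box14B0
import Vale.Agent.P098.Exact.Sos6.Q93.Box14B1
import Vale.Agent.P098.Exact.Sos6.Q93.Box14B2
import Vale.Agent.P098.Exact.Sos6.Q93.Box14B3
import Vale.Agent.P098.Exact.Sos6.Q93.Box14B4
import Vale.Agent.P098.Exact.Sos6.Q93.Box14B5
import Vale.Agent.P098.Exact.Sos6.Q93.Box14B6
import Vale.Agent.P098.Exact.Sos6.Q93.Box14B7

/-! Generated data of the dimension six interior check. -/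

noncomputable section

namespace Vale.Agent.P098.Exact.Sos6.Q93

set_option maxRecDepth 100000

theorem pay14 : dtbl.payOK 190 dD14 dE14 (elTot els14) = true := by decide +kernel

theorem rls_ok14 : ∀ G ∈ rls14, ∃ Ns, tbl.facR 72 b0 28 22 Ns G = true := by
  intro G hG
  simp only [rls14, List.mem_cons, List.not_mem_nil, or_false] at hG
  rcases hG with rfl | rfl | rfl | rfl | rfl | rfl | rfl | rfl | rfl | rfl | rfl | rfl | rfl | rfl | rfl | rfl | rfl | rfl | rfl | rfl | rfl | rfl | rfl | rfl | rfl | rfl | rfl | rfl | rfl | rfl | rfl | rfl | rfl | rfl | rfl | rfl | rfl | rfl | rfl | rfl | rfl | rfl | rfl | rfl | rfl | rfl | rfl | rfl | rfl | rfl | rfl | rfl | rfl | rfl | rfl | rfl | rfl | rfl | rfl | rfl | rfl | rfl | rfl | rfl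
  · exact ⟨_, fac896⟩
  · exact ⟨_, fac897⟩
  · exact ⟨_, fac898⟩
  · exact ⟨_, fac899⟩
  · exact ⟨_, fac900⟩
  · exact ⟨_, fac901⟩
  · exact ⟨_, fac902⟩
  · exact ⟨_, fac903⟩
  · exact ⟨_, fac904⟩
  · exact ⟨_, fac905⟩
  · exact ⟨_, fac906⟩
  · exact ⟨_, fac907⟩
  · exact ⟨_, fac908⟩
  · exact ⟨_, fac909⟩
  · exact ⟨_, fac910⟩
  · exact ⟨_, fac911⟩
  · exact ⟨_, fac912⟩
  · exact ⟨_, fac913⟩
  · exact ⟨_, fac914⟩
  · exact ⟨_, fac915⟩
  · exact ⟨_, fac916⟩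
  · exact ⟨_, fac917⟩
  · exact ⟨_, fac918⟩
  · exact ⟨_, fac919⟩
  · exact ⟨_, fac920⟩
  · exact ⟨_, fac921⟩
  · exact ⟨_, fac922⟩
  · exact ⟨_, fac923⟩
  · exact ⟨_, fac924⟩
  · exact ⟨_, fac925⟩
  · exact ⟨_, fac926⟩
  · exact ⟨_, fac927⟩
  · exact ⟨_, fac928⟩
  · exact ⟨_, fac929⟩
  · exact ⟨_, fac930⟩
  · exact ⟨_, fac931⟩
  · exact ⟨_, fac932⟩
  · exact ⟨_, fac933⟩
  · exact ⟨_, fac934⟩
  · exact ⟨_, fac935⟩
  · exact ⟨_, fac936⟩
  · exact ⟨_, fac937⟩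
  · exact ⟨_, fac938⟩
  · exact ⟨_, fac939⟩
  · exact ⟨_, fac940⟩
  · exact ⟨_, fac941⟩
  · exact ⟨_, fac942⟩
  · exact ⟨_, fac943⟩
  · exact ⟨_, fac944⟩
  · exact ⟨_, fac945⟩
  · exact ⟨_, fac946⟩
  · exact ⟨_, fac947⟩
  · exact ⟨_, fac948⟩
  · exact ⟨_, fac949⟩
  · exact ⟨_, fac950⟩
  · exact ⟨_, fac951⟩
  · exact ⟨_, fac952⟩
  · exact ⟨_, fac953⟩
  · exact ⟨_, fac954⟩
  · exact ⟨_, fac955⟩
  · exact ⟨_, fac956⟩
  · exact ⟨_, fac957⟩
  · exact ⟨_, fac958⟩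
  · exact ⟨_, fac959⟩

theorem good14 : bx14.GoodK ((an : ℝ) / 100) (L.map (ITerm.term den)) (L2.map (ITerm.term den))
    (KL.map (KI.term den)) delta :=
  goodK_of_checkR an den (by decide) L L2 KL dtbl dtbl_ok rfl codes posN rowsA rowsB rowsC rows_tbl 12 256 8 72 b0 28 22
    (by decide) parts_ok (by decide +kernel) slice_ok lit_ok 1 (by decide +kernel) delta bx14 hd14
    (by decide) rls14 rls_ok14 (by decide) (planOf lams14) 190 dD14 dE14 els14 rfl pay14 delta_le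
    (fun b hb => by
      interval_cases b
      · exact bucket14_0
      · exact bucket14_1
      · exact bucket14_2
      · exact bucket14_3
      · exact bucket14_4
      · exact bucket14_5
      · exact bucket14_6
      · exact bucket14_7)

end Vale.Agent.P098.Exact.Sos6.Q93
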