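import Vale.Agent.P098.Exact.Sos6.Q93.Common
import Vale.Agent.P098.Exact.Sos6.Q93.Box150B0
import Vale.Agent.P098.Exact.Sos6.Q93.Box150B1
import Vale.Agent.P098.Exact.Sos6.Q93.Box150B2
import Vale.Agent.P098.Exact.Sos6.Q93.Box150B3
import Vale.Agent.P098.Exact.Sos6.Q93.Box150B4
import Vale.Agent.P098.Exact.Sos6.Q93.Box150B5
import Vale.Agent.P098.Exact.Sos6.Q93.Box150B6
import Vale.Agent.P098.Exact.Sos6.Q93.Box150B7

/-! Generated data of the dimension six interior check. -/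

noncomputable section

namespace Vale.Agent.P098.Exact.Sos6.Q93

set_option maxRecDepth 100000

theorem pay150 : dtbl.payOK 190 dD150 dE150 (elTot els150) = true := by decide +kernel

theorem rls_ok150 : ∀ G ∈ rls150, ∃ Ns, tbl.facR 72 b0 28 22 Ns G = true := by
  intro G hG
  simp only [rls150, List.mem_cons, List.not_mem_nil, or_false] at hG
  rcases hG with rfl | rfl | rfl | rfl | rfl | rfl | rfl | rfl | rfl | rfl | rfl | rfl | rfl | rfl | rfl | rfl | rfl | rfl | rfl | rfl | rfl | rfl | rfl | rfl | rfl | rfl | rfl | rfl | rfl | rfl | rfl | rfl | rfl | rfl | rfl | rfl | rfl | rfl | rfl | rfl | rfl | rfl | rfl | rfl | rfl | rfl | rfl | rfl | rfl | rfl | rfl | rfl | rfl | rfl | rfl | rfl | rfl | rfl | rfl | rfl | rfl | rfl | rfl | rfl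
  · exact ⟨_, fac9600⟩
  · exact ⟨_, fac9601⟩
  · exact ⟨_, fac9602⟩
  · exact ⟨_, fac9603⟩
  · exact ⟨_, fac9604⟩
  · exact ⟨_, fac9605⟩
  · exact ⟨_, fac9606⟩
  · exact ⟨_, fac9607⟩
  · exact ⟨_, fac9608⟩
  · exact ⟨_, fac9609⟩
  · exact ⟨_, fac9610⟩
  · exact ⟨_, fac9611⟩
  · exact ⟨_, fac9612⟩
  · exact ⟨_, fac9613⟩
  · exact ⟨_, fac9614⟩
  · exact ⟨_, fac9615⟩
  · exact ⟨_, fac9616⟩
  · exact ⟨_, fac9617⟩
  · exact ⟨_, fac9618⟩
  · exact ⟨_, fac9619⟩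
  · exact ⟨_, fac9620⟩
  · exact ⟨_, fac9621⟩
  · exact ⟨_, fac9622⟩
  · exact ⟨_, fac9623⟩
  · exact ⟨_, fac9624⟩
  · exact ⟨_, fac9625⟩
  · exact ⟨_, fac9626⟩
  · exact ⟨_, fac9627⟩
  · exact ⟨_, fac9628⟩
  · exact ⟨_, fac9629⟩
  · exact ⟨_, fac9630⟩
  · exact ⟨_, fac9631⟩
  · exact ⟨_, fac9632⟩
  · exact ⟨_, fac9633⟩
  · exact ⟨_, fac9634⟩
  · exact ⟨_, fac9635⟩
  · exact ⟨_, fac9636⟩
  · exact ⟨_, fac9637⟩
  · exact ⟨_, fac9638⟩
  · exact ⟨_, fac9639⟩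
  · exact ⟨_, fac9640⟩
  · exact ⟨_, fac9641⟩
  · exact ⟨_, fac9642⟩
  · exact ⟨_, fac9643⟩
  · exact ⟨_, fac9644⟩
  · exact ⟨_, fac9645⟩
  · exact ⟨_, fac9646⟩
  · exact ⟨_, fac9647⟩
  · exact ⟨_, fac9648⟩
  · exact ⟨_, fac9649⟩
  · exact ⟨_, fac9650⟩
  · exact ⟨_, fac9651⟩
  · exact ⟨_, fac9652⟩
  · exact ⟨_, fac9653⟩
  · exact ⟨_, fac9654⟩
  · exact ⟨_, fac9655⟩
  · exact ⟨_, fac9656⟩
  · exact ⟨_, fac9657⟩
  · exact ⟨_, fac9658⟩
  · exact ⟨_, fac9659⟩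
  · exact ⟨_, fac9660⟩
  · exact ⟨_, fac9661⟩
  · exact ⟨_, fac9662⟩
  · exact ⟨_, fac9663⟩

theorem good150 : bx150.GoodK ((an : ℝ) / 100) (L.map (ITerm.term den)) (L2.map (ITerm.term den))
    (KL.map (KI.term den)) delta :=
  goodK_of_checkR an den (by decide) L L2 KL dtbl dtbl_ok rfl codes posN rowsA rowsB rowsC rows_tbl 12 256 8 72 b0 28 22
    (by decide) parts_ok (by decide +kernel) slice_ok lit_ok 1 (by decide +kernel) delta bx150 hd150
    (by decide) rls150 rls_ok150 (by decide) (planOf lams150) 190 dD150 dE150 els150 rfl pay150 delta_le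
    (fun b hb => by
      interval_cases b
      · exact bucket150_0
      · exact bucket150_1
      · exact bucket150_2
      · exact bucket150_3
      · exact bucket150_4
      · exact bucket150_5
      · exact bucket150_6
      · exact bucket150_7)

end Vale.Agent.P098.Exact.Sos6.Q93
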