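import Vale.Agent.P098.Exact.Sos6.Q93.Common
import Vale.Agent.P098.Exact.Sos6.Q93.Box151B0
import Vale.Agent.P098.Exact.Sos6.Q93.Box151B1
import Vale.Agent.P098.Exact.Sos6.Q93.Box151B2
import Vale.Agent.P098.Exact.Sos6.Q93.Box151B3
import Vale.Agent.P098.Exact.Sos6.Q93.Box151B4
import Vale.Agent.P098.Exact.Sos6.Q93.Box151B5
import Vale.Agent.P098.Exact.Sos6.Q93.Box151B6
import Vale.Agent.P098.Exact.Sos6.Q93.Box151B7

/-! Generated data of the dimension six interior check. -/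

noncomputable section

namespace Vale.Agent.P098.Exact.Sos6.Q93

set_option maxRecDepth 100000

theorem pay151 : dtbl.payOK 190 dD151 dE151 (elTot els151) = true := by decide +kernel

theorem rls_ok151 : ∀ G ∈ rls151, ∃ Ns, tbl.facR 72 b0 28 22 Ns G = true := by
  intro G hG
  simp only [rls151, List.mem_cons, List.not_mem_nil, or_false] at hG
  rcases hG with rfl | rfl | rfl | rfl | rfl | rfl | rfl | rfl | rfl | rfl | rfl | rfl | rfl | rfl | rfl | rfl | rfl | rfl | rfl | rfl | rfl | rfl | rfl | rfl | rfl | rfl | rfl | rfl | rfl | rfl | rfl | rfl | rfl | rfl | rfl | rfl | rfl | rfl | rfl | rfl | rfl | rfl | rfl | rfl | rfl | rfl | rfl | rfl | rfl | rfl | rfl | rfl | rfl | rfl | rfl | rfl | rfl | rfl | rfl | rfl | rfl | rfl | rfl | rfl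
  · exact ⟨_, fac9664⟩
  · exact ⟨_, fac9665⟩
  · exact ⟨_, fac9666⟩
  · exact ⟨_, fac9667⟩
  · exact ⟨_, fac9668⟩
  · exact ⟨_, fac9669⟩
  · exact ⟨_, fac9670⟩
  · exact ⟨_, fac9671⟩
  · exact ⟨_, fac9672⟩
  · exact ⟨_, fac9673⟩
  · exact ⟨_, fac9674⟩
  · exact ⟨_, fac9675⟩
  · exact ⟨_, fac9676⟩
  · exact ⟨_, fac9677⟩
  · exact ⟨_, fac9678⟩
  · exact ⟨_, fac9679⟩
  · exact ⟨_, fac9680⟩
  · exact ⟨_, fac9681⟩
  · exact ⟨_, fac9682⟩
  · exact ⟨_, fac9683⟩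
  · exact ⟨_, fac9684⟩
  · exact ⟨_, fac9685⟩
  · exact ⟨_, fac9686⟩
  · exact ⟨_, fac9687⟩
  · exact ⟨_, fac9688⟩
  · exact ⟨_, fac9689⟩
  · exact ⟨_, fac9690⟩
  · exact ⟨_, fac9691⟩
  · exact ⟨_, fac9692⟩
  · exact ⟨_, fac9693⟩
  · exact ⟨_, fac9694⟩
  · exact ⟨_, fac9695⟩
  · exact ⟨_, fac9696⟩
  · exact ⟨_, fac9697⟩
  · exact ⟨_, fac9698⟩
  · exact ⟨_, fac9699⟩
  · exact ⟨_, fac9700⟩
  · exact ⟨_, fac9701⟩
  · exact ⟨_, fac9702⟩
  · exact ⟨_, fac9703⟩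
  · exact ⟨_, fac9704⟩
  · exact ⟨_, fac9705⟩
  · exact ⟨_, fac9706⟩
  · exact ⟨_, fac9707⟩
  · exact ⟨_, fac9708⟩
  · exact ⟨_, fac9709⟩
  · exact ⟨_, fac9710⟩
  · exact ⟨_, fac9711⟩
  · exact ⟨_, fac9712⟩
  · exact ⟨_, fac9713⟩
  · exact ⟨_, fac9714⟩
  · exact ⟨_, fac9715⟩
  · exact ⟨_, fac9716⟩
  · exact ⟨_, fac9717⟩
  · exact ⟨_, fac9718⟩
  · exact ⟨_, fac9719⟩
  · exact ⟨_, fac9720⟩
  · exact ⟨_, fac9721⟩
  · exact ⟨_, fac9722⟩
  · exact ⟨_, fac9723⟩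
  · exact ⟨_, fac9724⟩
  · exact ⟨_, fac9725⟩
  · exact ⟨_, fac9726⟩
  · exact ⟨_, fac9727⟩

theorem good151 : bx151.GoodK ((an : ℝ) / 100) (L.map (ITerm.term den)) (L2.map (ITerm.term den))
    (KL.map (KI.term den)) delta :=
  goodK_of_checkR an den (by decide) L L2 KL dtbl dtbl_ok rfl codes posN rowsA rowsB rowsC rows_tbl 12 256 8 72 b0 28 22
    (by decide) parts_ok (by decide +kernel) slice_ok lit_ok 1 (by decide +kernel) delta bx151 hd151
    (by decide) rls151 rls_ok151 (by decide) (planOf lams151) 190 dD151 dE151 els151 rfl pay151 delta_le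
    (fun b hb => by
      interval_cases b
      · exact bucket151_0
      · exact bucket151_1
      · exact bucket151_2
      · exact bucket151_3
      · exact bucket151_4
      · exact bucket151_5
      · exact bucket151_6
      · exact bucket151_7)

end Vale.Agent.P098.Exact.Sos6.Q93
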