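import Vale.Agent.P098.Exact.Sos6.Q93.Common
import Vale.Agent.P098.Exact.Sos6.Q93.Box152B0
import Vale.Agent.P098.Exact.Sos6.Q93.Box152B1
import Vale.Agent.P098.Exact.Sos6.Q93.Box152B2
import Vale.Agent.P098.Exact.Sos6.Q93.Box152B3
import Vale.Agent.P098.Exact.Sos6.Q93.Box152B4
import Vale.Agent.P098.Exact.Sos6.Q93.Box152B5
import Vale.Agent.P098.Exact.Sos6.Q93.Box152B6
import Vale.Agent.P098.Exact.Sos6.Q93.Box152B7

/-! Generated data of the dimension six interior check. -/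

noncomputable section

namespace Vale.Agent.P098.Exact.Sos6.Q93

set_option maxRecDepth 100000

theorem pay152 : dtbl.payOK 190 dD152 dE152 (elTot els152) = true := by decide +kernel

theorem rls_ok152 : ∀ G ∈ rls152, ∃ Ns, tbl.facR 72 b0 28 22 Ns G = true := by
  intro G hG
  simp only [rls152, List.mem_cons, List.not_mem_nil, or_false] at hG
  rcases hG with rfl | rfl | rfl | rfl | rfl | rfl | rfl | rfl | rfl | rfl | rfl | rfl | rfl | rfl | rfl | rfl | rfl | rfl | rfl | rfl | rfl | rfl | rfl | rfl | rfl | rfl | rfl | rfl | rfl | rfl | rfl | rfl | rfl | rfl | rfl | rfl | rfl | rfl | rfl | rfl | rfl | rfl | rfl | rfl | rfl | rfl | rfl | rfl | rfl | rfl | rfl | rfl | rfl | rfl | rfl | rfl | rfl | rfl | rfl | rfl | rfl | rfl | rfl | rfl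
  · exact ⟨_, fac9728⟩
  · exact ⟨_, fac9729⟩
  · exact ⟨_, fac9730⟩
  · exact ⟨_, fac9731⟩
  · exact ⟨_, fac9732⟩
  · exact ⟨_, fac9733⟩
  · exact ⟨_, fac9734⟩
  · exact ⟨_, fac9735⟩
  · exact ⟨_, fac9736⟩
  · exact ⟨_, fac9737⟩
  · exact ⟨_, fac9738⟩
  · exact ⟨_, fac9739⟩
  · exact ⟨_, fac9740⟩
  · exact ⟨_, fac9741⟩
  · exact ⟨_, fac9742⟩
  · exact ⟨_, fac9743⟩
  · exact ⟨_, fac9744⟩
  · exact ⟨_, fac9745⟩
  · exact ⟨_, fac9746⟩
  · exact ⟨_, fac9747⟩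
  · exact ⟨_, fac9748⟩
  · exact ⟨_, fac9749⟩
  · exact ⟨_, fac9750⟩
  · exact ⟨_, fac9751⟩
  · exact ⟨_, fac9752⟩
  · exact ⟨_, fac9753⟩
  · exact ⟨_, fac9754⟩
  · exact ⟨_, fac9755⟩
  · exact ⟨_, fac9756⟩
  · exact ⟨_, fac9757⟩
  · exact ⟨_, fac9758⟩
  · exact ⟨_, fac9759⟩
  · exact ⟨_, fac9760⟩
  · exact ⟨_, fac9761⟩
  · exact ⟨_, fac9762⟩
  · exact ⟨_, fac9763⟩
  · exact ⟨_, fac9764⟩
  · exact ⟨_, fac9765⟩
  · exact ⟨_, fac9766⟩
  · exact ⟨_, fac9767⟩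
  · exact ⟨_, fac9768⟩
  · exact ⟨_, fac9769⟩
  · exact ⟨_, fac9770⟩
  · exact ⟨_, fac9771⟩
  · exact ⟨_, fac9772⟩
  · exact ⟨_, fac9773⟩
  · exact ⟨_, fac9774⟩
  · exact ⟨_, fac9775⟩
  · exact ⟨_, fac9776⟩
  · exact ⟨_, fac9777⟩
  · exact ⟨_, fac9778⟩
  · exact ⟨_, fac9779⟩
  · exact ⟨_, fac9780⟩
  · exact ⟨_, fac9781⟩
  · exact ⟨_, fac9782⟩
  · exact ⟨_, fac9783⟩
  · exact ⟨_, fac9784⟩
  · exact ⟨_, fac9785⟩
  · exact ⟨_, fac9786⟩
  · exact ⟨_, fac9787⟩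
  · exact ⟨_, fac9788⟩
  · exact ⟨_, fac9789⟩
  · exact ⟨_, fac9790⟩
  · exact ⟨_, fac9791⟩

theorem good152 : bx152.GoodK ((an : ℝ) / 100) (L.map (ITerm.term den)) (L2.map (ITerm.term den))
    (KL.map (KI.term den)) delta :=
  goodK_of_checkR an den (by decide) L L2 KL dtbl dtbl_ok rfl codes posN rowsA rowsB rowsC rows_tbl 12 256 8 72 b0 28 22
    (by decide) parts_ok (by decide +kernel) slice_ok lit_ok 1 (by decide +kernel) delta bx152 hd152
    (by decide) rls152 rls_ok152 (by decide) (planOf lams152) 190 dD152 dE152 els152 rfl pay152 delta_le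
    (fun b hb => by
      interval_cases b
      · exact bucket152_0
      · exact bucket152_1
      · exact bucket152_2
      · exact bucket152_3
      · exact bucket152_4
      · exact bucket152_5
      · exact bucket152_6
      · exact bucket152_7)

end Vale.Agent.P098.Exact.Sos6.Q93
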