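import Vale.Agent.P098.Exact.Sos6.Q93.Common
import Vale.Agent.P098.Exact.Sos6.Q93.Box153B0
import Vale.Agent.P098.Exact.Sos6.Q93.Box153B1
import Vale.Agent.P098.Exact.Sos6.Q93.Box153B2
import Vale.Agent.P098.Exact.Sos6.Q93.Box153B3
import Vale.Agent.P098.Exact.Sos6.Q93.Box153B4
import Vale.Agent.P098.Exact.Sos6.Q93.Box153B5
import Vale.Agent.P098.Exact.Sos6.Q93.Box153B6
import Vale.Agent.P098.Exact.Sos6.Q93.Box153B7

/-! Generated data of the dimension six interior check. -/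

noncomputable section

namespace Vale.Agent.P098.Exact.Sos6.Q93

set_option maxRecDepth 100000

theorem pay153 : dtbl.payOK 190 dD153 dE153 (elTot els153) = true := by decide +kernel

theorem rls_ok153 : ∀ G ∈ rls153, ∃ Ns, tbl.facR 72 b0 28 22 Ns G = true := by
  intro G hG
  simp only [rls153, List.mem_cons, List.not_mem_nil, or_false] at hG
  rcases hG with rfl | rfl | rfl | rfl | rfl | rfl | rfl | rfl | rfl | rfl | rfl | rfl | rfl | rfl | rfl | rfl | rfl | rfl | rfl | rfl | rfl | rfl | rfl | rfl | rfl | rfl | rfl | rfl | rfl | rfl | rfl | rfl | rfl | rfl | rfl | rfl | rfl | rfl | rfl | rfl | rfl | rfl | rfl | rfl | rfl | rfl | rfl | rfl | rfl | rfl | rfl | rfl | rfl | rfl | rfl | rfl | rfl | rfl | rfl | rfl | rfl | rfl | rfl | rfl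
  · exact ⟨_, fac9792⟩
  · exact ⟨_, fac9793⟩
  · exact ⟨_, fac9794⟩
  · exact ⟨_, fac9795⟩
  · exact ⟨_, fac9796⟩
  · exact ⟨_, fac9797⟩
  · exact ⟨_, fac9798⟩
  · exact ⟨_, fac9799⟩
  · exact ⟨_, fac9800⟩
  · exact ⟨_, fac9801⟩
  · exact ⟨_, fac9802⟩
  · exact ⟨_, fac9803⟩
  · exact ⟨_, fac9804⟩
  · exact ⟨_, fac9805⟩
  · exact ⟨_, fac9806⟩
  · exact ⟨_, fac9807⟩
  · exact ⟨_, fac9808⟩
  · exact ⟨_, fac9809⟩
  · exact ⟨_, fac9810⟩
  · exact ⟨_, fac9811⟩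
  · exact ⟨_, fac9812⟩
  · exact ⟨_, fac9813⟩
  · exact ⟨_, fac9814⟩
  · exact ⟨_, fac9815⟩
  · exact ⟨_, fac9816⟩
  · exact ⟨_, fac9817⟩
  · exact ⟨_, fac9818⟩
  · exact ⟨_, fac9819⟩
  · exact ⟨_, fac9820⟩
  · exact ⟨_, fac9821⟩
  · exact ⟨_, fac9822⟩
  · exact ⟨_, fac9823⟩
  · exact ⟨_, fac9824⟩
  · exact ⟨_, fac9825⟩
  · exact ⟨_, fac9826⟩
  · exact ⟨_, fac9827⟩
  · exact ⟨_, fac9828⟩
  · exact ⟨_, fac9829⟩
  · exact ⟨_, fac9830⟩
  · exact ⟨_, fac9831⟩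
  · exact ⟨_, fac9832⟩
  · exact ⟨_, fac9833⟩
  · exact ⟨_, fac9834⟩
  · exact ⟨_, fac9835⟩
  · exact ⟨_, fac9836⟩
  · exact ⟨_, fac9837⟩
  · exact ⟨_, fac9838⟩
  · exact ⟨_, fac9839⟩
  · exact ⟨_, fac9840⟩
  · exact ⟨_, fac9841⟩
  · exact ⟨_, fac9842⟩
  · exact ⟨_, fac9843⟩
  · exact ⟨_, fac9844⟩
  · exact ⟨_, fac9845⟩
  · exact ⟨_, fac9846⟩
  · exact ⟨_, fac9847⟩
  · exact ⟨_, fac9848⟩
  · exact ⟨_, fac9849⟩
  · exact ⟨_, fac9850⟩
  · exact ⟨_, fac9851⟩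
  · exact ⟨_, fac9852⟩
  · exact ⟨_, fac9853⟩
  · exact ⟨_, fac9854⟩
  · exact ⟨_, fac9855⟩

theorem good153 : bx153.GoodK ((an : ℝ) / 100) (L.map (ITerm.term den)) (L2.map (ITerm.term den))
    (KL.map (KI.term den)) delta :=
  goodK_of_checkR an den (by decide) L L2 KL dtbl dtbl_ok rfl codes posN rowsA rowsB rowsC rows_tbl 12 256 8 72 b0 28 22
    (by decide) parts_ok (by decide +kernel) slice_ok lit_ok 1 (by decide +kernel) delta bx153 hd153
    (by decide) rls153 rls_ok153 (by decide) (planOf lams153) 190 dD153 dE153 els153 rfl pay153 delta_le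
    (fun b hb => by
      interval_cases b
      · exact bucket153_0
      · exact bucket153_1
      · exact bucket153_2
      · exact bucket153_3
      · exact bucket153_4
      · exact bucket153_5
      · exact bucket153_6
      · exact bucket153_7)

end Vale.Agent.P098.Exact.Sos6.Q93
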