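import Vale.Agent.P098.Exact.Sos6.Q93.Common
import Vale.Agent.P098.Exact.Sos6.Q93.Box154B0
import Vale.Agent.P098.Exact.Sos6.Q93.Box154B1
import Vale.Agent.P098.Exact.Sos6.Q93.Box154B2
import Vale.Agent.P098.Exact.Sos6.Q93.Box154B3
import Vale.Agent.P098.Exact.Sos6.Q93.Box154B4
import Vale.Agent.P098.Exact.Sos6.Q93.Box154B5
import Vale.Agent.P098.Exact.Sos6.Q93.Box154B6
import Vale.Agent.P098.Exact.Sos6.Q93.Box154B7

/-! Generated data of the dimension six interior check. -/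

noncomputable section

namespace Vale.Agent.P098.Exact.Sos6.Q93

set_option maxRecDepth 100000

theorem pay154 : dtbl.payOK 190 dD154 dE154 (elTot els154) = true := by decide +kernel

theorem rls_ok154 : ∀ G ∈ rls154, ∃ Ns, tbl.facR 72 b0 28 22 Ns G = true := by
  intro G hG
  simp only [rls154, List.mem_cons, List.not_mem_nil, or_false] at hG
  rcases hG with rfl | rfl | rfl | rfl | rfl | rfl | rfl | rfl | rfl | rfl | rfl | rfl | rfl | rfl | rfl | rfl | rfl | rfl | rfl | rfl | rfl | rfl | rfl | rfl | rfl | rfl | rfl | rfl | rfl | rfl | rfl | rfl | rfl | rfl | rfl | rfl | rfl | rfl | rfl | rfl | rfl | rfl | rfl | rfl | rfl | rfl | rfl | rfl | rfl | rfl | rfl | rfl | rfl | rfl | rfl | rfl | rfl | rfl | rfl | rfl | rfl | rfl | rfl | rfl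
  · exact ⟨_, fac9856⟩
  · exact ⟨_, fac9857⟩
  · exact ⟨_, fac9858⟩
  · exact ⟨_, fac9859⟩
  · exact ⟨_, fac9860⟩
  · exact ⟨_, fac9861⟩
  · exact ⟨_, fac9862⟩
  · exact ⟨_, fac9863⟩
  · exact ⟨_, fac9864⟩
  · exact ⟨_, fac9865⟩
  · exact ⟨_, fac9866⟩
  · exact ⟨_, fac9867⟩
  · exact ⟨_, fac9868⟩
  · exact ⟨_, fac9869⟩
  · exact ⟨_, fac9870⟩
  · exact ⟨_, fac9871⟩
  · exact ⟨_, fac9872⟩
  · exact ⟨_, fac9873⟩
  · exact ⟨_, fac9874⟩
  · exact ⟨_, fac9875⟩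
  · exact ⟨_, fac9876⟩
  · exact ⟨_, fac9877⟩
  · exact ⟨_, fac9878⟩
  · exact ⟨_, fac9879⟩
  · exact ⟨_, fac9880⟩
  · exact ⟨_, fac9881⟩
  · exact ⟨_, fac9882⟩
  · exact ⟨_, fac9883⟩
  · exact ⟨_, fac9884⟩
  · exact ⟨_, fac9885⟩
  · exact ⟨_, fac9886⟩
  · exact ⟨_, fac9887⟩
  · exact ⟨_, fac9888⟩
  · exact ⟨_, fac9889⟩
  · exact ⟨_, fac9890⟩
  · exact ⟨_, fac9891⟩
  · exact ⟨_, fac9892⟩
  · exact ⟨_, fac9893⟩
  · exact ⟨_, fac9894⟩
  · exact ⟨_, fac9895⟩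
  · exact ⟨_, fac9896⟩
  · exact ⟨_, fac9897⟩
  · exact ⟨_, fac9898⟩
  · exact ⟨_, fac9899⟩
  · exact ⟨_, fac9900⟩
  · exact ⟨_, fac9901⟩
  · exact ⟨_, fac9902⟩
  · exact ⟨_, fac9903⟩
  · exact ⟨_, fac9904⟩
  · exact ⟨_, fac9905⟩
  · exact ⟨_, fac9906⟩
  · exact ⟨_, fac9907⟩
  · exact ⟨_, fac9908⟩
  · exact ⟨_, fac9909⟩
  · exact ⟨_, fac9910⟩
  · exact ⟨_, fac9911⟩
  · exact ⟨_, fac9912⟩
  · exact ⟨_, fac9913⟩
  · exact ⟨_, fac9914⟩
  · exact ⟨_, fac9915⟩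
  · exact ⟨_, fac9916⟩
  · exact ⟨_, fac9917⟩
  · exact ⟨_, fac9918⟩
  · exact ⟨_, fac9919⟩

theorem good154 : bx154.GoodK ((an : ℝ) / 100) (L.map (ITerm.term den)) (L2.map (ITerm.term den))
    (KL.map (KI.term den)) delta :=
  goodK_of_checkR an den (by decide) L L2 KL dtbl dtbl_ok rfl codes posN rowsA rowsB rowsC rows_tbl 12 256 8 72 b0 28 22
    (by decide) parts_ok (by decide +kernel) slice_ok lit_ok 1 (by decide +kernel) delta bx154 hd154
    (by decide) rls154 rls_ok154 (by decide) (planOf lams154) 190 dD154 dE154 els154 rfl pay154 delta_le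
    (fun b hb => by
      interval_cases b
      · exact bucket154_0
      · exact bucket154_1
      · exact bucket154_2
      · exact bucket154_3
      · exact bucket154_4
      · exact bucket154_5
      · exact bucket154_6
      · exact bucket154_7)

end Vale.Agent.P098.Exact.Sos6.Q93
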