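import Vale.Agent.P098.Exact.Sos6.Q93.Common
import Vale.Agent.P098.Exact.Sos6.Q93.Box155B0
import Vale.Agent.P098.Exact.Sos6.Q93.Box155B1
import Vale.Agent.P098.Exact.Sos6.Q93.Box155B2
import Vale.Agent.P098.Exact.Sos6.Q93.Box155B3
import Vale.Agent.P098.Exact.Sos6.Q93.Box155B4
import Vale.Agent.P098.Exact.Sos6.Q93.Box155B5
import Vale.Agent.P098.Exact.Sos6.Q93.Box155B6
import Vale.Agent.P098.Exact.Sos6.Q93.Box155B7

/-! Generated data of the dimension six interior check. -/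

noncomputable section

namespace Vale.Agent.P098.Exact.Sos6.Q93

set_option maxRecDepth 100000

theorem pay155 : dtbl.payOK 190 dD155 dE155 (elTot els155) = true := by decide +kernel

theorem rls_ok155 : ∀ G ∈ rls155, ∃ Ns, tbl.facR 72 b0 28 22 Ns G = true := by
  intro G hG
  simp only [rls155, List.mem_cons, List.not_mem_nil, or_false] at hG
  rcases hG with rfl | rfl | rfl | rfl | rfl | rfl | rfl | rfl | rfl | rfl | rfl | rfl | rfl | rfl | rfl | rfl | rfl | rfl | rfl | rfl | rfl | rfl | rfl | rfl | rfl | rfl | rfl | rfl | rfl | rfl | rfl | rfl | rfl | rfl | rfl | rfl | rfl | rfl | rfl | rfl | rfl | rfl | rfl | rfl | rfl | rfl | rfl | rfl | rfl | rfl | rfl | rfl | rfl | rfl | rfl | rfl | rfl | rfl | rfl | rfl | rfl | rfl | rfl | rfl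
  · exact ⟨_, fac9920⟩
  · exact ⟨_, fac9921⟩
  · exact ⟨_, fac9922⟩
  · exact ⟨_, fac9923⟩
  · exact ⟨_, fac9924⟩
  · exact ⟨_, fac9925⟩
  · exact ⟨_, fac9926⟩
  · exact ⟨_, fac9927⟩
  · exact ⟨_, fac9928⟩
  · exact ⟨_, fac9929⟩
  · exact ⟨_, fac9930⟩
  · exact ⟨_, fac9931⟩
  · exact ⟨_, fac9932⟩
  · exact ⟨_, fac9933⟩
  · exact ⟨_, fac9934⟩
  · exact ⟨_, fac9935⟩
  · exact ⟨_, fac9936⟩
  · exact ⟨_, fac9937⟩
  · exact ⟨_, fac9938⟩
  · exact ⟨_, fac9939⟩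
  · exact ⟨_, fac9940⟩
  · exact ⟨_, fac9941⟩
  · exact ⟨_, fac9942⟩
  · exact ⟨_, fac9943⟩
  · exact ⟨_, fac9944⟩
  · exact ⟨_, fac9945⟩
  · exact ⟨_, fac9946⟩
  · exact ⟨_, fac9947⟩
  · exact ⟨_, fac9948⟩
  · exact ⟨_, fac9949⟩
  · exact ⟨_, fac9950⟩
  · exact ⟨_, fac9951⟩
  · exact ⟨_, fac9952⟩
  · exact ⟨_, fac9953⟩
  · exact ⟨_, fac9954⟩
  · exact ⟨_, fac9955⟩
  · exact ⟨_, fac9956⟩
  · exact ⟨_, fac9957⟩
  · exact ⟨_, fac9958⟩
  · exact ⟨_, fac9959⟩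
  · exact ⟨_, fac9960⟩
  · exact ⟨_, fac9961⟩
  · exact ⟨_, fac9962⟩
  · exact ⟨_, fac9963⟩
  · exact ⟨_, fac9964⟩
  · exact ⟨_, fac9965⟩
  · exact ⟨_, fac9966⟩
  · exact ⟨_, fac9967⟩
  · exact ⟨_, fac9968⟩
  · exact ⟨_, fac9969⟩
  · exact ⟨_, fac9970⟩
  · exact ⟨_, fac9971⟩
  · exact ⟨_, fac9972⟩
  · exact ⟨_, fac9973⟩
  · exact ⟨_, fac9974⟩
  · exact ⟨_, fac9975⟩
  · exact ⟨_, fac9976⟩
  · exact ⟨_, fac9977⟩
  · exact ⟨_, fac9978⟩
  · exact ⟨_, fac9979⟩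
  · exact ⟨_, fac9980⟩
  · exact ⟨_, fac9981⟩
  · exact ⟨_, fac9982⟩
  · exact ⟨_, fac9983⟩

theorem good155 : bx155.GoodK ((an : ℝ) / 100) (L.map (ITerm.term den)) (L2.map (ITerm.term den))
    (KL.map (KI.term den)) delta :=
  goodK_of_checkR an den (by decide) L L2 KL dtbl dtbl_ok rfl codes posN rowsA rowsB rowsC rows_tbl 12 256 8 72 b0 28 22
    (by decide) parts_ok (by decide +kernel) slice_ok lit_ok 1 (by decide +kernel) delta bx155 hd155
    (by decide) rls155 rls_ok155 (by decide) (planOf lams155) 190 dD155 dE155 els155 rfl pay155 delta_le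
    (fun b hb => by
      interval_cases b
      · exact bucket155_0
      · exact bucket155_1
      · exact bucket155_2
      · exact bucket155_3
      · exact bucket155_4
      · exact bucket155_5
      · exact bucket155_6
      · exact bucket155_7)

end Vale.Agent.P098.Exact.Sos6.Q93
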