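import Vale.Agent.P098.Exact.Sos6.Q93.Common
import Vale.Agent.P098.Exact.Sos6.Q93.Box156B0
import Vale.Agent.P098.Exact.Sos6.Q93.Box156B1
import Vale.Agent.P098.Exact.Sos6.Q93.Box156B2
import Vale.Agent.P098.Exact.Sos6.Q93.Box156B3
import Vale.Agent.P098.Exact.Sos6.Q93.Box156B4
import Vale.Agent.P098.Exact.Sos6.Q93.Box156B5
import Vale.Agent.P098.Exact.Sos6.Q93.Box156B6
import Vale.Agent.P098.Exact.Sos6.Q93.Box156B7

/-! Generated data of the dimension six interior check. -/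

noncomputable section

namespace Vale.Agent.P098.Exact.Sos6.Q93

set_option maxRecDepth 100000

theorem pay156 : dtbl.payOK 190 dD156 dE156 (elTot els156) = true := by decide +kernel

theorem rls_ok156 : ∀ G ∈ rls156, ∃ Ns, tbl.facR 72 b0 28 22 Ns G = true := by
  intro G hG
  simp only [rls156, List.mem_cons, List.not_mem_nil, or_false] at hG
  rcases hG with rfl | rfl | rfl | rfl | rfl | rfl | rfl | rfl | rfl | rfl | rfl | rfl | rfl | rfl | rfl | rfl | rfl | rfl | rfl | rfl | rfl | rfl | rfl | rfl | rfl | rfl | rfl | rfl | rfl | rfl | rfl | rfl | rfl | rfl | rfl | rfl | rfl | rfl | rfl | rfl | rfl | rfl | rfl | rfl | rfl | rfl | rfl | rfl | rfl | rfl | rfl | rfl | rfl | rfl | rfl | rfl | rfl | rfl | rfl | rfl | rfl | rfl | rfl | rfl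
  · exact ⟨_, fac9984⟩
  · exact ⟨_, fac9985⟩
  · exact ⟨_, fac9986⟩
  · exact ⟨_, fac9987⟩
  · exact ⟨_, fac9988⟩
  · exact ⟨_, fac9989⟩
  · exact ⟨_, fac9990⟩
  · exact ⟨_, fac9991⟩
  · exact ⟨_, fac9992⟩
  · exact ⟨_, fac9993⟩
  · exact ⟨_, fac9994⟩
  · exact ⟨_, fac9995⟩
  · exact ⟨_, fac9996⟩
  · exact ⟨_, fac9997⟩
  · exact ⟨_, fac9998⟩
  · exact ⟨_, fac9999⟩
  · exact ⟨_, fac10000⟩
  · exact ⟨_, fac10001⟩
  · exact ⟨_, fac10002⟩
  · exact ⟨_, fac10003⟩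
  · exact ⟨_, fac10004⟩
  · exact ⟨_, fac10005⟩
  · exact ⟨_, fac10006⟩
  · exact ⟨_, fac10007⟩
  · exact ⟨_, fac10008⟩
  · exact ⟨_, fac10009⟩
  · exact ⟨_, fac10010⟩
  · exact ⟨_, fac10011⟩
  · exact ⟨_, fac10012⟩
  · exact ⟨_, fac10013⟩
  · exact ⟨_, fac10014⟩
  · exact ⟨_, fac10015⟩
  · exact ⟨_, fac10016⟩
  · exact ⟨_, fac10017⟩
  · exact ⟨_, fac10018⟩
  · exact ⟨_, fac10019⟩
  · exact ⟨_, fac10020⟩
  · exact ⟨_, fac10021⟩
  · exact ⟨_, fac10022⟩
  · exact ⟨_, fac10023⟩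
  · exact ⟨_, fac10024⟩
  · exact ⟨_, fac10025⟩
  · exact ⟨_, fac10026⟩
  · exact ⟨_, fac10027⟩
  · exact ⟨_, fac10028⟩
  · exact ⟨_, fac10029⟩
  · exact ⟨_, fac10030⟩
  · exact ⟨_, fac10031⟩
  · exact ⟨_, fac10032⟩
  · exact ⟨_, fac10033⟩
  · exact ⟨_, fac10034⟩
  · exact ⟨_, fac10035⟩
  · exact ⟨_, fac10036⟩
  · exact ⟨_, fac10037⟩
  · exact ⟨_, fac10038⟩
  · exact ⟨_, fac10039⟩
  · exact ⟨_, fac10040⟩
  · exact ⟨_, fac10041⟩
  · exact ⟨_, fac10042⟩
  · exact ⟨_, fac10043⟩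
  · exact ⟨_, fac10044⟩
  · exact ⟨_, fac10045⟩
  · exact ⟨_, fac10046⟩
  · exact ⟨_, fac10047⟩

theorem good156 : bx156.GoodK ((an : ℝ) / 100) (L.map (ITerm.term den)) (L2.map (ITerm.term den))
    (KL.map (KI.term den)) delta :=
  goodK_of_checkR an den (by decide) L L2 KL dtbl dtbl_ok rfl codes posN rowsA rowsB rowsC rows_tbl 12 256 8 72 b0 28 22
    (by decide) parts_ok (by decide +kernel) slice_ok lit_ok 1 (by decide +kernel) delta bx156 hd156
    (by decide) rls156 rls_ok156 (by decide) (planOf lams156) 190 dD156 dE156 els156 rfl pay156 delta_le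
    (fun b hb => by
      interval_cases b
      · exact bucket156_0
      · exact bucket156_1
      · exact bucket156_2
      · exact bucket156_3
      · exact bucket156_4
      · exact bucket156_5
      · exact bucket156_6
      · exact bucket156_7)

end Vale.Agent.P098.Exact.Sos6.Q93
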