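import Vale.Agent.P098.Exact.Sos6.Q93.Common
import Vale.Agent.P098.Exact.Sos6.Q93.Box157B0
import Vale.Agent.P098.Exact.Sos6.Q93.Box157B1
import Vale.Agent.P098.Exact.Sos6.Q93.Box157B2
import Vale.Agent.P098.Exact.Sos6.Q93.Box157B3
import Vale.Agent.P098.Exact.Sos6.Q93.Box157B4
import Vale.Agent.P098.Exact.Sos6.Q93.Box157B5
import Vale.Agent.P098.Exact.Sos6.Q93.Box157B6
import Vale.Agent.P098.Exact.Sos6.Q93.Box157B7

/-! Generated data of the dimension six interior check. -/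

noncomputable section

namespace Vale.Agent.P098.Exact.Sos6.Q93

set_option maxRecDepth 100000

theorem pay157 : dtbl.payOK 190 dD157 dE157 (elTot els157) = true := by decide +kernel

theorem rls_ok157 : ∀ G ∈ rls157, ∃ Ns, tbl.facR 72 b0 28 22 Ns G = true := by
  intro G hG
  simp only [rls157, List.mem_cons, List.not_mem_nil, or_false] at hG
  rcases hG with rfl | rfl | rfl | rfl | rfl | rfl | rfl | rfl | rfl | rfl | rfl | rfl | rfl | rfl | rfl | rfl | rfl | rfl | rfl | rfl | rfl | rfl | rfl | rfl | rfl | rfl | rfl | rfl | rfl | rfl | rfl | rfl | rfl | rfl | rfl | rfl | rfl | rfl | rfl | rfl | rfl | rfl | rfl | rfl | rfl | rfl | rfl | rfl | rfl | rfl | rfl | rfl | rfl | rfl | rfl | rfl | rfl | rfl | rfl | rfl | rfl | rfl | rfl | rfl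
  · exact ⟨_, fac10048⟩
  · exact ⟨_, fac10049⟩
  · exact ⟨_, fac10050⟩
  · exact ⟨_, fac10051⟩
  · exact ⟨_, fac10052⟩
  · exact ⟨_, fac10053⟩
  · exact ⟨_, fac10054⟩
  · exact ⟨_, fac10055⟩
  · exact ⟨_, fac10056⟩
  · exact ⟨_, fac10057⟩
  · exact ⟨_, fac10058⟩
  · exact ⟨_, fac10059⟩
  · exact ⟨_, fac10060⟩
  · exact ⟨_, fac10061⟩
  · exact ⟨_, fac10062⟩
  · exact ⟨_, fac10063⟩
  · exact ⟨_, fac10064⟩
  · exact ⟨_, fac10065⟩
  · exact ⟨_, fac10066⟩
  · exact ⟨_, fac10067⟩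
  · exact ⟨_, fac10068⟩
  · exact ⟨_, fac10069⟩
  · exact ⟨_, fac10070⟩
  · exact ⟨_, fac10071⟩
  · exact ⟨_, fac10072⟩
  · exact ⟨_, fac10073⟩
  · exact ⟨_, fac10074⟩
  · exact ⟨_, fac10075⟩
  · exact ⟨_, fac10076⟩
  · exact ⟨_, fac10077⟩
  · exact ⟨_, fac10078⟩
  · exact ⟨_, fac10079⟩
  · exact ⟨_, fac10080⟩
  · exact ⟨_, fac10081⟩
  · exact ⟨_, fac10082⟩
  · exact ⟨_, fac10083⟩
  · exact ⟨_, fac10084⟩
  · exact ⟨_, fac10085⟩
  · exact ⟨_, fac10086⟩
  · exact ⟨_, fac10087⟩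
  · exact ⟨_, fac10088⟩
  · exact ⟨_, fac10089⟩
  · exact ⟨_, fac10090⟩
  · exact ⟨_, fac10091⟩
  · exact ⟨_, fac10092⟩
  · exact ⟨_, fac10093⟩
  · exact ⟨_, fac10094⟩
  · exact ⟨_, fac10095⟩
  · exact ⟨_, fac10096⟩
  · exact ⟨_, fac10097⟩
  · exact ⟨_, fac10098⟩
  · exact ⟨_, fac10099⟩
  · exact ⟨_, fac10100⟩
  · exact ⟨_, fac10101⟩
  · exact ⟨_, fac10102⟩
  · exact ⟨_, fac10103⟩
  · exact ⟨_, fac10104⟩
  · exact ⟨_, fac10105⟩
  · exact ⟨_, fac10106⟩
  · exact ⟨_, fac10107⟩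
  · exact ⟨_, fac10108⟩
  · exact ⟨_, fac10109⟩
  · exact ⟨_, fac10110⟩
  · exact ⟨_, fac10111⟩

theorem good157 : bx157.GoodK ((an : ℝ) / 100) (L.map (ITerm.term den)) (L2.map (ITerm.term den))
    (KL.map (KI.term den)) delta :=
  goodK_of_checkR an den (by decide) L L2 KL dtbl dtbl_ok rfl codes posN rowsA rowsB rowsC rows_tbl 12 256 8 72 b0 28 22
    (by decide) parts_ok (by decide +kernel) slice_ok lit_ok 1 (by decide +kernel) delta bx157 hd157
    (by decide) rls157 rls_ok157 (by decide) (planOf lams157) 190 dD157 dE157 els157 rfl pay157 delta_le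
    (fun b hb => by
      interval_cases b
      · exact bucket157_0
      · exact bucket157_1
      · exact bucket157_2
      · exact bucket157_3
      · exact bucket157_4
      · exact bucket157_5
      · exact bucket157_6
      · exact bucket157_7)

end Vale.Agent.P098.Exact.Sos6.Q93
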