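import Vale.Agent.P098.Exact.Sos6.Q93.Common
import Vale.Agent.P098.Exact.Sos6.Q93.Box158B0
import Vale.Agent.P098.Exact.Sos6.Q93.Box158B1
import Vale.Agent.P098.Exact.Sos6.Q93.Box158B2
import Vale.Agent.P098.Exact.Sos6.Q93.Box158B3
import Vale.Agent.P098.Exact.Sos6.Q93.Box158B4
import Vale.Agent.P098.Exact.Sos6.Q93.Box158B5
import Vale.Agent.P098.Exact.Sos6.Q93.Box158B6
import Vale.Agent.P098.Exact.Sos6.Q93.Box158B7

/-! Generated data of the dimension six interior check. -/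

noncomputable section

namespace Vale.Agent.P098.Exact.Sos6.Q93

set_option maxRecDepth 100000

theorem pay158 : dtbl.payOK 190 dD158 dE158 (elTot els158) = true := by decide +kernel

theorem rls_ok158 : ∀ G ∈ rls158, ∃ Ns, tbl.facR 72 b0 28 22 Ns G = true := by
  intro G hG
  simp only [rls158, List.mem_cons, List.not_mem_nil, or_false] at hG
  rcases hG with rfl | rfl | rfl | rfl | rfl | rfl | rfl | rfl | rfl | rfl | rfl | rfl | rfl | rfl | rfl | rfl | rfl | rfl | rfl | rfl | rfl | rfl | rfl | rfl | rfl | rfl | rfl | rfl | rfl | rfl | rfl | rfl | rfl | rfl | rfl | rfl | rfl | rfl | rfl | rfl | rfl | rfl | rfl | rfl | rfl | rfl | rfl | rfl | rfl | rfl | rfl | rfl | rfl | rfl | rfl | rfl | rfl | rfl | rfl | rfl | rfl | rfl | rfl | rfl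
  · exact ⟨_, fac10112⟩
  · exact ⟨_, fac10113⟩
  · exact ⟨_, fac10114⟩
  · exact ⟨_, fac10115⟩
  · exact ⟨_, fac10116⟩
  · exact ⟨_, fac10117⟩
  · exact ⟨_, fac10118⟩
  · exact ⟨_, fac10119⟩
  · exact ⟨_, fac10120⟩
  · exact ⟨_, fac10121⟩
  · exact ⟨_, fac10122⟩
  · exact ⟨_, fac10123⟩
  · exact ⟨_, fac10124⟩
  · exact ⟨_, fac10125⟩
  · exact ⟨_, fac10126⟩
  · exact ⟨_, fac10127⟩
  · exact ⟨_, fac10128⟩
  · exact ⟨_, fac10129⟩
  · exact ⟨_, fac10130⟩
  · exact ⟨_, fac10131⟩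
  · exact ⟨_, fac10132⟩
  · exact ⟨_, fac10133⟩
  · exact ⟨_, fac10134⟩
  · exact ⟨_, fac10135⟩
  · exact ⟨_, fac10136⟩
  · exact ⟨_, fac10137⟩
  · exact ⟨_, fac10138⟩
  · exact ⟨_, fac10139⟩
  · exact ⟨_, fac10140⟩
  · exact ⟨_, fac10141⟩
  · exact ⟨_, fac10142⟩
  · exact ⟨_, fac10143⟩
  · exact ⟨_, fac10144⟩
  · exact ⟨_, fac10145⟩
  · exact ⟨_, fac10146⟩
  · exact ⟨_, fac10147⟩
  · exact ⟨_, fac10148⟩
  · exact ⟨_, fac10149⟩
  · exact ⟨_, fac10150⟩
  · exact ⟨_, fac10151⟩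
  · exact ⟨_, fac10152⟩
  · exact ⟨_, fac10153⟩
  · exact ⟨_, fac10154⟩
  · exact ⟨_, fac10155⟩
  · exact ⟨_, fac10156⟩
  · exact ⟨_, fac10157⟩
  · exact ⟨_, fac10158⟩
  · exact ⟨_, fac10159⟩
  · exact ⟨_, fac10160⟩
  · exact ⟨_, fac10161⟩
  · exact ⟨_, fac10162⟩
  · exact ⟨_, fac10163⟩
  · exact ⟨_, fac10164⟩
  · exact ⟨_, fac10165⟩
  · exact ⟨_, fac10166⟩
  · exact ⟨_, fac10167⟩
  · exact ⟨_, fac10168⟩
  · exact ⟨_, fac10169⟩
  · exact ⟨_, fac10170⟩
  · exact ⟨_, fac10171⟩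
  · exact ⟨_, fac10172⟩
  · exact ⟨_, fac10173⟩
  · exact ⟨_, fac10174⟩
  · exact ⟨_, fac10175⟩

theorem good158 : bx158.GoodK ((an : ℝ) / 100) (L.map (ITerm.term den)) (L2.map (ITerm.term den))
    (KL.map (KI.term den)) delta :=
  goodK_of_checkR an den (by decide) L L2 KL dtbl dtbl_ok rfl codes posN rowsA rowsB rowsC rows_tbl 12 256 8 72 b0 28 22
    (by decide) parts_ok (by decide +kernel) slice_ok lit_ok 1 (by decide +kernel) delta bx158 hd158
    (by decide) rls158 rls_ok158 (by decide) (planOf lams158) 190 dD158 dE158 els158 rfl pay158 delta_le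
    (fun b hb => by
      interval_cases b
      · exact bucket158_0
      · exact bucket158_1
      · exact bucket158_2
      · exact bucket158_3
      · exact bucket158_4
      · exact bucket158_5
      · exact bucket158_6
      · exact bucket158_7)

end Vale.Agent.P098.Exact.Sos6.Q93
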