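import Vale.Agent.P098.Exact.Sos6.Q93.Common
import Vale.Agent.P098.Exact.Sos6.Q93.Box159B0
import Vale.Agent.P098.Exact.Sos6.Q93.Box159B1
import Vale.Agent.P098.Exact.Sos6.Q93.Box159B2
import Vale.Agent.P098.Exact.Sos6.Q93.Box159B3
import Vale.Agent.P098.Exact.Sos6.Q93.Box159B4
import Vale.Agent.P098.Exact.Sos6.Q93.Box159B5
import Vale.Agent.P098.Exact.Sos6.Q93.Box159B6
import Vale.Agent.P098.Exact.Sos6.Q93.Box159B7

/-! Generated data of the dimension six interior check. -/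

noncomputable section

namespace Vale.Agent.P098.Exact.Sos6.Q93

set_option maxRecDepth 100000

theorem pay159 : dtbl.payOK 190 dD159 dE159 (elTot els159) = true := by decide +kernel

theorem rls_ok159 : ∀ G ∈ rls159, ∃ Ns, tbl.facR 72 b0 28 22 Ns G = true := by
  intro G hG
  simp only [rls159, List.mem_cons, List.not_mem_nil, or_false] at hG
  rcases hG with rfl | rfl | rfl | rfl | rfl | rfl | rfl | rfl | rfl | rfl | rfl | rfl | rfl | rfl | rfl | rfl | rfl | rfl | rfl | rfl | rfl | rfl | rfl | rfl | rfl | rfl | rfl | rfl | rfl | rfl | rfl | rfl | rfl | rfl | rfl | rfl | rfl | rfl | rfl | rfl | rfl | rfl | rfl | rfl | rfl | rfl | rfl | rfl | rfl | rfl | rfl | rfl | rfl | rfl | rfl | rfl | rfl | rfl | rfl | rfl | rfl | rfl | rfl | rfl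
  · exact ⟨_, fac10176⟩
  · exact ⟨_, fac10177⟩
  · exact ⟨_, fac10178⟩
  · exact ⟨_, fac10179⟩
  · exact ⟨_, fac10180⟩
  · exact ⟨_, fac10181⟩
  · exact ⟨_, fac10182⟩
  · exact ⟨_, fac10183⟩
  · exact ⟨_, fac10184⟩
  · exact ⟨_, fac10185⟩
  · exact ⟨_, fac10186⟩
  · exact ⟨_, fac10187⟩
  · exact ⟨_, fac10188⟩
  · exact ⟨_, fac10189⟩
  · exact ⟨_, fac10190⟩
  · exact ⟨_, fac10191⟩
  · exact ⟨_, fac10192⟩
  · exact ⟨_, fac10193⟩
  · exact ⟨_, fac10194⟩
  · exact ⟨_, fac10195⟩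
  · exact ⟨_, fac10196⟩
  · exact ⟨_, fac10197⟩
  · exact ⟨_, fac10198⟩
  · exact ⟨_, fac10199⟩
  · exact ⟨_, fac10200⟩
  · exact ⟨_, fac10201⟩
  · exact ⟨_, fac10202⟩
  · exact ⟨_, fac10203⟩
  · exact ⟨_, fac10204⟩
  · exact ⟨_, fac10205⟩
  · exact ⟨_, fac10206⟩
  · exact ⟨_, fac10207⟩
  · exact ⟨_, fac10208⟩
  · exact ⟨_, fac10209⟩
  · exact ⟨_, fac10210⟩
  · exact ⟨_, fac10211⟩
  · exact ⟨_, fac10212⟩
  · exact ⟨_, fac10213⟩
  · exact ⟨_, fac10214⟩
  · exact ⟨_, fac10215⟩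
  · exact ⟨_, fac10216⟩
  · exact ⟨_, fac10217⟩
  · exact ⟨_, fac10218⟩
  · exact ⟨_, fac10219⟩
  · exact ⟨_, fac10220⟩
  · exact ⟨_, fac10221⟩
  · exact ⟨_, fac10222⟩
  · exact ⟨_, fac10223⟩
  · exact ⟨_, fac10224⟩
  · exact ⟨_, fac10225⟩
  · exact ⟨_, fac10226⟩
  · exact ⟨_, fac10227⟩
  · exact ⟨_, fac10228⟩
  · exact ⟨_, fac10229⟩
  · exact ⟨_, fac10230⟩
  · exact ⟨_, fac10231⟩
  · exact ⟨_, fac10232⟩
  · exact ⟨_, fac10233⟩
  · exact ⟨_, fac10234⟩
  · exact ⟨_, fac10235⟩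
  · exact ⟨_, fac10236⟩
  · exact ⟨_, fac10237⟩
  · exact ⟨_, fac10238⟩
  · exact ⟨_, fac10239⟩

theorem good159 : bx159.GoodK ((an : ℝ) / 100) (L.map (ITerm.term den)) (L2.map (ITerm.term den))
    (KL.map (KI.term den)) delta :=
  goodK_of_checkR an den (by decide) L L2 KL dtbl dtbl_ok rfl codes posN rowsA rowsB rowsC rows_tbl 12 256 8 72 b0 28 22
    (by decide) parts_ok (by decide +kernel) slice_ok lit_ok 1 (by decide +kernel) delta bx159 hd159
    (by decide) rls159 rls_ok159 (by decide) (planOf lams159) 190 dD159 dE159 els159 rfl pay159 delta_le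
    (fun b hb => by
      interval_cases b
      · exact bucket159_0
      · exact bucket159_1
      · exact bucket159_2
      · exact bucket159_3
      · exact bucket159_4
      · exact bucket159_5
      · exact bucket159_6
      · exact bucket159_7)

end Vale.Agent.P098.Exact.Sos6.Q93
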