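import Vale.Agent.P098.Exact.Sos6.Q93.Common
import Vale.Agent.P098.Exact.Sos6.Q93.Box15B0
import Vale.Agent.P098.Exact.Sos6.Q93.Box15B1
import Vale.Agent.P098.Exact.Sos6.Q93.Box15B2
import Vale.Agent.P098.Exact.Sos6.Q93.Box15B3
import Vale.Agent.P098.Exact.Sos6.Q93.Box15B4
import Vale.Agent.P098.Exact.Sos6.Q93.Box15B5
import Vale.Agent.P098.Exact.Sos6.Q93.Box15B6
import Vale.Agent.P098.Exact.Sos6.Q93.Box15B7

/-! Generated data of the dimension six interior check. -/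

noncomputable section

namespace Vale.Agent.P098.Exact.Sos6.Q93

set_option maxRecDepth 100000

theorem pay15 : dtbl.payOK 190 dD15 dE15 (elTot els15) = true := by decide +kernel

theorem rls_ok15 : ∀ G ∈ rls15, ∃ Ns, tbl.facR 72 b0 28 22 Ns G = true := by
  intro G hG
  simp only [rls15, List.mem_cons, List.not_mem_nil, or_false] at hG
  rcases hG with rfl | rfl | rfl | rfl | rfl | rfl | rfl | rfl | rfl | rfl | rfl | rfl | rfl | rfl | rfl | rfl | rfl | rfl | rfl | rfl | rfl | rfl | rfl | rfl | rfl | rfl | rfl | rfl | rfl | rfl | rfl | rfl | rfl | rfl | rfl | rfl | rfl | rfl | rfl | rfl | rfl | rfl | rfl | rfl | rfl | rfl | rfl | rfl | rfl | rfl | rfl | rfl | rfl | rfl | rfl | rfl | rfl | rfl | rfl | rfl | rfl | rfl | rfl | rfl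
  · exact ⟨_, fac960⟩
  · exact ⟨_, fac961⟩
  · exact ⟨_, fac962⟩
  · exact ⟨_, fac963⟩
  · exact ⟨_, fac964⟩
  · exact ⟨_, fac965⟩
  · exact ⟨_, fac966⟩
  · exact ⟨_, fac967⟩
  · exact ⟨_, fac968⟩
  · exact ⟨_, fac969⟩
  · exact ⟨_, fac970⟩
  · exact ⟨_, fac971⟩
  · exact ⟨_, fac972⟩
  · exact ⟨_, fac973⟩
  · exact ⟨_, fac974⟩
  · exact ⟨_, fac975⟩
  · exact ⟨_, fac976⟩
  · exact ⟨_, fac977⟩
  · exact ⟨_, fac978⟩
  · exact ⟨_, fac979⟩
  · exact ⟨_, fac980⟩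
  · exact ⟨_, fac981⟩
  · exact ⟨_, fac982⟩
  · exact ⟨_, fac983⟩
  · exact ⟨_, fac984⟩
  · exact ⟨_, fac985⟩
  · exact ⟨_, fac986⟩
  · exact ⟨_, fac987⟩
  · exact ⟨_, fac988⟩
  · exact ⟨_, fac989⟩
  · exact ⟨_, fac990⟩
  · exact ⟨_, fac991⟩
  · exact ⟨_, fac992⟩
  · exact ⟨_, fac993⟩
  · exact ⟨_, fac994⟩
  · exact ⟨_, fac995⟩
  · exact ⟨_, fac996⟩
  · exact ⟨_, fac997⟩
  · exact ⟨_, fac998⟩
  · exact ⟨_, fac999⟩
  · exact ⟨_, fac1000⟩
  · exact ⟨_, fac1001⟩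
  · exact ⟨_, fac1002⟩
  · exact ⟨_, fac1003⟩
  · exact ⟨_, fac1004⟩
  · exact ⟨_, fac1005⟩
  · exact ⟨_, fac1006⟩
  · exact ⟨_, fac1007⟩
  · exact ⟨_, fac1008⟩
  · exact ⟨_, fac1009⟩
  · exact ⟨_, fac1010⟩
  · exact ⟨_, fac1011⟩
  · exact ⟨_, fac1012⟩
  · exact ⟨_, fac1013⟩
  · exact ⟨_, fac1014⟩
  · exact ⟨_, fac1015⟩
  · exact ⟨_, fac1016⟩
  · exact ⟨_, fac1017⟩
  · exact ⟨_, fac1018⟩
  · exact ⟨_, fac1019⟩
  · exact ⟨_, fac1020⟩
  · exact ⟨_, fac1021⟩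
  · exact ⟨_, fac1022⟩
  · exact ⟨_, fac1023⟩

theorem good15 : bx15.GoodK ((an : ℝ) / 100) (L.map (ITerm.term den)) (L2.map (ITerm.term den))
    (KL.map (KI.term den)) delta :=
  goodK_of_checkR an den (by decide) L L2 KL dtbl dtbl_ok rfl codes posN rowsA rowsB rowsC rows_tbl 12 256 8 72 b0 28 22
    (by decide) parts_ok (by decide +kernel) slice_ok lit_ok 1 (by decide +kernel) delta bx15 hd15
    (by decide) rls15 rls_ok15 (by decide) (planOf lams15) 190 dD15 dE15 els15 rfl pay15 delta_le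
    (fun b hb => by
      interval_cases b
      · exact bucket15_0
      · exact bucket15_1
      · exact bucket15_2
      · exact bucket15_3
      · exact bucket15_4
      · exact bucket15_5
      · exact bucket15_6
      · exact bucket15_7)

end Vale.Agent.P098.Exact.Sos6.Q93
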