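import Vale.Agent.P098.Exact.Sos6.Q93.Common
import Vale.Agent.P098.Exact.Sos6.Q93.Box160B0
import Vale.Agent.P098.Exact.Sos6.Q93.Box160B1
import Vale.Agent.P098.Exact.Sos6.Q93.Box160B2
import Vale.Agent.P098.Exact.Sos6.Q93.Box160B3
import Vale.Agent.P098.Exact.Sos6.Q93.Box160B4
import Vale.Agent.P098.Exact.Sos6.Q93.Box160B5
import Vale.Agent.P098.Exact.Sos6.Q93.Box160B6
import Vale.Agent.P098.Exact.Sos6.Q93.Box160B7

/-! Generated data of the dimension six interior check. -/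

noncomputable section

namespace Vale.Agent.P098.Exact.Sos6.Q93

set_option maxRecDepth 100000

theorem pay160 : dtbl.payOK 190 dD160 dE160 (elTot els160) = true := by decide +kernel

theorem rls_ok160 : ∀ G ∈ rls160, ∃ Ns, tbl.facR 72 b0 28 22 Ns G = true := by
  intro G hG
  simp only [rls160, List.mem_cons, List.not_mem_nil, or_false] at hG
  rcases hG with rfl | rfl | rfl | rfl | rfl | rfl | rfl | rfl | rfl | rfl | rfl | rfl | rfl | rfl | rfl | rfl | rfl | rfl | rfl | rfl | rfl | rfl | rfl | rfl | rfl | rfl | rfl | rfl | rfl | rfl | rfl | rfl | rfl | rfl | rfl | rfl | rfl | rfl | rfl | rfl | rfl | rfl | rfl | rfl | rfl | rfl | rfl | rfl | rfl | rfl | rfl | rfl | rfl | rfl | rfl | rfl | rfl | rfl | rfl | rfl | rfl | rfl | rfl | rfl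
  · exact ⟨_, fac10240⟩
  · exact ⟨_, fac10241⟩
  · exact ⟨_, fac10242⟩
  · exact ⟨_, fac10243⟩
  · exact ⟨_, fac10244⟩
  · exact ⟨_, fac10245⟩
  · exact ⟨_, fac10246⟩
  · exact ⟨_, fac10247⟩
  · exact ⟨_, fac10248⟩
  · exact ⟨_, fac10249⟩
  · exact ⟨_, fac10250⟩
  · exact ⟨_, fac10251⟩
  · exact ⟨_, fac10252⟩
  · exact ⟨_, fac10253⟩
  · exact ⟨_, fac10254⟩
  · exact ⟨_, fac10255⟩
  · exact ⟨_, fac10256⟩
  · exact ⟨_, fac10257⟩
  · exact ⟨_, fac10258⟩
  · exact ⟨_, fac10259⟩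
  · exact ⟨_, fac10260⟩
  · exact ⟨_, fac10261⟩
  · exact ⟨_, fac10262⟩
  · exact ⟨_, fac10263⟩
  · exact ⟨_, fac10264⟩
  · exact ⟨_, fac10265⟩
  · exact ⟨_, fac10266⟩
  · exact ⟨_, fac10267⟩
  · exact ⟨_, fac10268⟩
  · exact ⟨_, fac10269⟩
  · exact ⟨_, fac10270⟩
  · exact ⟨_, fac10271⟩
  · exact ⟨_, fac10272⟩
  · exact ⟨_, fac10273⟩
  · exact ⟨_, fac10274⟩
  · exact ⟨_, fac10275⟩
  · exact ⟨_, fac10276⟩
  · exact ⟨_, fac10277⟩
  · exact ⟨_, fac10278⟩
  · exact ⟨_, fac10279⟩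
  · exact ⟨_, fac10280⟩
  · exact ⟨_, fac10281⟩
  · exact ⟨_, fac10282⟩
  · exact ⟨_, fac10283⟩
  · exact ⟨_, fac10284⟩
  · exact ⟨_, fac10285⟩
  · exact ⟨_, fac10286⟩
  · exact ⟨_, fac10287⟩
  · exact ⟨_, fac10288⟩
  · exact ⟨_, fac10289⟩
  · exact ⟨_, fac10290⟩
  · exact ⟨_, fac10291⟩
  · exact ⟨_, fac10292⟩
  · exact ⟨_, fac10293⟩
  · exact ⟨_, fac10294⟩
  · exact ⟨_, fac10295⟩
  · exact ⟨_, fac10296⟩
  · exact ⟨_, fac10297⟩
  · exact ⟨_, fac10298⟩
  · exact ⟨_, fac10299⟩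
  · exact ⟨_, fac10300⟩
  · exact ⟨_, fac10301⟩
  · exact ⟨_, fac10302⟩
  · exact ⟨_, fac10303⟩

theorem good160 : bx160.GoodK ((an : ℝ) / 100) (L.map (ITerm.term den)) (L2.map (ITerm.term den))
    (KL.map (KI.term den)) delta :=
  goodK_of_checkR an den (by decide) L L2 KL dtbl dtbl_ok rfl codes posN rowsA rowsB rowsC rows_tbl 12 256 8 72 b0 28 22
    (by decide) parts_ok (by decide +kernel) slice_ok lit_ok 1 (by decide +kernel) delta bx160 hd160
    (by decide) rls160 rls_ok160 (by decide) (planOf lams160) 190 dD160 dE160 els160 rfl pay160 delta_le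
    (fun b hb => by
      interval_cases b
      · exact bucket160_0
      · exact bucket160_1
      · exact bucket160_2
      · exact bucket160_3
      · exact bucket160_4
      · exact bucket160_5
      · exact bucket160_6
      · exact bucket160_7)

end Vale.Agent.P098.Exact.Sos6.Q93
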