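import Vale.Agent.P098.Exact.Sos6.Q93.Common
import Vale.Agent.P098.Exact.Sos6.Q93.Box161B0
import Vale.Agent.P098.Exact.Sos6.Q93.Box161B1
import Vale.Agent.P098.Exact.Sos6.Q93.Box161B2
import Vale.Agent.P098.Exact.Sos6.Q93.Box161B3
import Vale.Agent.P098.Exact.Sos6.Q93.Box161B4
import Vale.Agent.P098.Exact.Sos6.Q93.Box161B5
import Vale.Agent.P098.Exact.Sos6.Q93.Box161B6
import Vale.Agent.P098.Exact.Sos6.Q93.Box161B7

/-! Generated data of the dimension six interior check. -/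

noncomputable section

namespace Vale.Agent.P098.Exact.Sos6.Q93

set_option maxRecDepth 100000

theorem pay161 : dtbl.payOK 190 dD161 dE161 (elTot els161) = true := by decide +kernel

theorem rls_ok161 : ∀ G ∈ rls161, ∃ Ns, tbl.facR 72 b0 28 22 Ns G = true := by
  intro G hG
  simp only [rls161, List.mem_cons, List.not_mem_nil, or_false] at hG
  rcases hG with rfl | rfl | rfl | rfl | rfl | rfl | rfl | rfl | rfl | rfl | rfl | rfl | rfl | rfl | rfl | rfl | rfl | rfl | rfl | rfl | rfl | rfl | rfl | rfl | rfl | rfl | rfl | rfl | rfl | rfl | rfl | rfl | rfl | rfl | rfl | rfl | rfl | rfl | rfl | rfl | rfl | rfl | rfl | rfl | rfl | rfl | rfl | rfl | rfl | rfl | rfl | rfl | rfl | rfl | rfl | rfl | rfl | rfl | rfl | rfl | rfl | rfl | rfl | rfl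
  · exact ⟨_, fac10304⟩
  · exact ⟨_, fac10305⟩
  · exact ⟨_, fac10306⟩
  · exact ⟨_, fac10307⟩
  · exact ⟨_, fac10308⟩
  · exact ⟨_, fac10309⟩
  · exact ⟨_, fac10310⟩
  · exact ⟨_, fac10311⟩
  · exact ⟨_, fac10312⟩
  · exact ⟨_, fac10313⟩
  · exact ⟨_, fac10314⟩
  · exact ⟨_, fac10315⟩
  · exact ⟨_, fac10316⟩
  · exact ⟨_, fac10317⟩
  · exact ⟨_, fac10318⟩
  · exact ⟨_, fac10319⟩
  · exact ⟨_, fac10320⟩
  · exact ⟨_, fac10321⟩
  · exact ⟨_, fac10322⟩
  · exact ⟨_, fac10323⟩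
  · exact ⟨_, fac10324⟩
  · exact ⟨_, fac10325⟩
  · exact ⟨_, fac10326⟩
  · exact ⟨_, fac10327⟩
  · exact ⟨_, fac10328⟩
  · exact ⟨_, fac10329⟩
  · exact ⟨_, fac10330⟩
  · exact ⟨_, fac10331⟩
  · exact ⟨_, fac10332⟩
  · exact ⟨_, fac10333⟩
  · exact ⟨_, fac10334⟩
  · exact ⟨_, fac10335⟩
  · exact ⟨_, fac10336⟩
  · exact ⟨_, fac10337⟩
  · exact ⟨_, fac10338⟩
  · exact ⟨_, fac10339⟩
  · exact ⟨_, fac10340⟩
  · exact ⟨_, fac10341⟩
  · exact ⟨_, fac10342⟩
  · exact ⟨_, fac10343⟩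
  · exact ⟨_, fac10344⟩
  · exact ⟨_, fac10345⟩
  · exact ⟨_, fac10346⟩
  · exact ⟨_, fac10347⟩
  · exact ⟨_, fac10348⟩
  · exact ⟨_, fac10349⟩
  · exact ⟨_, fac10350⟩
  · exact ⟨_, fac10351⟩
  · exact ⟨_, fac10352⟩
  · exact ⟨_, fac10353⟩
  · exact ⟨_, fac10354⟩
  · exact ⟨_, fac10355⟩
  · exact ⟨_, fac10356⟩
  · exact ⟨_, fac10357⟩
  · exact ⟨_, fac10358⟩
  · exact ⟨_, fac10359⟩
  · exact ⟨_, fac10360⟩
  · exact ⟨_, fac10361⟩
  · exact ⟨_, fac10362⟩
  · exact ⟨_, fac10363⟩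
  · exact ⟨_, fac10364⟩
  · exact ⟨_, fac10365⟩
  · exact ⟨_, fac10366⟩
  · exact ⟨_, fac10367⟩

theorem good161 : bx161.GoodK ((an : ℝ) / 100) (L.map (ITerm.term den)) (L2.map (ITerm.term den))
    (KL.map (KI.term den)) delta :=
  goodK_of_checkR an den (by decide) L L2 KL dtbl dtbl_ok rfl codes posN rowsA rowsB rowsC rows_tbl 12 256 8 72 b0 28 22
    (by decide) parts_ok (by decide +kernel) slice_ok lit_ok 1 (by decide +kernel) delta bx161 hd161
    (by decide) rls161 rls_ok161 (by decide) (planOf lams161) 190 dD161 dE161 els161 rfl pay161 delta_le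
    (fun b hb => by
      interval_cases b
      · exact bucket161_0
      · exact bucket161_1
      · exact bucket161_2
      · exact bucket161_3
      · exact bucket161_4
      · exact bucket161_5
      · exact bucket161_6
      · exact bucket161_7)

end Vale.Agent.P098.Exact.Sos6.Q93
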