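import Vale.Agent.P098.Exact.Sos6.Q93.Common
import Vale.Agent.P098.Exact.Sos6.Q93.Box162B0
import Vale.Agent.P098.Exact.Sos6.Q93.Box162B1
import Vale.Agent.P098.Exact.Sos6.Q93.Box162B2
import Vale.Agent.P098.Exact.Sos6.Q93.Box162B3
import Vale.Agent.P098.Exact.Sos6.Q93.Box162B4
import Vale.Agent.P098.Exact.Sos6.Q93.Box162B5
import Vale.Agent.P098.Exact.Sos6.Q93.Box162B6
import Vale.Agent.P098.Exact.Sos6.Q93.Box162B7

/-! Generated data of the dimension six interior check. -/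

noncomputable section

namespace Vale.Agent.P098.Exact.Sos6.Q93

set_option maxRecDepth 100000

theorem pay162 : dtbl.payOK 190 dD162 dE162 (elTot els162) = true := by decide +kernel

theorem rls_ok162 : ∀ G ∈ rls162, ∃ Ns, tbl.facR 72 b0 28 22 Ns G = true := by
  intro G hG
  simp only [rls162, List.mem_cons, List.not_mem_nil, or_false] at hG
  rcases hG with rfl | rfl | rfl | rfl | rfl | rfl | rfl | rfl | rfl | rfl | rfl | rfl | rfl | rfl | rfl | rfl | rfl | rfl | rfl | rfl | rfl | rfl | rfl | rfl | rfl | rfl | rfl | rfl | rfl | rfl | rfl | rfl | rfl | rfl | rfl | rfl | rfl | rfl | rfl | rfl | rfl | rfl | rfl | rfl | rfl | rfl | rfl | rfl | rfl | rfl | rfl | rfl | rfl | rfl | rfl | rfl | rfl | rfl | rfl | rfl | rfl | rfl | rfl | rfl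
  · exact ⟨_, fac10368⟩
  · exact ⟨_, fac10369⟩
  · exact ⟨_, fac10370⟩
  · exact ⟨_, fac10371⟩
  · exact ⟨_, fac10372⟩
  · exact ⟨_, fac10373⟩
  · exact ⟨_, fac10374⟩
  · exact ⟨_, fac10375⟩
  · exact ⟨_, fac10376⟩
  · exact ⟨_, fac10377⟩
  · exact ⟨_, fac10378⟩
  · exact ⟨_, fac10379⟩
  · exact ⟨_, fac10380⟩
  · exact ⟨_, fac10381⟩
  · exact ⟨_, fac10382⟩
  · exact ⟨_, fac10383⟩
  · exact ⟨_, fac10384⟩
  · exact ⟨_, fac10385⟩
  · exact ⟨_, fac10386⟩
  · exact ⟨_, fac10387⟩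
  · exact ⟨_, fac10388⟩
  · exact ⟨_, fac10389⟩
  · exact ⟨_, fac10390⟩
  · exact ⟨_, fac10391⟩
  · exact ⟨_, fac10392⟩
  · exact ⟨_, fac10393⟩
  · exact ⟨_, fac10394⟩
  · exact ⟨_, fac10395⟩
  · exact ⟨_, fac10396⟩
  · exact ⟨_, fac10397⟩
  · exact ⟨_, fac10398⟩
  · exact ⟨_, fac10399⟩
  · exact ⟨_, fac10400⟩
  · exact ⟨_, fac10401⟩
  · exact ⟨_, fac10402⟩
  · exact ⟨_, fac10403⟩
  · exact ⟨_, fac10404⟩
  · exact ⟨_, fac10405⟩
  · exact ⟨_, fac10406⟩
  · exact ⟨_, fac10407⟩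
  · exact ⟨_, fac10408⟩
  · exact ⟨_, fac10409⟩
  · exact ⟨_, fac10410⟩
  · exact ⟨_, fac10411⟩
  · exact ⟨_, fac10412⟩
  · exact ⟨_, fac10413⟩
  · exact ⟨_, fac10414⟩
  · exact ⟨_, fac10415⟩
  · exact ⟨_, fac10416⟩
  · exact ⟨_, fac10417⟩
  · exact ⟨_, fac10418⟩
  · exact ⟨_, fac10419⟩
  · exact ⟨_, fac10420⟩
  · exact ⟨_, fac10421⟩
  · exact ⟨_, fac10422⟩
  · exact ⟨_, fac10423⟩
  · exact ⟨_, fac10424⟩
  · exact ⟨_, fac10425⟩
  · exact ⟨_, fac10426⟩
  · exact ⟨_, fac10427⟩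
  · exact ⟨_, fac10428⟩
  · exact ⟨_, fac10429⟩
  · exact ⟨_, fac10430⟩
  · exact ⟨_, fac10431⟩

theorem good162 : bx162.GoodK ((an : ℝ) / 100) (L.map (ITerm.term den)) (L2.map (ITerm.term den))
    (KL.map (KI.term den)) delta :=
  goodK_of_checkR an den (by decide) L L2 KL dtbl dtbl_ok rfl codes posN rowsA rowsB rowsC rows_tbl 12 256 8 72 b0 28 22
    (by decide) parts_ok (by decide +kernel) slice_ok lit_ok 1 (by decide +kernel) delta bx162 hd162
    (by decide) rls162 rls_ok162 (by decide) (planOf lams162) 190 dD162 dE162 els162 rfl pay162 delta_le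
    (fun b hb => by
      interval_cases b
      · exact bucket162_0
      · exact bucket162_1
      · exact bucket162_2
      · exact bucket162_3
      · exact bucket162_4
      · exact bucket162_5
      · exact bucket162_6
      · exact bucket162_7)

end Vale.Agent.P098.Exact.Sos6.Q93
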