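import Vale.Agent.P098.Exact.Sos6.Q93.Common
import Vale.Agent.P098.Exact.Sos6.Q93.Box163B0
import Vale.Agent.P098.Exact.Sos6.Q93.Box163B1
import Vale.Agent.P098.Exact.Sos6.Q93.Box163B2
import Vale.Agent.P098.Exact.Sos6.Q93.Box163B3
import Vale.Agent.P098.Exact.Sos6.Q93.Box163B4
import Vale.Agent.P098.Exact.Sos6.Q93.Box163B5
import Vale.Agent.P098.Exact.Sos6.Q93.Box163B6
import Vale.Agent.P098.Exact.Sos6.Q93.Box163B7

/-! Generated data of the dimension six interior check. -/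

noncomputable section

namespace Vale.Agent.P098.Exact.Sos6.Q93

set_option maxRecDepth 100000

theorem pay163 : dtbl.payOK 190 dD163 dE163 (elTot els163) = true := by decide +kernel

theorem rls_ok163 : ∀ G ∈ rls163, ∃ Ns, tbl.facR 72 b0 28 22 Ns G = true := by
  intro G hG
  simp only [rls163, List.mem_cons, List.not_mem_nil, or_false] at hG
  rcases hG with rfl | rfl | rfl | rfl | rfl | rfl | rfl | rfl | rfl | rfl | rfl | rfl | rfl | rfl | rfl | rfl | rfl | rfl | rfl | rfl | rfl | rfl | rfl | rfl | rfl | rfl | rfl | rfl | rfl | rfl | rfl | rfl | rfl | rfl | rfl | rfl | rfl | rfl | rfl | rfl | rfl | rfl | rfl | rfl | rfl | rfl | rfl | rfl | rfl | rfl | rfl | rfl | rfl | rfl | rfl | rfl | rfl | rfl | rfl | rfl | rfl | rfl | rfl | rfl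
  · exact ⟨_, fac10432⟩
  · exact ⟨_, fac10433⟩
  · exact ⟨_, fac10434⟩
  · exact ⟨_, fac10435⟩
  · exact ⟨_, fac10436⟩
  · exact ⟨_, fac10437⟩
  · exact ⟨_, fac10438⟩
  · exact ⟨_, fac10439⟩
  · exact ⟨_, fac10440⟩
  · exact ⟨_, fac10441⟩
  · exact ⟨_, fac10442⟩
  · exact ⟨_, fac10443⟩
  · exact ⟨_, fac10444⟩
  · exact ⟨_, fac10445⟩
  · exact ⟨_, fac10446⟩
  · exact ⟨_, fac10447⟩
  · exact ⟨_, fac10448⟩
  · exact ⟨_, fac10449⟩
  · exact ⟨_, fac10450⟩
  · exact ⟨_, fac10451⟩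
  · exact ⟨_, fac10452⟩
  · exact ⟨_, fac10453⟩
  · exact ⟨_, fac10454⟩
  · exact ⟨_, fac10455⟩
  · exact ⟨_, fac10456⟩
  · exact ⟨_, fac10457⟩
  · exact ⟨_, fac10458⟩
  · exact ⟨_, fac10459⟩
  · exact ⟨_, fac10460⟩
  · exact ⟨_, fac10461⟩
  · exact ⟨_, fac10462⟩
  · exact ⟨_, fac10463⟩
  · exact ⟨_, fac10464⟩
  · exact ⟨_, fac10465⟩
  · exact ⟨_, fac10466⟩
  · exact ⟨_, fac10467⟩
  · exact ⟨_, fac10468⟩
  · exact ⟨_, fac10469⟩
  · exact ⟨_, fac10470⟩
  · exact ⟨_, fac10471⟩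
  · exact ⟨_, fac10472⟩
  · exact ⟨_, fac10473⟩
  · exact ⟨_, fac10474⟩
  · exact ⟨_, fac10475⟩
  · exact ⟨_, fac10476⟩
  · exact ⟨_, fac10477⟩
  · exact ⟨_, fac10478⟩
  · exact ⟨_, fac10479⟩
  · exact ⟨_, fac10480⟩
  · exact ⟨_, fac10481⟩
  · exact ⟨_, fac10482⟩
  · exact ⟨_, fac10483⟩
  · exact ⟨_, fac10484⟩
  · exact ⟨_, fac10485⟩
  · exact ⟨_, fac10486⟩
  · exact ⟨_, fac10487⟩
  · exact ⟨_, fac10488⟩
  · exact ⟨_, fac10489⟩
  · exact ⟨_, fac10490⟩
  · exact ⟨_, fac10491⟩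
  · exact ⟨_, fac10492⟩
  · exact ⟨_, fac10493⟩
  · exact ⟨_, fac10494⟩
  · exact ⟨_, fac10495⟩

theorem good163 : bx163.GoodK ((an : ℝ) / 100) (L.map (ITerm.term den)) (L2.map (ITerm.term den))
    (KL.map (KI.term den)) delta :=
  goodK_of_checkR an den (by decide) L L2 KL dtbl dtbl_ok rfl codes posN rowsA rowsB rowsC rows_tbl 12 256 8 72 b0 28 22
    (by decide) parts_ok (by decide +kernel) slice_ok lit_ok 1 (by decide +kernel) delta bx163 hd163
    (by decide) rls163 rls_ok163 (by decide) (planOf lams163) 190 dD163 dE163 els163 rfl pay163 delta_le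
    (fun b hb => by
      interval_cases b
      · exact bucket163_0
      · exact bucket163_1
      · exact bucket163_2
      · exact bucket163_3
      · exact bucket163_4
      · exact bucket163_5
      · exact bucket163_6
      · exact bucket163_7)

end Vale.Agent.P098.Exact.Sos6.Q93
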