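import Vale.Agent.P098.Exact.Sos6.Q93.Common
import Vale.Agent.P098.Exact.Sos6.Q93.Box164B0
import Vale.Agent.P098.Exact.Sos6.Q93.Box164B1
import Vale.Agent.P098.Exact.Sos6.Q93.Box164B2
import Vale.Agent.P098.Exact.Sos6.Q93.Box164B3
import Vale.Agent.P098.Exact.Sos6.Q93.Box164B4
import Vale.Agent.P098.Exact.Sos6.Q93.Box164B5
import Vale.Agent.P098.Exact.Sos6.Q93.Box164B6
import Vale.Agent.P098.Exact.Sos6.Q93.Box164B7

/-! Generated data of the dimension six interior check. -/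

noncomputable section

namespace Vale.Agent.P098.Exact.Sos6.Q93

set_option maxRecDepth 100000

theorem pay164 : dtbl.payOK 190 dD164 dE164 (elTot els164) = true := by decide +kernel

theorem rls_ok164 : ∀ G ∈ rls164, ∃ Ns, tbl.facR 72 b0 28 22 Ns G = true := by
  intro G hG
  simp only [rls164, List.mem_cons, List.not_mem_nil, or_false] at hG
  rcases hG with rfl | rfl | rfl | rfl | rfl | rfl | rfl | rfl | rfl | rfl | rfl | rfl | rfl | rfl | rfl | rfl | rfl | rfl | rfl | rfl | rfl | rfl | rfl | rfl | rfl | rfl | rfl | rfl | rfl | rfl | rfl | rfl | rfl | rfl | rfl | rfl | rfl | rfl | rfl | rfl | rfl | rfl | rfl | rfl | rfl | rfl | rfl | rfl | rfl | rfl | rfl | rfl | rfl | rfl | rfl | rfl | rfl | rfl | rfl | rfl | rfl | rfl | rfl | rfl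
  · exact ⟨_, fac10496⟩
  · exact ⟨_, fac10497⟩
  · exact ⟨_, fac10498⟩
  · exact ⟨_, fac10499⟩
  · exact ⟨_, fac10500⟩
  · exact ⟨_, fac10501⟩
  · exact ⟨_, fac10502⟩
  · exact ⟨_, fac10503⟩
  · exact ⟨_, fac10504⟩
  · exact ⟨_, fac10505⟩
  · exact ⟨_, fac10506⟩
  · exact ⟨_, fac10507⟩
  · exact ⟨_, fac10508⟩
  · exact ⟨_, fac10509⟩
  · exact ⟨_, fac10510⟩
  · exact ⟨_, fac10511⟩
  · exact ⟨_, fac10512⟩
  · exact ⟨_, fac10513⟩
  · exact ⟨_, fac10514⟩
  · exact ⟨_, fac10515⟩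
  · exact ⟨_, fac10516⟩
  · exact ⟨_, fac10517⟩
  · exact ⟨_, fac10518⟩
  · exact ⟨_, fac10519⟩
  · exact ⟨_, fac10520⟩
  · exact ⟨_, fac10521⟩
  · exact ⟨_, fac10522⟩
  · exact ⟨_, fac10523⟩
  · exact ⟨_, fac10524⟩
  · exact ⟨_, fac10525⟩
  · exact ⟨_, fac10526⟩
  · exact ⟨_, fac10527⟩
  · exact ⟨_, fac10528⟩
  · exact ⟨_, fac10529⟩
  · exact ⟨_, fac10530⟩
  · exact ⟨_, fac10531⟩
  · exact ⟨_, fac10532⟩
  · exact ⟨_, fac10533⟩
  · exact ⟨_, fac10534⟩
  · exact ⟨_, fac10535⟩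
  · exact ⟨_, fac10536⟩
  · exact ⟨_, fac10537⟩
  · exact ⟨_, fac10538⟩
  · exact ⟨_, fac10539⟩
  · exact ⟨_, fac10540⟩
  · exact ⟨_, fac10541⟩
  · exact ⟨_, fac10542⟩
  · exact ⟨_, fac10543⟩
  · exact ⟨_, fac10544⟩
  · exact ⟨_, fac10545⟩
  · exact ⟨_, fac10546⟩
  · exact ⟨_, fac10547⟩
  · exact ⟨_, fac10548⟩
  · exact ⟨_, fac10549⟩
  · exact ⟨_, fac10550⟩
  · exact ⟨_, fac10551⟩
  · exact ⟨_, fac10552⟩
  · exact ⟨_, fac10553⟩
  · exact ⟨_, fac10554⟩
  · exact ⟨_, fac10555⟩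
  · exact ⟨_, fac10556⟩
  · exact ⟨_, fac10557⟩
  · exact ⟨_, fac10558⟩
  · exact ⟨_, fac10559⟩

theorem good164 : bx164.GoodK ((an : ℝ) / 100) (L.map (ITerm.term den)) (L2.map (ITerm.term den))
    (KL.map (KI.term den)) delta :=
  goodK_of_checkR an den (by decide) L L2 KL dtbl dtbl_ok rfl codes posN rowsA rowsB rowsC rows_tbl 12 256 8 72 b0 28 22
    (by decide) parts_ok (by decide +kernel) slice_ok lit_ok 1 (by decide +kernel) delta bx164 hd164
    (by decide) rls164 rls_ok164 (by decide) (planOf lams164) 190 dD164 dE164 els164 rfl pay164 delta_le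
    (fun b hb => by
      interval_cases b
      · exact bucket164_0
      · exact bucket164_1
      · exact bucket164_2
      · exact bucket164_3
      · exact bucket164_4
      · exact bucket164_5
      · exact bucket164_6
      · exact bucket164_7)

end Vale.Agent.P098.Exact.Sos6.Q93
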