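import Vale.Agent.P098.Exact.Sos6.Q93.Common
import Vale.Agent.P098.Exact.Sos6.Q93.Box165B0
import Vale.Agent.P098.Exact.Sos6.Q93.Box165B1
import Vale.Agent.P098.Exact.Sos6.Q93.Box165B2
import Vale.Agent.P098.Exact.Sos6.Q93.Box165B3
import Vale.Agent.P098.Exact.Sos6.Q93.Box165B4
import Vale.Agent.P098.Exact.Sos6.Q93.Box165B5
import Vale.Agent.P098.Exact.Sos6.Q93.Box165B6
import Vale.Agent.P098.Exact.Sos6.Q93.Box165B7

/-! Generated data of the dimension six interior check. -/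

noncomputable section

namespace Vale.Agent.P098.Exact.Sos6.Q93

set_option maxRecDepth 100000

theorem pay165 : dtbl.payOK 190 dD165 dE165 (elTot els165) = true := by decide +kernel

theorem rls_ok165 : ∀ G ∈ rls165, ∃ Ns, tbl.facR 72 b0 28 22 Ns G = true := by
  intro G hG
  simp only [rls165, List.mem_cons, List.not_mem_nil, or_false] at hG
  rcases hG with rfl | rfl | rfl | rfl | rfl | rfl | rfl | rfl | rfl | rfl | rfl | rfl | rfl | rfl | rfl | rfl | rfl | rfl | rfl | rfl | rfl | rfl | rfl | rfl | rfl | rfl | rfl | rfl | rfl | rfl | rfl | rfl | rfl | rfl | rfl | rfl | rfl | rfl | rfl | rfl | rfl | rfl | rfl | rfl | rfl | rfl | rfl | rfl | rfl | rfl | rfl | rfl | rfl | rfl | rfl | rfl | rfl | rfl | rfl | rfl | rfl | rfl | rfl | rfl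
  · exact ⟨_, fac10560⟩
  · exact ⟨_, fac10561⟩
  · exact ⟨_, fac10562⟩
  · exact ⟨_, fac10563⟩
  · exact ⟨_, fac10564⟩
  · exact ⟨_, fac10565⟩
  · exact ⟨_, fac10566⟩
  · exact ⟨_, fac10567⟩
  · exact ⟨_, fac10568⟩
  · exact ⟨_, fac10569⟩
  · exact ⟨_, fac10570⟩
  · exact ⟨_, fac10571⟩
  · exact ⟨_, fac10572⟩
  · exact ⟨_, fac10573⟩
  · exact ⟨_, fac10574⟩
  · exact ⟨_, fac10575⟩
  · exact ⟨_, fac10576⟩
  · exact ⟨_, fac10577⟩
  · exact ⟨_, fac10578⟩
  · exact ⟨_, fac10579⟩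
  · exact ⟨_, fac10580⟩
  · exact ⟨_, fac10581⟩
  · exact ⟨_, fac10582⟩
  · exact ⟨_, fac10583⟩
  · exact ⟨_, fac10584⟩
  · exact ⟨_, fac10585⟩
  · exact ⟨_, fac10586⟩
  · exact ⟨_, fac10587⟩
  · exact ⟨_, fac10588⟩
  · exact ⟨_, fac10589⟩
  · exact ⟨_, fac10590⟩
  · exact ⟨_, fac10591⟩
  · exact ⟨_, fac10592⟩
  · exact ⟨_, fac10593⟩
  · exact ⟨_, fac10594⟩
  · exact ⟨_, fac10595⟩
  · exact ⟨_, fac10596⟩
  · exact ⟨_, fac10597⟩
  · exact ⟨_, fac10598⟩
  · exact ⟨_, fac10599⟩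
  · exact ⟨_, fac10600⟩
  · exact ⟨_, fac10601⟩
  · exact ⟨_, fac10602⟩
  · exact ⟨_, fac10603⟩
  · exact ⟨_, fac10604⟩
  · exact ⟨_, fac10605⟩
  · exact ⟨_, fac10606⟩
  · exact ⟨_, fac10607⟩
  · exact ⟨_, fac10608⟩
  · exact ⟨_, fac10609⟩
  · exact ⟨_, fac10610⟩
  · exact ⟨_, fac10611⟩
  · exact ⟨_, fac10612⟩
  · exact ⟨_, fac10613⟩
  · exact ⟨_, fac10614⟩
  · exact ⟨_, fac10615⟩
  · exact ⟨_, fac10616⟩
  · exact ⟨_, fac10617⟩
  · exact ⟨_, fac10618⟩
  · exact ⟨_, fac10619⟩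
  · exact ⟨_, fac10620⟩
  · exact ⟨_, fac10621⟩
  · exact ⟨_, fac10622⟩
  · exact ⟨_, fac10623⟩

theorem good165 : bx165.GoodK ((an : ℝ) / 100) (L.map (ITerm.term den)) (L2.map (ITerm.term den))
    (KL.map (KI.term den)) delta :=
  goodK_of_checkR an den (by decide) L L2 KL dtbl dtbl_ok rfl codes posN rowsA rowsB rowsC rows_tbl 12 256 8 72 b0 28 22
    (by decide) parts_ok (by decide +kernel) slice_ok lit_ok 1 (by decide +kernel) delta bx165 hd165
    (by decide) rls165 rls_ok165 (by decide) (planOf lams165) 190 dD165 dE165 els165 rfl pay165 delta_le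
    (fun b hb => by
      interval_cases b
      · exact bucket165_0
      · exact bucket165_1
      · exact bucket165_2
      · exact bucket165_3
      · exact bucket165_4
      · exact bucket165_5
      · exact bucket165_6
      · exact bucket165_7)

end Vale.Agent.P098.Exact.Sos6.Q93
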