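import Vale.Agent.P098.Exact.Sos6.Q93.Common
import Vale.Agent.P098.Exact.Sos6.Q93.Box166B0
import Vale.Agent.P098.Exact.Sos6.Q93.Box166B1
import Vale.Agent.P098.Exact.Sos6.Q93.Box166B2
import Vale.Agent.P098.Exact.Sos6.Q93.Box166B3
import Vale.Agent.P098.Exact.Sos6.Q93.Box166B4
import Vale.Agent.P098.Exact.Sos6.Q93.Box166B5
import Vale.Agent.P098.Exact.Sos6.Q93.Box166B6
import Vale.Agent.P098.Exact.Sos6.Q93.Box166B7

/-! Generated data of the dimension six interior check. -/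

noncomputable section

namespace Vale.Agent.P098.Exact.Sos6.Q93

set_option maxRecDepth 100000

theorem pay166 : dtbl.payOK 190 dD166 dE166 (elTot els166) = true := by decide +kernel

theorem rls_ok166 : ∀ G ∈ rls166, ∃ Ns, tbl.facR 72 b0 28 22 Ns G = true := by
  intro G hG
  simp only [rls166, List.mem_cons, List.not_mem_nil, or_false] at hG
  rcases hG with rfl | rfl | rfl | rfl | rfl | rfl | rfl | rfl | rfl | rfl | rfl | rfl | rfl | rfl | rfl | rfl | rfl | rfl | rfl | rfl | rfl | rfl | rfl | rfl | rfl | rfl | rfl | rfl | rfl | rfl | rfl | rfl | rfl | rfl | rfl | rfl | rfl | rfl | rfl | rfl | rfl | rfl | rfl | rfl | rfl | rfl | rfl | rfl | rfl | rfl | rfl | rfl | rfl | rfl | rfl | rfl | rfl | rfl | rfl | rfl | rfl | rfl | rfl | rfl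
  · exact ⟨_, fac10624⟩
  · exact ⟨_, fac10625⟩
  · exact ⟨_, fac10626⟩
  · exact ⟨_, fac10627⟩
  · exact ⟨_, fac10628⟩
  · exact ⟨_, fac10629⟩
  · exact ⟨_, fac10630⟩
  · exact ⟨_, fac10631⟩
  · exact ⟨_, fac10632⟩
  · exact ⟨_, fac10633⟩
  · exact ⟨_, fac10634⟩
  · exact ⟨_, fac10635⟩
  · exact ⟨_, fac10636⟩
  · exact ⟨_, fac10637⟩
  · exact ⟨_, fac10638⟩
  · exact ⟨_, fac10639⟩
  · exact ⟨_, fac10640⟩
  · exact ⟨_, fac10641⟩
  · exact ⟨_, fac10642⟩
  · exact ⟨_, fac10643⟩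
  · exact ⟨_, fac10644⟩
  · exact ⟨_, fac10645⟩
  · exact ⟨_, fac10646⟩
  · exact ⟨_, fac10647⟩
  · exact ⟨_, fac10648⟩
  · exact ⟨_, fac10649⟩
  · exact ⟨_, fac10650⟩
  · exact ⟨_, fac10651⟩
  · exact ⟨_, fac10652⟩
  · exact ⟨_, fac10653⟩
  · exact ⟨_, fac10654⟩
  · exact ⟨_, fac10655⟩
  · exact ⟨_, fac10656⟩
  · exact ⟨_, fac10657⟩
  · exact ⟨_, fac10658⟩
  · exact ⟨_, fac10659⟩
  · exact ⟨_, fac10660⟩
  · exact ⟨_, fac10661⟩
  · exact ⟨_, fac10662⟩
  · exact ⟨_, fac10663⟩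
  · exact ⟨_, fac10664⟩
  · exact ⟨_, fac10665⟩
  · exact ⟨_, fac10666⟩
  · exact ⟨_, fac10667⟩
  · exact ⟨_, fac10668⟩
  · exact ⟨_, fac10669⟩
  · exact ⟨_, fac10670⟩
  · exact ⟨_, fac10671⟩
  · exact ⟨_, fac10672⟩
  · exact ⟨_, fac10673⟩
  · exact ⟨_, fac10674⟩
  · exact ⟨_, fac10675⟩
  · exact ⟨_, fac10676⟩
  · exact ⟨_, fac10677⟩
  · exact ⟨_, fac10678⟩
  · exact ⟨_, fac10679⟩
  · exact ⟨_, fac10680⟩
  · exact ⟨_, fac10681⟩
  · exact ⟨_, fac10682⟩
  · exact ⟨_, fac10683⟩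
  · exact ⟨_, fac10684⟩
  · exact ⟨_, fac10685⟩
  · exact ⟨_, fac10686⟩
  · exact ⟨_, fac10687⟩

theorem good166 : bx166.GoodK ((an : ℝ) / 100) (L.map (ITerm.term den)) (L2.map (ITerm.term den))
    (KL.map (KI.term den)) delta :=
  goodK_of_checkR an den (by decide) L L2 KL dtbl dtbl_ok rfl codes posN rowsA rowsB rowsC rows_tbl 12 256 8 72 b0 28 22
    (by decide) parts_ok (by decide +kernel) slice_ok lit_ok 1 (by decide +kernel) delta bx166 hd166
    (by decide) rls166 rls_ok166 (by decide) (planOf lams166) 190 dD166 dE166 els166 rfl pay166 delta_le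
    (fun b hb => by
      interval_cases b
      · exact bucket166_0
      · exact bucket166_1
      · exact bucket166_2
      · exact bucket166_3
      · exact bucket166_4
      · exact bucket166_5
      · exact bucket166_6
      · exact bucket166_7)

end Vale.Agent.P098.Exact.Sos6.Q93
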