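import Vale.Agent.P098.Exact.Sos6.Q93.Common
import Vale.Agent.P098.Exact.Sos6.Q93.Box167B0
import Vale.Agent.P098.Exact.Sos6.Q93.Box167B1
import Vale.Agent.P098.Exact.Sos6.Q93.Box167B2
import Vale.Agent.P098.Exact.Sos6.Q93.Box167B3
import Vale.Agent.P098.Exact.Sos6.Q93.Box167B4
import Vale.Agent.P098.Exact.Sos6.Q93.Box167B5
import Vale.Agent.P098.Exact.Sos6.Q93.Box167B6
import Vale.Agent.P098.Exact.Sos6.Q93.Box167B7

/-! Generated data of the dimension six interior check. -/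

noncomputable section

namespace Vale.Agent.P098.Exact.Sos6.Q93

set_option maxRecDepth 100000

theorem pay167 : dtbl.payOK 190 dD167 dE167 (elTot els167) = true := by decide +kernel

theorem rls_ok167 : ∀ G ∈ rls167, ∃ Ns, tbl.facR 72 b0 28 22 Ns G = true := by
  intro G hG
  simp only [rls167, List.mem_cons, List.not_mem_nil, or_false] at hG
  rcases hG with rfl | rfl | rfl | rfl | rfl | rfl | rfl | rfl | rfl | rfl | rfl | rfl | rfl | rfl | rfl | rfl | rfl | rfl | rfl | rfl | rfl | rfl | rfl | rfl | rfl | rfl | rfl | rfl | rfl | rfl | rfl | rfl | rfl | rfl | rfl | rfl | rfl | rfl | rfl | rfl | rfl | rfl | rfl | rfl | rfl | rfl | rfl | rfl | rfl | rfl | rfl | rfl | rfl | rfl | rfl | rfl | rfl | rfl | rfl | rfl | rfl | rfl | rfl | rfl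
  · exact ⟨_, fac10688⟩
  · exact ⟨_, fac10689⟩
  · exact ⟨_, fac10690⟩
  · exact ⟨_, fac10691⟩
  · exact ⟨_, fac10692⟩
  · exact ⟨_, fac10693⟩
  · exact ⟨_, fac10694⟩
  · exact ⟨_, fac10695⟩
  · exact ⟨_, fac10696⟩
  · exact ⟨_, fac10697⟩
  · exact ⟨_, fac10698⟩
  · exact ⟨_, fac10699⟩
  · exact ⟨_, fac10700⟩
  · exact ⟨_, fac10701⟩
  · exact ⟨_, fac10702⟩
  · exact ⟨_, fac10703⟩
  · exact ⟨_, fac10704⟩
  · exact ⟨_, fac10705⟩
  · exact ⟨_, fac10706⟩
  · exact ⟨_, fac10707⟩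
  · exact ⟨_, fac10708⟩
  · exact ⟨_, fac10709⟩
  · exact ⟨_, fac10710⟩
  · exact ⟨_, fac10711⟩
  · exact ⟨_, fac10712⟩
  · exact ⟨_, fac10713⟩
  · exact ⟨_, fac10714⟩
  · exact ⟨_, fac10715⟩
  · exact ⟨_, fac10716⟩
  · exact ⟨_, fac10717⟩
  · exact ⟨_, fac10718⟩
  · exact ⟨_, fac10719⟩
  · exact ⟨_, fac10720⟩
  · exact ⟨_, fac10721⟩
  · exact ⟨_, fac10722⟩
  · exact ⟨_, fac10723⟩
  · exact ⟨_, fac10724⟩
  · exact ⟨_, fac10725⟩
  · exact ⟨_, fac10726⟩
  · exact ⟨_, fac10727⟩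
  · exact ⟨_, fac10728⟩
  · exact ⟨_, fac10729⟩
  · exact ⟨_, fac10730⟩
  · exact ⟨_, fac10731⟩
  · exact ⟨_, fac10732⟩
  · exact ⟨_, fac10733⟩
  · exact ⟨_, fac10734⟩
  · exact ⟨_, fac10735⟩
  · exact ⟨_, fac10736⟩
  · exact ⟨_, fac10737⟩
  · exact ⟨_, fac10738⟩
  · exact ⟨_, fac10739⟩
  · exact ⟨_, fac10740⟩
  · exact ⟨_, fac10741⟩
  · exact ⟨_, fac10742⟩
  · exact ⟨_, fac10743⟩
  · exact ⟨_, fac10744⟩
  · exact ⟨_, fac10745⟩
  · exact ⟨_, fac10746⟩
  · exact ⟨_, fac10747⟩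
  · exact ⟨_, fac10748⟩
  · exact ⟨_, fac10749⟩
  · exact ⟨_, fac10750⟩
  · exact ⟨_, fac10751⟩

theorem good167 : bx167.GoodK ((an : ℝ) / 100) (L.map (ITerm.term den)) (L2.map (ITerm.term den))
    (KL.map (KI.term den)) delta :=
  goodK_of_checkR an den (by decide) L L2 KL dtbl dtbl_ok rfl codes posN rowsA rowsB rowsC rows_tbl 12 256 8 72 b0 28 22
    (by decide) parts_ok (by decide +kernel) slice_ok lit_ok 1 (by decide +kernel) delta bx167 hd167
    (by decide) rls167 rls_ok167 (by decide) (planOf lams167) 190 dD167 dE167 els167 rfl pay167 delta_le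
    (fun b hb => by
      interval_cases b
      · exact bucket167_0
      · exact bucket167_1
      · exact bucket167_2
      · exact bucket167_3
      · exact bucket167_4
      · exact bucket167_5
      · exact bucket167_6
      · exact bucket167_7)

end Vale.Agent.P098.Exact.Sos6.Q93
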