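import Vale.Agent.P098.Exact.Sos6.Q93.Common
import Vale.Agent.P098.Exact.Sos6.Q93.Box168B0
import Vale.Agent.P098.Exact.Sos6.Q93.Box168B1
import Vale.Agent.P098.Exact.Sos6.Q93.Box168B2
import Vale.Agent.P098.Exact.Sos6.Q93.Box168B3
import Vale.Agent.P098.Exact.Sos6.Q93.Box168B4
import Vale.Agent.P098.Exact.Sos6.Q93.Box168B5
import Vale.Agent.P098.Exact.Sos6.Q93.Box168B6
import Vale.Agent.P098.Exact.Sos6.Q93.Box168B7

/-! Generated data of the dimension six interior check. -/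

noncomputable section

namespace Vale.Agent.P098.Exact.Sos6.Q93

set_option maxRecDepth 100000

theorem pay168 : dtbl.payOK 190 dD168 dE168 (elTot els168) = true := by decide +kernel

theorem rls_ok168 : ∀ G ∈ rls168, ∃ Ns, tbl.facR 72 b0 28 22 Ns G = true := by
  intro G hG
  simp only [rls168, List.mem_cons, List.not_mem_nil, or_false] at hG
  rcases hG with rfl | rfl | rfl | rfl | rfl | rfl | rfl | rfl | rfl | rfl | rfl | rfl | rfl | rfl | rfl | rfl | rfl | rfl | rfl | rfl | rfl | rfl | rfl | rfl | rfl | rfl | rfl | rfl | rfl | rfl | rfl | rfl | rfl | rfl | rfl | rfl | rfl | rfl | rfl | rfl | rfl | rfl | rfl | rfl | rfl | rfl | rfl | rfl | rfl | rfl | rfl | rfl | rfl | rfl | rfl | rfl | rfl | rfl | rfl | rfl | rfl | rfl | rfl | rfl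
  · exact ⟨_, fac10752⟩
  · exact ⟨_, fac10753⟩
  · exact ⟨_, fac10754⟩
  · exact ⟨_, fac10755⟩
  · exact ⟨_, fac10756⟩
  · exact ⟨_, fac10757⟩
  · exact ⟨_, fac10758⟩
  · exact ⟨_, fac10759⟩
  · exact ⟨_, fac10760⟩
  · exact ⟨_, fac10761⟩
  · exact ⟨_, fac10762⟩
  · exact ⟨_, fac10763⟩
  · exact ⟨_, fac10764⟩
  · exact ⟨_, fac10765⟩
  · exact ⟨_, fac10766⟩
  · exact ⟨_, fac10767⟩
  · exact ⟨_, fac10768⟩
  · exact ⟨_, fac10769⟩
  · exact ⟨_, fac10770⟩
  · exact ⟨_, fac10771⟩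
  · exact ⟨_, fac10772⟩
  · exact ⟨_, fac10773⟩
  · exact ⟨_, fac10774⟩
  · exact ⟨_, fac10775⟩
  · exact ⟨_, fac10776⟩
  · exact ⟨_, fac10777⟩
  · exact ⟨_, fac10778⟩
  · exact ⟨_, fac10779⟩
  · exact ⟨_, fac10780⟩
  · exact ⟨_, fac10781⟩
  · exact ⟨_, fac10782⟩
  · exact ⟨_, fac10783⟩
  · exact ⟨_, fac10784⟩
  · exact ⟨_, fac10785⟩
  · exact ⟨_, fac10786⟩
  · exact ⟨_, fac10787⟩
  · exact ⟨_, fac10788⟩
  · exact ⟨_, fac10789⟩
  · exact ⟨_, fac10790⟩
  · exact ⟨_, fac10791⟩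
  · exact ⟨_, fac10792⟩
  · exact ⟨_, fac10793⟩
  · exact ⟨_, fac10794⟩
  · exact ⟨_, fac10795⟩
  · exact ⟨_, fac10796⟩
  · exact ⟨_, fac10797⟩
  · exact ⟨_, fac10798⟩
  · exact ⟨_, fac10799⟩
  · exact ⟨_, fac10800⟩
  · exact ⟨_, fac10801⟩
  · exact ⟨_, fac10802⟩
  · exact ⟨_, fac10803⟩
  · exact ⟨_, fac10804⟩
  · exact ⟨_, fac10805⟩
  · exact ⟨_, fac10806⟩
  · exact ⟨_, fac10807⟩
  · exact ⟨_, fac10808⟩
  · exact ⟨_, fac10809⟩
  · exact ⟨_, fac10810⟩
  · exact ⟨_, fac10811⟩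
  · exact ⟨_, fac10812⟩
  · exact ⟨_, fac10813⟩
  · exact ⟨_, fac10814⟩
  · exact ⟨_, fac10815⟩

theorem good168 : bx168.GoodK ((an : ℝ) / 100) (L.map (ITerm.term den)) (L2.map (ITerm.term den))
    (KL.map (KI.term den)) delta :=
  goodK_of_checkR an den (by decide) L L2 KL dtbl dtbl_ok rfl codes posN rowsA rowsB rowsC rows_tbl 12 256 8 72 b0 28 22
    (by decide) parts_ok (by decide +kernel) slice_ok lit_ok 1 (by decide +kernel) delta bx168 hd168
    (by decide) rls168 rls_ok168 (by decide) (planOf lams168) 190 dD168 dE168 els168 rfl pay168 delta_le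
    (fun b hb => by
      interval_cases b
      · exact bucket168_0
      · exact bucket168_1
      · exact bucket168_2
      · exact bucket168_3
      · exact bucket168_4
      · exact bucket168_5
      · exact bucket168_6
      · exact bucket168_7)

end Vale.Agent.P098.Exact.Sos6.Q93
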