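import Vale.Agent.P098.Exact.Sos6.Q93.Common
import Vale.Agent.P098.Exact.Sos6.Q93.Box169B0
import Vale.Agent.P098.Exact.Sos6.Q93.Box169B1
import Vale.Agent.P098.Exact.Sos6.Q93.Box169B2
import Vale.Agent.P098.Exact.Sos6.Q93.Box169B3
import Vale.Agent.P098.Exact.Sos6.Q93.Box169B4
import Vale.Agent.P098.Exact.Sos6.Q93.Box169B5
import Vale.Agent.P098.Exact.Sos6.Q93.Box169B6
import Vale.Agent.P098.Exact.Sos6.Q93.Box169B7

/-! Generated data of the dimension six interior check. -/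

noncomputable section

namespace Vale.Agent.P098.Exact.Sos6.Q93

set_option maxRecDepth 100000

theorem pay169 : dtbl.payOK 190 dD169 dE169 (elTot els169) = true := by decide +kernel

theorem rls_ok169 : ∀ G ∈ rls169, ∃ Ns, tbl.facR 72 b0 28 22 Ns G = true := by
  intro G hG
  simp only [rls169, List.mem_cons, List.not_mem_nil, or_false] at hG
  rcases hG with rfl | rfl | rfl | rfl | rfl | rfl | rfl | rfl | rfl | rfl | rfl | rfl | rfl | rfl | rfl | rfl | rfl | rfl | rfl | rfl | rfl | rfl | rfl | rfl | rfl | rfl | rfl | rfl | rfl | rfl | rfl | rfl | rfl | rfl | rfl | rfl | rfl | rfl | rfl | rfl | rfl | rfl | rfl | rfl | rfl | rfl | rfl | rfl | rfl | rfl | rfl | rfl | rfl | rfl | rfl | rfl | rfl | rfl | rfl | rfl | rfl | rfl | rfl | rfl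
  · exact ⟨_, fac10816⟩
  · exact ⟨_, fac10817⟩
  · exact ⟨_, fac10818⟩
  · exact ⟨_, fac10819⟩
  · exact ⟨_, fac10820⟩
  · exact ⟨_, fac10821⟩
  · exact ⟨_, fac10822⟩
  · exact ⟨_, fac10823⟩
  · exact ⟨_, fac10824⟩
  · exact ⟨_, fac10825⟩
  · exact ⟨_, fac10826⟩
  · exact ⟨_, fac10827⟩
  · exact ⟨_, fac10828⟩
  · exact ⟨_, fac10829⟩
  · exact ⟨_, fac10830⟩
  · exact ⟨_, fac10831⟩
  · exact ⟨_, fac10832⟩
  · exact ⟨_, fac10833⟩
  · exact ⟨_, fac10834⟩
  · exact ⟨_, fac10835⟩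
  · exact ⟨_, fac10836⟩
  · exact ⟨_, fac10837⟩
  · exact ⟨_, fac10838⟩
  · exact ⟨_, fac10839⟩
  · exact ⟨_, fac10840⟩
  · exact ⟨_, fac10841⟩
  · exact ⟨_, fac10842⟩
  · exact ⟨_, fac10843⟩
  · exact ⟨_, fac10844⟩
  · exact ⟨_, fac10845⟩
  · exact ⟨_, fac10846⟩
  · exact ⟨_, fac10847⟩
  · exact ⟨_, fac10848⟩
  · exact ⟨_, fac10849⟩
  · exact ⟨_, fac10850⟩
  · exact ⟨_, fac10851⟩
  · exact ⟨_, fac10852⟩
  · exact ⟨_, fac10853⟩
  · exact ⟨_, fac10854⟩
  · exact ⟨_, fac10855⟩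
  · exact ⟨_, fac10856⟩
  · exact ⟨_, fac10857⟩
  · exact ⟨_, fac10858⟩
  · exact ⟨_, fac10859⟩
  · exact ⟨_, fac10860⟩
  · exact ⟨_, fac10861⟩
  · exact ⟨_, fac10862⟩
  · exact ⟨_, fac10863⟩
  · exact ⟨_, fac10864⟩
  · exact ⟨_, fac10865⟩
  · exact ⟨_, fac10866⟩
  · exact ⟨_, fac10867⟩
  · exact ⟨_, fac10868⟩
  · exact ⟨_, fac10869⟩
  · exact ⟨_, fac10870⟩
  · exact ⟨_, fac10871⟩
  · exact ⟨_, fac10872⟩
  · exact ⟨_, fac10873⟩
  · exact ⟨_, fac10874⟩
  · exact ⟨_, fac10875⟩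
  · exact ⟨_, fac10876⟩
  · exact ⟨_, fac10877⟩
  · exact ⟨_, fac10878⟩
  · exact ⟨_, fac10879⟩

theorem good169 : bx169.GoodK ((an : ℝ) / 100) (L.map (ITerm.term den)) (L2.map (ITerm.term den))
    (KL.map (KI.term den)) delta :=
  goodK_of_checkR an den (by decide) L L2 KL dtbl dtbl_ok rfl codes posN rowsA rowsB rowsC rows_tbl 12 256 8 72 b0 28 22
    (by decide) parts_ok (by decide +kernel) slice_ok lit_ok 1 (by decide +kernel) delta bx169 hd169
    (by decide) rls169 rls_ok169 (by decide) (planOf lams169) 190 dD169 dE169 els169 rfl pay169 delta_le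
    (fun b hb => by
      interval_cases b
      · exact bucket169_0
      · exact bucket169_1
      · exact bucket169_2
      · exact bucket169_3
      · exact bucket169_4
      · exact bucket169_5
      · exact bucket169_6
      · exact bucket169_7)

end Vale.Agent.P098.Exact.Sos6.Q93
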