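import Vale.Agent.P098.Exact.Sos6.Q93.Common
import Vale.Agent.P098.Exact.Sos6.Q93.Box16B0
import Vale.Agent.P098.Exact.Sos6.Q93.Box16B1
import Vale.Agent.P098.Exact.Sos6.Q93.Box16B2
import Vale.Agent.P098.Exact.Sos6.Q93.Box16B3
import Vale.Agent.P098.Exact.Sos6.Q93.Box16B4
import Vale.Agent.P098.Exact.Sos6.Q93.Box16B5
import Vale.Agent.P098.Exact.Sos6.Q93.Box16B6
import Vale.Agent.P098.Exact.Sos6.Q93.Box16B7

/-! Generated data of the dimension six interior check. -/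

noncomputable section

namespace Vale.Agent.P098.Exact.Sos6.Q93

set_option maxRecDepth 100000

theorem pay16 : dtbl.payOK 190 dD16 dE16 (elTot els16) = true := by decide +kernel

theorem rls_ok16 : ∀ G ∈ rls16, ∃ Ns, tbl.facR 72 b0 28 22 Ns G = true := by
  intro G hG
  simp only [rls16, List.mem_cons, List.not_mem_nil, or_false] at hG
  rcases hG with rfl | rfl | rfl | rfl | rfl | rfl | rfl | rfl | rfl | rfl | rfl | rfl | rfl | rfl | rfl | rfl | rfl | rfl | rfl | rfl | rfl | rfl | rfl | rfl | rfl | rfl | rfl | rfl | rfl | rfl | rfl | rfl | rfl | rfl | rfl | rfl | rfl | rfl | rfl | rfl | rfl | rfl | rfl | rfl | rfl | rfl | rfl | rfl | rfl | rfl | rfl | rfl | rfl | rfl | rfl | rfl | rfl | rfl | rfl | rfl | rfl | rfl | rfl | rfl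
  · exact ⟨_, fac1024⟩
  · exact ⟨_, fac1025⟩
  · exact ⟨_, fac1026⟩
  · exact ⟨_, fac1027⟩
  · exact ⟨_, fac1028⟩
  · exact ⟨_, fac1029⟩
  · exact ⟨_, fac1030⟩
  · exact ⟨_, fac1031⟩
  · exact ⟨_, fac1032⟩
  · exact ⟨_, fac1033⟩
  · exact ⟨_, fac1034⟩
  · exact ⟨_, fac1035⟩
  · exact ⟨_, fac1036⟩
  · exact ⟨_, fac1037⟩
  · exact ⟨_, fac1038⟩
  · exact ⟨_, fac1039⟩
  · exact ⟨_, fac1040⟩
  · exact ⟨_, fac1041⟩
  · exact ⟨_, fac1042⟩
  · exact ⟨_, fac1043⟩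
  · exact ⟨_, fac1044⟩
  · exact ⟨_, fac1045⟩
  · exact ⟨_, fac1046⟩
  · exact ⟨_, fac1047⟩
  · exact ⟨_, fac1048⟩
  · exact ⟨_, fac1049⟩
  · exact ⟨_, fac1050⟩
  · exact ⟨_, fac1051⟩
  · exact ⟨_, fac1052⟩
  · exact ⟨_, fac1053⟩
  · exact ⟨_, fac1054⟩
  · exact ⟨_, fac1055⟩
  · exact ⟨_, fac1056⟩
  · exact ⟨_, fac1057⟩
  · exact ⟨_, fac1058⟩
  · exact ⟨_, fac1059⟩
  · exact ⟨_, fac1060⟩
  · exact ⟨_, fac1061⟩
  · exact ⟨_, fac1062⟩
  · exact ⟨_, fac1063⟩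
  · exact ⟨_, fac1064⟩
  · exact ⟨_, fac1065⟩
  · exact ⟨_, fac1066⟩
  · exact ⟨_, fac1067⟩
  · exact ⟨_, fac1068⟩
  · exact ⟨_, fac1069⟩
  · exact ⟨_, fac1070⟩
  · exact ⟨_, fac1071⟩
  · exact ⟨_, fac1072⟩
  · exact ⟨_, fac1073⟩
  · exact ⟨_, fac1074⟩
  · exact ⟨_, fac1075⟩
  · exact ⟨_, fac1076⟩
  · exact ⟨_, fac1077⟩
  · exact ⟨_, fac1078⟩
  · exact ⟨_, fac1079⟩
  · exact ⟨_, fac1080⟩
  · exact ⟨_, fac1081⟩
  · exact ⟨_, fac1082⟩
  · exact ⟨_, fac1083⟩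
  · exact ⟨_, fac1084⟩
  · exact ⟨_, fac1085⟩
  · exact ⟨_, fac1086⟩
  · exact ⟨_, fac1087⟩

theorem good16 : bx16.GoodK ((an : ℝ) / 100) (L.map (ITerm.term den)) (L2.map (ITerm.term den))
    (KL.map (KI.term den)) delta :=
  goodK_of_checkR an den (by decide) L L2 KL dtbl dtbl_ok rfl codes posN rowsA rowsB rowsC rows_tbl 12 256 8 72 b0 28 22
    (by decide) parts_ok (by decide +kernel) slice_ok lit_ok 1 (by decide +kernel) delta bx16 hd16
    (by decide) rls16 rls_ok16 (by decide) (planOf lams16) 190 dD16 dE16 els16 rfl pay16 delta_le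
    (fun b hb => by
      interval_cases b
      · exact bucket16_0
      · exact bucket16_1
      · exact bucket16_2
      · exact bucket16_3
      · exact bucket16_4
      · exact bucket16_5
      · exact bucket16_6
      · exact bucket16_7)

end Vale.Agent.P098.Exact.Sos6.Q93
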