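import Vale.Agent.P098.Exact.Sos6.Q93.Common
import Vale.Agent.P098.Exact.Sos6.Q93.Box170B0
import Vale.Agent.P098.Exact.Sos6.Q93.Box170B1
import Vale.Agent.P098.Exact.Sos6.Q93.Box170B2
import Vale.Agent.P098.Exact.Sos6.Q93.Box170B3
import Vale.Agent.P098.Exact.Sos6.Q93.Box170B4
import Vale.Agent.P098.Exact.Sos6.Q93.Box170B5
import Vale.Agent.P098.Exact.Sos6.Q93.Box170B6
import Vale.Agent.P098.Exact.Sos6.Q93.Box170B7

/-! Generated data of the dimension six interior check. -/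

noncomputable section

namespace Vale.Agent.P098.Exact.Sos6.Q93

set_option maxRecDepth 100000

theorem pay170 : dtbl.payOK 190 dD170 dE170 (elTot els170) = true := by decide +kernel

theorem rls_ok170 : ∀ G ∈ rls170, ∃ Ns, tbl.facR 72 b0 28 22 Ns G = true := by
  intro G hG
  simp only [rls170, List.mem_cons, List.not_mem_nil, or_false] at hG
  rcases hG with rfl | rfl | rfl | rfl | rfl | rfl | rfl | rfl | rfl | rfl | rfl | rfl | rfl | rfl | rfl | rfl | rfl | rfl | rfl | rfl | rfl | rfl | rfl | rfl | rfl | rfl | rfl | rfl | rfl | rfl | rfl | rfl | rfl | rfl | rfl | rfl | rfl | rfl | rfl | rfl | rfl | rfl | rfl | rfl | rfl | rfl | rfl | rfl | rfl | rfl | rfl | rfl | rfl | rfl | rfl | rfl | rfl | rfl | rfl | rfl | rfl | rfl | rfl | rfl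
  · exact ⟨_, fac10880⟩
  · exact ⟨_, fac10881⟩
  · exact ⟨_, fac10882⟩
  · exact ⟨_, fac10883⟩
  · exact ⟨_, fac10884⟩
  · exact ⟨_, fac10885⟩
  · exact ⟨_, fac10886⟩
  · exact ⟨_, fac10887⟩
  · exact ⟨_, fac10888⟩
  · exact ⟨_, fac10889⟩
  · exact ⟨_, fac10890⟩
  · exact ⟨_, fac10891⟩
  · exact ⟨_, fac10892⟩
  · exact ⟨_, fac10893⟩
  · exact ⟨_, fac10894⟩
  · exact ⟨_, fac10895⟩
  · exact ⟨_, fac10896⟩
  · exact ⟨_, fac10897⟩
  · exact ⟨_, fac10898⟩
  · exact ⟨_, fac10899⟩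
  · exact ⟨_, fac10900⟩
  · exact ⟨_, fac10901⟩
  · exact ⟨_, fac10902⟩
  · exact ⟨_, fac10903⟩
  · exact ⟨_, fac10904⟩
  · exact ⟨_, fac10905⟩
  · exact ⟨_, fac10906⟩
  · exact ⟨_, fac10907⟩
  · exact ⟨_, fac10908⟩
  · exact ⟨_, fac10909⟩
  · exact ⟨_, fac10910⟩
  · exact ⟨_, fac10911⟩
  · exact ⟨_, fac10912⟩
  · exact ⟨_, fac10913⟩
  · exact ⟨_, fac10914⟩
  · exact ⟨_, fac10915⟩
  · exact ⟨_, fac10916⟩
  · exact ⟨_, fac10917⟩
  · exact ⟨_, fac10918⟩
  · exact ⟨_, fac10919⟩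
  · exact ⟨_, fac10920⟩
  · exact ⟨_, fac10921⟩
  · exact ⟨_, fac10922⟩
  · exact ⟨_, fac10923⟩
  · exact ⟨_, fac10924⟩
  · exact ⟨_, fac10925⟩
  · exact ⟨_, fac10926⟩
  · exact ⟨_, fac10927⟩
  · exact ⟨_, fac10928⟩
  · exact ⟨_, fac10929⟩
  · exact ⟨_, fac10930⟩
  · exact ⟨_, fac10931⟩
  · exact ⟨_, fac10932⟩
  · exact ⟨_, fac10933⟩
  · exact ⟨_, fac10934⟩
  · exact ⟨_, fac10935⟩
  · exact ⟨_, fac10936⟩
  · exact ⟨_, fac10937⟩
  · exact ⟨_, fac10938⟩
  · exact ⟨_, fac10939⟩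
  · exact ⟨_, fac10940⟩
  · exact ⟨_, fac10941⟩
  · exact ⟨_, fac10942⟩
  · exact ⟨_, fac10943⟩

theorem good170 : bx170.GoodK ((an : ℝ) / 100) (L.map (ITerm.term den)) (L2.map (ITerm.term den))
    (KL.map (KI.term den)) delta :=
  goodK_of_checkR an den (by decide) L L2 KL dtbl dtbl_ok rfl codes posN rowsA rowsB rowsC rows_tbl 12 256 8 72 b0 28 22
    (by decide) parts_ok (by decide +kernel) slice_ok lit_ok 1 (by decide +kernel) delta bx170 hd170
    (by decide) rls170 rls_ok170 (by decide) (planOf lams170) 190 dD170 dE170 els170 rfl pay170 delta_le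
    (fun b hb => by
      interval_cases b
      · exact bucket170_0
      · exact bucket170_1
      · exact bucket170_2
      · exact bucket170_3
      · exact bucket170_4
      · exact bucket170_5
      · exact bucket170_6
      · exact bucket170_7)

end Vale.Agent.P098.Exact.Sos6.Q93
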