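import Vale.Agent.P098.Exact.Sos6.Q93.Common
import Vale.Agent.P098.Exact.Sos6.Q93.Box171B0
import Vale.Agent.P098.Exact.Sos6.Q93.Box171B1
import Vale.Agent.P098.Exact.Sos6.Q93.Box171B2
import Vale.Agent.P098.Exact.Sos6.Q93.Box171B3
import Vale.Agent.P098.Exact.Sos6.Q93.Box171B4
import Vale.Agent.P098.Exact.Sos6.Q93.Box171B5
import Vale.Agent.P098.Exact.Sos6.Q93.Box171B6
import Vale.Agent.P098.Exact.Sos6.Q93.Box171B7

/-! Generated data of the dimension six interior check. -/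

noncomputable section

namespace Vale.Agent.P098.Exact.Sos6.Q93

set_option maxRecDepth 100000

theorem pay171 : dtbl.payOK 190 dD171 dE171 (elTot els171) = true := by decide +kernel

theorem rls_ok171 : ∀ G ∈ rls171, ∃ Ns, tbl.facR 72 b0 28 22 Ns G = true := by
  intro G hG
  simp only [rls171, List.mem_cons, List.not_mem_nil, or_false] at hG
  rcases hG with rfl | rfl | rfl | rfl | rfl | rfl | rfl | rfl | rfl | rfl | rfl | rfl | rfl | rfl | rfl | rfl | rfl | rfl | rfl | rfl | rfl | rfl | rfl | rfl | rfl | rfl | rfl | rfl | rfl | rfl | rfl | rfl | rfl | rfl | rfl | rfl | rfl | rfl | rfl | rfl | rfl | rfl | rfl | rfl | rfl | rfl | rfl | rfl | rfl | rfl | rfl | rfl | rfl | rfl | rfl | rfl | rfl | rfl | rfl | rfl | rfl | rfl | rfl | rfl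
  · exact ⟨_, fac10944⟩
  · exact ⟨_, fac10945⟩
  · exact ⟨_, fac10946⟩
  · exact ⟨_, fac10947⟩
  · exact ⟨_, fac10948⟩
  · exact ⟨_, fac10949⟩
  · exact ⟨_, fac10950⟩
  · exact ⟨_, fac10951⟩
  · exact ⟨_, fac10952⟩
  · exact ⟨_, fac10953⟩
  · exact ⟨_, fac10954⟩
  · exact ⟨_, fac10955⟩
  · exact ⟨_, fac10956⟩
  · exact ⟨_, fac10957⟩
  · exact ⟨_, fac10958⟩
  · exact ⟨_, fac10959⟩
  · exact ⟨_, fac10960⟩
  · exact ⟨_, fac10961⟩
  · exact ⟨_, fac10962⟩
  · exact ⟨_, fac10963⟩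
  · exact ⟨_, fac10964⟩
  · exact ⟨_, fac10965⟩
  · exact ⟨_, fac10966⟩
  · exact ⟨_, fac10967⟩
  · exact ⟨_, fac10968⟩
  · exact ⟨_, fac10969⟩
  · exact ⟨_, fac10970⟩
  · exact ⟨_, fac10971⟩
  · exact ⟨_, fac10972⟩
  · exact ⟨_, fac10973⟩
  · exact ⟨_, fac10974⟩
  · exact ⟨_, fac10975⟩
  · exact ⟨_, fac10976⟩
  · exact ⟨_, fac10977⟩
  · exact ⟨_, fac10978⟩
  · exact ⟨_, fac10979⟩
  · exact ⟨_, fac10980⟩
  · exact ⟨_, fac10981⟩
  · exact ⟨_, fac10982⟩
  · exact ⟨_, fac10983⟩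
  · exact ⟨_, fac10984⟩
  · exact ⟨_, fac10985⟩
  · exact ⟨_, fac10986⟩
  · exact ⟨_, fac10987⟩
  · exact ⟨_, fac10988⟩
  · exact ⟨_, fac10989⟩
  · exact ⟨_, fac10990⟩
  · exact ⟨_, fac10991⟩
  · exact ⟨_, fac10992⟩
  · exact ⟨_, fac10993⟩
  · exact ⟨_, fac10994⟩
  · exact ⟨_, fac10995⟩
  · exact ⟨_, fac10996⟩
  · exact ⟨_, fac10997⟩
  · exact ⟨_, fac10998⟩
  · exact ⟨_, fac10999⟩
  · exact ⟨_, fac11000⟩
  · exact ⟨_, fac11001⟩
  · exact ⟨_, fac11002⟩
  · exact ⟨_, fac11003⟩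
  · exact ⟨_, fac11004⟩
  · exact ⟨_, fac11005⟩
  · exact ⟨_, fac11006⟩
  · exact ⟨_, fac11007⟩

theorem good171 : bx171.GoodK ((an : ℝ) / 100) (L.map (ITerm.term den)) (L2.map (ITerm.term den))
    (KL.map (KI.term den)) delta :=
  goodK_of_checkR an den (by decide) L L2 KL dtbl dtbl_ok rfl codes posN rowsA rowsB rowsC rows_tbl 12 256 8 72 b0 28 22
    (by decide) parts_ok (by decide +kernel) slice_ok lit_ok 1 (by decide +kernel) delta bx171 hd171
    (by decide) rls171 rls_ok171 (by decide) (planOf lams171) 190 dD171 dE171 els171 rfl pay171 delta_le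
    (fun b hb => by
      interval_cases b
      · exact bucket171_0
      · exact bucket171_1
      · exact bucket171_2
      · exact bucket171_3
      · exact bucket171_4
      · exact bucket171_5
      · exact bucket171_6
      · exact bucket171_7)

end Vale.Agent.P098.Exact.Sos6.Q93
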