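import Vale.Agent.P098.Exact.Sos6.Q93.Common
import Vale.Agent.P098.Exact.Sos6.Q93.Box172B0
import Vale.Agent.P098.Exact.Sos6.Q93.Box172B1
import Vale.Agent.P098.Exact.Sos6.Q93.Box172B2
import Vale.Agent.P098.Exact.Sos6.Q93.Box172B3
import Vale.Agent.P098.Exact.Sos6.Q93.Box172B4
import Vale.Agent.P098.Exact.Sos6.Q93.Box172B5
import Vale.Agent.P098.Exact.Sos6.Q93.Box172B6
import Vale.Agent.P098.Exact.Sos6.Q93.Box172B7

/-! Generated data of the dimension six interior check. -/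

noncomputable section

namespace Vale.Agent.P098.Exact.Sos6.Q93

set_option maxRecDepth 100000

theorem pay172 : dtbl.payOK 190 dD172 dE172 (elTot els172) = true := by decide +kernel

theorem rls_ok172 : ∀ G ∈ rls172, ∃ Ns, tbl.facR 72 b0 28 22 Ns G = true := by
  intro G hG
  simp only [rls172, List.mem_cons, List.not_mem_nil, or_false] at hG
  rcases hG with rfl | rfl | rfl | rfl | rfl | rfl | rfl | rfl | rfl | rfl | rfl | rfl | rfl | rfl | rfl | rfl | rfl | rfl | rfl | rfl | rfl | rfl | rfl | rfl | rfl | rfl | rfl | rfl | rfl | rfl | rfl | rfl | rfl | rfl | rfl | rfl | rfl | rfl | rfl | rfl | rfl | rfl | rfl | rfl | rfl | rfl | rfl | rfl | rfl | rfl | rfl | rfl | rfl | rfl | rfl | rfl | rfl | rfl | rfl | rfl | rfl | rfl | rfl | rfl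
  · exact ⟨_, fac11008⟩
  · exact ⟨_, fac11009⟩
  · exact ⟨_, fac11010⟩
  · exact ⟨_, fac11011⟩
  · exact ⟨_, fac11012⟩
  · exact ⟨_, fac11013⟩
  · exact ⟨_, fac11014⟩
  · exact ⟨_, fac11015⟩
  · exact ⟨_, fac11016⟩
  · exact ⟨_, fac11017⟩
  · exact ⟨_, fac11018⟩
  · exact ⟨_, fac11019⟩
  · exact ⟨_, fac11020⟩
  · exact ⟨_, fac11021⟩
  · exact ⟨_, fac11022⟩
  · exact ⟨_, fac11023⟩
  · exact ⟨_, fac11024⟩
  · exact ⟨_, fac11025⟩
  · exact ⟨_, fac11026⟩
  · exact ⟨_, fac11027⟩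
  · exact ⟨_, fac11028⟩
  · exact ⟨_, fac11029⟩
  · exact ⟨_, fac11030⟩
  · exact ⟨_, fac11031⟩
  · exact ⟨_, fac11032⟩
  · exact ⟨_, fac11033⟩
  · exact ⟨_, fac11034⟩
  · exact ⟨_, fac11035⟩
  · exact ⟨_, fac11036⟩
  · exact ⟨_, fac11037⟩
  · exact ⟨_, fac11038⟩
  · exact ⟨_, fac11039⟩
  · exact ⟨_, fac11040⟩
  · exact ⟨_, fac11041⟩
  · exact ⟨_, fac11042⟩
  · exact ⟨_, fac11043⟩
  · exact ⟨_, fac11044⟩
  · exact ⟨_, fac11045⟩
  · exact ⟨_, fac11046⟩
  · exact ⟨_, fac11047⟩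
  · exact ⟨_, fac11048⟩
  · exact ⟨_, fac11049⟩
  · exact ⟨_, fac11050⟩
  · exact ⟨_, fac11051⟩
  · exact ⟨_, fac11052⟩
  · exact ⟨_, fac11053⟩
  · exact ⟨_, fac11054⟩
  · exact ⟨_, fac11055⟩
  · exact ⟨_, fac11056⟩
  · exact ⟨_, fac11057⟩
  · exact ⟨_, fac11058⟩
  · exact ⟨_, fac11059⟩
  · exact ⟨_, fac11060⟩
  · exact ⟨_, fac11061⟩
  · exact ⟨_, fac11062⟩
  · exact ⟨_, fac11063⟩
  · exact ⟨_, fac11064⟩
  · exact ⟨_, fac11065⟩
  · exact ⟨_, fac11066⟩
  · exact ⟨_, fac11067⟩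
  · exact ⟨_, fac11068⟩
  · exact ⟨_, fac11069⟩
  · exact ⟨_, fac11070⟩
  · exact ⟨_, fac11071⟩

theorem good172 : bx172.GoodK ((an : ℝ) / 100) (L.map (ITerm.term den)) (L2.map (ITerm.term den))
    (KL.map (KI.term den)) delta :=
  goodK_of_checkR an den (by decide) L L2 KL dtbl dtbl_ok rfl codes posN rowsA rowsB rowsC rows_tbl 12 256 8 72 b0 28 22
    (by decide) parts_ok (by decide +kernel) slice_ok lit_ok 1 (by decide +kernel) delta bx172 hd172
    (by decide) rls172 rls_ok172 (by decide) (planOf lams172) 190 dD172 dE172 els172 rfl pay172 delta_le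
    (fun b hb => by
      interval_cases b
      · exact bucket172_0
      · exact bucket172_1
      · exact bucket172_2
      · exact bucket172_3
      · exact bucket172_4
      · exact bucket172_5
      · exact bucket172_6
      · exact bucket172_7)

end Vale.Agent.P098.Exact.Sos6.Q93
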