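import Vale.Agent.P098.Exact.Sos6.Q93.Common
import Vale.Agent.P098.Exact.Sos6.Q93.Box173B0
import Vale.Agent.P098.Exact.Sos6.Q93.Box173B1
import Vale.Agent.P098.Exact.Sos6.Q93.Box173B2
import Vale.Agent.P098.Exact.Sos6.Q93.Box173B3
import Vale.Agent.P098.Exact.Sos6.Q93.Box173B4
import Vale.Agent.P098.Exact.Sos6.Q93.Box173B5
import Vale.Agent.P098.Exact.Sos6.Q93.Box173B6
import Vale.Agent.P098.Exact.Sos6.Q93.Box173B7

/-! Generated data of the dimension six interior check. -/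

noncomputable section

namespace Vale.Agent.P098.Exact.Sos6.Q93

set_option maxRecDepth 100000

theorem pay173 : dtbl.payOK 190 dD173 dE173 (elTot els173) = true := by decide +kernel

theorem rls_ok173 : ∀ G ∈ rls173, ∃ Ns, tbl.facR 72 b0 28 22 Ns G = true := by
  intro G hG
  simp only [rls173, List.mem_cons, List.not_mem_nil, or_false] at hG
  rcases hG with rfl | rfl | rfl | rfl | rfl | rfl | rfl | rfl | rfl | rfl | rfl | rfl | rfl | rfl | rfl | rfl | rfl | rfl | rfl | rfl | rfl | rfl | rfl | rfl | rfl | rfl | rfl | rfl | rfl | rfl | rfl | rfl | rfl | rfl | rfl | rfl | rfl | rfl | rfl | rfl | rfl | rfl | rfl | rfl | rfl | rfl | rfl | rfl | rfl | rfl | rfl | rfl | rfl | rfl | rfl | rfl | rfl | rfl | rfl | rfl | rfl | rfl | rfl | rfl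
  · exact ⟨_, fac11072⟩
  · exact ⟨_, fac11073⟩
  · exact ⟨_, fac11074⟩
  · exact ⟨_, fac11075⟩
  · exact ⟨_, fac11076⟩
  · exact ⟨_, fac11077⟩
  · exact ⟨_, fac11078⟩
  · exact ⟨_, fac11079⟩
  · exact ⟨_, fac11080⟩
  · exact ⟨_, fac11081⟩
  · exact ⟨_, fac11082⟩
  · exact ⟨_, fac11083⟩
  · exact ⟨_, fac11084⟩
  · exact ⟨_, fac11085⟩
  · exact ⟨_, fac11086⟩
  · exact ⟨_, fac11087⟩
  · exact ⟨_, fac11088⟩
  · exact ⟨_, fac11089⟩
  · exact ⟨_, fac11090⟩
  · exact ⟨_, fac11091⟩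
  · exact ⟨_, fac11092⟩
  · exact ⟨_, fac11093⟩
  · exact ⟨_, fac11094⟩
  · exact ⟨_, fac11095⟩
  · exact ⟨_, fac11096⟩
  · exact ⟨_, fac11097⟩
  · exact ⟨_, fac11098⟩
  · exact ⟨_, fac11099⟩
  · exact ⟨_, fac11100⟩
  · exact ⟨_, fac11101⟩
  · exact ⟨_, fac11102⟩
  · exact ⟨_, fac11103⟩
  · exact ⟨_, fac11104⟩
  · exact ⟨_, fac11105⟩
  · exact ⟨_, fac11106⟩
  · exact ⟨_, fac11107⟩
  · exact ⟨_, fac11108⟩
  · exact ⟨_, fac11109⟩
  · exact ⟨_, fac11110⟩
  · exact ⟨_, fac11111⟩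
  · exact ⟨_, fac11112⟩
  · exact ⟨_, fac11113⟩
  · exact ⟨_, fac11114⟩
  · exact ⟨_, fac11115⟩
  · exact ⟨_, fac11116⟩
  · exact ⟨_, fac11117⟩
  · exact ⟨_, fac11118⟩
  · exact ⟨_, fac11119⟩
  · exact ⟨_, fac11120⟩
  · exact ⟨_, fac11121⟩
  · exact ⟨_, fac11122⟩
  · exact ⟨_, fac11123⟩
  · exact ⟨_, fac11124⟩
  · exact ⟨_, fac11125⟩
  · exact ⟨_, fac11126⟩
  · exact ⟨_, fac11127⟩
  · exact ⟨_, fac11128⟩
  · exact ⟨_, fac11129⟩
  · exact ⟨_, fac11130⟩
  · exact ⟨_, fac11131⟩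
  · exact ⟨_, fac11132⟩
  · exact ⟨_, fac11133⟩
  · exact ⟨_, fac11134⟩
  · exact ⟨_, fac11135⟩

theorem good173 : bx173.GoodK ((an : ℝ) / 100) (L.map (ITerm.term den)) (L2.map (ITerm.term den))
    (KL.map (KI.term den)) delta :=
  goodK_of_checkR an den (by decide) L L2 KL dtbl dtbl_ok rfl codes posN rowsA rowsB rowsC rows_tbl 12 256 8 72 b0 28 22
    (by decide) parts_ok (by decide +kernel) slice_ok lit_ok 1 (by decide +kernel) delta bx173 hd173
    (by decide) rls173 rls_ok173 (by decide) (planOf lams173) 190 dD173 dE173 els173 rfl pay173 delta_le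
    (fun b hb => by
      interval_cases b
      · exact bucket173_0
      · exact bucket173_1
      · exact bucket173_2
      · exact bucket173_3
      · exact bucket173_4
      · exact bucket173_5
      · exact bucket173_6
      · exact bucket173_7)

end Vale.Agent.P098.Exact.Sos6.Q93
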