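import Vale.Agent.P098.Exact.Sos6.Q93.Common
import Vale.Agent.P098.Exact.Sos6.Q93.Box174B0
import Vale.Agent.P098.Exact.Sos6.Q93.Box174B1
import Vale.Agent.P098.Exact.Sos6.Q93.Box174B2
import Vale.Agent.P098.Exact.Sos6.Q93.Box174B3
import Vale.Agent.P098.Exact.Sos6.Q93.Box174B4
import Vale.Agent.P098.Exact.Sos6.Q93.Box174B5
import Vale.Agent.P098.Exact.Sos6.Q93.Box174B6
import Vale.Agent.P098.Exact.Sos6.Q93.Box174B7

/-! Generated data of the dimension six interior check. -/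

noncomputable section

namespace Vale.Agent.P098.Exact.Sos6.Q93

set_option maxRecDepth 100000

theorem pay174 : dtbl.payOK 190 dD174 dE174 (elTot els174) = true := by decide +kernel

theorem rls_ok174 : ∀ G ∈ rls174, ∃ Ns, tbl.facR 72 b0 28 22 Ns G = true := by
  intro G hG
  simp only [rls174, List.mem_cons, List.not_mem_nil, or_false] at hG
  rcases hG with rfl | rfl | rfl | rfl | rfl | rfl | rfl | rfl | rfl | rfl | rfl | rfl | rfl | rfl | rfl | rfl | rfl | rfl | rfl | rfl | rfl | rfl | rfl | rfl | rfl | rfl | rfl | rfl | rfl | rfl | rfl | rfl | rfl | rfl | rfl | rfl | rfl | rfl | rfl | rfl | rfl | rfl | rfl | rfl | rfl | rfl | rfl | rfl | rfl | rfl | rfl | rfl | rfl | rfl | rfl | rfl | rfl | rfl | rfl | rfl | rfl | rfl | rfl | rfl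
  · exact ⟨_, fac11136⟩
  · exact ⟨_, fac11137⟩
  · exact ⟨_, fac11138⟩
  · exact ⟨_, fac11139⟩
  · exact ⟨_, fac11140⟩
  · exact ⟨_, fac11141⟩
  · exact ⟨_, fac11142⟩
  · exact ⟨_, fac11143⟩
  · exact ⟨_, fac11144⟩
  · exact ⟨_, fac11145⟩
  · exact ⟨_, fac11146⟩
  · exact ⟨_, fac11147⟩
  · exact ⟨_, fac11148⟩
  · exact ⟨_, fac11149⟩
  · exact ⟨_, fac11150⟩
  · exact ⟨_, fac11151⟩
  · exact ⟨_, fac11152⟩
  · exact ⟨_, fac11153⟩
  · exact ⟨_, fac11154⟩
  · exact ⟨_, fac11155⟩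
  · exact ⟨_, fac11156⟩
  · exact ⟨_, fac11157⟩
  · exact ⟨_, fac11158⟩
  · exact ⟨_, fac11159⟩
  · exact ⟨_, fac11160⟩
  · exact ⟨_, fac11161⟩
  · exact ⟨_, fac11162⟩
  · exact ⟨_, fac11163⟩
  · exact ⟨_, fac11164⟩
  · exact ⟨_, fac11165⟩
  · exact ⟨_, fac11166⟩
  · exact ⟨_, fac11167⟩
  · exact ⟨_, fac11168⟩
  · exact ⟨_, fac11169⟩
  · exact ⟨_, fac11170⟩
  · exact ⟨_, fac11171⟩
  · exact ⟨_, fac11172⟩
  · exact ⟨_, fac11173⟩
  · exact ⟨_, fac11174⟩
  · exact ⟨_, fac11175⟩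
  · exact ⟨_, fac11176⟩
  · exact ⟨_, fac11177⟩
  · exact ⟨_, fac11178⟩
  · exact ⟨_, fac11179⟩
  · exact ⟨_, fac11180⟩
  · exact ⟨_, fac11181⟩
  · exact ⟨_, fac11182⟩
  · exact ⟨_, fac11183⟩
  · exact ⟨_, fac11184⟩
  · exact ⟨_, fac11185⟩
  · exact ⟨_, fac11186⟩
  · exact ⟨_, fac11187⟩
  · exact ⟨_, fac11188⟩
  · exact ⟨_, fac11189⟩
  · exact ⟨_, fac11190⟩
  · exact ⟨_, fac11191⟩
  · exact ⟨_, fac11192⟩
  · exact ⟨_, fac11193⟩
  · exact ⟨_, fac11194⟩
  · exact ⟨_, fac11195⟩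
  · exact ⟨_, fac11196⟩
  · exact ⟨_, fac11197⟩
  · exact ⟨_, fac11198⟩
  · exact ⟨_, fac11199⟩

theorem good174 : bx174.GoodK ((an : ℝ) / 100) (L.map (ITerm.term den)) (L2.map (ITerm.term den))
    (KL.map (KI.term den)) delta :=
  goodK_of_checkR an den (by decide) L L2 KL dtbl dtbl_ok rfl codes posN rowsA rowsB rowsC rows_tbl 12 256 8 72 b0 28 22
    (by decide) parts_ok (by decide +kernel) slice_ok lit_ok 1 (by decide +kernel) delta bx174 hd174
    (by decide) rls174 rls_ok174 (by decide) (planOf lams174) 190 dD174 dE174 els174 rfl pay174 delta_le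
    (fun b hb => by
      interval_cases b
      · exact bucket174_0
      · exact bucket174_1
      · exact bucket174_2
      · exact bucket174_3
      · exact bucket174_4
      · exact bucket174_5
      · exact bucket174_6
      · exact bucket174_7)

end Vale.Agent.P098.Exact.Sos6.Q93
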