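import Vale.Agent.P098.Exact.Sos6.Q93.Common
import Vale.Agent.P098.Exact.Sos6.Q93.Box175B0
import Vale.Agent.P098.Exact.Sos6.Q93.Box175B1
import Vale.Agent.P098.Exact.Sos6.Q93.Box175B2
import Vale.Agent.P098.Exact.Sos6.Q93.Box175B3
import Vale.Agent.P098.Exact.Sos6.Q93.Box175B4
import Vale.Agent.P098.Exact.Sos6.Q93.Box175B5
import Vale.Agent.P098.Exact.Sos6.Q93.Box175B6
import Vale.Agent.P098.Exact.Sos6.Q93.Box175B7

/-! Generated data of the dimension six interior check. -/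

noncomputable section

namespace Vale.Agent.P098.Exact.Sos6.Q93

set_option maxRecDepth 100000

theorem pay175 : dtbl.payOK 190 dD175 dE175 (elTot els175) = true := by decide +kernel

theorem rls_ok175 : ∀ G ∈ rls175, ∃ Ns, tbl.facR 72 b0 28 22 Ns G = true := by
  intro G hG
  simp only [rls175, List.mem_cons, List.not_mem_nil, or_false] at hG
  rcases hG with rfl | rfl | rfl | rfl | rfl | rfl | rfl | rfl | rfl | rfl | rfl | rfl | rfl | rfl | rfl | rfl | rfl | rfl | rfl | rfl | rfl | rfl | rfl | rfl | rfl | rfl | rfl | rfl | rfl | rfl | rfl | rfl | rfl | rfl | rfl | rfl | rfl | rfl | rfl | rfl | rfl | rfl | rfl | rfl | rfl | rfl | rfl | rfl | rfl | rfl | rfl | rfl | rfl | rfl | rfl | rfl | rfl | rfl | rfl | rfl | rfl | rfl | rfl | rfl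
  · exact ⟨_, fac11200⟩
  · exact ⟨_, fac11201⟩
  · exact ⟨_, fac11202⟩
  · exact ⟨_, fac11203⟩
  · exact ⟨_, fac11204⟩
  · exact ⟨_, fac11205⟩
  · exact ⟨_, fac11206⟩
  · exact ⟨_, fac11207⟩
  · exact ⟨_, fac11208⟩
  · exact ⟨_, fac11209⟩
  · exact ⟨_, fac11210⟩
  · exact ⟨_, fac11211⟩
  · exact ⟨_, fac11212⟩
  · exact ⟨_, fac11213⟩
  · exact ⟨_, fac11214⟩
  · exact ⟨_, fac11215⟩
  · exact ⟨_, fac11216⟩
  · exact ⟨_, fac11217⟩
  · exact ⟨_, fac11218⟩
  · exact ⟨_, fac11219⟩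
  · exact ⟨_, fac11220⟩
  · exact ⟨_, fac11221⟩
  · exact ⟨_, fac11222⟩
  · exact ⟨_, fac11223⟩
  · exact ⟨_, fac11224⟩
  · exact ⟨_, fac11225⟩
  · exact ⟨_, fac11226⟩
  · exact ⟨_, fac11227⟩
  · exact ⟨_, fac11228⟩
  · exact ⟨_, fac11229⟩
  · exact ⟨_, fac11230⟩
  · exact ⟨_, fac11231⟩
  · exact ⟨_, fac11232⟩
  · exact ⟨_, fac11233⟩
  · exact ⟨_, fac11234⟩
  · exact ⟨_, fac11235⟩
  · exact ⟨_, fac11236⟩
  · exact ⟨_, fac11237⟩
  · exact ⟨_, fac11238⟩
  · exact ⟨_, fac11239⟩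
  · exact ⟨_, fac11240⟩
  · exact ⟨_, fac11241⟩
  · exact ⟨_, fac11242⟩
  · exact ⟨_, fac11243⟩
  · exact ⟨_, fac11244⟩
  · exact ⟨_, fac11245⟩
  · exact ⟨_, fac11246⟩
  · exact ⟨_, fac11247⟩
  · exact ⟨_, fac11248⟩
  · exact ⟨_, fac11249⟩
  · exact ⟨_, fac11250⟩
  · exact ⟨_, fac11251⟩
  · exact ⟨_, fac11252⟩
  · exact ⟨_, fac11253⟩
  · exact ⟨_, fac11254⟩
  · exact ⟨_, fac11255⟩
  · exact ⟨_, fac11256⟩
  · exact ⟨_, fac11257⟩
  · exact ⟨_, fac11258⟩
  · exact ⟨_, fac11259⟩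
  · exact ⟨_, fac11260⟩
  · exact ⟨_, fac11261⟩
  · exact ⟨_, fac11262⟩
  · exact ⟨_, fac11263⟩

theorem good175 : bx175.GoodK ((an : ℝ) / 100) (L.map (ITerm.term den)) (L2.map (ITerm.term den))
    (KL.map (KI.term den)) delta :=
  goodK_of_checkR an den (by decide) L L2 KL dtbl dtbl_ok rfl codes posN rowsA rowsB rowsC rows_tbl 12 256 8 72 b0 28 22
    (by decide) parts_ok (by decide +kernel) slice_ok lit_ok 1 (by decide +kernel) delta bx175 hd175
    (by decide) rls175 rls_ok175 (by decide) (planOf lams175) 190 dD175 dE175 els175 rfl pay175 delta_le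
    (fun b hb => by
      interval_cases b
      · exact bucket175_0
      · exact bucket175_1
      · exact bucket175_2
      · exact bucket175_3
      · exact bucket175_4
      · exact bucket175_5
      · exact bucket175_6
      · exact bucket175_7)

end Vale.Agent.P098.Exact.Sos6.Q93
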