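import Vale.Agent.P098.Exact.Sos6.Q93.Common
import Vale.Agent.P098.Exact.Sos6.Q93.Box176B0
import Vale.Agent.P098.Exact.Sos6.Q93.Box176B1
import Vale.Agent.P098.Exact.Sos6.Q93.Box176B2
import Vale.Agent.P098.Exact.Sos6.Q93.Box176B3
import Vale.Agent.P098.Exact.Sos6.Q93.Box176B4
import Vale.Agent.P098.Exact.Sos6.Q93.Box176B5
import Vale.Agent.P098.Exact.Sos6.Q93.Box176B6
import Vale.Agent.P098.Exact.Sos6.Q93.Box176B7

/-! Generated data of the dimension six interior check. -/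

noncomputable section

namespace Vale.Agent.P098.Exact.Sos6.Q93

set_option maxRecDepth 100000

theorem pay176 : dtbl.payOK 190 dD176 dE176 (elTot els176) = true := by decide +kernel

theorem rls_ok176 : ∀ G ∈ rls176, ∃ Ns, tbl.facR 72 b0 28 22 Ns G = true := by
  intro G hG
  simp only [rls176, List.mem_cons, List.not_mem_nil, or_false] at hG
  rcases hG with rfl | rfl | rfl | rfl | rfl | rfl | rfl | rfl | rfl | rfl | rfl | rfl | rfl | rfl | rfl | rfl | rfl | rfl | rfl | rfl | rfl | rfl | rfl | rfl | rfl | rfl | rfl | rfl | rfl | rfl | rfl | rfl | rfl | rfl | rfl | rfl | rfl | rfl | rfl | rfl | rfl | rfl | rfl | rfl | rfl | rfl | rfl | rfl | rfl | rfl | rfl | rfl | rfl | rfl | rfl | rfl | rfl | rfl | rfl | rfl | rfl | rfl | rfl | rfl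
  · exact ⟨_, fac11264⟩
  · exact ⟨_, fac11265⟩
  · exact ⟨_, fac11266⟩
  · exact ⟨_, fac11267⟩
  · exact ⟨_, fac11268⟩
  · exact ⟨_, fac11269⟩
  · exact ⟨_, fac11270⟩
  · exact ⟨_, fac11271⟩
  · exact ⟨_, fac11272⟩
  · exact ⟨_, fac11273⟩
  · exact ⟨_, fac11274⟩
  · exact ⟨_, fac11275⟩
  · exact ⟨_, fac11276⟩
  · exact ⟨_, fac11277⟩
  · exact ⟨_, fac11278⟩
  · exact ⟨_, fac11279⟩
  · exact ⟨_, fac11280⟩
  · exact ⟨_, fac11281⟩
  · exact ⟨_, fac11282⟩
  · exact ⟨_, fac11283⟩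
  · exact ⟨_, fac11284⟩
  · exact ⟨_, fac11285⟩
  · exact ⟨_, fac11286⟩
  · exact ⟨_, fac11287⟩
  · exact ⟨_, fac11288⟩
  · exact ⟨_, fac11289⟩
  · exact ⟨_, fac11290⟩
  · exact ⟨_, fac11291⟩
  · exact ⟨_, fac11292⟩
  · exact ⟨_, fac11293⟩
  · exact ⟨_, fac11294⟩
  · exact ⟨_, fac11295⟩
  · exact ⟨_, fac11296⟩
  · exact ⟨_, fac11297⟩
  · exact ⟨_, fac11298⟩
  · exact ⟨_, fac11299⟩
  · exact ⟨_, fac11300⟩
  · exact ⟨_, fac11301⟩
  · exact ⟨_, fac11302⟩
  · exact ⟨_, fac11303⟩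
  · exact ⟨_, fac11304⟩
  · exact ⟨_, fac11305⟩
  · exact ⟨_, fac11306⟩
  · exact ⟨_, fac11307⟩
  · exact ⟨_, fac11308⟩
  · exact ⟨_, fac11309⟩
  · exact ⟨_, fac11310⟩
  · exact ⟨_, fac11311⟩
  · exact ⟨_, fac11312⟩
  · exact ⟨_, fac11313⟩
  · exact ⟨_, fac11314⟩
  · exact ⟨_, fac11315⟩
  · exact ⟨_, fac11316⟩
  · exact ⟨_, fac11317⟩
  · exact ⟨_, fac11318⟩
  · exact ⟨_, fac11319⟩
  · exact ⟨_, fac11320⟩
  · exact ⟨_, fac11321⟩
  · exact ⟨_, fac11322⟩
  · exact ⟨_, fac11323⟩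
  · exact ⟨_, fac11324⟩
  · exact ⟨_, fac11325⟩
  · exact ⟨_, fac11326⟩
  · exact ⟨_, fac11327⟩

theorem good176 : bx176.GoodK ((an : ℝ) / 100) (L.map (ITerm.term den)) (L2.map (ITerm.term den))
    (KL.map (KI.term den)) delta :=
  goodK_of_checkR an den (by decide) L L2 KL dtbl dtbl_ok rfl codes posN rowsA rowsB rowsC rows_tbl 12 256 8 72 b0 28 22
    (by decide) parts_ok (by decide +kernel) slice_ok lit_ok 1 (by decide +kernel) delta bx176 hd176
    (by decide) rls176 rls_ok176 (by decide) (planOf lams176) 190 dD176 dE176 els176 rfl pay176 delta_le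
    (fun b hb => by
      interval_cases b
      · exact bucket176_0
      · exact bucket176_1
      · exact bucket176_2
      · exact bucket176_3
      · exact bucket176_4
      · exact bucket176_5
      · exact bucket176_6
      · exact bucket176_7)

end Vale.Agent.P098.Exact.Sos6.Q93
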