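import Vale.Agent.P098.Exact.Sos6.Q93.Common
import Vale.Agent.P098.Exact.Sos6.Q93.Box177B0
import Vale.Agent.P098.Exact.Sos6.Q93.Box177B1
import Vale.Agent.P098.Exact.Sos6.Q93.Box177B2
import Vale.Agent.P098.Exact.Sos6.Q93.Box177B3
import Vale.Agent.P098.Exact.Sos6.Q93.Box177B4
import Vale.Agent.P098.Exact.Sos6.Q93.Box177B5
import Vale.Agent.P098.Exact.Sos6.Q93.Box177B6
import Vale.Agent.P098.Exact.Sos6.Q93.Box177B7

/-! Generated data of the dimension six interior check. -/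

noncomputable section

namespace Vale.Agent.P098.Exact.Sos6.Q93

set_option maxRecDepth 100000

theorem pay177 : dtbl.payOK 190 dD177 dE177 (elTot els177) = true := by decide +kernel

theorem rls_ok177 : ∀ G ∈ rls177, ∃ Ns, tbl.facR 72 b0 28 22 Ns G = true := by
  intro G hG
  simp only [rls177, List.mem_cons, List.not_mem_nil, or_false] at hG
  rcases hG with rfl | rfl | rfl | rfl | rfl | rfl | rfl | rfl | rfl | rfl | rfl | rfl | rfl | rfl | rfl | rfl | rfl | rfl | rfl | rfl | rfl | rfl | rfl | rfl | rfl | rfl | rfl | rfl | rfl | rfl | rfl | rfl | rfl | rfl | rfl | rfl | rfl | rfl | rfl | rfl | rfl | rfl | rfl | rfl | rfl | rfl | rfl | rfl | rfl | rfl | rfl | rfl | rfl | rfl | rfl | rfl | rfl | rfl | rfl | rfl | rfl | rfl | rfl | rfl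
  · exact ⟨_, fac11328⟩
  · exact ⟨_, fac11329⟩
  · exact ⟨_, fac11330⟩
  · exact ⟨_, fac11331⟩
  · exact ⟨_, fac11332⟩
  · exact ⟨_, fac11333⟩
  · exact ⟨_, fac11334⟩
  · exact ⟨_, fac11335⟩
  · exact ⟨_, fac11336⟩
  · exact ⟨_, fac11337⟩
  · exact ⟨_, fac11338⟩
  · exact ⟨_, fac11339⟩
  · exact ⟨_, fac11340⟩
  · exact ⟨_, fac11341⟩
  · exact ⟨_, fac11342⟩
  · exact ⟨_, fac11343⟩
  · exact ⟨_, fac11344⟩
  · exact ⟨_, fac11345⟩
  · exact ⟨_, fac11346⟩
  · exact ⟨_, fac11347⟩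
  · exact ⟨_, fac11348⟩
  · exact ⟨_, fac11349⟩
  · exact ⟨_, fac11350⟩
  · exact ⟨_, fac11351⟩
  · exact ⟨_, fac11352⟩
  · exact ⟨_, fac11353⟩
  · exact ⟨_, fac11354⟩
  · exact ⟨_, fac11355⟩
  · exact ⟨_, fac11356⟩
  · exact ⟨_, fac11357⟩
  · exact ⟨_, fac11358⟩
  · exact ⟨_, fac11359⟩
  · exact ⟨_, fac11360⟩
  · exact ⟨_, fac11361⟩
  · exact ⟨_, fac11362⟩
  · exact ⟨_, fac11363⟩
  · exact ⟨_, fac11364⟩
  · exact ⟨_, fac11365⟩
  · exact ⟨_, fac11366⟩
  · exact ⟨_, fac11367⟩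
  · exact ⟨_, fac11368⟩
  · exact ⟨_, fac11369⟩
  · exact ⟨_, fac11370⟩
  · exact ⟨_, fac11371⟩
  · exact ⟨_, fac11372⟩
  · exact ⟨_, fac11373⟩
  · exact ⟨_, fac11374⟩
  · exact ⟨_, fac11375⟩
  · exact ⟨_, fac11376⟩
  · exact ⟨_, fac11377⟩
  · exact ⟨_, fac11378⟩
  · exact ⟨_, fac11379⟩
  · exact ⟨_, fac11380⟩
  · exact ⟨_, fac11381⟩
  · exact ⟨_, fac11382⟩
  · exact ⟨_, fac11383⟩
  · exact ⟨_, fac11384⟩
  · exact ⟨_, fac11385⟩
  · exact ⟨_, fac11386⟩
  · exact ⟨_, fac11387⟩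
  · exact ⟨_, fac11388⟩
  · exact ⟨_, fac11389⟩
  · exact ⟨_, fac11390⟩
  · exact ⟨_, fac11391⟩

theorem good177 : bx177.GoodK ((an : ℝ) / 100) (L.map (ITerm.term den)) (L2.map (ITerm.term den))
    (KL.map (KI.term den)) delta :=
  goodK_of_checkR an den (by decide) L L2 KL dtbl dtbl_ok rfl codes posN rowsA rowsB rowsC rows_tbl 12 256 8 72 b0 28 22
    (by decide) parts_ok (by decide +kernel) slice_ok lit_ok 1 (by decide +kernel) delta bx177 hd177
    (by decide) rls177 rls_ok177 (by decide) (planOf lams177) 190 dD177 dE177 els177 rfl pay177 delta_le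
    (fun b hb => by
      interval_cases b
      · exact bucket177_0
      · exact bucket177_1
      · exact bucket177_2
      · exact bucket177_3
      · exact bucket177_4
      · exact bucket177_5
      · exact bucket177_6
      · exact bucket177_7)

end Vale.Agent.P098.Exact.Sos6.Q93
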