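import Vale.Agent.P098.Exact.Sos6.Q93.Common
import Vale.Agent.P098.Exact.Sos6.Q93.Box178B0
import Vale.Agent.P098.Exact.Sos6.Q93.Box178B1
import Vale.Agent.P098.Exact.Sos6.Q93.Box178B2
import Vale.Agent.P098.Exact.Sos6.Q93.Box178B3
import Vale.Agent.P098.Exact.Sos6.Q93.Box178B4
import Vale.Agent.P098.Exact.Sos6.Q93.Box178B5
import Vale.Agent.P098.Exact.Sos6.Q93.Box178B6
import Vale.Agent.P098.Exact.Sos6.Q93.Box178B7

/-! Generated data of the dimension six interior check. -/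

noncomputable section

namespace Vale.Agent.P098.Exact.Sos6.Q93

set_option maxRecDepth 100000

theorem pay178 : dtbl.payOK 190 dD178 dE178 (elTot els178) = true := by decide +kernel

theorem rls_ok178 : ∀ G ∈ rls178, ∃ Ns, tbl.facR 72 b0 28 22 Ns G = true := by
  intro G hG
  simp only [rls178, List.mem_cons, List.not_mem_nil, or_false] at hG
  rcases hG with rfl | rfl | rfl | rfl | rfl | rfl | rfl | rfl | rfl | rfl | rfl | rfl | rfl | rfl | rfl | rfl | rfl | rfl | rfl | rfl | rfl | rfl | rfl | rfl | rfl | rfl | rfl | rfl | rfl | rfl | rfl | rfl | rfl | rfl | rfl | rfl | rfl | rfl | rfl | rfl | rfl | rfl | rfl | rfl | rfl | rfl | rfl | rfl | rfl | rfl | rfl | rfl | rfl | rfl | rfl | rfl | rfl | rfl | rfl | rfl | rfl | rfl | rfl | rfl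
  · exact ⟨_, fac11392⟩
  · exact ⟨_, fac11393⟩
  · exact ⟨_, fac11394⟩
  · exact ⟨_, fac11395⟩
  · exact ⟨_, fac11396⟩
  · exact ⟨_, fac11397⟩
  · exact ⟨_, fac11398⟩
  · exact ⟨_, fac11399⟩
  · exact ⟨_, fac11400⟩
  · exact ⟨_, fac11401⟩
  · exact ⟨_, fac11402⟩
  · exact ⟨_, fac11403⟩
  · exact ⟨_, fac11404⟩
  · exact ⟨_, fac11405⟩
  · exact ⟨_, fac11406⟩
  · exact ⟨_, fac11407⟩
  · exact ⟨_, fac11408⟩
  · exact ⟨_, fac11409⟩
  · exact ⟨_, fac11410⟩
  · exact ⟨_, fac11411⟩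
  · exact ⟨_, fac11412⟩
  · exact ⟨_, fac11413⟩
  · exact ⟨_, fac11414⟩
  · exact ⟨_, fac11415⟩
  · exact ⟨_, fac11416⟩
  · exact ⟨_, fac11417⟩
  · exact ⟨_, fac11418⟩
  · exact ⟨_, fac11419⟩
  · exact ⟨_, fac11420⟩
  · exact ⟨_, fac11421⟩
  · exact ⟨_, fac11422⟩
  · exact ⟨_, fac11423⟩
  · exact ⟨_, fac11424⟩
  · exact ⟨_, fac11425⟩
  · exact ⟨_, fac11426⟩
  · exact ⟨_, fac11427⟩
  · exact ⟨_, fac11428⟩
  · exact ⟨_, fac11429⟩
  · exact ⟨_, fac11430⟩
  · exact ⟨_, fac11431⟩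
  · exact ⟨_, fac11432⟩
  · exact ⟨_, fac11433⟩
  · exact ⟨_, fac11434⟩
  · exact ⟨_, fac11435⟩
  · exact ⟨_, fac11436⟩
  · exact ⟨_, fac11437⟩
  · exact ⟨_, fac11438⟩
  · exact ⟨_, fac11439⟩
  · exact ⟨_, fac11440⟩
  · exact ⟨_, fac11441⟩
  · exact ⟨_, fac11442⟩
  · exact ⟨_, fac11443⟩
  · exact ⟨_, fac11444⟩
  · exact ⟨_, fac11445⟩
  · exact ⟨_, fac11446⟩
  · exact ⟨_, fac11447⟩
  · exact ⟨_, fac11448⟩
  · exact ⟨_, fac11449⟩
  · exact ⟨_, fac11450⟩
  · exact ⟨_, fac11451⟩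
  · exact ⟨_, fac11452⟩
  · exact ⟨_, fac11453⟩
  · exact ⟨_, fac11454⟩
  · exact ⟨_, fac11455⟩

theorem good178 : bx178.GoodK ((an : ℝ) / 100) (L.map (ITerm.term den)) (L2.map (ITerm.term den))
    (KL.map (KI.term den)) delta :=
  goodK_of_checkR an den (by decide) L L2 KL dtbl dtbl_ok rfl codes posN rowsA rowsB rowsC rows_tbl 12 256 8 72 b0 28 22
    (by decide) parts_ok (by decide +kernel) slice_ok lit_ok 1 (by decide +kernel) delta bx178 hd178
    (by decide) rls178 rls_ok178 (by decide) (planOf lams178) 190 dD178 dE178 els178 rfl pay178 delta_le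
    (fun b hb => by
      interval_cases b
      · exact bucket178_0
      · exact bucket178_1
      · exact bucket178_2
      · exact bucket178_3
      · exact bucket178_4
      · exact bucket178_5
      · exact bucket178_6
      · exact bucket178_7)

end Vale.Agent.P098.Exact.Sos6.Q93
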