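import Vale.Agent.P098.Exact.Sos6.Q93.Common
import Vale.Agent.P098.Exact.Sos6.Q93.Box179B0
import Vale.Agent.P098.Exact.Sos6.Q93.Box179B1
import Vale.Agent.P098.Exact.Sos6.Q93.Box179B2
import Vale.Agent.P098.Exact.Sos6.Q93.Box179B3
import Vale.Agent.P098.Exact.Sos6.Q93.Box179B4
import Vale.Agent.P098.Exact.Sos6.Q93.Box179B5
import Vale.Agent.P098.Exact.Sos6.Q93.Box179B6
import Vale.Agent.P098.Exact.Sos6.Q93.Box179B7

/-! Generated data of the dimension six interior check. -/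

noncomputable section

namespace Vale.Agent.P098.Exact.Sos6.Q93

set_option maxRecDepth 100000

theorem pay179 : dtbl.payOK 190 dD179 dE179 (elTot els179) = true := by decide +kernel

theorem rls_ok179 : ∀ G ∈ rls179, ∃ Ns, tbl.facR 72 b0 28 22 Ns G = true := by
  intro G hG
  simp only [rls179, List.mem_cons, List.not_mem_nil, or_false] at hG
  rcases hG with rfl | rfl | rfl | rfl | rfl | rfl | rfl | rfl | rfl | rfl | rfl | rfl | rfl | rfl | rfl | rfl | rfl | rfl | rfl | rfl | rfl | rfl | rfl | rfl | rfl | rfl | rfl | rfl | rfl | rfl | rfl | rfl | rfl | rfl | rfl | rfl | rfl | rfl | rfl | rfl | rfl | rfl | rfl | rfl | rfl | rfl | rfl | rfl | rfl | rfl | rfl | rfl | rfl | rfl | rfl | rfl | rfl | rfl | rfl | rfl | rfl | rfl | rfl | rfl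
  · exact ⟨_, fac11456⟩
  · exact ⟨_, fac11457⟩
  · exact ⟨_, fac11458⟩
  · exact ⟨_, fac11459⟩
  · exact ⟨_, fac11460⟩
  · exact ⟨_, fac11461⟩
  · exact ⟨_, fac11462⟩
  · exact ⟨_, fac11463⟩
  · exact ⟨_, fac11464⟩
  · exact ⟨_, fac11465⟩
  · exact ⟨_, fac11466⟩
  · exact ⟨_, fac11467⟩
  · exact ⟨_, fac11468⟩
  · exact ⟨_, fac11469⟩
  · exact ⟨_, fac11470⟩
  · exact ⟨_, fac11471⟩
  · exact ⟨_, fac11472⟩
  · exact ⟨_, fac11473⟩
  · exact ⟨_, fac11474⟩
  · exact ⟨_, fac11475⟩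
  · exact ⟨_, fac11476⟩
  · exact ⟨_, fac11477⟩
  · exact ⟨_, fac11478⟩
  · exact ⟨_, fac11479⟩
  · exact ⟨_, fac11480⟩
  · exact ⟨_, fac11481⟩
  · exact ⟨_, fac11482⟩
  · exact ⟨_, fac11483⟩
  · exact ⟨_, fac11484⟩
  · exact ⟨_, fac11485⟩
  · exact ⟨_, fac11486⟩
  · exact ⟨_, fac11487⟩
  · exact ⟨_, fac11488⟩
  · exact ⟨_, fac11489⟩
  · exact ⟨_, fac11490⟩
  · exact ⟨_, fac11491⟩
  · exact ⟨_, fac11492⟩
  · exact ⟨_, fac11493⟩
  · exact ⟨_, fac11494⟩
  · exact ⟨_, fac11495⟩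
  · exact ⟨_, fac11496⟩
  · exact ⟨_, fac11497⟩
  · exact ⟨_, fac11498⟩
  · exact ⟨_, fac11499⟩
  · exact ⟨_, fac11500⟩
  · exact ⟨_, fac11501⟩
  · exact ⟨_, fac11502⟩
  · exact ⟨_, fac11503⟩
  · exact ⟨_, fac11504⟩
  · exact ⟨_, fac11505⟩
  · exact ⟨_, fac11506⟩
  · exact ⟨_, fac11507⟩
  · exact ⟨_, fac11508⟩
  · exact ⟨_, fac11509⟩
  · exact ⟨_, fac11510⟩
  · exact ⟨_, fac11511⟩
  · exact ⟨_, fac11512⟩
  · exact ⟨_, fac11513⟩
  · exact ⟨_, fac11514⟩
  · exact ⟨_, fac11515⟩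
  · exact ⟨_, fac11516⟩
  · exact ⟨_, fac11517⟩
  · exact ⟨_, fac11518⟩
  · exact ⟨_, fac11519⟩

theorem good179 : bx179.GoodK ((an : ℝ) / 100) (L.map (ITerm.term den)) (L2.map (ITerm.term den))
    (KL.map (KI.term den)) delta :=
  goodK_of_checkR an den (by decide) L L2 KL dtbl dtbl_ok rfl codes posN rowsA rowsB rowsC rows_tbl 12 256 8 72 b0 28 22
    (by decide) parts_ok (by decide +kernel) slice_ok lit_ok 1 (by decide +kernel) delta bx179 hd179
    (by decide) rls179 rls_ok179 (by decide) (planOf lams179) 190 dD179 dE179 els179 rfl pay179 delta_le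
    (fun b hb => by
      interval_cases b
      · exact bucket179_0
      · exact bucket179_1
      · exact bucket179_2
      · exact bucket179_3
      · exact bucket179_4
      · exact bucket179_5
      · exact bucket179_6
      · exact bucket179_7)

end Vale.Agent.P098.Exact.Sos6.Q93
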