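import Vale.Agent.P098.Exact.Sos6.Q93.Common
import Vale.Agent.P098.Exact.Sos6.Q93.Box17B0
import Vale.Agent.P098.Exact.Sos6.Q93.Box17B1
import Vale.Agent.P098.Exact.Sos6.Q93.Box17B2
import Vale.Agent.P098.Exact.Sos6.Q93.Box17B3
import Vale.Agent.P098.Exact.Sos6.Q93.Box17B4
import Vale.Agent.P098.Exact.Sos6.Q93.Box17B5
import Vale.Agent.P098.Exact.Sos6.Q93.Box17B6
import Vale.Agent.P098.Exact.Sos6.Q93.Box17B7

/-! Generated data of the dimension six interior check. -/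

noncomputable section

namespace Vale.Agent.P098.Exact.Sos6.Q93

set_option maxRecDepth 100000

theorem pay17 : dtbl.payOK 190 dD17 dE17 (elTot els17) = true := by decide +kernel

theorem rls_ok17 : ∀ G ∈ rls17, ∃ Ns, tbl.facR 72 b0 28 22 Ns G = true := by
  intro G hG
  simp only [rls17, List.mem_cons, List.not_mem_nil, or_false] at hG
  rcases hG with rfl | rfl | rfl | rfl | rfl | rfl | rfl | rfl | rfl | rfl | rfl | rfl | rfl | rfl | rfl | rfl | rfl | rfl | rfl | rfl | rfl | rfl | rfl | rfl | rfl | rfl | rfl | rfl | rfl | rfl | rfl | rfl | rfl | rfl | rfl | rfl | rfl | rfl | rfl | rfl | rfl | rfl | rfl | rfl | rfl | rfl | rfl | rfl | rfl | rfl | rfl | rfl | rfl | rfl | rfl | rfl | rfl | rfl | rfl | rfl | rfl | rfl | rfl | rfl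
  · exact ⟨_, fac1088⟩
  · exact ⟨_, fac1089⟩
  · exact ⟨_, fac1090⟩
  · exact ⟨_, fac1091⟩
  · exact ⟨_, fac1092⟩
  · exact ⟨_, fac1093⟩
  · exact ⟨_, fac1094⟩
  · exact ⟨_, fac1095⟩
  · exact ⟨_, fac1096⟩
  · exact ⟨_, fac1097⟩
  · exact ⟨_, fac1098⟩
  · exact ⟨_, fac1099⟩
  · exact ⟨_, fac1100⟩
  · exact ⟨_, fac1101⟩
  · exact ⟨_, fac1102⟩
  · exact ⟨_, fac1103⟩
  · exact ⟨_, fac1104⟩
  · exact ⟨_, fac1105⟩
  · exact ⟨_, fac1106⟩
  · exact ⟨_, fac1107⟩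
  · exact ⟨_, fac1108⟩
  · exact ⟨_, fac1109⟩
  · exact ⟨_, fac1110⟩
  · exact ⟨_, fac1111⟩
  · exact ⟨_, fac1112⟩
  · exact ⟨_, fac1113⟩
  · exact ⟨_, fac1114⟩
  · exact ⟨_, fac1115⟩
  · exact ⟨_, fac1116⟩
  · exact ⟨_, fac1117⟩
  · exact ⟨_, fac1118⟩
  · exact ⟨_, fac1119⟩
  · exact ⟨_, fac1120⟩
  · exact ⟨_, fac1121⟩
  · exact ⟨_, fac1122⟩
  · exact ⟨_, fac1123⟩
  · exact ⟨_, fac1124⟩
  · exact ⟨_, fac1125⟩
  · exact ⟨_, fac1126⟩
  · exact ⟨_, fac1127⟩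
  · exact ⟨_, fac1128⟩
  · exact ⟨_, fac1129⟩
  · exact ⟨_, fac1130⟩
  · exact ⟨_, fac1131⟩
  · exact ⟨_, fac1132⟩
  · exact ⟨_, fac1133⟩
  · exact ⟨_, fac1134⟩
  · exact ⟨_, fac1135⟩
  · exact ⟨_, fac1136⟩
  · exact ⟨_, fac1137⟩
  · exact ⟨_, fac1138⟩
  · exact ⟨_, fac1139⟩
  · exact ⟨_, fac1140⟩
  · exact ⟨_, fac1141⟩
  · exact ⟨_, fac1142⟩
  · exact ⟨_, fac1143⟩
  · exact ⟨_, fac1144⟩
  · exact ⟨_, fac1145⟩
  · exact ⟨_, fac1146⟩
  · exact ⟨_, fac1147⟩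
  · exact ⟨_, fac1148⟩
  · exact ⟨_, fac1149⟩
  · exact ⟨_, fac1150⟩
  · exact ⟨_, fac1151⟩

theorem good17 : bx17.GoodK ((an : ℝ) / 100) (L.map (ITerm.term den)) (L2.map (ITerm.term den))
    (KL.map (KI.term den)) delta :=
  goodK_of_checkR an den (by decide) L L2 KL dtbl dtbl_ok rfl codes posN rowsA rowsB rowsC rows_tbl 12 256 8 72 b0 28 22
    (by decide) parts_ok (by decide +kernel) slice_ok lit_ok 1 (by decide +kernel) delta bx17 hd17
    (by decide) rls17 rls_ok17 (by decide) (planOf lams17) 190 dD17 dE17 els17 rfl pay17 delta_le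
    (fun b hb => by
      interval_cases b
      · exact bucket17_0
      · exact bucket17_1
      · exact bucket17_2
      · exact bucket17_3
      · exact bucket17_4
      · exact bucket17_5
      · exact bucket17_6
      · exact bucket17_7)

end Vale.Agent.P098.Exact.Sos6.Q93
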