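import Vale.Agent.P098.Exact.Sos6.Q93.Common
import Vale.Agent.P098.Exact.Sos6.Q93.Box180B0
import Vale.Agent.P098.Exact.Sos6.Q93.Box180B1
import Vale.Agent.P098.Exact.Sos6.Q93.Box180B2
import Vale.Agent.P098.Exact.Sos6.Q93.Box180B3
import Vale.Agent.P098.Exact.Sos6.Q93.Box180B4
import Vale.Agent.P098.Exact.Sos6.Q93.Box180B5
import Vale.Agent.P098.Exact.Sos6.Q93.Box180B6
import Vale.Agent.P098.Exact.Sos6.Q93.Box180B7

/-! Generated data of the dimension six interior check. -/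

noncomputable section

namespace Vale.Agent.P098.Exact.Sos6.Q93

set_option maxRecDepth 100000

theorem pay180 : dtbl.payOK 190 dD180 dE180 (elTot els180) = true := by decide +kernel

theorem rls_ok180 : ∀ G ∈ rls180, ∃ Ns, tbl.facR 72 b0 28 22 Ns G = true := by
  intro G hG
  simp only [rls180, List.mem_cons, List.not_mem_nil, or_false] at hG
  rcases hG with rfl | rfl | rfl | rfl | rfl | rfl | rfl | rfl | rfl | rfl | rfl | rfl | rfl | rfl | rfl | rfl | rfl | rfl | rfl | rfl | rfl | rfl | rfl | rfl | rfl | rfl | rfl | rfl | rfl | rfl | rfl | rfl | rfl | rfl | rfl | rfl | rfl | rfl | rfl | rfl | rfl | rfl | rfl | rfl | rfl | rfl | rfl | rfl | rfl | rfl | rfl | rfl | rfl | rfl | rfl | rfl | rfl | rfl | rfl | rfl | rfl | rfl | rfl | rfl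
  · exact ⟨_, fac11520⟩
  · exact ⟨_, fac11521⟩
  · exact ⟨_, fac11522⟩
  · exact ⟨_, fac11523⟩
  · exact ⟨_, fac11524⟩
  · exact ⟨_, fac11525⟩
  · exact ⟨_, fac11526⟩
  · exact ⟨_, fac11527⟩
  · exact ⟨_, fac11528⟩
  · exact ⟨_, fac11529⟩
  · exact ⟨_, fac11530⟩
  · exact ⟨_, fac11531⟩
  · exact ⟨_, fac11532⟩
  · exact ⟨_, fac11533⟩
  · exact ⟨_, fac11534⟩
  · exact ⟨_, fac11535⟩
  · exact ⟨_, fac11536⟩
  · exact ⟨_, fac11537⟩
  · exact ⟨_, fac11538⟩
  · exact ⟨_, fac11539⟩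
  · exact ⟨_, fac11540⟩
  · exact ⟨_, fac11541⟩
  · exact ⟨_, fac11542⟩
  · exact ⟨_, fac11543⟩
  · exact ⟨_, fac11544⟩
  · exact ⟨_, fac11545⟩
  · exact ⟨_, fac11546⟩
  · exact ⟨_, fac11547⟩
  · exact ⟨_, fac11548⟩
  · exact ⟨_, fac11549⟩
  · exact ⟨_, fac11550⟩
  · exact ⟨_, fac11551⟩
  · exact ⟨_, fac11552⟩
  · exact ⟨_, fac11553⟩
  · exact ⟨_, fac11554⟩
  · exact ⟨_, fac11555⟩
  · exact ⟨_, fac11556⟩
  · exact ⟨_, fac11557⟩
  · exact ⟨_, fac11558⟩
  · exact ⟨_, fac11559⟩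
  · exact ⟨_, fac11560⟩
  · exact ⟨_, fac11561⟩
  · exact ⟨_, fac11562⟩
  · exact ⟨_, fac11563⟩
  · exact ⟨_, fac11564⟩
  · exact ⟨_, fac11565⟩
  · exact ⟨_, fac11566⟩
  · exact ⟨_, fac11567⟩
  · exact ⟨_, fac11568⟩
  · exact ⟨_, fac11569⟩
  · exact ⟨_, fac11570⟩
  · exact ⟨_, fac11571⟩
  · exact ⟨_, fac11572⟩
  · exact ⟨_, fac11573⟩
  · exact ⟨_, fac11574⟩
  · exact ⟨_, fac11575⟩
  · exact ⟨_, fac11576⟩
  · exact ⟨_, fac11577⟩
  · exact ⟨_, fac11578⟩
  · exact ⟨_, fac11579⟩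
  · exact ⟨_, fac11580⟩
  · exact ⟨_, fac11581⟩
  · exact ⟨_, fac11582⟩
  · exact ⟨_, fac11583⟩

theorem good180 : bx180.GoodK ((an : ℝ) / 100) (L.map (ITerm.term den)) (L2.map (ITerm.term den))
    (KL.map (KI.term den)) delta :=
  goodK_of_checkR an den (by decide) L L2 KL dtbl dtbl_ok rfl codes posN rowsA rowsB rowsC rows_tbl 12 256 8 72 b0 28 22
    (by decide) parts_ok (by decide +kernel) slice_ok lit_ok 1 (by decide +kernel) delta bx180 hd180
    (by decide) rls180 rls_ok180 (by decide) (planOf lams180) 190 dD180 dE180 els180 rfl pay180 delta_le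
    (fun b hb => by
      interval_cases b
      · exact bucket180_0
      · exact bucket180_1
      · exact bucket180_2
      · exact bucket180_3
      · exact bucket180_4
      · exact bucket180_5
      · exact bucket180_6
      · exact bucket180_7)

end Vale.Agent.P098.Exact.Sos6.Q93
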