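import Vale.Agent.P098.Exact.Sos6.Q93.Common
import Vale.Agent.P098.Exact.Sos6.Q93.Box181B0
import Vale.Agent.P098.Exact.Sos6.Q93.Box181B1
import Vale.Agent.P098.Exact.Sos6.Q93.Box181B2
import Vale.Agent.P098.Exact.Sos6.Q93.Box181B3
import Vale.Agent.P098.Exact.Sos6.Q93.Box181B4
import Vale.Agent.P098.Exact.Sos6.Q93.Box181B5
import Vale.Agent.P098.Exact.Sos6.Q93.Box181B6
import Vale.Agent.P098.Exact.Sos6.Q93.Box181B7

/-! Generated data of the dimension six interior check. -/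

noncomputable section

namespace Vale.Agent.P098.Exact.Sos6.Q93

set_option maxRecDepth 100000

theorem pay181 : dtbl.payOK 190 dD181 dE181 (elTot els181) = true := by decide +kernel

theorem rls_ok181 : ∀ G ∈ rls181, ∃ Ns, tbl.facR 72 b0 28 22 Ns G = true := by
  intro G hG
  simp only [rls181, List.mem_cons, List.not_mem_nil, or_false] at hG
  rcases hG with rfl | rfl | rfl | rfl | rfl | rfl | rfl | rfl | rfl | rfl | rfl | rfl | rfl | rfl | rfl | rfl | rfl | rfl | rfl | rfl | rfl | rfl | rfl | rfl | rfl | rfl | rfl | rfl | rfl | rfl | rfl | rfl | rfl | rfl | rfl | rfl | rfl | rfl | rfl | rfl | rfl | rfl | rfl | rfl | rfl | rfl | rfl | rfl | rfl | rfl | rfl | rfl | rfl | rfl | rfl | rfl | rfl | rfl | rfl | rfl | rfl | rfl | rfl | rfl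
  · exact ⟨_, fac11584⟩
  · exact ⟨_, fac11585⟩
  · exact ⟨_, fac11586⟩
  · exact ⟨_, fac11587⟩
  · exact ⟨_, fac11588⟩
  · exact ⟨_, fac11589⟩
  · exact ⟨_, fac11590⟩
  · exact ⟨_, fac11591⟩
  · exact ⟨_, fac11592⟩
  · exact ⟨_, fac11593⟩
  · exact ⟨_, fac11594⟩
  · exact ⟨_, fac11595⟩
  · exact ⟨_, fac11596⟩
  · exact ⟨_, fac11597⟩
  · exact ⟨_, fac11598⟩
  · exact ⟨_, fac11599⟩
  · exact ⟨_, fac11600⟩
  · exact ⟨_, fac11601⟩
  · exact ⟨_, fac11602⟩
  · exact ⟨_, fac11603⟩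
  · exact ⟨_, fac11604⟩
  · exact ⟨_, fac11605⟩
  · exact ⟨_, fac11606⟩
  · exact ⟨_, fac11607⟩
  · exact ⟨_, fac11608⟩
  · exact ⟨_, fac11609⟩
  · exact ⟨_, fac11610⟩
  · exact ⟨_, fac11611⟩
  · exact ⟨_, fac11612⟩
  · exact ⟨_, fac11613⟩
  · exact ⟨_, fac11614⟩
  · exact ⟨_, fac11615⟩
  · exact ⟨_, fac11616⟩
  · exact ⟨_, fac11617⟩
  · exact ⟨_, fac11618⟩
  · exact ⟨_, fac11619⟩
  · exact ⟨_, fac11620⟩
  · exact ⟨_, fac11621⟩
  · exact ⟨_, fac11622⟩
  · exact ⟨_, fac11623⟩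
  · exact ⟨_, fac11624⟩
  · exact ⟨_, fac11625⟩
  · exact ⟨_, fac11626⟩
  · exact ⟨_, fac11627⟩
  · exact ⟨_, fac11628⟩
  · exact ⟨_, fac11629⟩
  · exact ⟨_, fac11630⟩
  · exact ⟨_, fac11631⟩
  · exact ⟨_, fac11632⟩
  · exact ⟨_, fac11633⟩
  · exact ⟨_, fac11634⟩
  · exact ⟨_, fac11635⟩
  · exact ⟨_, fac11636⟩
  · exact ⟨_, fac11637⟩
  · exact ⟨_, fac11638⟩
  · exact ⟨_, fac11639⟩
  · exact ⟨_, fac11640⟩
  · exact ⟨_, fac11641⟩
  · exact ⟨_, fac11642⟩
  · exact ⟨_, fac11643⟩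
  · exact ⟨_, fac11644⟩
  · exact ⟨_, fac11645⟩
  · exact ⟨_, fac11646⟩
  · exact ⟨_, fac11647⟩

theorem good181 : bx181.GoodK ((an : ℝ) / 100) (L.map (ITerm.term den)) (L2.map (ITerm.term den))
    (KL.map (KI.term den)) delta :=
  goodK_of_checkR an den (by decide) L L2 KL dtbl dtbl_ok rfl codes posN rowsA rowsB rowsC rows_tbl 12 256 8 72 b0 28 22
    (by decide) parts_ok (by decide +kernel) slice_ok lit_ok 1 (by decide +kernel) delta bx181 hd181
    (by decide) rls181 rls_ok181 (by decide) (planOf lams181) 190 dD181 dE181 els181 rfl pay181 delta_le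
    (fun b hb => by
      interval_cases b
      · exact bucket181_0
      · exact bucket181_1
      · exact bucket181_2
      · exact bucket181_3
      · exact bucket181_4
      · exact bucket181_5
      · exact bucket181_6
      · exact bucket181_7)

end Vale.Agent.P098.Exact.Sos6.Q93
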