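import Vale.Agent.P098.Exact.Sos6.Q93.Common
import Vale.Agent.P098.Exact.Sos6.Q93.Box182B0
import Vale.Agent.P098.Exact.Sos6.Q93.Box182B1
import Vale.Agent.P098.Exact.Sos6.Q93.Box182B2
import Vale.Agent.P098.Exact.Sos6.Q93.Box182B3
import Vale.Agent.P098.Exact.Sos6.Q93.Box182B4
import Vale.Agent.P098.Exact.Sos6.Q93.Box182B5
import Vale.Agent.P098.Exact.Sos6.Q93.Box182B6
import Vale.Agent.P098.Exact.Sos6.Q93.Box182B7

/-! Generated data of the dimension six interior check. -/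

noncomputable section

namespace Vale.Agent.P098.Exact.Sos6.Q93

set_option maxRecDepth 100000

theorem pay182 : dtbl.payOK 190 dD182 dE182 (elTot els182) = true := by decide +kernel

theorem rls_ok182 : ∀ G ∈ rls182, ∃ Ns, tbl.facR 72 b0 28 22 Ns G = true := by
  intro G hG
  simp only [rls182, List.mem_cons, List.not_mem_nil, or_false] at hG
  rcases hG with rfl | rfl | rfl | rfl | rfl | rfl | rfl | rfl | rfl | rfl | rfl | rfl | rfl | rfl | rfl | rfl | rfl | rfl | rfl | rfl | rfl | rfl | rfl | rfl | rfl | rfl | rfl | rfl | rfl | rfl | rfl | rfl | rfl | rfl | rfl | rfl | rfl | rfl | rfl | rfl | rfl | rfl | rfl | rfl | rfl | rfl | rfl | rfl | rfl | rfl | rfl | rfl | rfl | rfl | rfl | rfl | rfl | rfl | rfl | rfl | rfl | rfl | rfl | rfl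
  · exact ⟨_, fac11648⟩
  · exact ⟨_, fac11649⟩
  · exact ⟨_, fac11650⟩
  · exact ⟨_, fac11651⟩
  · exact ⟨_, fac11652⟩
  · exact ⟨_, fac11653⟩
  · exact ⟨_, fac11654⟩
  · exact ⟨_, fac11655⟩
  · exact ⟨_, fac11656⟩
  · exact ⟨_, fac11657⟩
  · exact ⟨_, fac11658⟩
  · exact ⟨_, fac11659⟩
  · exact ⟨_, fac11660⟩
  · exact ⟨_, fac11661⟩
  · exact ⟨_, fac11662⟩
  · exact ⟨_, fac11663⟩
  · exact ⟨_, fac11664⟩
  · exact ⟨_, fac11665⟩
  · exact ⟨_, fac11666⟩
  · exact ⟨_, fac11667⟩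
  · exact ⟨_, fac11668⟩
  · exact ⟨_, fac11669⟩
  · exact ⟨_, fac11670⟩
  · exact ⟨_, fac11671⟩
  · exact ⟨_, fac11672⟩
  · exact ⟨_, fac11673⟩
  · exact ⟨_, fac11674⟩
  · exact ⟨_, fac11675⟩
  · exact ⟨_, fac11676⟩
  · exact ⟨_, fac11677⟩
  · exact ⟨_, fac11678⟩
  · exact ⟨_, fac11679⟩
  · exact ⟨_, fac11680⟩
  · exact ⟨_, fac11681⟩
  · exact ⟨_, fac11682⟩
  · exact ⟨_, fac11683⟩
  · exact ⟨_, fac11684⟩
  · exact ⟨_, fac11685⟩
  · exact ⟨_, fac11686⟩
  · exact ⟨_, fac11687⟩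
  · exact ⟨_, fac11688⟩
  · exact ⟨_, fac11689⟩
  · exact ⟨_, fac11690⟩
  · exact ⟨_, fac11691⟩
  · exact ⟨_, fac11692⟩
  · exact ⟨_, fac11693⟩
  · exact ⟨_, fac11694⟩
  · exact ⟨_, fac11695⟩
  · exact ⟨_, fac11696⟩
  · exact ⟨_, fac11697⟩
  · exact ⟨_, fac11698⟩
  · exact ⟨_, fac11699⟩
  · exact ⟨_, fac11700⟩
  · exact ⟨_, fac11701⟩
  · exact ⟨_, fac11702⟩
  · exact ⟨_, fac11703⟩
  · exact ⟨_, fac11704⟩
  · exact ⟨_, fac11705⟩
  · exact ⟨_, fac11706⟩
  · exact ⟨_, fac11707⟩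
  · exact ⟨_, fac11708⟩
  · exact ⟨_, fac11709⟩
  · exact ⟨_, fac11710⟩
  · exact ⟨_, fac11711⟩

theorem good182 : bx182.GoodK ((an : ℝ) / 100) (L.map (ITerm.term den)) (L2.map (ITerm.term den))
    (KL.map (KI.term den)) delta :=
  goodK_of_checkR an den (by decide) L L2 KL dtbl dtbl_ok rfl codes posN rowsA rowsB rowsC rows_tbl 12 256 8 72 b0 28 22
    (by decide) parts_ok (by decide +kernel) slice_ok lit_ok 1 (by decide +kernel) delta bx182 hd182
    (by decide) rls182 rls_ok182 (by decide) (planOf lams182) 190 dD182 dE182 els182 rfl pay182 delta_le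
    (fun b hb => by
      interval_cases b
      · exact bucket182_0
      · exact bucket182_1
      · exact bucket182_2
      · exact bucket182_3
      · exact bucket182_4
      · exact bucket182_5
      · exact bucket182_6
      · exact bucket182_7)

end Vale.Agent.P098.Exact.Sos6.Q93
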