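import Vale.Agent.P098.Exact.Sos6.Q93.Common
import Vale.Agent.P098.Exact.Sos6.Q93.Box183B0
import Vale.Agent.P098.Exact.Sos6.Q93.Box183B1
import Vale.Agent.P098.Exact.Sos6.Q93.Box183B2
import Vale.Agent.P098.Exact.Sos6.Q93.Box183B3
import Vale.Agent.P098.Exact.Sos6.Q93.Box183B4
import Vale.Agent.P098.Exact.Sos6.Q93.Box183B5
import Vale.Agent.P098.Exact.Sos6.Q93.Box183B6
import Vale.Agent.P098.Exact.Sos6.Q93.Box183B7

/-! Generated data of the dimension six interior check. -/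

noncomputable section

namespace Vale.Agent.P098.Exact.Sos6.Q93

set_option maxRecDepth 100000

theorem pay183 : dtbl.payOK 190 dD183 dE183 (elTot els183) = true := by decide +kernel

theorem rls_ok183 : ∀ G ∈ rls183, ∃ Ns, tbl.facR 72 b0 28 22 Ns G = true := by
  intro G hG
  simp only [rls183, List.mem_cons, List.not_mem_nil, or_false] at hG
  rcases hG with rfl | rfl | rfl | rfl | rfl | rfl | rfl | rfl | rfl | rfl | rfl | rfl | rfl | rfl | rfl | rfl | rfl | rfl | rfl | rfl | rfl | rfl | rfl | rfl | rfl | rfl | rfl | rfl | rfl | rfl | rfl | rfl | rfl | rfl | rfl | rfl | rfl | rfl | rfl | rfl | rfl | rfl | rfl | rfl | rfl | rfl | rfl | rfl | rfl | rfl | rfl | rfl | rfl | rfl | rfl | rfl | rfl | rfl | rfl | rfl | rfl | rfl | rfl | rfl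
  · exact ⟨_, fac11712⟩
  · exact ⟨_, fac11713⟩
  · exact ⟨_, fac11714⟩
  · exact ⟨_, fac11715⟩
  · exact ⟨_, fac11716⟩
  · exact ⟨_, fac11717⟩
  · exact ⟨_, fac11718⟩
  · exact ⟨_, fac11719⟩
  · exact ⟨_, fac11720⟩
  · exact ⟨_, fac11721⟩
  · exact ⟨_, fac11722⟩
  · exact ⟨_, fac11723⟩
  · exact ⟨_, fac11724⟩
  · exact ⟨_, fac11725⟩
  · exact ⟨_, fac11726⟩
  · exact ⟨_, fac11727⟩
  · exact ⟨_, fac11728⟩
  · exact ⟨_, fac11729⟩
  · exact ⟨_, fac11730⟩
  · exact ⟨_, fac11731⟩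
  · exact ⟨_, fac11732⟩
  · exact ⟨_, fac11733⟩
  · exact ⟨_, fac11734⟩
  · exact ⟨_, fac11735⟩
  · exact ⟨_, fac11736⟩
  · exact ⟨_, fac11737⟩
  · exact ⟨_, fac11738⟩
  · exact ⟨_, fac11739⟩
  · exact ⟨_, fac11740⟩
  · exact ⟨_, fac11741⟩
  · exact ⟨_, fac11742⟩
  · exact ⟨_, fac11743⟩
  · exact ⟨_, fac11744⟩
  · exact ⟨_, fac11745⟩
  · exact ⟨_, fac11746⟩
  · exact ⟨_, fac11747⟩
  · exact ⟨_, fac11748⟩
  · exact ⟨_, fac11749⟩
  · exact ⟨_, fac11750⟩
  · exact ⟨_, fac11751⟩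
  · exact ⟨_, fac11752⟩
  · exact ⟨_, fac11753⟩
  · exact ⟨_, fac11754⟩
  · exact ⟨_, fac11755⟩
  · exact ⟨_, fac11756⟩
  · exact ⟨_, fac11757⟩
  · exact ⟨_, fac11758⟩
  · exact ⟨_, fac11759⟩
  · exact ⟨_, fac11760⟩
  · exact ⟨_, fac11761⟩
  · exact ⟨_, fac11762⟩
  · exact ⟨_, fac11763⟩
  · exact ⟨_, fac11764⟩
  · exact ⟨_, fac11765⟩
  · exact ⟨_, fac11766⟩
  · exact ⟨_, fac11767⟩
  · exact ⟨_, fac11768⟩
  · exact ⟨_, fac11769⟩
  · exact ⟨_, fac11770⟩
  · exact ⟨_, fac11771⟩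
  · exact ⟨_, fac11772⟩
  · exact ⟨_, fac11773⟩
  · exact ⟨_, fac11774⟩
  · exact ⟨_, fac11775⟩

theorem good183 : bx183.GoodK ((an : ℝ) / 100) (L.map (ITerm.term den)) (L2.map (ITerm.term den))
    (KL.map (KI.term den)) delta :=
  goodK_of_checkR an den (by decide) L L2 KL dtbl dtbl_ok rfl codes posN rowsA rowsB rowsC rows_tbl 12 256 8 72 b0 28 22
    (by decide) parts_ok (by decide +kernel) slice_ok lit_ok 1 (by decide +kernel) delta bx183 hd183
    (by decide) rls183 rls_ok183 (by decide) (planOf lams183) 190 dD183 dE183 els183 rfl pay183 delta_le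
    (fun b hb => by
      interval_cases b
      · exact bucket183_0
      · exact bucket183_1
      · exact bucket183_2
      · exact bucket183_3
      · exact bucket183_4
      · exact bucket183_5
      · exact bucket183_6
      · exact bucket183_7)

end Vale.Agent.P098.Exact.Sos6.Q93
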