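import Vale.Agent.P098.Exact.Sos6.Q93.Common
import Vale.Agent.P098.Exact.Sos6.Q93.Box184B0
import Vale.Agent.P098.Exact.Sos6.Q93.Box184B1
import Vale.Agent.P098.Exact.Sos6.Q93.Box184B2
import Vale.Agent.P098.Exact.Sos6.Q93.Box184B3
import Vale.Agent.P098.Exact.Sos6.Q93.Box184B4
import Vale.Agent.P098.Exact.Sos6.Q93.Box184B5
import Vale.Agent.P098.Exact.Sos6.Q93.Box184B6
import Vale.Agent.P098.Exact.Sos6.Q93.Box184B7

/-! Generated data of the dimension six interior check. -/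

noncomputable section

namespace Vale.Agent.P098.Exact.Sos6.Q93

set_option maxRecDepth 100000

theorem pay184 : dtbl.payOK 190 dD184 dE184 (elTot els184) = true := by decide +kernel

theorem rls_ok184 : ∀ G ∈ rls184, ∃ Ns, tbl.facR 72 b0 28 22 Ns G = true := by
  intro G hG
  simp only [rls184, List.mem_cons, List.not_mem_nil, or_false] at hG
  rcases hG with rfl | rfl | rfl | rfl | rfl | rfl | rfl | rfl | rfl | rfl | rfl | rfl | rfl | rfl | rfl | rfl | rfl | rfl | rfl | rfl | rfl | rfl | rfl | rfl | rfl | rfl | rfl | rfl | rfl | rfl | rfl | rfl | rfl | rfl | rfl | rfl | rfl | rfl | rfl | rfl | rfl | rfl | rfl | rfl | rfl | rfl | rfl | rfl | rfl | rfl | rfl | rfl | rfl | rfl | rfl | rfl | rfl | rfl | rfl | rfl | rfl | rfl | rfl | rfl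
  · exact ⟨_, fac11776⟩
  · exact ⟨_, fac11777⟩
  · exact ⟨_, fac11778⟩
  · exact ⟨_, fac11779⟩
  · exact ⟨_, fac11780⟩
  · exact ⟨_, fac11781⟩
  · exact ⟨_, fac11782⟩
  · exact ⟨_, fac11783⟩
  · exact ⟨_, fac11784⟩
  · exact ⟨_, fac11785⟩
  · exact ⟨_, fac11786⟩
  · exact ⟨_, fac11787⟩
  · exact ⟨_, fac11788⟩
  · exact ⟨_, fac11789⟩
  · exact ⟨_, fac11790⟩
  · exact ⟨_, fac11791⟩
  · exact ⟨_, fac11792⟩
  · exact ⟨_, fac11793⟩
  · exact ⟨_, fac11794⟩
  · exact ⟨_, fac11795⟩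
  · exact ⟨_, fac11796⟩
  · exact ⟨_, fac11797⟩
  · exact ⟨_, fac11798⟩
  · exact ⟨_, fac11799⟩
  · exact ⟨_, fac11800⟩
  · exact ⟨_, fac11801⟩
  · exact ⟨_, fac11802⟩
  · exact ⟨_, fac11803⟩
  · exact ⟨_, fac11804⟩
  · exact ⟨_, fac11805⟩
  · exact ⟨_, fac11806⟩
  · exact ⟨_, fac11807⟩
  · exact ⟨_, fac11808⟩
  · exact ⟨_, fac11809⟩
  · exact ⟨_, fac11810⟩
  · exact ⟨_, fac11811⟩
  · exact ⟨_, fac11812⟩
  · exact ⟨_, fac11813⟩
  · exact ⟨_, fac11814⟩
  · exact ⟨_, fac11815⟩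
  · exact ⟨_, fac11816⟩
  · exact ⟨_, fac11817⟩
  · exact ⟨_, fac11818⟩
  · exact ⟨_, fac11819⟩
  · exact ⟨_, fac11820⟩
  · exact ⟨_, fac11821⟩
  · exact ⟨_, fac11822⟩
  · exact ⟨_, fac11823⟩
  · exact ⟨_, fac11824⟩
  · exact ⟨_, fac11825⟩
  · exact ⟨_, fac11826⟩
  · exact ⟨_, fac11827⟩
  · exact ⟨_, fac11828⟩
  · exact ⟨_, fac11829⟩
  · exact ⟨_, fac11830⟩
  · exact ⟨_, fac11831⟩
  · exact ⟨_, fac11832⟩
  · exact ⟨_, fac11833⟩
  · exact ⟨_, fac11834⟩
  · exact ⟨_, fac11835⟩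
  · exact ⟨_, fac11836⟩
  · exact ⟨_, fac11837⟩
  · exact ⟨_, fac11838⟩
  · exact ⟨_, fac11839⟩

theorem good184 : bx184.GoodK ((an : ℝ) / 100) (L.map (ITerm.term den)) (L2.map (ITerm.term den))
    (KL.map (KI.term den)) delta :=
  goodK_of_checkR an den (by decide) L L2 KL dtbl dtbl_ok rfl codes posN rowsA rowsB rowsC rows_tbl 12 256 8 72 b0 28 22
    (by decide) parts_ok (by decide +kernel) slice_ok lit_ok 1 (by decide +kernel) delta bx184 hd184
    (by decide) rls184 rls_ok184 (by decide) (planOf lams184) 190 dD184 dE184 els184 rfl pay184 delta_le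
    (fun b hb => by
      interval_cases b
      · exact bucket184_0
      · exact bucket184_1
      · exact bucket184_2
      · exact bucket184_3
      · exact bucket184_4
      · exact bucket184_5
      · exact bucket184_6
      · exact bucket184_7)

end Vale.Agent.P098.Exact.Sos6.Q93
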