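import Vale.Agent.P098.Exact.Sos6.Q93.Common
import Vale.Agent.P098.Exact.Sos6.Q93.Box185B0
import Vale.Agent.P098.Exact.Sos6.Q93.Box185B1
import Vale.Agent.P098.Exact.Sos6.Q93.Box185B2
import Vale.Agent.P098.Exact.Sos6.Q93.Box185B3
import Vale.Agent.P098.Exact.Sos6.Q93.Box185B4
import Vale.Agent.P098.Exact.Sos6.Q93.Box185B5
import Vale.Agent.P098.Exact.Sos6.Q93.Box185B6
import Vale.Agent.P098.Exact.Sos6.Q93.Box185B7

/-! Generated data of the dimension six interior check. -/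

noncomputable section

namespace Vale.Agent.P098.Exact.Sos6.Q93

set_option maxRecDepth 100000

theorem pay185 : dtbl.payOK 190 dD185 dE185 (elTot els185) = true := by decide +kernel

theorem rls_ok185 : ∀ G ∈ rls185, ∃ Ns, tbl.facR 72 b0 28 22 Ns G = true := by
  intro G hG
  simp only [rls185, List.mem_cons, List.not_mem_nil, or_false] at hG
  rcases hG with rfl | rfl | rfl | rfl | rfl | rfl | rfl | rfl | rfl | rfl | rfl | rfl | rfl | rfl | rfl | rfl | rfl | rfl | rfl | rfl | rfl | rfl | rfl | rfl | rfl | rfl | rfl | rfl | rfl | rfl | rfl | rfl | rfl | rfl | rfl | rfl | rfl | rfl | rfl | rfl | rfl | rfl | rfl | rfl | rfl | rfl | rfl | rfl | rfl | rfl | rfl | rfl | rfl | rfl | rfl | rfl | rfl | rfl | rfl | rfl | rfl | rfl | rfl | rfl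
  · exact ⟨_, fac11840⟩
  · exact ⟨_, fac11841⟩
  · exact ⟨_, fac11842⟩
  · exact ⟨_, fac11843⟩
  · exact ⟨_, fac11844⟩
  · exact ⟨_, fac11845⟩
  · exact ⟨_, fac11846⟩
  · exact ⟨_, fac11847⟩
  · exact ⟨_, fac11848⟩
  · exact ⟨_, fac11849⟩
  · exact ⟨_, fac11850⟩
  · exact ⟨_, fac11851⟩
  · exact ⟨_, fac11852⟩
  · exact ⟨_, fac11853⟩
  · exact ⟨_, fac11854⟩
  · exact ⟨_, fac11855⟩
  · exact ⟨_, fac11856⟩
  · exact ⟨_, fac11857⟩
  · exact ⟨_, fac11858⟩
  · exact ⟨_, fac11859⟩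
  · exact ⟨_, fac11860⟩
  · exact ⟨_, fac11861⟩
  · exact ⟨_, fac11862⟩
  · exact ⟨_, fac11863⟩
  · exact ⟨_, fac11864⟩
  · exact ⟨_, fac11865⟩
  · exact ⟨_, fac11866⟩
  · exact ⟨_, fac11867⟩
  · exact ⟨_, fac11868⟩
  · exact ⟨_, fac11869⟩
  · exact ⟨_, fac11870⟩
  · exact ⟨_, fac11871⟩
  · exact ⟨_, fac11872⟩
  · exact ⟨_, fac11873⟩
  · exact ⟨_, fac11874⟩
  · exact ⟨_, fac11875⟩
  · exact ⟨_, fac11876⟩
  · exact ⟨_, fac11877⟩
  · exact ⟨_, fac11878⟩
  · exact ⟨_, fac11879⟩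
  · exact ⟨_, fac11880⟩
  · exact ⟨_, fac11881⟩
  · exact ⟨_, fac11882⟩
  · exact ⟨_, fac11883⟩
  · exact ⟨_, fac11884⟩
  · exact ⟨_, fac11885⟩
  · exact ⟨_, fac11886⟩
  · exact ⟨_, fac11887⟩
  · exact ⟨_, fac11888⟩
  · exact ⟨_, fac11889⟩
  · exact ⟨_, fac11890⟩
  · exact ⟨_, fac11891⟩
  · exact ⟨_, fac11892⟩
  · exact ⟨_, fac11893⟩
  · exact ⟨_, fac11894⟩
  · exact ⟨_, fac11895⟩
  · exact ⟨_, fac11896⟩
  · exact ⟨_, fac11897⟩
  · exact ⟨_, fac11898⟩
  · exact ⟨_, fac11899⟩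
  · exact ⟨_, fac11900⟩
  · exact ⟨_, fac11901⟩
  · exact ⟨_, fac11902⟩
  · exact ⟨_, fac11903⟩

theorem good185 : bx185.GoodK ((an : ℝ) / 100) (L.map (ITerm.term den)) (L2.map (ITerm.term den))
    (KL.map (KI.term den)) delta :=
  goodK_of_checkR an den (by decide) L L2 KL dtbl dtbl_ok rfl codes posN rowsA rowsB rowsC rows_tbl 12 256 8 72 b0 28 22
    (by decide) parts_ok (by decide +kernel) slice_ok lit_ok 1 (by decide +kernel) delta bx185 hd185
    (by decide) rls185 rls_ok185 (by decide) (planOf lams185) 190 dD185 dE185 els185 rfl pay185 delta_le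
    (fun b hb => by
      interval_cases b
      · exact bucket185_0
      · exact bucket185_1
      · exact bucket185_2
      · exact bucket185_3
      · exact bucket185_4
      · exact bucket185_5
      · exact bucket185_6
      · exact bucket185_7)

end Vale.Agent.P098.Exact.Sos6.Q93
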