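import Vale.Agent.P098.Exact.Sos6.Q93.Common
import Vale.Agent.P098.Exact.Sos6.Q93.Box186B0
import Vale.Agent.P098.Exact.Sos6.Q93.Box186B1
import Vale.Agent.P098.Exact.Sos6.Q93.Box186B2
import Vale.Agent.P098.Exact.Sos6.Q93.Box186B3
import Vale.Agent.P098.Exact.Sos6.Q93.Box186B4
import Vale.Agent.P098.Exact.Sos6.Q93.Box186B5
import Vale.Agent.P098.Exact.Sos6.Q93.Box186B6
import Vale.Agent.P098.Exact.Sos6.Q93.Box186B7

/-! Generated data of the dimension six interior check. -/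

noncomputable section

namespace Vale.Agent.P098.Exact.Sos6.Q93

set_option maxRecDepth 100000

theorem pay186 : dtbl.payOK 190 dD186 dE186 (elTot els186) = true := by decide +kernel

theorem rls_ok186 : ∀ G ∈ rls186, ∃ Ns, tbl.facR 72 b0 28 22 Ns G = true := by
  intro G hG
  simp only [rls186, List.mem_cons, List.not_mem_nil, or_false] at hG
  rcases hG with rfl | rfl | rfl | rfl | rfl | rfl | rfl | rfl | rfl | rfl | rfl | rfl | rfl | rfl | rfl | rfl | rfl | rfl | rfl | rfl | rfl | rfl | rfl | rfl | rfl | rfl | rfl | rfl | rfl | rfl | rfl | rfl | rfl | rfl | rfl | rfl | rfl | rfl | rfl | rfl | rfl | rfl | rfl | rfl | rfl | rfl | rfl | rfl | rfl | rfl | rfl | rfl | rfl | rfl | rfl | rfl | rfl | rfl | rfl | rfl | rfl | rfl | rfl | rfl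
  · exact ⟨_, fac11904⟩
  · exact ⟨_, fac11905⟩
  · exact ⟨_, fac11906⟩
  · exact ⟨_, fac11907⟩
  · exact ⟨_, fac11908⟩
  · exact ⟨_, fac11909⟩
  · exact ⟨_, fac11910⟩
  · exact ⟨_, fac11911⟩
  · exact ⟨_, fac11912⟩
  · exact ⟨_, fac11913⟩
  · exact ⟨_, fac11914⟩
  · exact ⟨_, fac11915⟩
  · exact ⟨_, fac11916⟩
  · exact ⟨_, fac11917⟩
  · exact ⟨_, fac11918⟩
  · exact ⟨_, fac11919⟩
  · exact ⟨_, fac11920⟩
  · exact ⟨_, fac11921⟩
  · exact ⟨_, fac11922⟩
  · exact ⟨_, fac11923⟩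
  · exact ⟨_, fac11924⟩
  · exact ⟨_, fac11925⟩
  · exact ⟨_, fac11926⟩
  · exact ⟨_, fac11927⟩
  · exact ⟨_, fac11928⟩
  · exact ⟨_, fac11929⟩
  · exact ⟨_, fac11930⟩
  · exact ⟨_, fac11931⟩
  · exact ⟨_, fac11932⟩
  · exact ⟨_, fac11933⟩
  · exact ⟨_, fac11934⟩
  · exact ⟨_, fac11935⟩
  · exact ⟨_, fac11936⟩
  · exact ⟨_, fac11937⟩
  · exact ⟨_, fac11938⟩
  · exact ⟨_, fac11939⟩
  · exact ⟨_, fac11940⟩
  · exact ⟨_, fac11941⟩
  · exact ⟨_, fac11942⟩
  · exact ⟨_, fac11943⟩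
  · exact ⟨_, fac11944⟩
  · exact ⟨_, fac11945⟩
  · exact ⟨_, fac11946⟩
  · exact ⟨_, fac11947⟩
  · exact ⟨_, fac11948⟩
  · exact ⟨_, fac11949⟩
  · exact ⟨_, fac11950⟩
  · exact ⟨_, fac11951⟩
  · exact ⟨_, fac11952⟩
  · exact ⟨_, fac11953⟩
  · exact ⟨_, fac11954⟩
  · exact ⟨_, fac11955⟩
  · exact ⟨_, fac11956⟩
  · exact ⟨_, fac11957⟩
  · exact ⟨_, fac11958⟩
  · exact ⟨_, fac11959⟩
  · exact ⟨_, fac11960⟩
  · exact ⟨_, fac11961⟩
  · exact ⟨_, fac11962⟩
  · exact ⟨_, fac11963⟩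
  · exact ⟨_, fac11964⟩
  · exact ⟨_, fac11965⟩
  · exact ⟨_, fac11966⟩
  · exact ⟨_, fac11967⟩

theorem good186 : bx186.GoodK ((an : ℝ) / 100) (L.map (ITerm.term den)) (L2.map (ITerm.term den))
    (KL.map (KI.term den)) delta :=
  goodK_of_checkR an den (by decide) L L2 KL dtbl dtbl_ok rfl codes posN rowsA rowsB rowsC rows_tbl 12 256 8 72 b0 28 22
    (by decide) parts_ok (by decide +kernel) slice_ok lit_ok 1 (by decide +kernel) delta bx186 hd186
    (by decide) rls186 rls_ok186 (by decide) (planOf lams186) 190 dD186 dE186 els186 rfl pay186 delta_le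
    (fun b hb => by
      interval_cases b
      · exact bucket186_0
      · exact bucket186_1
      · exact bucket186_2
      · exact bucket186_3
      · exact bucket186_4
      · exact bucket186_5
      · exact bucket186_6
      · exact bucket186_7)

end Vale.Agent.P098.Exact.Sos6.Q93
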