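import Vale.Agent.P098.Exact.Sos6.Q93.Common
import Vale.Agent.P098.Exact.Sos6.Q93.Box187B0
import Vale.Agent.P098.Exact.Sos6.Q93.Box187B1
import Vale.Agent.P098.Exact.Sos6.Q93.Box187B2
import Vale.Agent.P098.Exact.Sos6.Q93.Box187B3
import Vale.Agent.P098.Exact.Sos6.Q93.Box187B4
import Vale.Agent.P098.Exact.Sos6.Q93.Box187B5
import Vale.Agent.P098.Exact.Sos6.Q93.Box187B6
import Vale.Agent.P098.Exact.Sos6.Q93.Box187B7

/-! Generated data of the dimension six interior check. -/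

noncomputable section

namespace Vale.Agent.P098.Exact.Sos6.Q93

set_option maxRecDepth 100000

theorem pay187 : dtbl.payOK 190 dD187 dE187 (elTot els187) = true := by decide +kernel

theorem rls_ok187 : ∀ G ∈ rls187, ∃ Ns, tbl.facR 72 b0 28 22 Ns G = true := by
  intro G hG
  simp only [rls187, List.mem_cons, List.not_mem_nil, or_false] at hG
  rcases hG with rfl | rfl | rfl | rfl | rfl | rfl | rfl | rfl | rfl | rfl | rfl | rfl | rfl | rfl | rfl | rfl | rfl | rfl | rfl | rfl | rfl | rfl | rfl | rfl | rfl | rfl | rfl | rfl | rfl | rfl | rfl | rfl | rfl | rfl | rfl | rfl | rfl | rfl | rfl | rfl | rfl | rfl | rfl | rfl | rfl | rfl | rfl | rfl | rfl | rfl | rfl | rfl | rfl | rfl | rfl | rfl | rfl | rfl | rfl | rfl | rfl | rfl | rfl | rfl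
  · exact ⟨_, fac11968⟩
  · exact ⟨_, fac11969⟩
  · exact ⟨_, fac11970⟩
  · exact ⟨_, fac11971⟩
  · exact ⟨_, fac11972⟩
  · exact ⟨_, fac11973⟩
  · exact ⟨_, fac11974⟩
  · exact ⟨_, fac11975⟩
  · exact ⟨_, fac11976⟩
  · exact ⟨_, fac11977⟩
  · exact ⟨_, fac11978⟩
  · exact ⟨_, fac11979⟩
  · exact ⟨_, fac11980⟩
  · exact ⟨_, fac11981⟩
  · exact ⟨_, fac11982⟩
  · exact ⟨_, fac11983⟩
  · exact ⟨_, fac11984⟩
  · exact ⟨_, fac11985⟩
  · exact ⟨_, fac11986⟩
  · exact ⟨_, fac11987⟩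
  · exact ⟨_, fac11988⟩
  · exact ⟨_, fac11989⟩
  · exact ⟨_, fac11990⟩
  · exact ⟨_, fac11991⟩
  · exact ⟨_, fac11992⟩
  · exact ⟨_, fac11993⟩
  · exact ⟨_, fac11994⟩
  · exact ⟨_, fac11995⟩
  · exact ⟨_, fac11996⟩
  · exact ⟨_, fac11997⟩
  · exact ⟨_, fac11998⟩
  · exact ⟨_, fac11999⟩
  · exact ⟨_, fac12000⟩
  · exact ⟨_, fac12001⟩
  · exact ⟨_, fac12002⟩
  · exact ⟨_, fac12003⟩
  · exact ⟨_, fac12004⟩
  · exact ⟨_, fac12005⟩
  · exact ⟨_, fac12006⟩
  · exact ⟨_, fac12007⟩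
  · exact ⟨_, fac12008⟩
  · exact ⟨_, fac12009⟩
  · exact ⟨_, fac12010⟩
  · exact ⟨_, fac12011⟩
  · exact ⟨_, fac12012⟩
  · exact ⟨_, fac12013⟩
  · exact ⟨_, fac12014⟩
  · exact ⟨_, fac12015⟩
  · exact ⟨_, fac12016⟩
  · exact ⟨_, fac12017⟩
  · exact ⟨_, fac12018⟩
  · exact ⟨_, fac12019⟩
  · exact ⟨_, fac12020⟩
  · exact ⟨_, fac12021⟩
  · exact ⟨_, fac12022⟩
  · exact ⟨_, fac12023⟩
  · exact ⟨_, fac12024⟩
  · exact ⟨_, fac12025⟩
  · exact ⟨_, fac12026⟩
  · exact ⟨_, fac12027⟩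
  · exact ⟨_, fac12028⟩
  · exact ⟨_, fac12029⟩
  · exact ⟨_, fac12030⟩
  · exact ⟨_, fac12031⟩

theorem good187 : bx187.GoodK ((an : ℝ) / 100) (L.map (ITerm.term den)) (L2.map (ITerm.term den))
    (KL.map (KI.term den)) delta :=
  goodK_of_checkR an den (by decide) L L2 KL dtbl dtbl_ok rfl codes posN rowsA rowsB rowsC rows_tbl 12 256 8 72 b0 28 22
    (by decide) parts_ok (by decide +kernel) slice_ok lit_ok 1 (by decide +kernel) delta bx187 hd187
    (by decide) rls187 rls_ok187 (by decide) (planOf lams187) 190 dD187 dE187 els187 rfl pay187 delta_le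
    (fun b hb => by
      interval_cases b
      · exact bucket187_0
      · exact bucket187_1
      · exact bucket187_2
      · exact bucket187_3
      · exact bucket187_4
      · exact bucket187_5
      · exact bucket187_6
      · exact bucket187_7)

end Vale.Agent.P098.Exact.Sos6.Q93
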