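import Vale.Agent.P098.Exact.Sos6.Q93.Common
import Vale.Agent.P098.Exact.Sos6.Q93.Box188B0
import Vale.Agent.P098.Exact.Sos6.Q93.Box188B1
import Vale.Agent.P098.Exact.Sos6.Q93.Box188B2
import Vale.Agent.P098.Exact.Sos6.Q93.Box188B3
import Vale.Agent.P098.Exact.Sos6.Q93.Box188B4
import Vale.Agent.P098.Exact.Sos6.Q93.Box188B5
import Vale.Agent.P098.Exact.Sos6.Q93.Box188B6
import Vale.Agent.P098.Exact.Sos6.Q93.Box188B7

/-! Generated data of the dimension six interior check. -/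

noncomputable section

namespace Vale.Agent.P098.Exact.Sos6.Q93

set_option maxRecDepth 100000

theorem pay188 : dtbl.payOK 190 dD188 dE188 (elTot els188) = true := by decide +kernel

theorem rls_ok188 : ∀ G ∈ rls188, ∃ Ns, tbl.facR 72 b0 28 22 Ns G = true := by
  intro G hG
  simp only [rls188, List.mem_cons, List.not_mem_nil, or_false] at hG
  rcases hG with rfl | rfl | rfl | rfl | rfl | rfl | rfl | rfl | rfl | rfl | rfl | rfl | rfl | rfl | rfl | rfl | rfl | rfl | rfl | rfl | rfl | rfl | rfl | rfl | rfl | rfl | rfl | rfl | rfl | rfl | rfl | rfl | rfl | rfl | rfl | rfl | rfl | rfl | rfl | rfl | rfl | rfl | rfl | rfl | rfl | rfl | rfl | rfl | rfl | rfl | rfl | rfl | rfl | rfl | rfl | rfl | rfl | rfl | rfl | rfl | rfl | rfl | rfl | rfl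
  · exact ⟨_, fac12032⟩
  · exact ⟨_, fac12033⟩
  · exact ⟨_, fac12034⟩
  · exact ⟨_, fac12035⟩
  · exact ⟨_, fac12036⟩
  · exact ⟨_, fac12037⟩
  · exact ⟨_, fac12038⟩
  · exact ⟨_, fac12039⟩
  · exact ⟨_, fac12040⟩
  · exact ⟨_, fac12041⟩
  · exact ⟨_, fac12042⟩
  · exact ⟨_, fac12043⟩
  · exact ⟨_, fac12044⟩
  · exact ⟨_, fac12045⟩
  · exact ⟨_, fac12046⟩
  · exact ⟨_, fac12047⟩
  · exact ⟨_, fac12048⟩
  · exact ⟨_, fac12049⟩
  · exact ⟨_, fac12050⟩
  · exact ⟨_, fac12051⟩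
  · exact ⟨_, fac12052⟩
  · exact ⟨_, fac12053⟩
  · exact ⟨_, fac12054⟩
  · exact ⟨_, fac12055⟩
  · exact ⟨_, fac12056⟩
  · exact ⟨_, fac12057⟩
  · exact ⟨_, fac12058⟩
  · exact ⟨_, fac12059⟩
  · exact ⟨_, fac12060⟩
  · exact ⟨_, fac12061⟩
  · exact ⟨_, fac12062⟩
  · exact ⟨_, fac12063⟩
  · exact ⟨_, fac12064⟩
  · exact ⟨_, fac12065⟩
  · exact ⟨_, fac12066⟩
  · exact ⟨_, fac12067⟩
  · exact ⟨_, fac12068⟩
  · exact ⟨_, fac12069⟩
  · exact ⟨_, fac12070⟩
  · exact ⟨_, fac12071⟩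
  · exact ⟨_, fac12072⟩
  · exact ⟨_, fac12073⟩
  · exact ⟨_, fac12074⟩
  · exact ⟨_, fac12075⟩
  · exact ⟨_, fac12076⟩
  · exact ⟨_, fac12077⟩
  · exact ⟨_, fac12078⟩
  · exact ⟨_, fac12079⟩
  · exact ⟨_, fac12080⟩
  · exact ⟨_, fac12081⟩
  · exact ⟨_, fac12082⟩
  · exact ⟨_, fac12083⟩
  · exact ⟨_, fac12084⟩
  · exact ⟨_, fac12085⟩
  · exact ⟨_, fac12086⟩
  · exact ⟨_, fac12087⟩
  · exact ⟨_, fac12088⟩
  · exact ⟨_, fac12089⟩
  · exact ⟨_, fac12090⟩
  · exact ⟨_, fac12091⟩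
  · exact ⟨_, fac12092⟩
  · exact ⟨_, fac12093⟩
  · exact ⟨_, fac12094⟩
  · exact ⟨_, fac12095⟩

theorem good188 : bx188.GoodK ((an : ℝ) / 100) (L.map (ITerm.term den)) (L2.map (ITerm.term den))
    (KL.map (KI.term den)) delta :=
  goodK_of_checkR an den (by decide) L L2 KL dtbl dtbl_ok rfl codes posN rowsA rowsB rowsC rows_tbl 12 256 8 72 b0 28 22
    (by decide) parts_ok (by decide +kernel) slice_ok lit_ok 1 (by decide +kernel) delta bx188 hd188
    (by decide) rls188 rls_ok188 (by decide) (planOf lams188) 190 dD188 dE188 els188 rfl pay188 delta_le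
    (fun b hb => by
      interval_cases b
      · exact bucket188_0
      · exact bucket188_1
      · exact bucket188_2
      · exact bucket188_3
      · exact bucket188_4
      · exact bucket188_5
      · exact bucket188_6
      · exact bucket188_7)

end Vale.Agent.P098.Exact.Sos6.Q93
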