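import Vale.Agent.P098.Exact.Sos6.Q93.Common
import Vale.Agent.P098.Exact.Sos6.Q93.Box189B0
import Vale.Agent.P098.Exact.Sos6.Q93.Box189B1
import Vale.Agent.P098.Exact.Sos6.Q93.Box189B2
import Vale.Agent.P098.Exact.Sos6.Q93.Box189B3
import Vale.Agent.P098.Exact.Sos6.Q93.Box189B4
import Vale.Agent.P098.Exact.Sos6.Q93.Box189B5
import Vale.Agent.P098.Exact.Sos6.Q93.Box189B6
import Vale.Agent.P098.Exact.Sos6.Q93.Box189B7

/-! Generated data of the dimension six interior check. -/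

noncomputable section

namespace Vale.Agent.P098.Exact.Sos6.Q93

set_option maxRecDepth 100000

theorem pay189 : dtbl.payOK 190 dD189 dE189 (elTot els189) = true := by decide +kernel

theorem rls_ok189 : ∀ G ∈ rls189, ∃ Ns, tbl.facR 72 b0 28 22 Ns G = true := by
  intro G hG
  simp only [rls189, List.mem_cons, List.not_mem_nil, or_false] at hG
  rcases hG with rfl | rfl | rfl | rfl | rfl | rfl | rfl | rfl | rfl | rfl | rfl | rfl | rfl | rfl | rfl | rfl | rfl | rfl | rfl | rfl | rfl | rfl | rfl | rfl | rfl | rfl | rfl | rfl | rfl | rfl | rfl | rfl | rfl | rfl | rfl | rfl | rfl | rfl | rfl | rfl | rfl | rfl | rfl | rfl | rfl | rfl | rfl | rfl | rfl | rfl | rfl | rfl | rfl | rfl | rfl | rfl | rfl | rfl | rfl | rfl | rfl | rfl | rfl | rfl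
  · exact ⟨_, fac12096⟩
  · exact ⟨_, fac12097⟩
  · exact ⟨_, fac12098⟩
  · exact ⟨_, fac12099⟩
  · exact ⟨_, fac12100⟩
  · exact ⟨_, fac12101⟩
  · exact ⟨_, fac12102⟩
  · exact ⟨_, fac12103⟩
  · exact ⟨_, fac12104⟩
  · exact ⟨_, fac12105⟩
  · exact ⟨_, fac12106⟩
  · exact ⟨_, fac12107⟩
  · exact ⟨_, fac12108⟩
  · exact ⟨_, fac12109⟩
  · exact ⟨_, fac12110⟩
  · exact ⟨_, fac12111⟩
  · exact ⟨_, fac12112⟩
  · exact ⟨_, fac12113⟩
  · exact ⟨_, fac12114⟩
  · exact ⟨_, fac12115⟩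
  · exact ⟨_, fac12116⟩
  · exact ⟨_, fac12117⟩
  · exact ⟨_, fac12118⟩
  · exact ⟨_, fac12119⟩
  · exact ⟨_, fac12120⟩
  · exact ⟨_, fac12121⟩
  · exact ⟨_, fac12122⟩
  · exact ⟨_, fac12123⟩
  · exact ⟨_, fac12124⟩
  · exact ⟨_, fac12125⟩
  · exact ⟨_, fac12126⟩
  · exact ⟨_, fac12127⟩
  · exact ⟨_, fac12128⟩
  · exact ⟨_, fac12129⟩
  · exact ⟨_, fac12130⟩
  · exact ⟨_, fac12131⟩
  · exact ⟨_, fac12132⟩
  · exact ⟨_, fac12133⟩
  · exact ⟨_, fac12134⟩
  · exact ⟨_, fac12135⟩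
  · exact ⟨_, fac12136⟩
  · exact ⟨_, fac12137⟩
  · exact ⟨_, fac12138⟩
  · exact ⟨_, fac12139⟩
  · exact ⟨_, fac12140⟩
  · exact ⟨_, fac12141⟩
  · exact ⟨_, fac12142⟩
  · exact ⟨_, fac12143⟩
  · exact ⟨_, fac12144⟩
  · exact ⟨_, fac12145⟩
  · exact ⟨_, fac12146⟩
  · exact ⟨_, fac12147⟩
  · exact ⟨_, fac12148⟩
  · exact ⟨_, fac12149⟩
  · exact ⟨_, fac12150⟩
  · exact ⟨_, fac12151⟩
  · exact ⟨_, fac12152⟩
  · exact ⟨_, fac12153⟩
  · exact ⟨_, fac12154⟩
  · exact ⟨_, fac12155⟩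
  · exact ⟨_, fac12156⟩
  · exact ⟨_, fac12157⟩
  · exact ⟨_, fac12158⟩
  · exact ⟨_, fac12159⟩

theorem good189 : bx189.GoodK ((an : ℝ) / 100) (L.map (ITerm.term den)) (L2.map (ITerm.term den))
    (KL.map (KI.term den)) delta :=
  goodK_of_checkR an den (by decide) L L2 KL dtbl dtbl_ok rfl codes posN rowsA rowsB rowsC rows_tbl 12 256 8 72 b0 28 22
    (by decide) parts_ok (by decide +kernel) slice_ok lit_ok 1 (by decide +kernel) delta bx189 hd189
    (by decide) rls189 rls_ok189 (by decide) (planOf lams189) 190 dD189 dE189 els189 rfl pay189 delta_le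
    (fun b hb => by
      interval_cases b
      · exact bucket189_0
      · exact bucket189_1
      · exact bucket189_2
      · exact bucket189_3
      · exact bucket189_4
      · exact bucket189_5
      · exact bucket189_6
      · exact bucket189_7)

end Vale.Agent.P098.Exact.Sos6.Q93
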