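import Vale.Agent.P098.Exact.Sos6.Q93.Common
import Vale.Agent.P098.Exact.Sos6.Q93.Box18B0
import Vale.Agent.P098.Exact.Sos6.Q93.Box18B1
import Vale.Agent.P098.Exact.Sos6.Q93.Box18B2
import Vale.Agent.P098.Exact.Sos6.Q93.Box18B3
import Vale.Agent.P098.Exact.Sos6.Q93.Box18B4
import Vale.Agent.P098.Exact.Sos6.Q93.Box18B5
import Vale.Agent.P098.Exact.Sos6.Q93.Box18B6
import Vale.Agent.P098.Exact.Sos6.Q93.Box18B7

/-! Generated data of the dimension six interior check. -/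

noncomputable section

namespace Vale.Agent.P098.Exact.Sos6.Q93

set_option maxRecDepth 100000

theorem pay18 : dtbl.payOK 190 dD18 dE18 (elTot els18) = true := by decide +kernel

theorem rls_ok18 : ∀ G ∈ rls18, ∃ Ns, tbl.facR 72 b0 28 22 Ns G = true := by
  intro G hG
  simp only [rls18, List.mem_cons, List.not_mem_nil, or_false] at hG
  rcases hG with rfl | rfl | rfl | rfl | rfl | rfl | rfl | rfl | rfl | rfl | rfl | rfl | rfl | rfl | rfl | rfl | rfl | rfl | rfl | rfl | rfl | rfl | rfl | rfl | rfl | rfl | rfl | rfl | rfl | rfl | rfl | rfl | rfl | rfl | rfl | rfl | rfl | rfl | rfl | rfl | rfl | rfl | rfl | rfl | rfl | rfl | rfl | rfl | rfl | rfl | rfl | rfl | rfl | rfl | rfl | rfl | rfl | rfl | rfl | rfl | rfl | rfl | rfl | rfl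
  · exact ⟨_, fac1152⟩
  · exact ⟨_, fac1153⟩
  · exact ⟨_, fac1154⟩
  · exact ⟨_, fac1155⟩
  · exact ⟨_, fac1156⟩
  · exact ⟨_, fac1157⟩
  · exact ⟨_, fac1158⟩
  · exact ⟨_, fac1159⟩
  · exact ⟨_, fac1160⟩
  · exact ⟨_, fac1161⟩
  · exact ⟨_, fac1162⟩
  · exact ⟨_, fac1163⟩
  · exact ⟨_, fac1164⟩
  · exact ⟨_, fac1165⟩
  · exact ⟨_, fac1166⟩
  · exact ⟨_, fac1167⟩
  · exact ⟨_, fac1168⟩
  · exact ⟨_, fac1169⟩
  · exact ⟨_, fac1170⟩
  · exact ⟨_, fac1171⟩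
  · exact ⟨_, fac1172⟩
  · exact ⟨_, fac1173⟩
  · exact ⟨_, fac1174⟩
  · exact ⟨_, fac1175⟩
  · exact ⟨_, fac1176⟩
  · exact ⟨_, fac1177⟩
  · exact ⟨_, fac1178⟩
  · exact ⟨_, fac1179⟩
  · exact ⟨_, fac1180⟩
  · exact ⟨_, fac1181⟩
  · exact ⟨_, fac1182⟩
  · exact ⟨_, fac1183⟩
  · exact ⟨_, fac1184⟩
  · exact ⟨_, fac1185⟩
  · exact ⟨_, fac1186⟩
  · exact ⟨_, fac1187⟩
  · exact ⟨_, fac1188⟩
  · exact ⟨_, fac1189⟩
  · exact ⟨_, fac1190⟩
  · exact ⟨_, fac1191⟩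
  · exact ⟨_, fac1192⟩
  · exact ⟨_, fac1193⟩
  · exact ⟨_, fac1194⟩
  · exact ⟨_, fac1195⟩
  · exact ⟨_, fac1196⟩
  · exact ⟨_, fac1197⟩
  · exact ⟨_, fac1198⟩
  · exact ⟨_, fac1199⟩
  · exact ⟨_, fac1200⟩
  · exact ⟨_, fac1201⟩
  · exact ⟨_, fac1202⟩
  · exact ⟨_, fac1203⟩
  · exact ⟨_, fac1204⟩
  · exact ⟨_, fac1205⟩
  · exact ⟨_, fac1206⟩
  · exact ⟨_, fac1207⟩
  · exact ⟨_, fac1208⟩
  · exact ⟨_, fac1209⟩
  · exact ⟨_, fac1210⟩
  · exact ⟨_, fac1211⟩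
  · exact ⟨_, fac1212⟩
  · exact ⟨_, fac1213⟩
  · exact ⟨_, fac1214⟩
  · exact ⟨_, fac1215⟩

theorem good18 : bx18.GoodK ((an : ℝ) / 100) (L.map (ITerm.term den)) (L2.map (ITerm.term den))
    (KL.map (KI.term den)) delta :=
  goodK_of_checkR an den (by decide) L L2 KL dtbl dtbl_ok rfl codes posN rowsA rowsB rowsC rows_tbl 12 256 8 72 b0 28 22
    (by decide) parts_ok (by decide +kernel) slice_ok lit_ok 1 (by decide +kernel) delta bx18 hd18
    (by decide) rls18 rls_ok18 (by decide) (planOf lams18) 190 dD18 dE18 els18 rfl pay18 delta_le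
    (fun b hb => by
      interval_cases b
      · exact bucket18_0
      · exact bucket18_1
      · exact bucket18_2
      · exact bucket18_3
      · exact bucket18_4
      · exact bucket18_5
      · exact bucket18_6
      · exact bucket18_7)

end Vale.Agent.P098.Exact.Sos6.Q93
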