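import Vale.Agent.P098.Exact.Sos6.Q93.Common
import Vale.Agent.P098.Exact.Sos6.Q93.Box190B0
import Vale.Agent.P098.Exact.Sos6.Q93.Box190B1
import Vale.Agent.P098.Exact.Sos6.Q93.Box190B2
import Vale.Agent.P098.Exact.Sos6.Q93.Box190B3
import Vale.Agent.P098.Exact.Sos6.Q93.Box190B4
import Vale.Agent.P098.Exact.Sos6.Q93.Box190B5
import Vale.Agent.P098.Exact.Sos6.Q93.Box190B6
import Vale.Agent.P098.Exact.Sos6.Q93.Box190B7

/-! Generated data of the dimension six interior check. -/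

noncomputable section

namespace Vale.Agent.P098.Exact.Sos6.Q93

set_option maxRecDepth 100000

theorem pay190 : dtbl.payOK 190 dD190 dE190 (elTot els190) = true := by decide +kernel

theorem rls_ok190 : ∀ G ∈ rls190, ∃ Ns, tbl.facR 72 b0 28 22 Ns G = true := by
  intro G hG
  simp only [rls190, List.mem_cons, List.not_mem_nil, or_false] at hG
  rcases hG with rfl | rfl | rfl | rfl | rfl | rfl | rfl | rfl | rfl | rfl | rfl | rfl | rfl | rfl | rfl | rfl | rfl | rfl | rfl | rfl | rfl | rfl | rfl | rfl | rfl | rfl | rfl | rfl | rfl | rfl | rfl | rfl | rfl | rfl | rfl | rfl | rfl | rfl | rfl | rfl | rfl | rfl | rfl | rfl | rfl | rfl | rfl | rfl | rfl | rfl | rfl | rfl | rfl | rfl | rfl | rfl | rfl | rfl | rfl | rfl | rfl | rfl | rfl | rfl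
  · exact ⟨_, fac12160⟩
  · exact ⟨_, fac12161⟩
  · exact ⟨_, fac12162⟩
  · exact ⟨_, fac12163⟩
  · exact ⟨_, fac12164⟩
  · exact ⟨_, fac12165⟩
  · exact ⟨_, fac12166⟩
  · exact ⟨_, fac12167⟩
  · exact ⟨_, fac12168⟩
  · exact ⟨_, fac12169⟩
  · exact ⟨_, fac12170⟩
  · exact ⟨_, fac12171⟩
  · exact ⟨_, fac12172⟩
  · exact ⟨_, fac12173⟩
  · exact ⟨_, fac12174⟩
  · exact ⟨_, fac12175⟩
  · exact ⟨_, fac12176⟩
  · exact ⟨_, fac12177⟩
  · exact ⟨_, fac12178⟩
  · exact ⟨_, fac12179⟩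
  · exact ⟨_, fac12180⟩
  · exact ⟨_, fac12181⟩
  · exact ⟨_, fac12182⟩
  · exact ⟨_, fac12183⟩
  · exact ⟨_, fac12184⟩
  · exact ⟨_, fac12185⟩
  · exact ⟨_, fac12186⟩
  · exact ⟨_, fac12187⟩
  · exact ⟨_, fac12188⟩
  · exact ⟨_, fac12189⟩
  · exact ⟨_, fac12190⟩
  · exact ⟨_, fac12191⟩
  · exact ⟨_, fac12192⟩
  · exact ⟨_, fac12193⟩
  · exact ⟨_, fac12194⟩
  · exact ⟨_, fac12195⟩
  · exact ⟨_, fac12196⟩
  · exact ⟨_, fac12197⟩
  · exact ⟨_, fac12198⟩
  · exact ⟨_, fac12199⟩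
  · exact ⟨_, fac12200⟩
  · exact ⟨_, fac12201⟩
  · exact ⟨_, fac12202⟩
  · exact ⟨_, fac12203⟩
  · exact ⟨_, fac12204⟩
  · exact ⟨_, fac12205⟩
  · exact ⟨_, fac12206⟩
  · exact ⟨_, fac12207⟩
  · exact ⟨_, fac12208⟩
  · exact ⟨_, fac12209⟩
  · exact ⟨_, fac12210⟩
  · exact ⟨_, fac12211⟩
  · exact ⟨_, fac12212⟩
  · exact ⟨_, fac12213⟩
  · exact ⟨_, fac12214⟩
  · exact ⟨_, fac12215⟩
  · exact ⟨_, fac12216⟩
  · exact ⟨_, fac12217⟩
  · exact ⟨_, fac12218⟩
  · exact ⟨_, fac12219⟩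
  · exact ⟨_, fac12220⟩
  · exact ⟨_, fac12221⟩
  · exact ⟨_, fac12222⟩
  · exact ⟨_, fac12223⟩

theorem good190 : bx190.GoodK ((an : ℝ) / 100) (L.map (ITerm.term den)) (L2.map (ITerm.term den))
    (KL.map (KI.term den)) delta :=
  goodK_of_checkR an den (by decide) L L2 KL dtbl dtbl_ok rfl codes posN rowsA rowsB rowsC rows_tbl 12 256 8 72 b0 28 22
    (by decide) parts_ok (by decide +kernel) slice_ok lit_ok 1 (by decide +kernel) delta bx190 hd190
    (by decide) rls190 rls_ok190 (by decide) (planOf lams190) 190 dD190 dE190 els190 rfl pay190 delta_le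
    (fun b hb => by
      interval_cases b
      · exact bucket190_0
      · exact bucket190_1
      · exact bucket190_2
      · exact bucket190_3
      · exact bucket190_4
      · exact bucket190_5
      · exact bucket190_6
      · exact bucket190_7)

end Vale.Agent.P098.Exact.Sos6.Q93
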