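import Vale.Agent.P098.Exact.Sos6.Q93.Common
import Vale.Agent.P098.Exact.Sos6.Q93.Box191B0
import Vale.Agent.P098.Exact.Sos6.Q93.Box191B1
import Vale.Agent.P098.Exact.Sos6.Q93.Box191B2
import Vale.Agent.P098.Exact.Sos6.Q93.Box191B3
import Vale.Agent.P098.Exact.Sos6.Q93.Box191B4
import Vale.Agent.P098.Exact.Sos6.Q93.Box191B5
import Vale.Agent.P098.Exact.Sos6.Q93.Box191B6
import Vale.Agent.P098.Exact.Sos6.Q93.Box191B7

/-! Generated data of the dimension six interior check. -/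

noncomputable section

namespace Vale.Agent.P098.Exact.Sos6.Q93

set_option maxRecDepth 100000

theorem pay191 : dtbl.payOK 190 dD191 dE191 (elTot els191) = true := by decide +kernel

theorem rls_ok191 : ∀ G ∈ rls191, ∃ Ns, tbl.facR 72 b0 28 22 Ns G = true := by
  intro G hG
  simp only [rls191, List.mem_cons, List.not_mem_nil, or_false] at hG
  rcases hG with rfl | rfl | rfl | rfl | rfl | rfl | rfl | rfl | rfl | rfl | rfl | rfl | rfl | rfl | rfl | rfl | rfl | rfl | rfl | rfl | rfl | rfl | rfl | rfl | rfl | rfl | rfl | rfl | rfl | rfl | rfl | rfl | rfl | rfl | rfl | rfl | rfl | rfl | rfl | rfl | rfl | rfl | rfl | rfl | rfl | rfl | rfl | rfl | rfl | rfl | rfl | rfl | rfl | rfl | rfl | rfl | rfl | rfl | rfl | rfl | rfl | rfl | rfl | rfl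
  · exact ⟨_, fac12224⟩
  · exact ⟨_, fac12225⟩
  · exact ⟨_, fac12226⟩
  · exact ⟨_, fac12227⟩
  · exact ⟨_, fac12228⟩
  · exact ⟨_, fac12229⟩
  · exact ⟨_, fac12230⟩
  · exact ⟨_, fac12231⟩
  · exact ⟨_, fac12232⟩
  · exact ⟨_, fac12233⟩
  · exact ⟨_, fac12234⟩
  · exact ⟨_, fac12235⟩
  · exact ⟨_, fac12236⟩
  · exact ⟨_, fac12237⟩
  · exact ⟨_, fac12238⟩
  · exact ⟨_, fac12239⟩
  · exact ⟨_, fac12240⟩
  · exact ⟨_, fac12241⟩
  · exact ⟨_, fac12242⟩
  · exact ⟨_, fac12243⟩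
  · exact ⟨_, fac12244⟩
  · exact ⟨_, fac12245⟩
  · exact ⟨_, fac12246⟩
  · exact ⟨_, fac12247⟩
  · exact ⟨_, fac12248⟩
  · exact ⟨_, fac12249⟩
  · exact ⟨_, fac12250⟩
  · exact ⟨_, fac12251⟩
  · exact ⟨_, fac12252⟩
  · exact ⟨_, fac12253⟩
  · exact ⟨_, fac12254⟩
  · exact ⟨_, fac12255⟩
  · exact ⟨_, fac12256⟩
  · exact ⟨_, fac12257⟩
  · exact ⟨_, fac12258⟩
  · exact ⟨_, fac12259⟩
  · exact ⟨_, fac12260⟩
  · exact ⟨_, fac12261⟩
  · exact ⟨_, fac12262⟩
  · exact ⟨_, fac12263⟩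
  · exact ⟨_, fac12264⟩
  · exact ⟨_, fac12265⟩
  · exact ⟨_, fac12266⟩
  · exact ⟨_, fac12267⟩
  · exact ⟨_, fac12268⟩
  · exact ⟨_, fac12269⟩
  · exact ⟨_, fac12270⟩
  · exact ⟨_, fac12271⟩
  · exact ⟨_, fac12272⟩
  · exact ⟨_, fac12273⟩
  · exact ⟨_, fac12274⟩
  · exact ⟨_, fac12275⟩
  · exact ⟨_, fac12276⟩
  · exact ⟨_, fac12277⟩
  · exact ⟨_, fac12278⟩
  · exact ⟨_, fac12279⟩
  · exact ⟨_, fac12280⟩
  · exact ⟨_, fac12281⟩
  · exact ⟨_, fac12282⟩
  · exact ⟨_, fac12283⟩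
  · exact ⟨_, fac12284⟩
  · exact ⟨_, fac12285⟩
  · exact ⟨_, fac12286⟩
  · exact ⟨_, fac12287⟩

theorem good191 : bx191.GoodK ((an : ℝ) / 100) (L.map (ITerm.term den)) (L2.map (ITerm.term den))
    (KL.map (KI.term den)) delta :=
  goodK_of_checkR an den (by decide) L L2 KL dtbl dtbl_ok rfl codes posN rowsA rowsB rowsC rows_tbl 12 256 8 72 b0 28 22
    (by decide) parts_ok (by decide +kernel) slice_ok lit_ok 1 (by decide +kernel) delta bx191 hd191
    (by decide) rls191 rls_ok191 (by decide) (planOf lams191) 190 dD191 dE191 els191 rfl pay191 delta_le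
    (fun b hb => by
      interval_cases b
      · exact bucket191_0
      · exact bucket191_1
      · exact bucket191_2
      · exact bucket191_3
      · exact bucket191_4
      · exact bucket191_5
      · exact bucket191_6
      · exact bucket191_7)

end Vale.Agent.P098.Exact.Sos6.Q93
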