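import Vale.Agent.P098.Exact.Sos6.Q93.Common
import Vale.Agent.P098.Exact.Sos6.Q93.Box192B0
import Vale.Agent.P098.Exact.Sos6.Q93.Box192B1
import Vale.Agent.P098.Exact.Sos6.Q93.Box192B2
import Vale.Agent.P098.Exact.Sos6.Q93.Box192B3
import Vale.Agent.P098.Exact.Sos6.Q93.Box192B4
import Vale.Agent.P098.Exact.Sos6.Q93.Box192B5
import Vale.Agent.P098.Exact.Sos6.Q93.Box192B6
import Vale.Agent.P098.Exact.Sos6.Q93.Box192B7

/-! Generated data of the dimension six interior check. -/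

noncomputable section

namespace Vale.Agent.P098.Exact.Sos6.Q93

set_option maxRecDepth 100000

theorem pay192 : dtbl.payOK 190 dD192 dE192 (elTot els192) = true := by decide +kernel

theorem rls_ok192 : ∀ G ∈ rls192, ∃ Ns, tbl.facR 72 b0 28 22 Ns G = true := by
  intro G hG
  simp only [rls192, List.mem_cons, List.not_mem_nil, or_false] at hG
  rcases hG with rfl | rfl | rfl | rfl | rfl | rfl | rfl | rfl | rfl | rfl | rfl | rfl | rfl | rfl | rfl | rfl | rfl | rfl | rfl | rfl | rfl | rfl | rfl | rfl | rfl | rfl | rfl | rfl | rfl | rfl | rfl | rfl | rfl | rfl | rfl | rfl | rfl | rfl | rfl | rfl | rfl | rfl | rfl | rfl | rfl | rfl | rfl | rfl | rfl | rfl | rfl | rfl | rfl | rfl | rfl | rfl | rfl | rfl | rfl | rfl | rfl | rfl | rfl | rfl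
  · exact ⟨_, fac12288⟩
  · exact ⟨_, fac12289⟩
  · exact ⟨_, fac12290⟩
  · exact ⟨_, fac12291⟩
  · exact ⟨_, fac12292⟩
  · exact ⟨_, fac12293⟩
  · exact ⟨_, fac12294⟩
  · exact ⟨_, fac12295⟩
  · exact ⟨_, fac12296⟩
  · exact ⟨_, fac12297⟩
  · exact ⟨_, fac12298⟩
  · exact ⟨_, fac12299⟩
  · exact ⟨_, fac12300⟩
  · exact ⟨_, fac12301⟩
  · exact ⟨_, fac12302⟩
  · exact ⟨_, fac12303⟩
  · exact ⟨_, fac12304⟩
  · exact ⟨_, fac12305⟩
  · exact ⟨_, fac12306⟩
  · exact ⟨_, fac12307⟩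
  · exact ⟨_, fac12308⟩
  · exact ⟨_, fac12309⟩
  · exact ⟨_, fac12310⟩
  · exact ⟨_, fac12311⟩
  · exact ⟨_, fac12312⟩
  · exact ⟨_, fac12313⟩
  · exact ⟨_, fac12314⟩
  · exact ⟨_, fac12315⟩
  · exact ⟨_, fac12316⟩
  · exact ⟨_, fac12317⟩
  · exact ⟨_, fac12318⟩
  · exact ⟨_, fac12319⟩
  · exact ⟨_, fac12320⟩
  · exact ⟨_, fac12321⟩
  · exact ⟨_, fac12322⟩
  · exact ⟨_, fac12323⟩
  · exact ⟨_, fac12324⟩
  · exact ⟨_, fac12325⟩
  · exact ⟨_, fac12326⟩
  · exact ⟨_, fac12327⟩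
  · exact ⟨_, fac12328⟩
  · exact ⟨_, fac12329⟩
  · exact ⟨_, fac12330⟩
  · exact ⟨_, fac12331⟩
  · exact ⟨_, fac12332⟩
  · exact ⟨_, fac12333⟩
  · exact ⟨_, fac12334⟩
  · exact ⟨_, fac12335⟩
  · exact ⟨_, fac12336⟩
  · exact ⟨_, fac12337⟩
  · exact ⟨_, fac12338⟩
  · exact ⟨_, fac12339⟩
  · exact ⟨_, fac12340⟩
  · exact ⟨_, fac12341⟩
  · exact ⟨_, fac12342⟩
  · exact ⟨_, fac12343⟩
  · exact ⟨_, fac12344⟩
  · exact ⟨_, fac12345⟩
  · exact ⟨_, fac12346⟩
  · exact ⟨_, fac12347⟩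
  · exact ⟨_, fac12348⟩
  · exact ⟨_, fac12349⟩
  · exact ⟨_, fac12350⟩
  · exact ⟨_, fac12351⟩

theorem good192 : bx192.GoodK ((an : ℝ) / 100) (L.map (ITerm.term den)) (L2.map (ITerm.term den))
    (KL.map (KI.term den)) delta :=
  goodK_of_checkR an den (by decide) L L2 KL dtbl dtbl_ok rfl codes posN rowsA rowsB rowsC rows_tbl 12 256 8 72 b0 28 22
    (by decide) parts_ok (by decide +kernel) slice_ok lit_ok 1 (by decide +kernel) delta bx192 hd192
    (by decide) rls192 rls_ok192 (by decide) (planOf lams192) 190 dD192 dE192 els192 rfl pay192 delta_le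
    (fun b hb => by
      interval_cases b
      · exact bucket192_0
      · exact bucket192_1
      · exact bucket192_2
      · exact bucket192_3
      · exact bucket192_4
      · exact bucket192_5
      · exact bucket192_6
      · exact bucket192_7)

end Vale.Agent.P098.Exact.Sos6.Q93
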