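import Vale.Agent.P098.Exact.Sos6.Q93.Common
import Vale.Agent.P098.Exact.Sos6.Q93.Box193B0
import Vale.Agent.P098.Exact.Sos6.Q93.Box193B1
import Vale.Agent.P098.Exact.Sos6.Q93.Box193B2
import Vale.Agent.P098.Exact.Sos6.Q93.Box193B3
import Vale.Agent.P098.Exact.Sos6.Q93.Box193B4
import Vale.Agent.P098.Exact.Sos6.Q93.Box193B5
import Vale.Agent.P098.Exact.Sos6.Q93.Box193B6
import Vale.Agent.P098.Exact.Sos6.Q93.Box193B7

/-! Generated data of the dimension six interior check. -/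

noncomputable section

namespace Vale.Agent.P098.Exact.Sos6.Q93

set_option maxRecDepth 100000

theorem pay193 : dtbl.payOK 190 dD193 dE193 (elTot els193) = true := by decide +kernel

theorem rls_ok193 : ∀ G ∈ rls193, ∃ Ns, tbl.facR 72 b0 28 22 Ns G = true := by
  intro G hG
  simp only [rls193, List.mem_cons, List.not_mem_nil, or_false] at hG
  rcases hG with rfl | rfl | rfl | rfl | rfl | rfl | rfl | rfl | rfl | rfl | rfl | rfl | rfl | rfl | rfl | rfl | rfl | rfl | rfl | rfl | rfl | rfl | rfl | rfl | rfl | rfl | rfl | rfl | rfl | rfl | rfl | rfl | rfl | rfl | rfl | rfl | rfl | rfl | rfl | rfl | rfl | rfl | rfl | rfl | rfl | rfl | rfl | rfl | rfl | rfl | rfl | rfl | rfl | rfl | rfl | rfl | rfl | rfl | rfl | rfl | rfl | rfl | rfl | rfl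
  · exact ⟨_, fac12352⟩
  · exact ⟨_, fac12353⟩
  · exact ⟨_, fac12354⟩
  · exact ⟨_, fac12355⟩
  · exact ⟨_, fac12356⟩
  · exact ⟨_, fac12357⟩
  · exact ⟨_, fac12358⟩
  · exact ⟨_, fac12359⟩
  · exact ⟨_, fac12360⟩
  · exact ⟨_, fac12361⟩
  · exact ⟨_, fac12362⟩
  · exact ⟨_, fac12363⟩
  · exact ⟨_, fac12364⟩
  · exact ⟨_, fac12365⟩
  · exact ⟨_, fac12366⟩
  · exact ⟨_, fac12367⟩
  · exact ⟨_, fac12368⟩
  · exact ⟨_, fac12369⟩
  · exact ⟨_, fac12370⟩
  · exact ⟨_, fac12371⟩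
  · exact ⟨_, fac12372⟩
  · exact ⟨_, fac12373⟩
  · exact ⟨_, fac12374⟩
  · exact ⟨_, fac12375⟩
  · exact ⟨_, fac12376⟩
  · exact ⟨_, fac12377⟩
  · exact ⟨_, fac12378⟩
  · exact ⟨_, fac12379⟩
  · exact ⟨_, fac12380⟩
  · exact ⟨_, fac12381⟩
  · exact ⟨_, fac12382⟩
  · exact ⟨_, fac12383⟩
  · exact ⟨_, fac12384⟩
  · exact ⟨_, fac12385⟩
  · exact ⟨_, fac12386⟩
  · exact ⟨_, fac12387⟩
  · exact ⟨_, fac12388⟩
  · exact ⟨_, fac12389⟩
  · exact ⟨_, fac12390⟩
  · exact ⟨_, fac12391⟩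
  · exact ⟨_, fac12392⟩
  · exact ⟨_, fac12393⟩
  · exact ⟨_, fac12394⟩
  · exact ⟨_, fac12395⟩
  · exact ⟨_, fac12396⟩
  · exact ⟨_, fac12397⟩
  · exact ⟨_, fac12398⟩
  · exact ⟨_, fac12399⟩
  · exact ⟨_, fac12400⟩
  · exact ⟨_, fac12401⟩
  · exact ⟨_, fac12402⟩
  · exact ⟨_, fac12403⟩
  · exact ⟨_, fac12404⟩
  · exact ⟨_, fac12405⟩
  · exact ⟨_, fac12406⟩
  · exact ⟨_, fac12407⟩
  · exact ⟨_, fac12408⟩
  · exact ⟨_, fac12409⟩
  · exact ⟨_, fac12410⟩
  · exact ⟨_, fac12411⟩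
  · exact ⟨_, fac12412⟩
  · exact ⟨_, fac12413⟩
  · exact ⟨_, fac12414⟩
  · exact ⟨_, fac12415⟩

theorem good193 : bx193.GoodK ((an : ℝ) / 100) (L.map (ITerm.term den)) (L2.map (ITerm.term den))
    (KL.map (KI.term den)) delta :=
  goodK_of_checkR an den (by decide) L L2 KL dtbl dtbl_ok rfl codes posN rowsA rowsB rowsC rows_tbl 12 256 8 72 b0 28 22
    (by decide) parts_ok (by decide +kernel) slice_ok lit_ok 1 (by decide +kernel) delta bx193 hd193
    (by decide) rls193 rls_ok193 (by decide) (planOf lams193) 190 dD193 dE193 els193 rfl pay193 delta_le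
    (fun b hb => by
      interval_cases b
      · exact bucket193_0
      · exact bucket193_1
      · exact bucket193_2
      · exact bucket193_3
      · exact bucket193_4
      · exact bucket193_5
      · exact bucket193_6
      · exact bucket193_7)

end Vale.Agent.P098.Exact.Sos6.Q93
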