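import Vale.Agent.P098.Exact.Sos6.Q93.Common
import Vale.Agent.P098.Exact.Sos6.Q93.Box194B0
import Vale.Agent.P098.Exact.Sos6.Q93.Box194B1
import Vale.Agent.P098.Exact.Sos6.Q93.Box194B2
import Vale.Agent.P098.Exact.Sos6.Q93.Box194B3
import Vale.Agent.P098.Exact.Sos6.Q93.Box194B4
import Vale.Agent.P098.Exact.Sos6.Q93.Box194B5
import Vale.Agent.P098.Exact.Sos6.Q93.Box194B6
import Vale.Agent.P098.Exact.Sos6.Q93.Box194B7

/-! Generated data of the dimension six interior check. -/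

noncomputable section

namespace Vale.Agent.P098.Exact.Sos6.Q93

set_option maxRecDepth 100000

theorem pay194 : dtbl.payOK 190 dD194 dE194 (elTot els194) = true := by decide +kernel

theorem rls_ok194 : ∀ G ∈ rls194, ∃ Ns, tbl.facR 72 b0 28 22 Ns G = true := by
  intro G hG
  simp only [rls194, List.mem_cons, List.not_mem_nil, or_false] at hG
  rcases hG with rfl | rfl | rfl | rfl | rfl | rfl | rfl | rfl | rfl | rfl | rfl | rfl | rfl | rfl | rfl | rfl | rfl | rfl | rfl | rfl | rfl | rfl | rfl | rfl | rfl | rfl | rfl | rfl | rfl | rfl | rfl | rfl | rfl | rfl | rfl | rfl | rfl | rfl | rfl | rfl | rfl | rfl | rfl | rfl | rfl | rfl | rfl | rfl | rfl | rfl | rfl | rfl | rfl | rfl | rfl | rfl | rfl | rfl | rfl | rfl | rfl | rfl | rfl | rfl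
  · exact ⟨_, fac12416⟩
  · exact ⟨_, fac12417⟩
  · exact ⟨_, fac12418⟩
  · exact ⟨_, fac12419⟩
  · exact ⟨_, fac12420⟩
  · exact ⟨_, fac12421⟩
  · exact ⟨_, fac12422⟩
  · exact ⟨_, fac12423⟩
  · exact ⟨_, fac12424⟩
  · exact ⟨_, fac12425⟩
  · exact ⟨_, fac12426⟩
  · exact ⟨_, fac12427⟩
  · exact ⟨_, fac12428⟩
  · exact ⟨_, fac12429⟩
  · exact ⟨_, fac12430⟩
  · exact ⟨_, fac12431⟩
  · exact ⟨_, fac12432⟩
  · exact ⟨_, fac12433⟩
  · exact ⟨_, fac12434⟩
  · exact ⟨_, fac12435⟩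
  · exact ⟨_, fac12436⟩
  · exact ⟨_, fac12437⟩
  · exact ⟨_, fac12438⟩
  · exact ⟨_, fac12439⟩
  · exact ⟨_, fac12440⟩
  · exact ⟨_, fac12441⟩
  · exact ⟨_, fac12442⟩
  · exact ⟨_, fac12443⟩
  · exact ⟨_, fac12444⟩
  · exact ⟨_, fac12445⟩
  · exact ⟨_, fac12446⟩
  · exact ⟨_, fac12447⟩
  · exact ⟨_, fac12448⟩
  · exact ⟨_, fac12449⟩
  · exact ⟨_, fac12450⟩
  · exact ⟨_, fac12451⟩
  · exact ⟨_, fac12452⟩
  · exact ⟨_, fac12453⟩
  · exact ⟨_, fac12454⟩
  · exact ⟨_, fac12455⟩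
  · exact ⟨_, fac12456⟩
  · exact ⟨_, fac12457⟩
  · exact ⟨_, fac12458⟩
  · exact ⟨_, fac12459⟩
  · exact ⟨_, fac12460⟩
  · exact ⟨_, fac12461⟩
  · exact ⟨_, fac12462⟩
  · exact ⟨_, fac12463⟩
  · exact ⟨_, fac12464⟩
  · exact ⟨_, fac12465⟩
  · exact ⟨_, fac12466⟩
  · exact ⟨_, fac12467⟩
  · exact ⟨_, fac12468⟩
  · exact ⟨_, fac12469⟩
  · exact ⟨_, fac12470⟩
  · exact ⟨_, fac12471⟩
  · exact ⟨_, fac12472⟩
  · exact ⟨_, fac12473⟩
  · exact ⟨_, fac12474⟩
  · exact ⟨_, fac12475⟩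
  · exact ⟨_, fac12476⟩
  · exact ⟨_, fac12477⟩
  · exact ⟨_, fac12478⟩
  · exact ⟨_, fac12479⟩

theorem good194 : bx194.GoodK ((an : ℝ) / 100) (L.map (ITerm.term den)) (L2.map (ITerm.term den))
    (KL.map (KI.term den)) delta :=
  goodK_of_checkR an den (by decide) L L2 KL dtbl dtbl_ok rfl codes posN rowsA rowsB rowsC rows_tbl 12 256 8 72 b0 28 22
    (by decide) parts_ok (by decide +kernel) slice_ok lit_ok 1 (by decide +kernel) delta bx194 hd194
    (by decide) rls194 rls_ok194 (by decide) (planOf lams194) 190 dD194 dE194 els194 rfl pay194 delta_le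
    (fun b hb => by
      interval_cases b
      · exact bucket194_0
      · exact bucket194_1
      · exact bucket194_2
      · exact bucket194_3
      · exact bucket194_4
      · exact bucket194_5
      · exact bucket194_6
      · exact bucket194_7)

end Vale.Agent.P098.Exact.Sos6.Q93
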