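import Vale.Agent.P098.Exact.Sos6.Q93.Common
import Vale.Agent.P098.Exact.Sos6.Q93.Box195B0
import Vale.Agent.P098.Exact.Sos6.Q93.Box195B1
import Vale.Agent.P098.Exact.Sos6.Q93.Box195B2
import Vale.Agent.P098.Exact.Sos6.Q93.Box195B3
import Vale.Agent.P098.Exact.Sos6.Q93.Box195B4
import Vale.Agent.P098.Exact.Sos6.Q93.Box195B5
import Vale.Agent.P098.Exact.Sos6.Q93.Box195B6
import Vale.Agent.P098.Exact.Sos6.Q93.Box195B7

/-! Generated data of the dimension six interior check. -/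

noncomputable section

namespace Vale.Agent.P098.Exact.Sos6.Q93

set_option maxRecDepth 100000

theorem pay195 : dtbl.payOK 190 dD195 dE195 (elTot els195) = true := by decide +kernel

theorem rls_ok195 : ∀ G ∈ rls195, ∃ Ns, tbl.facR 72 b0 28 22 Ns G = true := by
  intro G hG
  simp only [rls195, List.mem_cons, List.not_mem_nil, or_false] at hG
  rcases hG with rfl | rfl | rfl | rfl | rfl | rfl | rfl | rfl | rfl | rfl | rfl | rfl | rfl | rfl | rfl | rfl | rfl | rfl | rfl | rfl | rfl | rfl | rfl | rfl | rfl | rfl | rfl | rfl | rfl | rfl | rfl | rfl | rfl | rfl | rfl | rfl | rfl | rfl | rfl | rfl | rfl | rfl | rfl | rfl | rfl | rfl | rfl | rfl | rfl | rfl | rfl | rfl | rfl | rfl | rfl | rfl | rfl | rfl | rfl | rfl | rfl | rfl | rfl | rfl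
  · exact ⟨_, fac12480⟩
  · exact ⟨_, fac12481⟩
  · exact ⟨_, fac12482⟩
  · exact ⟨_, fac12483⟩
  · exact ⟨_, fac12484⟩
  · exact ⟨_, fac12485⟩
  · exact ⟨_, fac12486⟩
  · exact ⟨_, fac12487⟩
  · exact ⟨_, fac12488⟩
  · exact ⟨_, fac12489⟩
  · exact ⟨_, fac12490⟩
  · exact ⟨_, fac12491⟩
  · exact ⟨_, fac12492⟩
  · exact ⟨_, fac12493⟩
  · exact ⟨_, fac12494⟩
  · exact ⟨_, fac12495⟩
  · exact ⟨_, fac12496⟩
  · exact ⟨_, fac12497⟩
  · exact ⟨_, fac12498⟩
  · exact ⟨_, fac12499⟩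
  · exact ⟨_, fac12500⟩
  · exact ⟨_, fac12501⟩
  · exact ⟨_, fac12502⟩
  · exact ⟨_, fac12503⟩
  · exact ⟨_, fac12504⟩
  · exact ⟨_, fac12505⟩
  · exact ⟨_, fac12506⟩
  · exact ⟨_, fac12507⟩
  · exact ⟨_, fac12508⟩
  · exact ⟨_, fac12509⟩
  · exact ⟨_, fac12510⟩
  · exact ⟨_, fac12511⟩
  · exact ⟨_, fac12512⟩
  · exact ⟨_, fac12513⟩
  · exact ⟨_, fac12514⟩
  · exact ⟨_, fac12515⟩
  · exact ⟨_, fac12516⟩
  · exact ⟨_, fac12517⟩
  · exact ⟨_, fac12518⟩
  · exact ⟨_, fac12519⟩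
  · exact ⟨_, fac12520⟩
  · exact ⟨_, fac12521⟩
  · exact ⟨_, fac12522⟩
  · exact ⟨_, fac12523⟩
  · exact ⟨_, fac12524⟩
  · exact ⟨_, fac12525⟩
  · exact ⟨_, fac12526⟩
  · exact ⟨_, fac12527⟩
  · exact ⟨_, fac12528⟩
  · exact ⟨_, fac12529⟩
  · exact ⟨_, fac12530⟩
  · exact ⟨_, fac12531⟩
  · exact ⟨_, fac12532⟩
  · exact ⟨_, fac12533⟩
  · exact ⟨_, fac12534⟩
  · exact ⟨_, fac12535⟩
  · exact ⟨_, fac12536⟩
  · exact ⟨_, fac12537⟩
  · exact ⟨_, fac12538⟩
  · exact ⟨_, fac12539⟩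
  · exact ⟨_, fac12540⟩
  · exact ⟨_, fac12541⟩
  · exact ⟨_, fac12542⟩
  · exact ⟨_, fac12543⟩

theorem good195 : bx195.GoodK ((an : ℝ) / 100) (L.map (ITerm.term den)) (L2.map (ITerm.term den))
    (KL.map (KI.term den)) delta :=
  goodK_of_checkR an den (by decide) L L2 KL dtbl dtbl_ok rfl codes posN rowsA rowsB rowsC rows_tbl 12 256 8 72 b0 28 22
    (by decide) parts_ok (by decide +kernel) slice_ok lit_ok 1 (by decide +kernel) delta bx195 hd195
    (by decide) rls195 rls_ok195 (by decide) (planOf lams195) 190 dD195 dE195 els195 rfl pay195 delta_le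
    (fun b hb => by
      interval_cases b
      · exact bucket195_0
      · exact bucket195_1
      · exact bucket195_2
      · exact bucket195_3
      · exact bucket195_4
      · exact bucket195_5
      · exact bucket195_6
      · exact bucket195_7)

end Vale.Agent.P098.Exact.Sos6.Q93
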