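import Vale.Agent.P098.Exact.Sos6.Q93.Common
import Vale.Agent.P098.Exact.Sos6.Q93.Box196B0
import Vale.Agent.P098.Exact.Sos6.Q93.Box196B1
import Vale.Agent.P098.Exact.Sos6.Q93.Box196B2
import Vale.Agent.P098.Exact.Sos6.Q93.Box196B3
import Vale.Agent.P098.Exact.Sos6.Q93.Box196B4
import Vale.Agent.P098.Exact.Sos6.Q93.Box196B5
import Vale.Agent.P098.Exact.Sos6.Q93.Box196B6
import Vale.Agent.P098.Exact.Sos6.Q93.Box196B7

/-! Generated data of the dimension six interior check. -/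

noncomputable section

namespace Vale.Agent.P098.Exact.Sos6.Q93

set_option maxRecDepth 100000

theorem pay196 : dtbl.payOK 190 dD196 dE196 (elTot els196) = true := by decide +kernel

theorem rls_ok196 : ∀ G ∈ rls196, ∃ Ns, tbl.facR 72 b0 28 22 Ns G = true := by
  intro G hG
  simp only [rls196, List.mem_cons, List.not_mem_nil, or_false] at hG
  rcases hG with rfl | rfl | rfl | rfl | rfl | rfl | rfl | rfl | rfl | rfl | rfl | rfl | rfl | rfl | rfl | rfl | rfl | rfl | rfl | rfl | rfl | rfl | rfl | rfl | rfl | rfl | rfl | rfl | rfl | rfl | rfl | rfl | rfl | rfl | rfl | rfl | rfl | rfl | rfl | rfl | rfl | rfl | rfl | rfl | rfl | rfl | rfl | rfl | rfl | rfl | rfl | rfl | rfl | rfl | rfl | rfl | rfl | rfl | rfl | rfl | rfl | rfl | rfl | rfl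
  · exact ⟨_, fac12544⟩
  · exact ⟨_, fac12545⟩
  · exact ⟨_, fac12546⟩
  · exact ⟨_, fac12547⟩
  · exact ⟨_, fac12548⟩
  · exact ⟨_, fac12549⟩
  · exact ⟨_, fac12550⟩
  · exact ⟨_, fac12551⟩
  · exact ⟨_, fac12552⟩
  · exact ⟨_, fac12553⟩
  · exact ⟨_, fac12554⟩
  · exact ⟨_, fac12555⟩
  · exact ⟨_, fac12556⟩
  · exact ⟨_, fac12557⟩
  · exact ⟨_, fac12558⟩
  · exact ⟨_, fac12559⟩
  · exact ⟨_, fac12560⟩
  · exact ⟨_, fac12561⟩
  · exact ⟨_, fac12562⟩
  · exact ⟨_, fac12563⟩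
  · exact ⟨_, fac12564⟩
  · exact ⟨_, fac12565⟩
  · exact ⟨_, fac12566⟩
  · exact ⟨_, fac12567⟩
  · exact ⟨_, fac12568⟩
  · exact ⟨_, fac12569⟩
  · exact ⟨_, fac12570⟩
  · exact ⟨_, fac12571⟩
  · exact ⟨_, fac12572⟩
  · exact ⟨_, fac12573⟩
  · exact ⟨_, fac12574⟩
  · exact ⟨_, fac12575⟩
  · exact ⟨_, fac12576⟩
  · exact ⟨_, fac12577⟩
  · exact ⟨_, fac12578⟩
  · exact ⟨_, fac12579⟩
  · exact ⟨_, fac12580⟩
  · exact ⟨_, fac12581⟩
  · exact ⟨_, fac12582⟩
  · exact ⟨_, fac12583⟩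
  · exact ⟨_, fac12584⟩
  · exact ⟨_, fac12585⟩
  · exact ⟨_, fac12586⟩
  · exact ⟨_, fac12587⟩
  · exact ⟨_, fac12588⟩
  · exact ⟨_, fac12589⟩
  · exact ⟨_, fac12590⟩
  · exact ⟨_, fac12591⟩
  · exact ⟨_, fac12592⟩
  · exact ⟨_, fac12593⟩
  · exact ⟨_, fac12594⟩
  · exact ⟨_, fac12595⟩
  · exact ⟨_, fac12596⟩
  · exact ⟨_, fac12597⟩
  · exact ⟨_, fac12598⟩
  · exact ⟨_, fac12599⟩
  · exact ⟨_, fac12600⟩
  · exact ⟨_, fac12601⟩
  · exact ⟨_, fac12602⟩
  · exact ⟨_, fac12603⟩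
  · exact ⟨_, fac12604⟩
  · exact ⟨_, fac12605⟩
  · exact ⟨_, fac12606⟩
  · exact ⟨_, fac12607⟩

theorem good196 : bx196.GoodK ((an : ℝ) / 100) (L.map (ITerm.term den)) (L2.map (ITerm.term den))
    (KL.map (KI.term den)) delta :=
  goodK_of_checkR an den (by decide) L L2 KL dtbl dtbl_ok rfl codes posN rowsA rowsB rowsC rows_tbl 12 256 8 72 b0 28 22
    (by decide) parts_ok (by decide +kernel) slice_ok lit_ok 1 (by decide +kernel) delta bx196 hd196
    (by decide) rls196 rls_ok196 (by decide) (planOf lams196) 190 dD196 dE196 els196 rfl pay196 delta_le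
    (fun b hb => by
      interval_cases b
      · exact bucket196_0
      · exact bucket196_1
      · exact bucket196_2
      · exact bucket196_3
      · exact bucket196_4
      · exact bucket196_5
      · exact bucket196_6
      · exact bucket196_7)

end Vale.Agent.P098.Exact.Sos6.Q93
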