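import Vale.Agent.P098.Exact.Sos6.Q93.Common
import Vale.Agent.P098.Exact.Sos6.Q93.Box197B0
import Vale.Agent.P098.Exact.Sos6.Q93.Box197B1
import Vale.Agent.P098.Exact.Sos6.Q93.Box197B2
import Vale.Agent.P098.Exact.Sos6.Q93.Box197B3
import Vale.Agent.P098.Exact.Sos6.Q93.Box197B4
import Vale.Agent.P098.Exact.Sos6.Q93.Box197B5
import Vale.Agent.P098.Exact.Sos6.Q93.Box197B6
import Vale.Agent.P098.Exact.Sos6.Q93.Box197B7

/-! Generated data of the dimension six interior check. -/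

noncomputable section

namespace Vale.Agent.P098.Exact.Sos6.Q93

set_option maxRecDepth 100000

theorem pay197 : dtbl.payOK 190 dD197 dE197 (elTot els197) = true := by decide +kernel

theorem rls_ok197 : ∀ G ∈ rls197, ∃ Ns, tbl.facR 72 b0 28 22 Ns G = true := by
  intro G hG
  simp only [rls197, List.mem_cons, List.not_mem_nil, or_false] at hG
  rcases hG with rfl | rfl | rfl | rfl | rfl | rfl | rfl | rfl | rfl | rfl | rfl | rfl | rfl | rfl | rfl | rfl | rfl | rfl | rfl | rfl | rfl | rfl | rfl | rfl | rfl | rfl | rfl | rfl | rfl | rfl | rfl | rfl | rfl | rfl | rfl | rfl | rfl | rfl | rfl | rfl | rfl | rfl | rfl | rfl | rfl | rfl | rfl | rfl | rfl | rfl | rfl | rfl | rfl | rfl | rfl | rfl | rfl | rfl | rfl | rfl | rfl | rfl | rfl | rfl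
  · exact ⟨_, fac12608⟩
  · exact ⟨_, fac12609⟩
  · exact ⟨_, fac12610⟩
  · exact ⟨_, fac12611⟩
  · exact ⟨_, fac12612⟩
  · exact ⟨_, fac12613⟩
  · exact ⟨_, fac12614⟩
  · exact ⟨_, fac12615⟩
  · exact ⟨_, fac12616⟩
  · exact ⟨_, fac12617⟩
  · exact ⟨_, fac12618⟩
  · exact ⟨_, fac12619⟩
  · exact ⟨_, fac12620⟩
  · exact ⟨_, fac12621⟩
  · exact ⟨_, fac12622⟩
  · exact ⟨_, fac12623⟩
  · exact ⟨_, fac12624⟩
  · exact ⟨_, fac12625⟩
  · exact ⟨_, fac12626⟩
  · exact ⟨_, fac12627⟩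
  · exact ⟨_, fac12628⟩
  · exact ⟨_, fac12629⟩
  · exact ⟨_, fac12630⟩
  · exact ⟨_, fac12631⟩
  · exact ⟨_, fac12632⟩
  · exact ⟨_, fac12633⟩
  · exact ⟨_, fac12634⟩
  · exact ⟨_, fac12635⟩
  · exact ⟨_, fac12636⟩
  · exact ⟨_, fac12637⟩
  · exact ⟨_, fac12638⟩
  · exact ⟨_, fac12639⟩
  · exact ⟨_, fac12640⟩
  · exact ⟨_, fac12641⟩
  · exact ⟨_, fac12642⟩
  · exact ⟨_, fac12643⟩
  · exact ⟨_, fac12644⟩
  · exact ⟨_, fac12645⟩
  · exact ⟨_, fac12646⟩
  · exact ⟨_, fac12647⟩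
  · exact ⟨_, fac12648⟩
  · exact ⟨_, fac12649⟩
  · exact ⟨_, fac12650⟩
  · exact ⟨_, fac12651⟩
  · exact ⟨_, fac12652⟩
  · exact ⟨_, fac12653⟩
  · exact ⟨_, fac12654⟩
  · exact ⟨_, fac12655⟩
  · exact ⟨_, fac12656⟩
  · exact ⟨_, fac12657⟩
  · exact ⟨_, fac12658⟩
  · exact ⟨_, fac12659⟩
  · exact ⟨_, fac12660⟩
  · exact ⟨_, fac12661⟩
  · exact ⟨_, fac12662⟩
  · exact ⟨_, fac12663⟩
  · exact ⟨_, fac12664⟩
  · exact ⟨_, fac12665⟩
  · exact ⟨_, fac12666⟩
  · exact ⟨_, fac12667⟩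
  · exact ⟨_, fac12668⟩
  · exact ⟨_, fac12669⟩
  · exact ⟨_, fac12670⟩
  · exact ⟨_, fac12671⟩

theorem good197 : bx197.GoodK ((an : ℝ) / 100) (L.map (ITerm.term den)) (L2.map (ITerm.term den))
    (KL.map (KI.term den)) delta :=
  goodK_of_checkR an den (by decide) L L2 KL dtbl dtbl_ok rfl codes posN rowsA rowsB rowsC rows_tbl 12 256 8 72 b0 28 22
    (by decide) parts_ok (by decide +kernel) slice_ok lit_ok 1 (by decide +kernel) delta bx197 hd197
    (by decide) rls197 rls_ok197 (by decide) (planOf lams197) 190 dD197 dE197 els197 rfl pay197 delta_le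
    (fun b hb => by
      interval_cases b
      · exact bucket197_0
      · exact bucket197_1
      · exact bucket197_2
      · exact bucket197_3
      · exact bucket197_4
      · exact bucket197_5
      · exact bucket197_6
      · exact bucket197_7)

end Vale.Agent.P098.Exact.Sos6.Q93
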