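import Vale.Agent.P098.Exact.Sos6.Q93.Common
import Vale.Agent.P098.Exact.Sos6.Q93.Box198B0
import Vale.Agent.P098.Exact.Sos6.Q93.Box198B1
import Vale.Agent.P098.Exact.Sos6.Q93.Box198B2
import Vale.Agent.P098.Exact.Sos6.Q93.Box198B3
import Vale.Agent.P098.Exact.Sos6.Q93.Box198B4
import Vale.Agent.P098.Exact.Sos6.Q93.Box198B5
import Vale.Agent.P098.Exact.Sos6.Q93.Box198B6
import Vale.Agent.P098.Exact.Sos6.Q93.Box198B7

/-! Generated data of the dimension six interior check. -/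

noncomputable section

namespace Vale.Agent.P098.Exact.Sos6.Q93

set_option maxRecDepth 100000

theorem pay198 : dtbl.payOK 190 dD198 dE198 (elTot els198) = true := by decide +kernel

theorem rls_ok198 : ∀ G ∈ rls198, ∃ Ns, tbl.facR 72 b0 28 22 Ns G = true := by
  intro G hG
  simp only [rls198, List.mem_cons, List.not_mem_nil, or_false] at hG
  rcases hG with rfl | rfl | rfl | rfl | rfl | rfl | rfl | rfl | rfl | rfl | rfl | rfl | rfl | rfl | rfl | rfl | rfl | rfl | rfl | rfl | rfl | rfl | rfl | rfl | rfl | rfl | rfl | rfl | rfl | rfl | rfl | rfl | rfl | rfl | rfl | rfl | rfl | rfl | rfl | rfl | rfl | rfl | rfl | rfl | rfl | rfl | rfl | rfl | rfl | rfl | rfl | rfl | rfl | rfl | rfl | rfl | rfl | rfl | rfl | rfl | rfl | rfl | rfl | rfl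
  · exact ⟨_, fac12672⟩
  · exact ⟨_, fac12673⟩
  · exact ⟨_, fac12674⟩
  · exact ⟨_, fac12675⟩
  · exact ⟨_, fac12676⟩
  · exact ⟨_, fac12677⟩
  · exact ⟨_, fac12678⟩
  · exact ⟨_, fac12679⟩
  · exact ⟨_, fac12680⟩
  · exact ⟨_, fac12681⟩
  · exact ⟨_, fac12682⟩
  · exact ⟨_, fac12683⟩
  · exact ⟨_, fac12684⟩
  · exact ⟨_, fac12685⟩
  · exact ⟨_, fac12686⟩
  · exact ⟨_, fac12687⟩
  · exact ⟨_, fac12688⟩
  · exact ⟨_, fac12689⟩
  · exact ⟨_, fac12690⟩
  · exact ⟨_, fac12691⟩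
  · exact ⟨_, fac12692⟩
  · exact ⟨_, fac12693⟩
  · exact ⟨_, fac12694⟩
  · exact ⟨_, fac12695⟩
  · exact ⟨_, fac12696⟩
  · exact ⟨_, fac12697⟩
  · exact ⟨_, fac12698⟩
  · exact ⟨_, fac12699⟩
  · exact ⟨_, fac12700⟩
  · exact ⟨_, fac12701⟩
  · exact ⟨_, fac12702⟩
  · exact ⟨_, fac12703⟩
  · exact ⟨_, fac12704⟩
  · exact ⟨_, fac12705⟩
  · exact ⟨_, fac12706⟩
  · exact ⟨_, fac12707⟩
  · exact ⟨_, fac12708⟩
  · exact ⟨_, fac12709⟩
  · exact ⟨_, fac12710⟩
  · exact ⟨_, fac12711⟩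
  · exact ⟨_, fac12712⟩
  · exact ⟨_, fac12713⟩
  · exact ⟨_, fac12714⟩
  · exact ⟨_, fac12715⟩
  · exact ⟨_, fac12716⟩
  · exact ⟨_, fac12717⟩
  · exact ⟨_, fac12718⟩
  · exact ⟨_, fac12719⟩
  · exact ⟨_, fac12720⟩
  · exact ⟨_, fac12721⟩
  · exact ⟨_, fac12722⟩
  · exact ⟨_, fac12723⟩
  · exact ⟨_, fac12724⟩
  · exact ⟨_, fac12725⟩
  · exact ⟨_, fac12726⟩
  · exact ⟨_, fac12727⟩
  · exact ⟨_, fac12728⟩
  · exact ⟨_, fac12729⟩
  · exact ⟨_, fac12730⟩
  · exact ⟨_, fac12731⟩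
  · exact ⟨_, fac12732⟩
  · exact ⟨_, fac12733⟩
  · exact ⟨_, fac12734⟩
  · exact ⟨_, fac12735⟩

theorem good198 : bx198.GoodK ((an : ℝ) / 100) (L.map (ITerm.term den)) (L2.map (ITerm.term den))
    (KL.map (KI.term den)) delta :=
  goodK_of_checkR an den (by decide) L L2 KL dtbl dtbl_ok rfl codes posN rowsA rowsB rowsC rows_tbl 12 256 8 72 b0 28 22
    (by decide) parts_ok (by decide +kernel) slice_ok lit_ok 1 (by decide +kernel) delta bx198 hd198
    (by decide) rls198 rls_ok198 (by decide) (planOf lams198) 190 dD198 dE198 els198 rfl pay198 delta_le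
    (fun b hb => by
      interval_cases b
      · exact bucket198_0
      · exact bucket198_1
      · exact bucket198_2
      · exact bucket198_3
      · exact bucket198_4
      · exact bucket198_5
      · exact bucket198_6
      · exact bucket198_7)

end Vale.Agent.P098.Exact.Sos6.Q93
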