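import Vale.Agent.P098.Exact.Sos6.Q93.Common
import Vale.Agent.P098.Exact.Sos6.Q93.Box199B0
import Vale.Agent.P098.Exact.Sos6.Q93.Box199B1
import Vale.Agent.P098.Exact.Sos6.Q93.Box199B2
import Vale.Agent.P098.Exact.Sos6.Q93.Box199B3
import Vale.Agent.P098.Exact.Sos6.Q93.Box199B4
import Vale.Agent.P098.Exact.Sos6.Q93.Box199B5
import Vale.Agent.P098.Exact.Sos6.Q93.Box199B6
import Vale.Agent.P098.Exact.Sos6.Q93.Box199B7

/-! Generated data of the dimension six interior check. -/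

noncomputable section

namespace Vale.Agent.P098.Exact.Sos6.Q93

set_option maxRecDepth 100000

theorem pay199 : dtbl.payOK 190 dD199 dE199 (elTot els199) = true := by decide +kernel

theorem rls_ok199 : ∀ G ∈ rls199, ∃ Ns, tbl.facR 72 b0 28 22 Ns G = true := by
  intro G hG
  simp only [rls199, List.mem_cons, List.not_mem_nil, or_false] at hG
  rcases hG with rfl | rfl | rfl | rfl | rfl | rfl | rfl | rfl | rfl | rfl | rfl | rfl | rfl | rfl | rfl | rfl | rfl | rfl | rfl | rfl | rfl | rfl | rfl | rfl | rfl | rfl | rfl | rfl | rfl | rfl | rfl | rfl | rfl | rfl | rfl | rfl | rfl | rfl | rfl | rfl | rfl | rfl | rfl | rfl | rfl | rfl | rfl | rfl | rfl | rfl | rfl | rfl | rfl | rfl | rfl | rfl | rfl | rfl | rfl | rfl | rfl | rfl | rfl | rfl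
  · exact ⟨_, fac12736⟩
  · exact ⟨_, fac12737⟩
  · exact ⟨_, fac12738⟩
  · exact ⟨_, fac12739⟩
  · exact ⟨_, fac12740⟩
  · exact ⟨_, fac12741⟩
  · exact ⟨_, fac12742⟩
  · exact ⟨_, fac12743⟩
  · exact ⟨_, fac12744⟩
  · exact ⟨_, fac12745⟩
  · exact ⟨_, fac12746⟩
  · exact ⟨_, fac12747⟩
  · exact ⟨_, fac12748⟩
  · exact ⟨_, fac12749⟩
  · exact ⟨_, fac12750⟩
  · exact ⟨_, fac12751⟩
  · exact ⟨_, fac12752⟩
  · exact ⟨_, fac12753⟩
  · exact ⟨_, fac12754⟩
  · exact ⟨_, fac12755⟩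
  · exact ⟨_, fac12756⟩
  · exact ⟨_, fac12757⟩
  · exact ⟨_, fac12758⟩
  · exact ⟨_, fac12759⟩
  · exact ⟨_, fac12760⟩
  · exact ⟨_, fac12761⟩
  · exact ⟨_, fac12762⟩
  · exact ⟨_, fac12763⟩
  · exact ⟨_, fac12764⟩
  · exact ⟨_, fac12765⟩
  · exact ⟨_, fac12766⟩
  · exact ⟨_, fac12767⟩
  · exact ⟨_, fac12768⟩
  · exact ⟨_, fac12769⟩
  · exact ⟨_, fac12770⟩
  · exact ⟨_, fac12771⟩
  · exact ⟨_, fac12772⟩
  · exact ⟨_, fac12773⟩
  · exact ⟨_, fac12774⟩
  · exact ⟨_, fac12775⟩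
  · exact ⟨_, fac12776⟩
  · exact ⟨_, fac12777⟩
  · exact ⟨_, fac12778⟩
  · exact ⟨_, fac12779⟩
  · exact ⟨_, fac12780⟩
  · exact ⟨_, fac12781⟩
  · exact ⟨_, fac12782⟩
  · exact ⟨_, fac12783⟩
  · exact ⟨_, fac12784⟩
  · exact ⟨_, fac12785⟩
  · exact ⟨_, fac12786⟩
  · exact ⟨_, fac12787⟩
  · exact ⟨_, fac12788⟩
  · exact ⟨_, fac12789⟩
  · exact ⟨_, fac12790⟩
  · exact ⟨_, fac12791⟩
  · exact ⟨_, fac12792⟩
  · exact ⟨_, fac12793⟩
  · exact ⟨_, fac12794⟩
  · exact ⟨_, fac12795⟩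
  · exact ⟨_, fac12796⟩
  · exact ⟨_, fac12797⟩
  · exact ⟨_, fac12798⟩
  · exact ⟨_, fac12799⟩

theorem good199 : bx199.GoodK ((an : ℝ) / 100) (L.map (ITerm.term den)) (L2.map (ITerm.term den))
    (KL.map (KI.term den)) delta :=
  goodK_of_checkR an den (by decide) L L2 KL dtbl dtbl_ok rfl codes posN rowsA rowsB rowsC rows_tbl 12 256 8 72 b0 28 22
    (by decide) parts_ok (by decide +kernel) slice_ok lit_ok 1 (by decide +kernel) delta bx199 hd199
    (by decide) rls199 rls_ok199 (by decide) (planOf lams199) 190 dD199 dE199 els199 rfl pay199 delta_le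
    (fun b hb => by
      interval_cases b
      · exact bucket199_0
      · exact bucket199_1
      · exact bucket199_2
      · exact bucket199_3
      · exact bucket199_4
      · exact bucket199_5
      · exact bucket199_6
      · exact bucket199_7)

end Vale.Agent.P098.Exact.Sos6.Q93
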