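import Vale.Agent.P098.Exact.Sos6.Q93.Common
import Vale.Agent.P098.Exact.Sos6.Q93.Box19B0
import Vale.Agent.P098.Exact.Sos6.Q93.Box19B1
import Vale.Agent.P098.Exact.Sos6.Q93.Box19B2
import Vale.Agent.P098.Exact.Sos6.Q93.Box19B3
import Vale.Agent.P098.Exact.Sos6.Q93.Box19B4
import Vale.Agent.P098.Exact.Sos6.Q93.Box19B5
import Vale.Agent.P098.Exact.Sos6.Q93.Box19B6
import Vale.Agent.P098.Exact.Sos6.Q93.Box19B7

/-! Generated data of the dimension six interior check. -/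

noncomputable section

namespace Vale.Agent.P098.Exact.Sos6.Q93

set_option maxRecDepth 100000

theorem pay19 : dtbl.payOK 190 dD19 dE19 (elTot els19) = true := by decide +kernel

theorem rls_ok19 : ∀ G ∈ rls19, ∃ Ns, tbl.facR 72 b0 28 22 Ns G = true := by
  intro G hG
  simp only [rls19, List.mem_cons, List.not_mem_nil, or_false] at hG
  rcases hG with rfl | rfl | rfl | rfl | rfl | rfl | rfl | rfl | rfl | rfl | rfl | rfl | rfl | rfl | rfl | rfl | rfl | rfl | rfl | rfl | rfl | rfl | rfl | rfl | rfl | rfl | rfl | rfl | rfl | rfl | rfl | rfl | rfl | rfl | rfl | rfl | rfl | rfl | rfl | rfl | rfl | rfl | rfl | rfl | rfl | rfl | rfl | rfl | rfl | rfl | rfl | rfl | rfl | rfl | rfl | rfl | rfl | rfl | rfl | rfl | rfl | rfl | rfl | rfl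
  · exact ⟨_, fac1216⟩
  · exact ⟨_, fac1217⟩
  · exact ⟨_, fac1218⟩
  · exact ⟨_, fac1219⟩
  · exact ⟨_, fac1220⟩
  · exact ⟨_, fac1221⟩
  · exact ⟨_, fac1222⟩
  · exact ⟨_, fac1223⟩
  · exact ⟨_, fac1224⟩
  · exact ⟨_, fac1225⟩
  · exact ⟨_, fac1226⟩
  · exact ⟨_, fac1227⟩
  · exact ⟨_, fac1228⟩
  · exact ⟨_, fac1229⟩
  · exact ⟨_, fac1230⟩
  · exact ⟨_, fac1231⟩
  · exact ⟨_, fac1232⟩
  · exact ⟨_, fac1233⟩
  · exact ⟨_, fac1234⟩
  · exact ⟨_, fac1235⟩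
  · exact ⟨_, fac1236⟩
  · exact ⟨_, fac1237⟩
  · exact ⟨_, fac1238⟩
  · exact ⟨_, fac1239⟩
  · exact ⟨_, fac1240⟩
  · exact ⟨_, fac1241⟩
  · exact ⟨_, fac1242⟩
  · exact ⟨_, fac1243⟩
  · exact ⟨_, fac1244⟩
  · exact ⟨_, fac1245⟩
  · exact ⟨_, fac1246⟩
  · exact ⟨_, fac1247⟩
  · exact ⟨_, fac1248⟩
  · exact ⟨_, fac1249⟩
  · exact ⟨_, fac1250⟩
  · exact ⟨_, fac1251⟩
  · exact ⟨_, fac1252⟩
  · exact ⟨_, fac1253⟩
  · exact ⟨_, fac1254⟩
  · exact ⟨_, fac1255⟩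
  · exact ⟨_, fac1256⟩
  · exact ⟨_, fac1257⟩
  · exact ⟨_, fac1258⟩
  · exact ⟨_, fac1259⟩
  · exact ⟨_, fac1260⟩
  · exact ⟨_, fac1261⟩
  · exact ⟨_, fac1262⟩
  · exact ⟨_, fac1263⟩
  · exact ⟨_, fac1264⟩
  · exact ⟨_, fac1265⟩
  · exact ⟨_, fac1266⟩
  · exact ⟨_, fac1267⟩
  · exact ⟨_, fac1268⟩
  · exact ⟨_, fac1269⟩
  · exact ⟨_, fac1270⟩
  · exact ⟨_, fac1271⟩
  · exact ⟨_, fac1272⟩
  · exact ⟨_, fac1273⟩
  · exact ⟨_, fac1274⟩
  · exact ⟨_, fac1275⟩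
  · exact ⟨_, fac1276⟩
  · exact ⟨_, fac1277⟩
  · exact ⟨_, fac1278⟩
  · exact ⟨_, fac1279⟩

theorem good19 : bx19.GoodK ((an : ℝ) / 100) (L.map (ITerm.term den)) (L2.map (ITerm.term den))
    (KL.map (KI.term den)) delta :=
  goodK_of_checkR an den (by decide) L L2 KL dtbl dtbl_ok rfl codes posN rowsA rowsB rowsC rows_tbl 12 256 8 72 b0 28 22
    (by decide) parts_ok (by decide +kernel) slice_ok lit_ok 1 (by decide +kernel) delta bx19 hd19
    (by decide) rls19 rls_ok19 (by decide) (planOf lams19) 190 dD19 dE19 els19 rfl pay19 delta_le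
    (fun b hb => by
      interval_cases b
      · exact bucket19_0
      · exact bucket19_1
      · exact bucket19_2
      · exact bucket19_3
      · exact bucket19_4
      · exact bucket19_5
      · exact bucket19_6
      · exact bucket19_7)

end Vale.Agent.P098.Exact.Sos6.Q93
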