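import Vale.Agent.P098.Exact.Sos6.Q93.Common
import Vale.Agent.P098.Exact.Sos6.Q93.Box1B0
import Vale.Agent.P098.Exact.Sos6.Q93.Box1B1
import Vale.Agent.P098.Exact.Sos6.Q93.Box1B2
import Vale.Agent.P098.Exact.Sos6.Q93.Box1B3
import Vale.Agent.P098.Exact.Sos6.Q93.Box1B4
import Vale.Agent.P098.Exact.Sos6.Q93.Box1B5
import Vale.Agent.P098.Exact.Sos6.Q93.Box1B6
import Vale.Agent.P098.Exact.Sos6.Q93.Box1B7

/-! Generated data of the dimension six interior check. -/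

noncomputable section

namespace Vale.Agent.P098.Exact.Sos6.Q93

set_option maxRecDepth 100000

theorem pay1 : dtbl.payOK 190 dD1 dE1 (elTot els1) = true := by decide +kernel

theorem rls_ok1 : ∀ G ∈ rls1, ∃ Ns, tbl.facR 72 b0 28 22 Ns G = true := by
  intro G hG
  simp only [rls1, List.mem_cons, List.not_mem_nil, or_false] at hG
  rcases hG with rfl | rfl | rfl | rfl | rfl | rfl | rfl | rfl | rfl | rfl | rfl | rfl | rfl | rfl | rfl | rfl | rfl | rfl | rfl | rfl | rfl | rfl | rfl | rfl | rfl | rfl | rfl | rfl | rfl | rfl | rfl | rfl | rfl | rfl | rfl | rfl | rfl | rfl | rfl | rfl | rfl | rfl | rfl | rfl | rfl | rfl | rfl | rfl | rfl | rfl | rfl | rfl | rfl | rfl | rfl | rfl | rfl | rfl | rfl | rfl | rfl | rfl | rfl | rfl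
  · exact ⟨_, fac64⟩
  · exact ⟨_, fac65⟩
  · exact ⟨_, fac66⟩
  · exact ⟨_, fac67⟩
  · exact ⟨_, fac68⟩
  · exact ⟨_, fac69⟩
  · exact ⟨_, fac70⟩
  · exact ⟨_, fac71⟩
  · exact ⟨_, fac72⟩
  · exact ⟨_, fac73⟩
  · exact ⟨_, fac74⟩
  · exact ⟨_, fac75⟩
  · exact ⟨_, fac76⟩
  · exact ⟨_, fac77⟩
  · exact ⟨_, fac78⟩
  · exact ⟨_, fac79⟩
  · exact ⟨_, fac80⟩
  · exact ⟨_, fac81⟩
  · exact ⟨_, fac82⟩
  · exact ⟨_, fac83⟩
  · exact ⟨_, fac84⟩
  · exact ⟨_, fac85⟩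
  · exact ⟨_, fac86⟩
  · exact ⟨_, fac87⟩
  · exact ⟨_, fac88⟩
  · exact ⟨_, fac89⟩
  · exact ⟨_, fac90⟩
  · exact ⟨_, fac91⟩
  · exact ⟨_, fac92⟩
  · exact ⟨_, fac93⟩
  · exact ⟨_, fac94⟩
  · exact ⟨_, fac95⟩
  · exact ⟨_, fac96⟩
  · exact ⟨_, fac97⟩
  · exact ⟨_, fac98⟩
  · exact ⟨_, fac99⟩
  · exact ⟨_, fac100⟩
  · exact ⟨_, fac101⟩
  · exact ⟨_, fac102⟩
  · exact ⟨_, fac103⟩
  · exact ⟨_, fac104⟩
  · exact ⟨_, fac105⟩
  · exact ⟨_, fac106⟩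
  · exact ⟨_, fac107⟩
  · exact ⟨_, fac108⟩
  · exact ⟨_, fac109⟩
  · exact ⟨_, fac110⟩
  · exact ⟨_, fac111⟩
  · exact ⟨_, fac112⟩
  · exact ⟨_, fac113⟩
  · exact ⟨_, fac114⟩
  · exact ⟨_, fac115⟩
  · exact ⟨_, fac116⟩
  · exact ⟨_, fac117⟩
  · exact ⟨_, fac118⟩
  · exact ⟨_, fac119⟩
  · exact ⟨_, fac120⟩
  · exact ⟨_, fac121⟩
  · exact ⟨_, fac122⟩
  · exact ⟨_, fac123⟩
  · exact ⟨_, fac124⟩
  · exact ⟨_, fac125⟩
  · exact ⟨_, fac126⟩
  · exact ⟨_, fac127⟩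

theorem good1 : bx1.GoodK ((an : ℝ) / 100) (L.map (ITerm.term den)) (L2.map (ITerm.term den))
    (KL.map (KI.term den)) delta :=
  goodK_of_checkR an den (by decide) L L2 KL dtbl dtbl_ok rfl codes posN rowsA rowsB rowsC rows_tbl 12 256 8 72 b0 28 22
    (by decide) parts_ok (by decide +kernel) slice_ok lit_ok 1 (by decide +kernel) delta bx1 hd1
    (by decide) rls1 rls_ok1 (by decide) (planOf lams1) 190 dD1 dE1 els1 rfl pay1 delta_le
    (fun b hb => by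
      interval_cases b
      · exact bucket1_0
      · exact bucket1_1
      · exact bucket1_2
      · exact bucket1_3
      · exact bucket1_4
      · exact bucket1_5
      · exact bucket1_6
      · exact bucket1_7)

end Vale.Agent.P098.Exact.Sos6.Q93
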