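import Vale.Agent.P098.Exact.Sos6.Q93.Common
import Vale.Agent.P098.Exact.Sos6.Q93.Box200B0
import Vale.Agent.P098.Exact.Sos6.Q93.Box200B1
import Vale.Agent.P098.Exact.Sos6.Q93.Box200B2
import Vale.Agent.P098.Exact.Sos6.Q93.Box200B3
import Vale.Agent.P098.Exact.Sos6.Q93.Box200B4
import Vale.Agent.P098.Exact.Sos6.Q93.Box200B5
import Vale.Agent.P098.Exact.Sos6.Q93.Box200B6
import Vale.Agent.P098.Exact.Sos6.Q93.Box200B7

/-! Generated data of the dimension six interior check. -/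

noncomputable section

namespace Vale.Agent.P098.Exact.Sos6.Q93

set_option maxRecDepth 100000

theorem pay200 : dtbl.payOK 190 dD200 dE200 (elTot els200) = true := by decide +kernel

theorem rls_ok200 : ∀ G ∈ rls200, ∃ Ns, tbl.facR 72 b0 28 22 Ns G = true := by
  intro G hG
  simp only [rls200, List.mem_cons, List.not_mem_nil, or_false] at hG
  rcases hG with rfl | rfl | rfl | rfl | rfl | rfl | rfl | rfl | rfl | rfl | rfl | rfl | rfl | rfl | rfl | rfl | rfl | rfl | rfl | rfl | rfl | rfl | rfl | rfl | rfl | rfl | rfl | rfl | rfl | rfl | rfl | rfl | rfl | rfl | rfl | rfl | rfl | rfl | rfl | rfl | rfl | rfl | rfl | rfl | rfl | rfl | rfl | rfl | rfl | rfl | rfl | rfl | rfl | rfl | rfl | rfl | rfl | rfl | rfl | rfl | rfl | rfl | rfl | rfl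
  · exact ⟨_, fac12800⟩
  · exact ⟨_, fac12801⟩
  · exact ⟨_, fac12802⟩
  · exact ⟨_, fac12803⟩
  · exact ⟨_, fac12804⟩
  · exact ⟨_, fac12805⟩
  · exact ⟨_, fac12806⟩
  · exact ⟨_, fac12807⟩
  · exact ⟨_, fac12808⟩
  · exact ⟨_, fac12809⟩
  · exact ⟨_, fac12810⟩
  · exact ⟨_, fac12811⟩
  · exact ⟨_, fac12812⟩
  · exact ⟨_, fac12813⟩
  · exact ⟨_, fac12814⟩
  · exact ⟨_, fac12815⟩
  · exact ⟨_, fac12816⟩
  · exact ⟨_, fac12817⟩
  · exact ⟨_, fac12818⟩
  · exact ⟨_, fac12819⟩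
  · exact ⟨_, fac12820⟩
  · exact ⟨_, fac12821⟩
  · exact ⟨_, fac12822⟩
  · exact ⟨_, fac12823⟩
  · exact ⟨_, fac12824⟩
  · exact ⟨_, fac12825⟩
  · exact ⟨_, fac12826⟩
  · exact ⟨_, fac12827⟩
  · exact ⟨_, fac12828⟩
  · exact ⟨_, fac12829⟩
  · exact ⟨_, fac12830⟩
  · exact ⟨_, fac12831⟩
  · exact ⟨_, fac12832⟩
  · exact ⟨_, fac12833⟩
  · exact ⟨_, fac12834⟩
  · exact ⟨_, fac12835⟩
  · exact ⟨_, fac12836⟩
  · exact ⟨_, fac12837⟩
  · exact ⟨_, fac12838⟩
  · exact ⟨_, fac12839⟩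
  · exact ⟨_, fac12840⟩
  · exact ⟨_, fac12841⟩
  · exact ⟨_, fac12842⟩
  · exact ⟨_, fac12843⟩
  · exact ⟨_, fac12844⟩
  · exact ⟨_, fac12845⟩
  · exact ⟨_, fac12846⟩
  · exact ⟨_, fac12847⟩
  · exact ⟨_, fac12848⟩
  · exact ⟨_, fac12849⟩
  · exact ⟨_, fac12850⟩
  · exact ⟨_, fac12851⟩
  · exact ⟨_, fac12852⟩
  · exact ⟨_, fac12853⟩
  · exact ⟨_, fac12854⟩
  · exact ⟨_, fac12855⟩
  · exact ⟨_, fac12856⟩
  · exact ⟨_, fac12857⟩
  · exact ⟨_, fac12858⟩
  · exact ⟨_, fac12859⟩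
  · exact ⟨_, fac12860⟩
  · exact ⟨_, fac12861⟩
  · exact ⟨_, fac12862⟩
  · exact ⟨_, fac12863⟩

theorem good200 : bx200.GoodK ((an : ℝ) / 100) (L.map (ITerm.term den)) (L2.map (ITerm.term den))
    (KL.map (KI.term den)) delta :=
  goodK_of_checkR an den (by decide) L L2 KL dtbl dtbl_ok rfl codes posN rowsA rowsB rowsC rows_tbl 12 256 8 72 b0 28 22
    (by decide) parts_ok (by decide +kernel) slice_ok lit_ok 1 (by decide +kernel) delta bx200 hd200
    (by decide) rls200 rls_ok200 (by decide) (planOf lams200) 190 dD200 dE200 els200 rfl pay200 delta_le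
    (fun b hb => by
      interval_cases b
      · exact bucket200_0
      · exact bucket200_1
      · exact bucket200_2
      · exact bucket200_3
      · exact bucket200_4
      · exact bucket200_5
      · exact bucket200_6
      · exact bucket200_7)

end Vale.Agent.P098.Exact.Sos6.Q93
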