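import Vale.Agent.P098.Exact.Sos6.Q93.Common
import Vale.Agent.P098.Exact.Sos6.Q93.Box201B0
import Vale.Agent.P098.Exact.Sos6.Q93.Box201B1
import Vale.Agent.P098.Exact.Sos6.Q93.Box201B2
import Vale.Agent.P098.Exact.Sos6.Q93.Box201B3
import Vale.Agent.P098.Exact.Sos6.Q93.Box201B4
import Vale.Agent.P098.Exact.Sos6.Q93.Box201B5
import Vale.Agent.P098.Exact.Sos6.Q93.Box201B6
import Vale.Agent.P098.Exact.Sos6.Q93.Box201B7

/-! Generated data of the dimension six interior check. -/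

noncomputable section

namespace Vale.Agent.P098.Exact.Sos6.Q93

set_option maxRecDepth 100000

theorem pay201 : dtbl.payOK 190 dD201 dE201 (elTot els201) = true := by decide +kernel

theorem rls_ok201 : ∀ G ∈ rls201, ∃ Ns, tbl.facR 72 b0 28 22 Ns G = true := by
  intro G hG
  simp only [rls201, List.mem_cons, List.not_mem_nil, or_false] at hG
  rcases hG with rfl | rfl | rfl | rfl | rfl | rfl | rfl | rfl | rfl | rfl | rfl | rfl | rfl | rfl | rfl | rfl | rfl | rfl | rfl | rfl | rfl | rfl | rfl | rfl | rfl | rfl | rfl | rfl | rfl | rfl | rfl | rfl | rfl | rfl | rfl | rfl | rfl | rfl | rfl | rfl | rfl | rfl | rfl | rfl | rfl | rfl | rfl | rfl | rfl | rfl | rfl | rfl | rfl | rfl | rfl | rfl | rfl | rfl | rfl | rfl | rfl | rfl | rfl | rfl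
  · exact ⟨_, fac12864⟩
  · exact ⟨_, fac12865⟩
  · exact ⟨_, fac12866⟩
  · exact ⟨_, fac12867⟩
  · exact ⟨_, fac12868⟩
  · exact ⟨_, fac12869⟩
  · exact ⟨_, fac12870⟩
  · exact ⟨_, fac12871⟩
  · exact ⟨_, fac12872⟩
  · exact ⟨_, fac12873⟩
  · exact ⟨_, fac12874⟩
  · exact ⟨_, fac12875⟩
  · exact ⟨_, fac12876⟩
  · exact ⟨_, fac12877⟩
  · exact ⟨_, fac12878⟩
  · exact ⟨_, fac12879⟩
  · exact ⟨_, fac12880⟩
  · exact ⟨_, fac12881⟩
  · exact ⟨_, fac12882⟩
  · exact ⟨_, fac12883⟩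
  · exact ⟨_, fac12884⟩
  · exact ⟨_, fac12885⟩
  · exact ⟨_, fac12886⟩
  · exact ⟨_, fac12887⟩
  · exact ⟨_, fac12888⟩
  · exact ⟨_, fac12889⟩
  · exact ⟨_, fac12890⟩
  · exact ⟨_, fac12891⟩
  · exact ⟨_, fac12892⟩
  · exact ⟨_, fac12893⟩
  · exact ⟨_, fac12894⟩
  · exact ⟨_, fac12895⟩
  · exact ⟨_, fac12896⟩
  · exact ⟨_, fac12897⟩
  · exact ⟨_, fac12898⟩
  · exact ⟨_, fac12899⟩
  · exact ⟨_, fac12900⟩
  · exact ⟨_, fac12901⟩
  · exact ⟨_, fac12902⟩
  · exact ⟨_, fac12903⟩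
  · exact ⟨_, fac12904⟩
  · exact ⟨_, fac12905⟩
  · exact ⟨_, fac12906⟩
  · exact ⟨_, fac12907⟩
  · exact ⟨_, fac12908⟩
  · exact ⟨_, fac12909⟩
  · exact ⟨_, fac12910⟩
  · exact ⟨_, fac12911⟩
  · exact ⟨_, fac12912⟩
  · exact ⟨_, fac12913⟩
  · exact ⟨_, fac12914⟩
  · exact ⟨_, fac12915⟩
  · exact ⟨_, fac12916⟩
  · exact ⟨_, fac12917⟩
  · exact ⟨_, fac12918⟩
  · exact ⟨_, fac12919⟩
  · exact ⟨_, fac12920⟩
  · exact ⟨_, fac12921⟩
  · exact ⟨_, fac12922⟩
  · exact ⟨_, fac12923⟩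
  · exact ⟨_, fac12924⟩
  · exact ⟨_, fac12925⟩
  · exact ⟨_, fac12926⟩
  · exact ⟨_, fac12927⟩

theorem good201 : bx201.GoodK ((an : ℝ) / 100) (L.map (ITerm.term den)) (L2.map (ITerm.term den))
    (KL.map (KI.term den)) delta :=
  goodK_of_checkR an den (by decide) L L2 KL dtbl dtbl_ok rfl codes posN rowsA rowsB rowsC rows_tbl 12 256 8 72 b0 28 22
    (by decide) parts_ok (by decide +kernel) slice_ok lit_ok 1 (by decide +kernel) delta bx201 hd201
    (by decide) rls201 rls_ok201 (by decide) (planOf lams201) 190 dD201 dE201 els201 rfl pay201 delta_le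
    (fun b hb => by
      interval_cases b
      · exact bucket201_0
      · exact bucket201_1
      · exact bucket201_2
      · exact bucket201_3
      · exact bucket201_4
      · exact bucket201_5
      · exact bucket201_6
      · exact bucket201_7)

end Vale.Agent.P098.Exact.Sos6.Q93
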