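import Vale.Agent.P098.Exact.Sos6.Q93.Common
import Vale.Agent.P098.Exact.Sos6.Q93.Box202B0
import Vale.Agent.P098.Exact.Sos6.Q93.Box202B1
import Vale.Agent.P098.Exact.Sos6.Q93.Box202B2
import Vale.Agent.P098.Exact.Sos6.Q93.Box202B3
import Vale.Agent.P098.Exact.Sos6.Q93.Box202B4
import Vale.Agent.P098.Exact.Sos6.Q93.Box202B5
import Vale.Agent.P098.Exact.Sos6.Q93.Box202B6
import Vale.Agent.P098.Exact.Sos6.Q93.Box202B7

/-! Generated data of the dimension six interior check. -/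

noncomputable section

namespace Vale.Agent.P098.Exact.Sos6.Q93

set_option maxRecDepth 100000

theorem pay202 : dtbl.payOK 190 dD202 dE202 (elTot els202) = true := by decide +kernel

theorem rls_ok202 : ∀ G ∈ rls202, ∃ Ns, tbl.facR 72 b0 28 22 Ns G = true := by
  intro G hG
  simp only [rls202, List.mem_cons, List.not_mem_nil, or_false] at hG
  rcases hG with rfl | rfl | rfl | rfl | rfl | rfl | rfl | rfl | rfl | rfl | rfl | rfl | rfl | rfl | rfl | rfl | rfl | rfl | rfl | rfl | rfl | rfl | rfl | rfl | rfl | rfl | rfl | rfl | rfl | rfl | rfl | rfl | rfl | rfl | rfl | rfl | rfl | rfl | rfl | rfl | rfl | rfl | rfl | rfl | rfl | rfl | rfl | rfl | rfl | rfl | rfl | rfl | rfl | rfl | rfl | rfl | rfl | rfl | rfl | rfl | rfl | rfl | rfl | rfl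
  · exact ⟨_, fac12928⟩
  · exact ⟨_, fac12929⟩
  · exact ⟨_, fac12930⟩
  · exact ⟨_, fac12931⟩
  · exact ⟨_, fac12932⟩
  · exact ⟨_, fac12933⟩
  · exact ⟨_, fac12934⟩
  · exact ⟨_, fac12935⟩
  · exact ⟨_, fac12936⟩
  · exact ⟨_, fac12937⟩
  · exact ⟨_, fac12938⟩
  · exact ⟨_, fac12939⟩
  · exact ⟨_, fac12940⟩
  · exact ⟨_, fac12941⟩
  · exact ⟨_, fac12942⟩
  · exact ⟨_, fac12943⟩
  · exact ⟨_, fac12944⟩
  · exact ⟨_, fac12945⟩
  · exact ⟨_, fac12946⟩
  · exact ⟨_, fac12947⟩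
  · exact ⟨_, fac12948⟩
  · exact ⟨_, fac12949⟩
  · exact ⟨_, fac12950⟩
  · exact ⟨_, fac12951⟩
  · exact ⟨_, fac12952⟩
  · exact ⟨_, fac12953⟩
  · exact ⟨_, fac12954⟩
  · exact ⟨_, fac12955⟩
  · exact ⟨_, fac12956⟩
  · exact ⟨_, fac12957⟩
  · exact ⟨_, fac12958⟩
  · exact ⟨_, fac12959⟩
  · exact ⟨_, fac12960⟩
  · exact ⟨_, fac12961⟩
  · exact ⟨_, fac12962⟩
  · exact ⟨_, fac12963⟩
  · exact ⟨_, fac12964⟩
  · exact ⟨_, fac12965⟩
  · exact ⟨_, fac12966⟩
  · exact ⟨_, fac12967⟩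
  · exact ⟨_, fac12968⟩
  · exact ⟨_, fac12969⟩
  · exact ⟨_, fac12970⟩
  · exact ⟨_, fac12971⟩
  · exact ⟨_, fac12972⟩
  · exact ⟨_, fac12973⟩
  · exact ⟨_, fac12974⟩
  · exact ⟨_, fac12975⟩
  · exact ⟨_, fac12976⟩
  · exact ⟨_, fac12977⟩
  · exact ⟨_, fac12978⟩
  · exact ⟨_, fac12979⟩
  · exact ⟨_, fac12980⟩
  · exact ⟨_, fac12981⟩
  · exact ⟨_, fac12982⟩
  · exact ⟨_, fac12983⟩
  · exact ⟨_, fac12984⟩
  · exact ⟨_, fac12985⟩
  · exact ⟨_, fac12986⟩
  · exact ⟨_, fac12987⟩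
  · exact ⟨_, fac12988⟩
  · exact ⟨_, fac12989⟩
  · exact ⟨_, fac12990⟩
  · exact ⟨_, fac12991⟩

theorem good202 : bx202.GoodK ((an : ℝ) / 100) (L.map (ITerm.term den)) (L2.map (ITerm.term den))
    (KL.map (KI.term den)) delta :=
  goodK_of_checkR an den (by decide) L L2 KL dtbl dtbl_ok rfl codes posN rowsA rowsB rowsC rows_tbl 12 256 8 72 b0 28 22
    (by decide) parts_ok (by decide +kernel) slice_ok lit_ok 1 (by decide +kernel) delta bx202 hd202
    (by decide) rls202 rls_ok202 (by decide) (planOf lams202) 190 dD202 dE202 els202 rfl pay202 delta_le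
    (fun b hb => by
      interval_cases b
      · exact bucket202_0
      · exact bucket202_1
      · exact bucket202_2
      · exact bucket202_3
      · exact bucket202_4
      · exact bucket202_5
      · exact bucket202_6
      · exact bucket202_7)

end Vale.Agent.P098.Exact.Sos6.Q93
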