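import Vale.Agent.P098.Exact.Sos6.Q93.Common
import Vale.Agent.P098.Exact.Sos6.Q93.Box203B0
import Vale.Agent.P098.Exact.Sos6.Q93.Box203B1
import Vale.Agent.P098.Exact.Sos6.Q93.Box203B2
import Vale.Agent.P098.Exact.Sos6.Q93.Box203B3
import Vale.Agent.P098.Exact.Sos6.Q93.Box203B4
import Vale.Agent.P098.Exact.Sos6.Q93.Box203B5
import Vale.Agent.P098.Exact.Sos6.Q93.Box203B6
import Vale.Agent.P098.Exact.Sos6.Q93.Box203B7

/-! Generated data of the dimension six interior check. -/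

noncomputable section

namespace Vale.Agent.P098.Exact.Sos6.Q93

set_option maxRecDepth 100000

theorem pay203 : dtbl.payOK 190 dD203 dE203 (elTot els203) = true := by decide +kernel

theorem rls_ok203 : ∀ G ∈ rls203, ∃ Ns, tbl.facR 72 b0 28 22 Ns G = true := by
  intro G hG
  simp only [rls203, List.mem_cons, List.not_mem_nil, or_false] at hG
  rcases hG with rfl | rfl | rfl | rfl | rfl | rfl | rfl | rfl | rfl | rfl | rfl | rfl | rfl | rfl | rfl | rfl | rfl | rfl | rfl | rfl | rfl | rfl | rfl | rfl | rfl | rfl | rfl | rfl | rfl | rfl | rfl | rfl | rfl | rfl | rfl | rfl | rfl | rfl | rfl | rfl | rfl | rfl | rfl | rfl | rfl | rfl | rfl | rfl | rfl | rfl | rfl | rfl | rfl | rfl | rfl | rfl | rfl | rfl | rfl | rfl | rfl | rfl | rfl | rfl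
  · exact ⟨_, fac12992⟩
  · exact ⟨_, fac12993⟩
  · exact ⟨_, fac12994⟩
  · exact ⟨_, fac12995⟩
  · exact ⟨_, fac12996⟩
  · exact ⟨_, fac12997⟩
  · exact ⟨_, fac12998⟩
  · exact ⟨_, fac12999⟩
  · exact ⟨_, fac13000⟩
  · exact ⟨_, fac13001⟩
  · exact ⟨_, fac13002⟩
  · exact ⟨_, fac13003⟩
  · exact ⟨_, fac13004⟩
  · exact ⟨_, fac13005⟩
  · exact ⟨_, fac13006⟩
  · exact ⟨_, fac13007⟩
  · exact ⟨_, fac13008⟩
  · exact ⟨_, fac13009⟩
  · exact ⟨_, fac13010⟩
  · exact ⟨_, fac13011⟩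
  · exact ⟨_, fac13012⟩
  · exact ⟨_, fac13013⟩
  · exact ⟨_, fac13014⟩
  · exact ⟨_, fac13015⟩
  · exact ⟨_, fac13016⟩
  · exact ⟨_, fac13017⟩
  · exact ⟨_, fac13018⟩
  · exact ⟨_, fac13019⟩
  · exact ⟨_, fac13020⟩
  · exact ⟨_, fac13021⟩
  · exact ⟨_, fac13022⟩
  · exact ⟨_, fac13023⟩
  · exact ⟨_, fac13024⟩
  · exact ⟨_, fac13025⟩
  · exact ⟨_, fac13026⟩
  · exact ⟨_, fac13027⟩
  · exact ⟨_, fac13028⟩
  · exact ⟨_, fac13029⟩
  · exact ⟨_, fac13030⟩
  · exact ⟨_, fac13031⟩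
  · exact ⟨_, fac13032⟩
  · exact ⟨_, fac13033⟩
  · exact ⟨_, fac13034⟩
  · exact ⟨_, fac13035⟩
  · exact ⟨_, fac13036⟩
  · exact ⟨_, fac13037⟩
  · exact ⟨_, fac13038⟩
  · exact ⟨_, fac13039⟩
  · exact ⟨_, fac13040⟩
  · exact ⟨_, fac13041⟩
  · exact ⟨_, fac13042⟩
  · exact ⟨_, fac13043⟩
  · exact ⟨_, fac13044⟩
  · exact ⟨_, fac13045⟩
  · exact ⟨_, fac13046⟩
  · exact ⟨_, fac13047⟩
  · exact ⟨_, fac13048⟩
  · exact ⟨_, fac13049⟩
  · exact ⟨_, fac13050⟩
  · exact ⟨_, fac13051⟩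
  · exact ⟨_, fac13052⟩
  · exact ⟨_, fac13053⟩
  · exact ⟨_, fac13054⟩
  · exact ⟨_, fac13055⟩

theorem good203 : bx203.GoodK ((an : ℝ) / 100) (L.map (ITerm.term den)) (L2.map (ITerm.term den))
    (KL.map (KI.term den)) delta :=
  goodK_of_checkR an den (by decide) L L2 KL dtbl dtbl_ok rfl codes posN rowsA rowsB rowsC rows_tbl 12 256 8 72 b0 28 22
    (by decide) parts_ok (by decide +kernel) slice_ok lit_ok 1 (by decide +kernel) delta bx203 hd203
    (by decide) rls203 rls_ok203 (by decide) (planOf lams203) 190 dD203 dE203 els203 rfl pay203 delta_le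
    (fun b hb => by
      interval_cases b
      · exact bucket203_0
      · exact bucket203_1
      · exact bucket203_2
      · exact bucket203_3
      · exact bucket203_4
      · exact bucket203_5
      · exact bucket203_6
      · exact bucket203_7)

end Vale.Agent.P098.Exact.Sos6.Q93
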