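import Vale.Agent.P098.Exact.Sos6.Q93.Common
import Vale.Agent.P098.Exact.Sos6.Q93.Box204B0
import Vale.Agent.P098.Exact.Sos6.Q93.Box204B1
import Vale.Agent.P098.Exact.Sos6.Q93.Box204B2
import Vale.Agent.P098.Exact.Sos6.Q93.Box204B3
import Vale.Agent.P098.Exact.Sos6.Q93.Box204B4
import Vale.Agent.P098.Exact.Sos6.Q93.Box204B5
import Vale.Agent.P098.Exact.Sos6.Q93.Box204B6
import Vale.Agent.P098.Exact.Sos6.Q93.Box204B7

/-! Generated data of the dimension six interior check. -/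

noncomputable section

namespace Vale.Agent.P098.Exact.Sos6.Q93

set_option maxRecDepth 100000

theorem pay204 : dtbl.payOK 190 dD204 dE204 (elTot els204) = true := by decide +kernel

theorem rls_ok204 : ∀ G ∈ rls204, ∃ Ns, tbl.facR 72 b0 28 22 Ns G = true := by
  intro G hG
  simp only [rls204, List.mem_cons, List.not_mem_nil, or_false] at hG
  rcases hG with rfl | rfl | rfl | rfl | rfl | rfl | rfl | rfl | rfl | rfl | rfl | rfl | rfl | rfl | rfl | rfl | rfl | rfl | rfl | rfl | rfl | rfl | rfl | rfl | rfl | rfl | rfl | rfl | rfl | rfl | rfl | rfl | rfl | rfl | rfl | rfl | rfl | rfl | rfl | rfl | rfl | rfl | rfl | rfl | rfl | rfl | rfl | rfl | rfl | rfl | rfl | rfl | rfl | rfl | rfl | rfl | rfl | rfl | rfl | rfl | rfl | rfl | rfl | rfl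
  · exact ⟨_, fac13056⟩
  · exact ⟨_, fac13057⟩
  · exact ⟨_, fac13058⟩
  · exact ⟨_, fac13059⟩
  · exact ⟨_, fac13060⟩
  · exact ⟨_, fac13061⟩
  · exact ⟨_, fac13062⟩
  · exact ⟨_, fac13063⟩
  · exact ⟨_, fac13064⟩
  · exact ⟨_, fac13065⟩
  · exact ⟨_, fac13066⟩
  · exact ⟨_, fac13067⟩
  · exact ⟨_, fac13068⟩
  · exact ⟨_, fac13069⟩
  · exact ⟨_, fac13070⟩
  · exact ⟨_, fac13071⟩
  · exact ⟨_, fac13072⟩
  · exact ⟨_, fac13073⟩
  · exact ⟨_, fac13074⟩
  · exact ⟨_, fac13075⟩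
  · exact ⟨_, fac13076⟩
  · exact ⟨_, fac13077⟩
  · exact ⟨_, fac13078⟩
  · exact ⟨_, fac13079⟩
  · exact ⟨_, fac13080⟩
  · exact ⟨_, fac13081⟩
  · exact ⟨_, fac13082⟩
  · exact ⟨_, fac13083⟩
  · exact ⟨_, fac13084⟩
  · exact ⟨_, fac13085⟩
  · exact ⟨_, fac13086⟩
  · exact ⟨_, fac13087⟩
  · exact ⟨_, fac13088⟩
  · exact ⟨_, fac13089⟩
  · exact ⟨_, fac13090⟩
  · exact ⟨_, fac13091⟩
  · exact ⟨_, fac13092⟩
  · exact ⟨_, fac13093⟩
  · exact ⟨_, fac13094⟩
  · exact ⟨_, fac13095⟩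
  · exact ⟨_, fac13096⟩
  · exact ⟨_, fac13097⟩
  · exact ⟨_, fac13098⟩
  · exact ⟨_, fac13099⟩
  · exact ⟨_, fac13100⟩
  · exact ⟨_, fac13101⟩
  · exact ⟨_, fac13102⟩
  · exact ⟨_, fac13103⟩
  · exact ⟨_, fac13104⟩
  · exact ⟨_, fac13105⟩
  · exact ⟨_, fac13106⟩
  · exact ⟨_, fac13107⟩
  · exact ⟨_, fac13108⟩
  · exact ⟨_, fac13109⟩
  · exact ⟨_, fac13110⟩
  · exact ⟨_, fac13111⟩
  · exact ⟨_, fac13112⟩
  · exact ⟨_, fac13113⟩
  · exact ⟨_, fac13114⟩
  · exact ⟨_, fac13115⟩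
  · exact ⟨_, fac13116⟩
  · exact ⟨_, fac13117⟩
  · exact ⟨_, fac13118⟩
  · exact ⟨_, fac13119⟩

theorem good204 : bx204.GoodK ((an : ℝ) / 100) (L.map (ITerm.term den)) (L2.map (ITerm.term den))
    (KL.map (KI.term den)) delta :=
  goodK_of_checkR an den (by decide) L L2 KL dtbl dtbl_ok rfl codes posN rowsA rowsB rowsC rows_tbl 12 256 8 72 b0 28 22
    (by decide) parts_ok (by decide +kernel) slice_ok lit_ok 1 (by decide +kernel) delta bx204 hd204
    (by decide) rls204 rls_ok204 (by decide) (planOf lams204) 190 dD204 dE204 els204 rfl pay204 delta_le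
    (fun b hb => by
      interval_cases b
      · exact bucket204_0
      · exact bucket204_1
      · exact bucket204_2
      · exact bucket204_3
      · exact bucket204_4
      · exact bucket204_5
      · exact bucket204_6
      · exact bucket204_7)

end Vale.Agent.P098.Exact.Sos6.Q93
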