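import Vale.Agent.P098.Exact.Sos6.Q93.Common
import Vale.Agent.P098.Exact.Sos6.Q93.Box205B0
import Vale.Agent.P098.Exact.Sos6.Q93.Box205B1
import Vale.Agent.P098.Exact.Sos6.Q93.Box205B2
import Vale.Agent.P098.Exact.Sos6.Q93.Box205B3
import Vale.Agent.P098.Exact.Sos6.Q93.Box205B4
import Vale.Agent.P098.Exact.Sos6.Q93.Box205B5
import Vale.Agent.P098.Exact.Sos6.Q93.Box205B6
import Vale.Agent.P098.Exact.Sos6.Q93.Box205B7

/-! Generated data of the dimension six interior check. -/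

noncomputable section

namespace Vale.Agent.P098.Exact.Sos6.Q93

set_option maxRecDepth 100000

theorem pay205 : dtbl.payOK 190 dD205 dE205 (elTot els205) = true := by decide +kernel

theorem rls_ok205 : ∀ G ∈ rls205, ∃ Ns, tbl.facR 72 b0 28 22 Ns G = true := by
  intro G hG
  simp only [rls205, List.mem_cons, List.not_mem_nil, or_false] at hG
  rcases hG with rfl | rfl | rfl | rfl | rfl | rfl | rfl | rfl | rfl | rfl | rfl | rfl | rfl | rfl | rfl | rfl | rfl | rfl | rfl | rfl | rfl | rfl | rfl | rfl | rfl | rfl | rfl | rfl | rfl | rfl | rfl | rfl | rfl | rfl | rfl | rfl | rfl | rfl | rfl | rfl | rfl | rfl | rfl | rfl | rfl | rfl | rfl | rfl | rfl | rfl | rfl | rfl | rfl | rfl | rfl | rfl | rfl | rfl | rfl | rfl | rfl | rfl | rfl | rfl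
  · exact ⟨_, fac13120⟩
  · exact ⟨_, fac13121⟩
  · exact ⟨_, fac13122⟩
  · exact ⟨_, fac13123⟩
  · exact ⟨_, fac13124⟩
  · exact ⟨_, fac13125⟩
  · exact ⟨_, fac13126⟩
  · exact ⟨_, fac13127⟩
  · exact ⟨_, fac13128⟩
  · exact ⟨_, fac13129⟩
  · exact ⟨_, fac13130⟩
  · exact ⟨_, fac13131⟩
  · exact ⟨_, fac13132⟩
  · exact ⟨_, fac13133⟩
  · exact ⟨_, fac13134⟩
  · exact ⟨_, fac13135⟩
  · exact ⟨_, fac13136⟩
  · exact ⟨_, fac13137⟩
  · exact ⟨_, fac13138⟩
  · exact ⟨_, fac13139⟩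
  · exact ⟨_, fac13140⟩
  · exact ⟨_, fac13141⟩
  · exact ⟨_, fac13142⟩
  · exact ⟨_, fac13143⟩
  · exact ⟨_, fac13144⟩
  · exact ⟨_, fac13145⟩
  · exact ⟨_, fac13146⟩
  · exact ⟨_, fac13147⟩
  · exact ⟨_, fac13148⟩
  · exact ⟨_, fac13149⟩
  · exact ⟨_, fac13150⟩
  · exact ⟨_, fac13151⟩
  · exact ⟨_, fac13152⟩
  · exact ⟨_, fac13153⟩
  · exact ⟨_, fac13154⟩
  · exact ⟨_, fac13155⟩
  · exact ⟨_, fac13156⟩
  · exact ⟨_, fac13157⟩
  · exact ⟨_, fac13158⟩
  · exact ⟨_, fac13159⟩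
  · exact ⟨_, fac13160⟩
  · exact ⟨_, fac13161⟩
  · exact ⟨_, fac13162⟩
  · exact ⟨_, fac13163⟩
  · exact ⟨_, fac13164⟩
  · exact ⟨_, fac13165⟩
  · exact ⟨_, fac13166⟩
  · exact ⟨_, fac13167⟩
  · exact ⟨_, fac13168⟩
  · exact ⟨_, fac13169⟩
  · exact ⟨_, fac13170⟩
  · exact ⟨_, fac13171⟩
  · exact ⟨_, fac13172⟩
  · exact ⟨_, fac13173⟩
  · exact ⟨_, fac13174⟩
  · exact ⟨_, fac13175⟩
  · exact ⟨_, fac13176⟩
  · exact ⟨_, fac13177⟩
  · exact ⟨_, fac13178⟩
  · exact ⟨_, fac13179⟩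
  · exact ⟨_, fac13180⟩
  · exact ⟨_, fac13181⟩
  · exact ⟨_, fac13182⟩
  · exact ⟨_, fac13183⟩

theorem good205 : bx205.GoodK ((an : ℝ) / 100) (L.map (ITerm.term den)) (L2.map (ITerm.term den))
    (KL.map (KI.term den)) delta :=
  goodK_of_checkR an den (by decide) L L2 KL dtbl dtbl_ok rfl codes posN rowsA rowsB rowsC rows_tbl 12 256 8 72 b0 28 22
    (by decide) parts_ok (by decide +kernel) slice_ok lit_ok 1 (by decide +kernel) delta bx205 hd205
    (by decide) rls205 rls_ok205 (by decide) (planOf lams205) 190 dD205 dE205 els205 rfl pay205 delta_le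
    (fun b hb => by
      interval_cases b
      · exact bucket205_0
      · exact bucket205_1
      · exact bucket205_2
      · exact bucket205_3
      · exact bucket205_4
      · exact bucket205_5
      · exact bucket205_6
      · exact bucket205_7)

end Vale.Agent.P098.Exact.Sos6.Q93
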