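import Vale.Agent.P098.Exact.Sos6.Q93.Common
import Vale.Agent.P098.Exact.Sos6.Q93.Box206B0
import Vale.Agent.P098.Exact.Sos6.Q93.Box206B1
import Vale.Agent.P098.Exact.Sos6.Q93.Box206B2
import Vale.Agent.P098.Exact.Sos6.Q93.Box206B3
import Vale.Agent.P098.Exact.Sos6.Q93.Box206B4
import Vale.Agent.P098.Exact.Sos6.Q93.Box206B5
import Vale.Agent.P098.Exact.Sos6.Q93.Box206B6
import Vale.Agent.P098.Exact.Sos6.Q93.Box206B7

/-! Generated data of the dimension six interior check. -/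

noncomputable section

namespace Vale.Agent.P098.Exact.Sos6.Q93

set_option maxRecDepth 100000

theorem pay206 : dtbl.payOK 190 dD206 dE206 (elTot els206) = true := by decide +kernel

theorem rls_ok206 : ∀ G ∈ rls206, ∃ Ns, tbl.facR 72 b0 28 22 Ns G = true := by
  intro G hG
  simp only [rls206, List.mem_cons, List.not_mem_nil, or_false] at hG
  rcases hG with rfl | rfl | rfl | rfl | rfl | rfl | rfl | rfl | rfl | rfl | rfl | rfl | rfl | rfl | rfl | rfl | rfl | rfl | rfl | rfl | rfl | rfl | rfl | rfl | rfl | rfl | rfl | rfl | rfl | rfl | rfl | rfl | rfl | rfl | rfl | rfl | rfl | rfl | rfl | rfl | rfl | rfl | rfl | rfl | rfl | rfl | rfl | rfl | rfl | rfl | rfl | rfl | rfl | rfl | rfl | rfl | rfl | rfl | rfl | rfl | rfl | rfl | rfl | rfl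
  · exact ⟨_, fac13184⟩
  · exact ⟨_, fac13185⟩
  · exact ⟨_, fac13186⟩
  · exact ⟨_, fac13187⟩
  · exact ⟨_, fac13188⟩
  · exact ⟨_, fac13189⟩
  · exact ⟨_, fac13190⟩
  · exact ⟨_, fac13191⟩
  · exact ⟨_, fac13192⟩
  · exact ⟨_, fac13193⟩
  · exact ⟨_, fac13194⟩
  · exact ⟨_, fac13195⟩
  · exact ⟨_, fac13196⟩
  · exact ⟨_, fac13197⟩
  · exact ⟨_, fac13198⟩
  · exact ⟨_, fac13199⟩
  · exact ⟨_, fac13200⟩
  · exact ⟨_, fac13201⟩
  · exact ⟨_, fac13202⟩
  · exact ⟨_, fac13203⟩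
  · exact ⟨_, fac13204⟩
  · exact ⟨_, fac13205⟩
  · exact ⟨_, fac13206⟩
  · exact ⟨_, fac13207⟩
  · exact ⟨_, fac13208⟩
  · exact ⟨_, fac13209⟩
  · exact ⟨_, fac13210⟩
  · exact ⟨_, fac13211⟩
  · exact ⟨_, fac13212⟩
  · exact ⟨_, fac13213⟩
  · exact ⟨_, fac13214⟩
  · exact ⟨_, fac13215⟩
  · exact ⟨_, fac13216⟩
  · exact ⟨_, fac13217⟩
  · exact ⟨_, fac13218⟩
  · exact ⟨_, fac13219⟩
  · exact ⟨_, fac13220⟩
  · exact ⟨_, fac13221⟩
  · exact ⟨_, fac13222⟩
  · exact ⟨_, fac13223⟩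
  · exact ⟨_, fac13224⟩
  · exact ⟨_, fac13225⟩
  · exact ⟨_, fac13226⟩
  · exact ⟨_, fac13227⟩
  · exact ⟨_, fac13228⟩
  · exact ⟨_, fac13229⟩
  · exact ⟨_, fac13230⟩
  · exact ⟨_, fac13231⟩
  · exact ⟨_, fac13232⟩
  · exact ⟨_, fac13233⟩
  · exact ⟨_, fac13234⟩
  · exact ⟨_, fac13235⟩
  · exact ⟨_, fac13236⟩
  · exact ⟨_, fac13237⟩
  · exact ⟨_, fac13238⟩
  · exact ⟨_, fac13239⟩
  · exact ⟨_, fac13240⟩
  · exact ⟨_, fac13241⟩
  · exact ⟨_, fac13242⟩
  · exact ⟨_, fac13243⟩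
  · exact ⟨_, fac13244⟩
  · exact ⟨_, fac13245⟩
  · exact ⟨_, fac13246⟩
  · exact ⟨_, fac13247⟩

theorem good206 : bx206.GoodK ((an : ℝ) / 100) (L.map (ITerm.term den)) (L2.map (ITerm.term den))
    (KL.map (KI.term den)) delta :=
  goodK_of_checkR an den (by decide) L L2 KL dtbl dtbl_ok rfl codes posN rowsA rowsB rowsC rows_tbl 12 256 8 72 b0 28 22
    (by decide) parts_ok (by decide +kernel) slice_ok lit_ok 1 (by decide +kernel) delta bx206 hd206
    (by decide) rls206 rls_ok206 (by decide) (planOf lams206) 190 dD206 dE206 els206 rfl pay206 delta_le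
    (fun b hb => by
      interval_cases b
      · exact bucket206_0
      · exact bucket206_1
      · exact bucket206_2
      · exact bucket206_3
      · exact bucket206_4
      · exact bucket206_5
      · exact bucket206_6
      · exact bucket206_7)

end Vale.Agent.P098.Exact.Sos6.Q93
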