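import Vale.Agent.P098.Exact.Sos6.Q93.Common
import Vale.Agent.P098.Exact.Sos6.Q93.Box207B0
import Vale.Agent.P098.Exact.Sos6.Q93.Box207B1
import Vale.Agent.P098.Exact.Sos6.Q93.Box207B2
import Vale.Agent.P098.Exact.Sos6.Q93.Box207B3
import Vale.Agent.P098.Exact.Sos6.Q93.Box207B4
import Vale.Agent.P098.Exact.Sos6.Q93.Box207B5
import Vale.Agent.P098.Exact.Sos6.Q93.Box207B6
import Vale.Agent.P098.Exact.Sos6.Q93.Box207B7

/-! Generated data of the dimension six interior check. -/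

noncomputable section

namespace Vale.Agent.P098.Exact.Sos6.Q93

set_option maxRecDepth 100000

theorem pay207 : dtbl.payOK 190 dD207 dE207 (elTot els207) = true := by decide +kernel

theorem rls_ok207 : ∀ G ∈ rls207, ∃ Ns, tbl.facR 72 b0 28 22 Ns G = true := by
  intro G hG
  simp only [rls207, List.mem_cons, List.not_mem_nil, or_false] at hG
  rcases hG with rfl | rfl | rfl | rfl | rfl | rfl | rfl | rfl | rfl | rfl | rfl | rfl | rfl | rfl | rfl | rfl | rfl | rfl | rfl | rfl | rfl | rfl | rfl | rfl | rfl | rfl | rfl | rfl | rfl | rfl | rfl | rfl | rfl | rfl | rfl | rfl | rfl | rfl | rfl | rfl | rfl | rfl | rfl | rfl | rfl | rfl | rfl | rfl | rfl | rfl | rfl | rfl | rfl | rfl | rfl | rfl | rfl | rfl | rfl | rfl | rfl | rfl | rfl | rfl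
  · exact ⟨_, fac13248⟩
  · exact ⟨_, fac13249⟩
  · exact ⟨_, fac13250⟩
  · exact ⟨_, fac13251⟩
  · exact ⟨_, fac13252⟩
  · exact ⟨_, fac13253⟩
  · exact ⟨_, fac13254⟩
  · exact ⟨_, fac13255⟩
  · exact ⟨_, fac13256⟩
  · exact ⟨_, fac13257⟩
  · exact ⟨_, fac13258⟩
  · exact ⟨_, fac13259⟩
  · exact ⟨_, fac13260⟩
  · exact ⟨_, fac13261⟩
  · exact ⟨_, fac13262⟩
  · exact ⟨_, fac13263⟩
  · exact ⟨_, fac13264⟩
  · exact ⟨_, fac13265⟩
  · exact ⟨_, fac13266⟩
  · exact ⟨_, fac13267⟩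
  · exact ⟨_, fac13268⟩
  · exact ⟨_, fac13269⟩
  · exact ⟨_, fac13270⟩
  · exact ⟨_, fac13271⟩
  · exact ⟨_, fac13272⟩
  · exact ⟨_, fac13273⟩
  · exact ⟨_, fac13274⟩
  · exact ⟨_, fac13275⟩
  · exact ⟨_, fac13276⟩
  · exact ⟨_, fac13277⟩
  · exact ⟨_, fac13278⟩
  · exact ⟨_, fac13279⟩
  · exact ⟨_, fac13280⟩
  · exact ⟨_, fac13281⟩
  · exact ⟨_, fac13282⟩
  · exact ⟨_, fac13283⟩
  · exact ⟨_, fac13284⟩
  · exact ⟨_, fac13285⟩
  · exact ⟨_, fac13286⟩
  · exact ⟨_, fac13287⟩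
  · exact ⟨_, fac13288⟩
  · exact ⟨_, fac13289⟩
  · exact ⟨_, fac13290⟩
  · exact ⟨_, fac13291⟩
  · exact ⟨_, fac13292⟩
  · exact ⟨_, fac13293⟩
  · exact ⟨_, fac13294⟩
  · exact ⟨_, fac13295⟩
  · exact ⟨_, fac13296⟩
  · exact ⟨_, fac13297⟩
  · exact ⟨_, fac13298⟩
  · exact ⟨_, fac13299⟩
  · exact ⟨_, fac13300⟩
  · exact ⟨_, fac13301⟩
  · exact ⟨_, fac13302⟩
  · exact ⟨_, fac13303⟩
  · exact ⟨_, fac13304⟩
  · exact ⟨_, fac13305⟩
  · exact ⟨_, fac13306⟩
  · exact ⟨_, fac13307⟩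
  · exact ⟨_, fac13308⟩
  · exact ⟨_, fac13309⟩
  · exact ⟨_, fac13310⟩
  · exact ⟨_, fac13311⟩

theorem good207 : bx207.GoodK ((an : ℝ) / 100) (L.map (ITerm.term den)) (L2.map (ITerm.term den))
    (KL.map (KI.term den)) delta :=
  goodK_of_checkR an den (by decide) L L2 KL dtbl dtbl_ok rfl codes posN rowsA rowsB rowsC rows_tbl 12 256 8 72 b0 28 22
    (by decide) parts_ok (by decide +kernel) slice_ok lit_ok 1 (by decide +kernel) delta bx207 hd207
    (by decide) rls207 rls_ok207 (by decide) (planOf lams207) 190 dD207 dE207 els207 rfl pay207 delta_le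
    (fun b hb => by
      interval_cases b
      · exact bucket207_0
      · exact bucket207_1
      · exact bucket207_2
      · exact bucket207_3
      · exact bucket207_4
      · exact bucket207_5
      · exact bucket207_6
      · exact bucket207_7)

end Vale.Agent.P098.Exact.Sos6.Q93
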