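import Vale.Agent.P098.Exact.Sos6.Q93.Common
import Vale.Agent.P098.Exact.Sos6.Q93.Box208B0
import Vale.Agent.P098.Exact.Sos6.Q93.Box208B1
import Vale.Agent.P098.Exact.Sos6.Q93.Box208B2
import Vale.Agent.P098.Exact.Sos6.Q93.Box208B3
import Vale.Agent.P098.Exact.Sos6.Q93.Box208B4
import Vale.Agent.P098.Exact.Sos6.Q93.Box208B5
import Vale.Agent.P098.Exact.Sos6.Q93.Box208B6
import Vale.Agent.P098.Exact.Sos6.Q93.Box208B7

/-! Generated data of the dimension six interior check. -/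

noncomputable section

namespace Vale.Agent.P098.Exact.Sos6.Q93

set_option maxRecDepth 100000

theorem pay208 : dtbl.payOK 190 dD208 dE208 (elTot els208) = true := by decide +kernel

theorem rls_ok208 : ∀ G ∈ rls208, ∃ Ns, tbl.facR 72 b0 28 22 Ns G = true := by
  intro G hG
  simp only [rls208, List.mem_cons, List.not_mem_nil, or_false] at hG
  rcases hG with rfl | rfl | rfl | rfl | rfl | rfl | rfl | rfl | rfl | rfl | rfl | rfl | rfl | rfl | rfl | rfl | rfl | rfl | rfl | rfl | rfl | rfl | rfl | rfl | rfl | rfl | rfl | rfl | rfl | rfl | rfl | rfl | rfl | rfl | rfl | rfl | rfl | rfl | rfl | rfl | rfl | rfl | rfl | rfl | rfl | rfl | rfl | rfl | rfl | rfl | rfl | rfl | rfl | rfl | rfl | rfl | rfl | rfl | rfl | rfl | rfl | rfl | rfl | rfl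
  · exact ⟨_, fac13312⟩
  · exact ⟨_, fac13313⟩
  · exact ⟨_, fac13314⟩
  · exact ⟨_, fac13315⟩
  · exact ⟨_, fac13316⟩
  · exact ⟨_, fac13317⟩
  · exact ⟨_, fac13318⟩
  · exact ⟨_, fac13319⟩
  · exact ⟨_, fac13320⟩
  · exact ⟨_, fac13321⟩
  · exact ⟨_, fac13322⟩
  · exact ⟨_, fac13323⟩
  · exact ⟨_, fac13324⟩
  · exact ⟨_, fac13325⟩
  · exact ⟨_, fac13326⟩
  · exact ⟨_, fac13327⟩
  · exact ⟨_, fac13328⟩
  · exact ⟨_, fac13329⟩
  · exact ⟨_, fac13330⟩
  · exact ⟨_, fac13331⟩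
  · exact ⟨_, fac13332⟩
  · exact ⟨_, fac13333⟩
  · exact ⟨_, fac13334⟩
  · exact ⟨_, fac13335⟩
  · exact ⟨_, fac13336⟩
  · exact ⟨_, fac13337⟩
  · exact ⟨_, fac13338⟩
  · exact ⟨_, fac13339⟩
  · exact ⟨_, fac13340⟩
  · exact ⟨_, fac13341⟩
  · exact ⟨_, fac13342⟩
  · exact ⟨_, fac13343⟩
  · exact ⟨_, fac13344⟩
  · exact ⟨_, fac13345⟩
  · exact ⟨_, fac13346⟩
  · exact ⟨_, fac13347⟩
  · exact ⟨_, fac13348⟩
  · exact ⟨_, fac13349⟩
  · exact ⟨_, fac13350⟩
  · exact ⟨_, fac13351⟩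
  · exact ⟨_, fac13352⟩
  · exact ⟨_, fac13353⟩
  · exact ⟨_, fac13354⟩
  · exact ⟨_, fac13355⟩
  · exact ⟨_, fac13356⟩
  · exact ⟨_, fac13357⟩
  · exact ⟨_, fac13358⟩
  · exact ⟨_, fac13359⟩
  · exact ⟨_, fac13360⟩
  · exact ⟨_, fac13361⟩
  · exact ⟨_, fac13362⟩
  · exact ⟨_, fac13363⟩
  · exact ⟨_, fac13364⟩
  · exact ⟨_, fac13365⟩
  · exact ⟨_, fac13366⟩
  · exact ⟨_, fac13367⟩
  · exact ⟨_, fac13368⟩
  · exact ⟨_, fac13369⟩
  · exact ⟨_, fac13370⟩
  · exact ⟨_, fac13371⟩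
  · exact ⟨_, fac13372⟩
  · exact ⟨_, fac13373⟩
  · exact ⟨_, fac13374⟩
  · exact ⟨_, fac13375⟩

theorem good208 : bx208.GoodK ((an : ℝ) / 100) (L.map (ITerm.term den)) (L2.map (ITerm.term den))
    (KL.map (KI.term den)) delta :=
  goodK_of_checkR an den (by decide) L L2 KL dtbl dtbl_ok rfl codes posN rowsA rowsB rowsC rows_tbl 12 256 8 72 b0 28 22
    (by decide) parts_ok (by decide +kernel) slice_ok lit_ok 1 (by decide +kernel) delta bx208 hd208
    (by decide) rls208 rls_ok208 (by decide) (planOf lams208) 190 dD208 dE208 els208 rfl pay208 delta_le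
    (fun b hb => by
      interval_cases b
      · exact bucket208_0
      · exact bucket208_1
      · exact bucket208_2
      · exact bucket208_3
      · exact bucket208_4
      · exact bucket208_5
      · exact bucket208_6
      · exact bucket208_7)

end Vale.Agent.P098.Exact.Sos6.Q93
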