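import Vale.Agent.P098.Exact.Sos6.Q93.Common
import Vale.Agent.P098.Exact.Sos6.Q93.Box209B0
import Vale.Agent.P098.Exact.Sos6.Q93.Box209B1
import Vale.Agent.P098.Exact.Sos6.Q93.Box209B2
import Vale.Agent.P098.Exact.Sos6.Q93.Box209B3
import Vale.Agent.P098.Exact.Sos6.Q93.Box209B4
import Vale.Agent.P098.Exact.Sos6.Q93.Box209B5
import Vale.Agent.P098.Exact.Sos6.Q93.Box209B6
import Vale.Agent.P098.Exact.Sos6.Q93.Box209B7

/-! Generated data of the dimension six interior check. -/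

noncomputable section

namespace Vale.Agent.P098.Exact.Sos6.Q93

set_option maxRecDepth 100000

theorem pay209 : dtbl.payOK 190 dD209 dE209 (elTot els209) = true := by decide +kernel

theorem rls_ok209 : ∀ G ∈ rls209, ∃ Ns, tbl.facR 72 b0 28 22 Ns G = true := by
  intro G hG
  simp only [rls209, List.mem_cons, List.not_mem_nil, or_false] at hG
  rcases hG with rfl | rfl | rfl | rfl | rfl | rfl | rfl | rfl | rfl | rfl | rfl | rfl | rfl | rfl | rfl | rfl | rfl | rfl | rfl | rfl | rfl | rfl | rfl | rfl | rfl | rfl | rfl | rfl | rfl | rfl | rfl | rfl | rfl | rfl | rfl | rfl | rfl | rfl | rfl | rfl | rfl | rfl | rfl | rfl | rfl | rfl | rfl | rfl | rfl | rfl | rfl | rfl | rfl | rfl | rfl | rfl | rfl | rfl | rfl | rfl | rfl | rfl | rfl | rfl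
  · exact ⟨_, fac13376⟩
  · exact ⟨_, fac13377⟩
  · exact ⟨_, fac13378⟩
  · exact ⟨_, fac13379⟩
  · exact ⟨_, fac13380⟩
  · exact ⟨_, fac13381⟩
  · exact ⟨_, fac13382⟩
  · exact ⟨_, fac13383⟩
  · exact ⟨_, fac13384⟩
  · exact ⟨_, fac13385⟩
  · exact ⟨_, fac13386⟩
  · exact ⟨_, fac13387⟩
  · exact ⟨_, fac13388⟩
  · exact ⟨_, fac13389⟩
  · exact ⟨_, fac13390⟩
  · exact ⟨_, fac13391⟩
  · exact ⟨_, fac13392⟩
  · exact ⟨_, fac13393⟩
  · exact ⟨_, fac13394⟩
  · exact ⟨_, fac13395⟩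
  · exact ⟨_, fac13396⟩
  · exact ⟨_, fac13397⟩
  · exact ⟨_, fac13398⟩
  · exact ⟨_, fac13399⟩
  · exact ⟨_, fac13400⟩
  · exact ⟨_, fac13401⟩
  · exact ⟨_, fac13402⟩
  · exact ⟨_, fac13403⟩
  · exact ⟨_, fac13404⟩
  · exact ⟨_, fac13405⟩
  · exact ⟨_, fac13406⟩
  · exact ⟨_, fac13407⟩
  · exact ⟨_, fac13408⟩
  · exact ⟨_, fac13409⟩
  · exact ⟨_, fac13410⟩
  · exact ⟨_, fac13411⟩
  · exact ⟨_, fac13412⟩
  · exact ⟨_, fac13413⟩
  · exact ⟨_, fac13414⟩
  · exact ⟨_, fac13415⟩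
  · exact ⟨_, fac13416⟩
  · exact ⟨_, fac13417⟩
  · exact ⟨_, fac13418⟩
  · exact ⟨_, fac13419⟩
  · exact ⟨_, fac13420⟩
  · exact ⟨_, fac13421⟩
  · exact ⟨_, fac13422⟩
  · exact ⟨_, fac13423⟩
  · exact ⟨_, fac13424⟩
  · exact ⟨_, fac13425⟩
  · exact ⟨_, fac13426⟩
  · exact ⟨_, fac13427⟩
  · exact ⟨_, fac13428⟩
  · exact ⟨_, fac13429⟩
  · exact ⟨_, fac13430⟩
  · exact ⟨_, fac13431⟩
  · exact ⟨_, fac13432⟩
  · exact ⟨_, fac13433⟩
  · exact ⟨_, fac13434⟩
  · exact ⟨_, fac13435⟩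
  · exact ⟨_, fac13436⟩
  · exact ⟨_, fac13437⟩
  · exact ⟨_, fac13438⟩
  · exact ⟨_, fac13439⟩

theorem good209 : bx209.GoodK ((an : ℝ) / 100) (L.map (ITerm.term den)) (L2.map (ITerm.term den))
    (KL.map (KI.term den)) delta :=
  goodK_of_checkR an den (by decide) L L2 KL dtbl dtbl_ok rfl codes posN rowsA rowsB rowsC rows_tbl 12 256 8 72 b0 28 22
    (by decide) parts_ok (by decide +kernel) slice_ok lit_ok 1 (by decide +kernel) delta bx209 hd209
    (by decide) rls209 rls_ok209 (by decide) (planOf lams209) 190 dD209 dE209 els209 rfl pay209 delta_le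
    (fun b hb => by
      interval_cases b
      · exact bucket209_0
      · exact bucket209_1
      · exact bucket209_2
      · exact bucket209_3
      · exact bucket209_4
      · exact bucket209_5
      · exact bucket209_6
      · exact bucket209_7)

end Vale.Agent.P098.Exact.Sos6.Q93
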