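import Vale.Agent.P098.Exact.Sos6.Q93.Common
import Vale.Agent.P098.Exact.Sos6.Q93.Box20B0
import Vale.Agent.P098.Exact.Sos6.Q93.Box20B1
import Vale.Agent.P098.Exact.Sos6.Q93.Box20B2
import Vale.Agent.P098.Exact.Sos6.Q93.Box20B3
import Vale.Agent.P098.Exact.Sos6.Q93.Box20B4
import Vale.Agent.P098.Exact.Sos6.Q93.Box20B5
import Vale.Agent.P098.Exact.Sos6.Q93.Box20B6
import Vale.Agent.P098.Exact.Sos6.Q93.Box20B7

/-! Generated data of the dimension six interior check. -/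

noncomputable section

namespace Vale.Agent.P098.Exact.Sos6.Q93

set_option maxRecDepth 100000

theorem pay20 : dtbl.payOK 190 dD20 dE20 (elTot els20) = true := by decide +kernel

theorem rls_ok20 : ∀ G ∈ rls20, ∃ Ns, tbl.facR 72 b0 28 22 Ns G = true := by
  intro G hG
  simp only [rls20, List.mem_cons, List.not_mem_nil, or_false] at hG
  rcases hG with rfl | rfl | rfl | rfl | rfl | rfl | rfl | rfl | rfl | rfl | rfl | rfl | rfl | rfl | rfl | rfl | rfl | rfl | rfl | rfl | rfl | rfl | rfl | rfl | rfl | rfl | rfl | rfl | rfl | rfl | rfl | rfl | rfl | rfl | rfl | rfl | rfl | rfl | rfl | rfl | rfl | rfl | rfl | rfl | rfl | rfl | rfl | rfl | rfl | rfl | rfl | rfl | rfl | rfl | rfl | rfl | rfl | rfl | rfl | rfl | rfl | rfl | rfl | rfl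
  · exact ⟨_, fac1280⟩
  · exact ⟨_, fac1281⟩
  · exact ⟨_, fac1282⟩
  · exact ⟨_, fac1283⟩
  · exact ⟨_, fac1284⟩
  · exact ⟨_, fac1285⟩
  · exact ⟨_, fac1286⟩
  · exact ⟨_, fac1287⟩
  · exact ⟨_, fac1288⟩
  · exact ⟨_, fac1289⟩
  · exact ⟨_, fac1290⟩
  · exact ⟨_, fac1291⟩
  · exact ⟨_, fac1292⟩
  · exact ⟨_, fac1293⟩
  · exact ⟨_, fac1294⟩
  · exact ⟨_, fac1295⟩
  · exact ⟨_, fac1296⟩
  · exact ⟨_, fac1297⟩
  · exact ⟨_, fac1298⟩
  · exact ⟨_, fac1299⟩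
  · exact ⟨_, fac1300⟩
  · exact ⟨_, fac1301⟩
  · exact ⟨_, fac1302⟩
  · exact ⟨_, fac1303⟩
  · exact ⟨_, fac1304⟩
  · exact ⟨_, fac1305⟩
  · exact ⟨_, fac1306⟩
  · exact ⟨_, fac1307⟩
  · exact ⟨_, fac1308⟩
  · exact ⟨_, fac1309⟩
  · exact ⟨_, fac1310⟩
  · exact ⟨_, fac1311⟩
  · exact ⟨_, fac1312⟩
  · exact ⟨_, fac1313⟩
  · exact ⟨_, fac1314⟩
  · exact ⟨_, fac1315⟩
  · exact ⟨_, fac1316⟩
  · exact ⟨_, fac1317⟩
  · exact ⟨_, fac1318⟩
  · exact ⟨_, fac1319⟩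
  · exact ⟨_, fac1320⟩
  · exact ⟨_, fac1321⟩
  · exact ⟨_, fac1322⟩
  · exact ⟨_, fac1323⟩
  · exact ⟨_, fac1324⟩
  · exact ⟨_, fac1325⟩
  · exact ⟨_, fac1326⟩
  · exact ⟨_, fac1327⟩
  · exact ⟨_, fac1328⟩
  · exact ⟨_, fac1329⟩
  · exact ⟨_, fac1330⟩
  · exact ⟨_, fac1331⟩
  · exact ⟨_, fac1332⟩
  · exact ⟨_, fac1333⟩
  · exact ⟨_, fac1334⟩
  · exact ⟨_, fac1335⟩
  · exact ⟨_, fac1336⟩
  · exact ⟨_, fac1337⟩
  · exact ⟨_, fac1338⟩
  · exact ⟨_, fac1339⟩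
  · exact ⟨_, fac1340⟩
  · exact ⟨_, fac1341⟩
  · exact ⟨_, fac1342⟩
  · exact ⟨_, fac1343⟩

theorem good20 : bx20.GoodK ((an : ℝ) / 100) (L.map (ITerm.term den)) (L2.map (ITerm.term den))
    (KL.map (KI.term den)) delta :=
  goodK_of_checkR an den (by decide) L L2 KL dtbl dtbl_ok rfl codes posN rowsA rowsB rowsC rows_tbl 12 256 8 72 b0 28 22
    (by decide) parts_ok (by decide +kernel) slice_ok lit_ok 1 (by decide +kernel) delta bx20 hd20
    (by decide) rls20 rls_ok20 (by decide) (planOf lams20) 190 dD20 dE20 els20 rfl pay20 delta_le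
    (fun b hb => by
      interval_cases b
      · exact bucket20_0
      · exact bucket20_1
      · exact bucket20_2
      · exact bucket20_3
      · exact bucket20_4
      · exact bucket20_5
      · exact bucket20_6
      · exact bucket20_7)

end Vale.Agent.P098.Exact.Sos6.Q93
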