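import Vale.Agent.P098.Exact.Sos6.Q93.Common
import Vale.Agent.P098.Exact.Sos6.Q93.Box210B0
import Vale.Agent.P098.Exact.Sos6.Q93.Box210B1
import Vale.Agent.P098.Exact.Sos6.Q93.Box210B2
import Vale.Agent.P098.Exact.Sos6.Q93.Box210B3
import Vale.Agent.P098.Exact.Sos6.Q93.Box210B4
import Vale.Agent.P098.Exact.Sos6.Q93.Box210B5
import Vale.Agent.P098.Exact.Sos6.Q93.Box210B6
import Vale.Agent.P098.Exact.Sos6.Q93.Box210B7

/-! Generated data of the dimension six interior check. -/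

noncomputable section

namespace Vale.Agent.P098.Exact.Sos6.Q93

set_option maxRecDepth 100000

theorem pay210 : dtbl.payOK 190 dD210 dE210 (elTot els210) = true := by decide +kernel

theorem rls_ok210 : ∀ G ∈ rls210, ∃ Ns, tbl.facR 72 b0 28 22 Ns G = true := by
  intro G hG
  simp only [rls210, List.mem_cons, List.not_mem_nil, or_false] at hG
  rcases hG with rfl | rfl | rfl | rfl | rfl | rfl | rfl | rfl | rfl | rfl | rfl | rfl | rfl | rfl | rfl | rfl | rfl | rfl | rfl | rfl | rfl | rfl | rfl | rfl | rfl | rfl | rfl | rfl | rfl | rfl | rfl | rfl | rfl | rfl | rfl | rfl | rfl | rfl | rfl | rfl | rfl | rfl | rfl | rfl | rfl | rfl | rfl | rfl | rfl | rfl | rfl | rfl | rfl | rfl | rfl | rfl | rfl | rfl | rfl | rfl | rfl | rfl | rfl | rfl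
  · exact ⟨_, fac13440⟩
  · exact ⟨_, fac13441⟩
  · exact ⟨_, fac13442⟩
  · exact ⟨_, fac13443⟩
  · exact ⟨_, fac13444⟩
  · exact ⟨_, fac13445⟩
  · exact ⟨_, fac13446⟩
  · exact ⟨_, fac13447⟩
  · exact ⟨_, fac13448⟩
  · exact ⟨_, fac13449⟩
  · exact ⟨_, fac13450⟩
  · exact ⟨_, fac13451⟩
  · exact ⟨_, fac13452⟩
  · exact ⟨_, fac13453⟩
  · exact ⟨_, fac13454⟩
  · exact ⟨_, fac13455⟩
  · exact ⟨_, fac13456⟩
  · exact ⟨_, fac13457⟩
  · exact ⟨_, fac13458⟩
  · exact ⟨_, fac13459⟩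
  · exact ⟨_, fac13460⟩
  · exact ⟨_, fac13461⟩
  · exact ⟨_, fac13462⟩
  · exact ⟨_, fac13463⟩
  · exact ⟨_, fac13464⟩
  · exact ⟨_, fac13465⟩
  · exact ⟨_, fac13466⟩
  · exact ⟨_, fac13467⟩
  · exact ⟨_, fac13468⟩
  · exact ⟨_, fac13469⟩
  · exact ⟨_, fac13470⟩
  · exact ⟨_, fac13471⟩
  · exact ⟨_, fac13472⟩
  · exact ⟨_, fac13473⟩
  · exact ⟨_, fac13474⟩
  · exact ⟨_, fac13475⟩
  · exact ⟨_, fac13476⟩
  · exact ⟨_, fac13477⟩
  · exact ⟨_, fac13478⟩
  · exact ⟨_, fac13479⟩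
  · exact ⟨_, fac13480⟩
  · exact ⟨_, fac13481⟩
  · exact ⟨_, fac13482⟩
  · exact ⟨_, fac13483⟩
  · exact ⟨_, fac13484⟩
  · exact ⟨_, fac13485⟩
  · exact ⟨_, fac13486⟩
  · exact ⟨_, fac13487⟩
  · exact ⟨_, fac13488⟩
  · exact ⟨_, fac13489⟩
  · exact ⟨_, fac13490⟩
  · exact ⟨_, fac13491⟩
  · exact ⟨_, fac13492⟩
  · exact ⟨_, fac13493⟩
  · exact ⟨_, fac13494⟩
  · exact ⟨_, fac13495⟩
  · exact ⟨_, fac13496⟩
  · exact ⟨_, fac13497⟩
  · exact ⟨_, fac13498⟩
  · exact ⟨_, fac13499⟩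
  · exact ⟨_, fac13500⟩
  · exact ⟨_, fac13501⟩
  · exact ⟨_, fac13502⟩
  · exact ⟨_, fac13503⟩

theorem good210 : bx210.GoodK ((an : ℝ) / 100) (L.map (ITerm.term den)) (L2.map (ITerm.term den))
    (KL.map (KI.term den)) delta :=
  goodK_of_checkR an den (by decide) L L2 KL dtbl dtbl_ok rfl codes posN rowsA rowsB rowsC rows_tbl 12 256 8 72 b0 28 22
    (by decide) parts_ok (by decide +kernel) slice_ok lit_ok 1 (by decide +kernel) delta bx210 hd210
    (by decide) rls210 rls_ok210 (by decide) (planOf lams210) 190 dD210 dE210 els210 rfl pay210 delta_le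
    (fun b hb => by
      interval_cases b
      · exact bucket210_0
      · exact bucket210_1
      · exact bucket210_2
      · exact bucket210_3
      · exact bucket210_4
      · exact bucket210_5
      · exact bucket210_6
      · exact bucket210_7)

end Vale.Agent.P098.Exact.Sos6.Q93
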