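import Vale.Agent.P098.Exact.Sos6.Q93.Common
import Vale.Agent.P098.Exact.Sos6.Q93.Box211B0
import Vale.Agent.P098.Exact.Sos6.Q93.Box211B1
import Vale.Agent.P098.Exact.Sos6.Q93.Box211B2
import Vale.Agent.P098.Exact.Sos6.Q93.Box211B3
import Vale.Agent.P098.Exact.Sos6.Q93.Box211B4
import Vale.Agent.P098.Exact.Sos6.Q93.Box211B5
import Vale.Agent.P098.Exact.Sos6.Q93.Box211B6
import Vale.Agent.P098.Exact.Sos6.Q93.Box211B7

/-! Generated data of the dimension six interior check. -/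

noncomputable section

namespace Vale.Agent.P098.Exact.Sos6.Q93

set_option maxRecDepth 100000

theorem pay211 : dtbl.payOK 190 dD211 dE211 (elTot els211) = true := by decide +kernel

theorem rls_ok211 : ∀ G ∈ rls211, ∃ Ns, tbl.facR 72 b0 28 22 Ns G = true := by
  intro G hG
  simp only [rls211, List.mem_cons, List.not_mem_nil, or_false] at hG
  rcases hG with rfl | rfl | rfl | rfl | rfl | rfl | rfl | rfl | rfl | rfl | rfl | rfl | rfl | rfl | rfl | rfl | rfl | rfl | rfl | rfl | rfl | rfl | rfl | rfl | rfl | rfl | rfl | rfl | rfl | rfl | rfl | rfl | rfl | rfl | rfl | rfl | rfl | rfl | rfl | rfl | rfl | rfl | rfl | rfl | rfl | rfl | rfl | rfl | rfl | rfl | rfl | rfl | rfl | rfl | rfl | rfl | rfl | rfl | rfl | rfl | rfl | rfl | rfl | rfl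
  · exact ⟨_, fac13504⟩
  · exact ⟨_, fac13505⟩
  · exact ⟨_, fac13506⟩
  · exact ⟨_, fac13507⟩
  · exact ⟨_, fac13508⟩
  · exact ⟨_, fac13509⟩
  · exact ⟨_, fac13510⟩
  · exact ⟨_, fac13511⟩
  · exact ⟨_, fac13512⟩
  · exact ⟨_, fac13513⟩
  · exact ⟨_, fac13514⟩
  · exact ⟨_, fac13515⟩
  · exact ⟨_, fac13516⟩
  · exact ⟨_, fac13517⟩
  · exact ⟨_, fac13518⟩
  · exact ⟨_, fac13519⟩
  · exact ⟨_, fac13520⟩
  · exact ⟨_, fac13521⟩
  · exact ⟨_, fac13522⟩
  · exact ⟨_, fac13523⟩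
  · exact ⟨_, fac13524⟩
  · exact ⟨_, fac13525⟩
  · exact ⟨_, fac13526⟩
  · exact ⟨_, fac13527⟩
  · exact ⟨_, fac13528⟩
  · exact ⟨_, fac13529⟩
  · exact ⟨_, fac13530⟩
  · exact ⟨_, fac13531⟩
  · exact ⟨_, fac13532⟩
  · exact ⟨_, fac13533⟩
  · exact ⟨_, fac13534⟩
  · exact ⟨_, fac13535⟩
  · exact ⟨_, fac13536⟩
  · exact ⟨_, fac13537⟩
  · exact ⟨_, fac13538⟩
  · exact ⟨_, fac13539⟩
  · exact ⟨_, fac13540⟩
  · exact ⟨_, fac13541⟩
  · exact ⟨_, fac13542⟩
  · exact ⟨_, fac13543⟩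
  · exact ⟨_, fac13544⟩
  · exact ⟨_, fac13545⟩
  · exact ⟨_, fac13546⟩
  · exact ⟨_, fac13547⟩
  · exact ⟨_, fac13548⟩
  · exact ⟨_, fac13549⟩
  · exact ⟨_, fac13550⟩
  · exact ⟨_, fac13551⟩
  · exact ⟨_, fac13552⟩
  · exact ⟨_, fac13553⟩
  · exact ⟨_, fac13554⟩
  · exact ⟨_, fac13555⟩
  · exact ⟨_, fac13556⟩
  · exact ⟨_, fac13557⟩
  · exact ⟨_, fac13558⟩
  · exact ⟨_, fac13559⟩
  · exact ⟨_, fac13560⟩
  · exact ⟨_, fac13561⟩
  · exact ⟨_, fac13562⟩
  · exact ⟨_, fac13563⟩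
  · exact ⟨_, fac13564⟩
  · exact ⟨_, fac13565⟩
  · exact ⟨_, fac13566⟩
  · exact ⟨_, fac13567⟩

theorem good211 : bx211.GoodK ((an : ℝ) / 100) (L.map (ITerm.term den)) (L2.map (ITerm.term den))
    (KL.map (KI.term den)) delta :=
  goodK_of_checkR an den (by decide) L L2 KL dtbl dtbl_ok rfl codes posN rowsA rowsB rowsC rows_tbl 12 256 8 72 b0 28 22
    (by decide) parts_ok (by decide +kernel) slice_ok lit_ok 1 (by decide +kernel) delta bx211 hd211
    (by decide) rls211 rls_ok211 (by decide) (planOf lams211) 190 dD211 dE211 els211 rfl pay211 delta_le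
    (fun b hb => by
      interval_cases b
      · exact bucket211_0
      · exact bucket211_1
      · exact bucket211_2
      · exact bucket211_3
      · exact bucket211_4
      · exact bucket211_5
      · exact bucket211_6
      · exact bucket211_7)

end Vale.Agent.P098.Exact.Sos6.Q93
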