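import Vale.Agent.P098.Exact.Sos6.Q93.Common
import Vale.Agent.P098.Exact.Sos6.Q93.Box212B0
import Vale.Agent.P098.Exact.Sos6.Q93.Box212B1
import Vale.Agent.P098.Exact.Sos6.Q93.Box212B2
import Vale.Agent.P098.Exact.Sos6.Q93.Box212B3
import Vale.Agent.P098.Exact.Sos6.Q93.Box212B4
import Vale.Agent.P098.Exact.Sos6.Q93.Box212B5
import Vale.Agent.P098.Exact.Sos6.Q93.Box212B6
import Vale.Agent.P098.Exact.Sos6.Q93.Box212B7

/-! Generated data of the dimension six interior check. -/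

noncomputable section

namespace Vale.Agent.P098.Exact.Sos6.Q93

set_option maxRecDepth 100000

theorem pay212 : dtbl.payOK 190 dD212 dE212 (elTot els212) = true := by decide +kernel

theorem rls_ok212 : ∀ G ∈ rls212, ∃ Ns, tbl.facR 72 b0 28 22 Ns G = true := by
  intro G hG
  simp only [rls212, List.mem_cons, List.not_mem_nil, or_false] at hG
  rcases hG with rfl | rfl | rfl | rfl | rfl | rfl | rfl | rfl | rfl | rfl | rfl | rfl | rfl | rfl | rfl | rfl | rfl | rfl | rfl | rfl | rfl | rfl | rfl | rfl | rfl | rfl | rfl | rfl | rfl | rfl | rfl | rfl | rfl | rfl | rfl | rfl | rfl | rfl | rfl | rfl | rfl | rfl | rfl | rfl | rfl | rfl | rfl | rfl | rfl | rfl | rfl | rfl | rfl | rfl | rfl | rfl | rfl | rfl | rfl | rfl | rfl | rfl | rfl | rfl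
  · exact ⟨_, fac13568⟩
  · exact ⟨_, fac13569⟩
  · exact ⟨_, fac13570⟩
  · exact ⟨_, fac13571⟩
  · exact ⟨_, fac13572⟩
  · exact ⟨_, fac13573⟩
  · exact ⟨_, fac13574⟩
  · exact ⟨_, fac13575⟩
  · exact ⟨_, fac13576⟩
  · exact ⟨_, fac13577⟩
  · exact ⟨_, fac13578⟩
  · exact ⟨_, fac13579⟩
  · exact ⟨_, fac13580⟩
  · exact ⟨_, fac13581⟩
  · exact ⟨_, fac13582⟩
  · exact ⟨_, fac13583⟩
  · exact ⟨_, fac13584⟩
  · exact ⟨_, fac13585⟩
  · exact ⟨_, fac13586⟩
  · exact ⟨_, fac13587⟩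
  · exact ⟨_, fac13588⟩
  · exact ⟨_, fac13589⟩
  · exact ⟨_, fac13590⟩
  · exact ⟨_, fac13591⟩
  · exact ⟨_, fac13592⟩
  · exact ⟨_, fac13593⟩
  · exact ⟨_, fac13594⟩
  · exact ⟨_, fac13595⟩
  · exact ⟨_, fac13596⟩
  · exact ⟨_, fac13597⟩
  · exact ⟨_, fac13598⟩
  · exact ⟨_, fac13599⟩
  · exact ⟨_, fac13600⟩
  · exact ⟨_, fac13601⟩
  · exact ⟨_, fac13602⟩
  · exact ⟨_, fac13603⟩
  · exact ⟨_, fac13604⟩
  · exact ⟨_, fac13605⟩
  · exact ⟨_, fac13606⟩
  · exact ⟨_, fac13607⟩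
  · exact ⟨_, fac13608⟩
  · exact ⟨_, fac13609⟩
  · exact ⟨_, fac13610⟩
  · exact ⟨_, fac13611⟩
  · exact ⟨_, fac13612⟩
  · exact ⟨_, fac13613⟩
  · exact ⟨_, fac13614⟩
  · exact ⟨_, fac13615⟩
  · exact ⟨_, fac13616⟩
  · exact ⟨_, fac13617⟩
  · exact ⟨_, fac13618⟩
  · exact ⟨_, fac13619⟩
  · exact ⟨_, fac13620⟩
  · exact ⟨_, fac13621⟩
  · exact ⟨_, fac13622⟩
  · exact ⟨_, fac13623⟩
  · exact ⟨_, fac13624⟩
  · exact ⟨_, fac13625⟩
  · exact ⟨_, fac13626⟩
  · exact ⟨_, fac13627⟩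
  · exact ⟨_, fac13628⟩
  · exact ⟨_, fac13629⟩
  · exact ⟨_, fac13630⟩
  · exact ⟨_, fac13631⟩

theorem good212 : bx212.GoodK ((an : ℝ) / 100) (L.map (ITerm.term den)) (L2.map (ITerm.term den))
    (KL.map (KI.term den)) delta :=
  goodK_of_checkR an den (by decide) L L2 KL dtbl dtbl_ok rfl codes posN rowsA rowsB rowsC rows_tbl 12 256 8 72 b0 28 22
    (by decide) parts_ok (by decide +kernel) slice_ok lit_ok 1 (by decide +kernel) delta bx212 hd212
    (by decide) rls212 rls_ok212 (by decide) (planOf lams212) 190 dD212 dE212 els212 rfl pay212 delta_le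
    (fun b hb => by
      interval_cases b
      · exact bucket212_0
      · exact bucket212_1
      · exact bucket212_2
      · exact bucket212_3
      · exact bucket212_4
      · exact bucket212_5
      · exact bucket212_6
      · exact bucket212_7)

end Vale.Agent.P098.Exact.Sos6.Q93
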