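import Vale.Agent.P098.Exact.Sos6.Q93.Common
import Vale.Agent.P098.Exact.Sos6.Q93.Box213B0
import Vale.Agent.P098.Exact.Sos6.Q93.Box213B1
import Vale.Agent.P098.Exact.Sos6.Q93.Box213B2
import Vale.Agent.P098.Exact.Sos6.Q93.Box213B3
import Vale.Agent.P098.Exact.Sos6.Q93.Box213B4
import Vale.Agent.P098.Exact.Sos6.Q93.Box213B5
import Vale.Agent.P098.Exact.Sos6.Q93.Box213B6
import Vale.Agent.P098.Exact.Sos6.Q93.Box213B7

/-! Generated data of the dimension six interior check. -/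

noncomputable section

namespace Vale.Agent.P098.Exact.Sos6.Q93

set_option maxRecDepth 100000

theorem pay213 : dtbl.payOK 190 dD213 dE213 (elTot els213) = true := by decide +kernel

theorem rls_ok213 : ∀ G ∈ rls213, ∃ Ns, tbl.facR 72 b0 28 22 Ns G = true := by
  intro G hG
  simp only [rls213, List.mem_cons, List.not_mem_nil, or_false] at hG
  rcases hG with rfl | rfl | rfl | rfl | rfl | rfl | rfl | rfl | rfl | rfl | rfl | rfl | rfl | rfl | rfl | rfl | rfl | rfl | rfl | rfl | rfl | rfl | rfl | rfl | rfl | rfl | rfl | rfl | rfl | rfl | rfl | rfl | rfl | rfl | rfl | rfl | rfl | rfl | rfl | rfl | rfl | rfl | rfl | rfl | rfl | rfl | rfl | rfl | rfl | rfl | rfl | rfl | rfl | rfl | rfl | rfl | rfl | rfl | rfl | rfl | rfl | rfl | rfl | rfl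
  · exact ⟨_, fac13632⟩
  · exact ⟨_, fac13633⟩
  · exact ⟨_, fac13634⟩
  · exact ⟨_, fac13635⟩
  · exact ⟨_, fac13636⟩
  · exact ⟨_, fac13637⟩
  · exact ⟨_, fac13638⟩
  · exact ⟨_, fac13639⟩
  · exact ⟨_, fac13640⟩
  · exact ⟨_, fac13641⟩
  · exact ⟨_, fac13642⟩
  · exact ⟨_, fac13643⟩
  · exact ⟨_, fac13644⟩
  · exact ⟨_, fac13645⟩
  · exact ⟨_, fac13646⟩
  · exact ⟨_, fac13647⟩
  · exact ⟨_, fac13648⟩
  · exact ⟨_, fac13649⟩
  · exact ⟨_, fac13650⟩
  · exact ⟨_, fac13651⟩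
  · exact ⟨_, fac13652⟩
  · exact ⟨_, fac13653⟩
  · exact ⟨_, fac13654⟩
  · exact ⟨_, fac13655⟩
  · exact ⟨_, fac13656⟩
  · exact ⟨_, fac13657⟩
  · exact ⟨_, fac13658⟩
  · exact ⟨_, fac13659⟩
  · exact ⟨_, fac13660⟩
  · exact ⟨_, fac13661⟩
  · exact ⟨_, fac13662⟩
  · exact ⟨_, fac13663⟩
  · exact ⟨_, fac13664⟩
  · exact ⟨_, fac13665⟩
  · exact ⟨_, fac13666⟩
  · exact ⟨_, fac13667⟩
  · exact ⟨_, fac13668⟩
  · exact ⟨_, fac13669⟩
  · exact ⟨_, fac13670⟩
  · exact ⟨_, fac13671⟩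
  · exact ⟨_, fac13672⟩
  · exact ⟨_, fac13673⟩
  · exact ⟨_, fac13674⟩
  · exact ⟨_, fac13675⟩
  · exact ⟨_, fac13676⟩
  · exact ⟨_, fac13677⟩
  · exact ⟨_, fac13678⟩
  · exact ⟨_, fac13679⟩
  · exact ⟨_, fac13680⟩
  · exact ⟨_, fac13681⟩
  · exact ⟨_, fac13682⟩
  · exact ⟨_, fac13683⟩
  · exact ⟨_, fac13684⟩
  · exact ⟨_, fac13685⟩
  · exact ⟨_, fac13686⟩
  · exact ⟨_, fac13687⟩
  · exact ⟨_, fac13688⟩
  · exact ⟨_, fac13689⟩
  · exact ⟨_, fac13690⟩
  · exact ⟨_, fac13691⟩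
  · exact ⟨_, fac13692⟩
  · exact ⟨_, fac13693⟩
  · exact ⟨_, fac13694⟩
  · exact ⟨_, fac13695⟩

theorem good213 : bx213.GoodK ((an : ℝ) / 100) (L.map (ITerm.term den)) (L2.map (ITerm.term den))
    (KL.map (KI.term den)) delta :=
  goodK_of_checkR an den (by decide) L L2 KL dtbl dtbl_ok rfl codes posN rowsA rowsB rowsC rows_tbl 12 256 8 72 b0 28 22
    (by decide) parts_ok (by decide +kernel) slice_ok lit_ok 1 (by decide +kernel) delta bx213 hd213
    (by decide) rls213 rls_ok213 (by decide) (planOf lams213) 190 dD213 dE213 els213 rfl pay213 delta_le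
    (fun b hb => by
      interval_cases b
      · exact bucket213_0
      · exact bucket213_1
      · exact bucket213_2
      · exact bucket213_3
      · exact bucket213_4
      · exact bucket213_5
      · exact bucket213_6
      · exact bucket213_7)

end Vale.Agent.P098.Exact.Sos6.Q93
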