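import Vale.Agent.P098.Exact.Sos6.Q93.Common
import Vale.Agent.P098.Exact.Sos6.Q93.Box214B0
import Vale.Agent.P098.Exact.Sos6.Q93.Box214B1
import Vale.Agent.P098.Exact.Sos6.Q93.Box214B2
import Vale.Agent.P098.Exact.Sos6.Q93.Box214B3
import Vale.Agent.P098.Exact.Sos6.Q93.Box214B4
import Vale.Agent.P098.Exact.Sos6.Q93.Box214B5
import Vale.Agent.P098.Exact.Sos6.Q93.Box214B6
import Vale.Agent.P098.Exact.Sos6.Q93.Box214B7

/-! Generated data of the dimension six interior check. -/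

noncomputable section

namespace Vale.Agent.P098.Exact.Sos6.Q93

set_option maxRecDepth 100000

theorem pay214 : dtbl.payOK 190 dD214 dE214 (elTot els214) = true := by decide +kernel

theorem rls_ok214 : ∀ G ∈ rls214, ∃ Ns, tbl.facR 72 b0 28 22 Ns G = true := by
  intro G hG
  simp only [rls214, List.mem_cons, List.not_mem_nil, or_false] at hG
  rcases hG with rfl | rfl | rfl | rfl | rfl | rfl | rfl | rfl | rfl | rfl | rfl | rfl | rfl | rfl | rfl | rfl | rfl | rfl | rfl | rfl | rfl | rfl | rfl | rfl | rfl | rfl | rfl | rfl | rfl | rfl | rfl | rfl | rfl | rfl | rfl | rfl | rfl | rfl | rfl | rfl | rfl | rfl | rfl | rfl | rfl | rfl | rfl | rfl | rfl | rfl | rfl | rfl | rfl | rfl | rfl | rfl | rfl | rfl | rfl | rfl | rfl | rfl | rfl | rfl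
  · exact ⟨_, fac13696⟩
  · exact ⟨_, fac13697⟩
  · exact ⟨_, fac13698⟩
  · exact ⟨_, fac13699⟩
  · exact ⟨_, fac13700⟩
  · exact ⟨_, fac13701⟩
  · exact ⟨_, fac13702⟩
  · exact ⟨_, fac13703⟩
  · exact ⟨_, fac13704⟩
  · exact ⟨_, fac13705⟩
  · exact ⟨_, fac13706⟩
  · exact ⟨_, fac13707⟩
  · exact ⟨_, fac13708⟩
  · exact ⟨_, fac13709⟩
  · exact ⟨_, fac13710⟩
  · exact ⟨_, fac13711⟩
  · exact ⟨_, fac13712⟩
  · exact ⟨_, fac13713⟩
  · exact ⟨_, fac13714⟩
  · exact ⟨_, fac13715⟩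
  · exact ⟨_, fac13716⟩
  · exact ⟨_, fac13717⟩
  · exact ⟨_, fac13718⟩
  · exact ⟨_, fac13719⟩
  · exact ⟨_, fac13720⟩
  · exact ⟨_, fac13721⟩
  · exact ⟨_, fac13722⟩
  · exact ⟨_, fac13723⟩
  · exact ⟨_, fac13724⟩
  · exact ⟨_, fac13725⟩
  · exact ⟨_, fac13726⟩
  · exact ⟨_, fac13727⟩
  · exact ⟨_, fac13728⟩
  · exact ⟨_, fac13729⟩
  · exact ⟨_, fac13730⟩
  · exact ⟨_, fac13731⟩
  · exact ⟨_, fac13732⟩
  · exact ⟨_, fac13733⟩
  · exact ⟨_, fac13734⟩
  · exact ⟨_, fac13735⟩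
  · exact ⟨_, fac13736⟩
  · exact ⟨_, fac13737⟩
  · exact ⟨_, fac13738⟩
  · exact ⟨_, fac13739⟩
  · exact ⟨_, fac13740⟩
  · exact ⟨_, fac13741⟩
  · exact ⟨_, fac13742⟩
  · exact ⟨_, fac13743⟩
  · exact ⟨_, fac13744⟩
  · exact ⟨_, fac13745⟩
  · exact ⟨_, fac13746⟩
  · exact ⟨_, fac13747⟩
  · exact ⟨_, fac13748⟩
  · exact ⟨_, fac13749⟩
  · exact ⟨_, fac13750⟩
  · exact ⟨_, fac13751⟩
  · exact ⟨_, fac13752⟩
  · exact ⟨_, fac13753⟩
  · exact ⟨_, fac13754⟩
  · exact ⟨_, fac13755⟩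
  · exact ⟨_, fac13756⟩
  · exact ⟨_, fac13757⟩
  · exact ⟨_, fac13758⟩
  · exact ⟨_, fac13759⟩

theorem good214 : bx214.GoodK ((an : ℝ) / 100) (L.map (ITerm.term den)) (L2.map (ITerm.term den))
    (KL.map (KI.term den)) delta :=
  goodK_of_checkR an den (by decide) L L2 KL dtbl dtbl_ok rfl codes posN rowsA rowsB rowsC rows_tbl 12 256 8 72 b0 28 22
    (by decide) parts_ok (by decide +kernel) slice_ok lit_ok 1 (by decide +kernel) delta bx214 hd214
    (by decide) rls214 rls_ok214 (by decide) (planOf lams214) 190 dD214 dE214 els214 rfl pay214 delta_le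
    (fun b hb => by
      interval_cases b
      · exact bucket214_0
      · exact bucket214_1
      · exact bucket214_2
      · exact bucket214_3
      · exact bucket214_4
      · exact bucket214_5
      · exact bucket214_6
      · exact bucket214_7)

end Vale.Agent.P098.Exact.Sos6.Q93
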