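import Vale.Agent.P098.Exact.Sos6.Q93.Common
import Vale.Agent.P098.Exact.Sos6.Q93.Box215B0
import Vale.Agent.P098.Exact.Sos6.Q93.Box215B1
import Vale.Agent.P098.Exact.Sos6.Q93.Box215B2
import Vale.Agent.P098.Exact.Sos6.Q93.Box215B3
import Vale.Agent.P098.Exact.Sos6.Q93.Box215B4
import Vale.Agent.P098.Exact.Sos6.Q93.Box215B5
import Vale.Agent.P098.Exact.Sos6.Q93.Box215B6
import Vale.Agent.P098.Exact.Sos6.Q93.Box215B7

/-! Generated data of the dimension six interior check. -/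

noncomputable section

namespace Vale.Agent.P098.Exact.Sos6.Q93

set_option maxRecDepth 100000

theorem pay215 : dtbl.payOK 190 dD215 dE215 (elTot els215) = true := by decide +kernel

theorem rls_ok215 : ∀ G ∈ rls215, ∃ Ns, tbl.facR 72 b0 28 22 Ns G = true := by
  intro G hG
  simp only [rls215, List.mem_cons, List.not_mem_nil, or_false] at hG
  rcases hG with rfl | rfl | rfl | rfl | rfl | rfl | rfl | rfl | rfl | rfl | rfl | rfl | rfl | rfl | rfl | rfl | rfl | rfl | rfl | rfl | rfl | rfl | rfl | rfl | rfl | rfl | rfl | rfl | rfl | rfl | rfl | rfl | rfl | rfl | rfl | rfl | rfl | rfl | rfl | rfl | rfl | rfl | rfl | rfl | rfl | rfl | rfl | rfl | rfl | rfl | rfl | rfl | rfl | rfl | rfl | rfl | rfl | rfl | rfl | rfl | rfl | rfl | rfl | rfl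
  · exact ⟨_, fac13760⟩
  · exact ⟨_, fac13761⟩
  · exact ⟨_, fac13762⟩
  · exact ⟨_, fac13763⟩
  · exact ⟨_, fac13764⟩
  · exact ⟨_, fac13765⟩
  · exact ⟨_, fac13766⟩
  · exact ⟨_, fac13767⟩
  · exact ⟨_, fac13768⟩
  · exact ⟨_, fac13769⟩
  · exact ⟨_, fac13770⟩
  · exact ⟨_, fac13771⟩
  · exact ⟨_, fac13772⟩
  · exact ⟨_, fac13773⟩
  · exact ⟨_, fac13774⟩
  · exact ⟨_, fac13775⟩
  · exact ⟨_, fac13776⟩
  · exact ⟨_, fac13777⟩
  · exact ⟨_, fac13778⟩
  · exact ⟨_, fac13779⟩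
  · exact ⟨_, fac13780⟩
  · exact ⟨_, fac13781⟩
  · exact ⟨_, fac13782⟩
  · exact ⟨_, fac13783⟩
  · exact ⟨_, fac13784⟩
  · exact ⟨_, fac13785⟩
  · exact ⟨_, fac13786⟩
  · exact ⟨_, fac13787⟩
  · exact ⟨_, fac13788⟩
  · exact ⟨_, fac13789⟩
  · exact ⟨_, fac13790⟩
  · exact ⟨_, fac13791⟩
  · exact ⟨_, fac13792⟩
  · exact ⟨_, fac13793⟩
  · exact ⟨_, fac13794⟩
  · exact ⟨_, fac13795⟩
  · exact ⟨_, fac13796⟩
  · exact ⟨_, fac13797⟩
  · exact ⟨_, fac13798⟩
  · exact ⟨_, fac13799⟩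
  · exact ⟨_, fac13800⟩
  · exact ⟨_, fac13801⟩
  · exact ⟨_, fac13802⟩
  · exact ⟨_, fac13803⟩
  · exact ⟨_, fac13804⟩
  · exact ⟨_, fac13805⟩
  · exact ⟨_, fac13806⟩
  · exact ⟨_, fac13807⟩
  · exact ⟨_, fac13808⟩
  · exact ⟨_, fac13809⟩
  · exact ⟨_, fac13810⟩
  · exact ⟨_, fac13811⟩
  · exact ⟨_, fac13812⟩
  · exact ⟨_, fac13813⟩
  · exact ⟨_, fac13814⟩
  · exact ⟨_, fac13815⟩
  · exact ⟨_, fac13816⟩
  · exact ⟨_, fac13817⟩
  · exact ⟨_, fac13818⟩
  · exact ⟨_, fac13819⟩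
  · exact ⟨_, fac13820⟩
  · exact ⟨_, fac13821⟩
  · exact ⟨_, fac13822⟩
  · exact ⟨_, fac13823⟩

theorem good215 : bx215.GoodK ((an : ℝ) / 100) (L.map (ITerm.term den)) (L2.map (ITerm.term den))
    (KL.map (KI.term den)) delta :=
  goodK_of_checkR an den (by decide) L L2 KL dtbl dtbl_ok rfl codes posN rowsA rowsB rowsC rows_tbl 12 256 8 72 b0 28 22
    (by decide) parts_ok (by decide +kernel) slice_ok lit_ok 1 (by decide +kernel) delta bx215 hd215
    (by decide) rls215 rls_ok215 (by decide) (planOf lams215) 190 dD215 dE215 els215 rfl pay215 delta_le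
    (fun b hb => by
      interval_cases b
      · exact bucket215_0
      · exact bucket215_1
      · exact bucket215_2
      · exact bucket215_3
      · exact bucket215_4
      · exact bucket215_5
      · exact bucket215_6
      · exact bucket215_7)

end Vale.Agent.P098.Exact.Sos6.Q93
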