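import Vale.Agent.P098.Exact.Sos6.Q93.Common
import Vale.Agent.P098.Exact.Sos6.Q93.Box216B0
import Vale.Agent.P098.Exact.Sos6.Q93.Box216B1
import Vale.Agent.P098.Exact.Sos6.Q93.Box216B2
import Vale.Agent.P098.Exact.Sos6.Q93.Box216B3
import Vale.Agent.P098.Exact.Sos6.Q93.Box216B4
import Vale.Agent.P098.Exact.Sos6.Q93.Box216B5
import Vale.Agent.P098.Exact.Sos6.Q93.Box216B6
import Vale.Agent.P098.Exact.Sos6.Q93.Box216B7

/-! Generated data of the dimension six interior check. -/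

noncomputable section

namespace Vale.Agent.P098.Exact.Sos6.Q93

set_option maxRecDepth 100000

theorem pay216 : dtbl.payOK 190 dD216 dE216 (elTot els216) = true := by decide +kernel

theorem rls_ok216 : ∀ G ∈ rls216, ∃ Ns, tbl.facR 72 b0 28 22 Ns G = true := by
  intro G hG
  simp only [rls216, List.mem_cons, List.not_mem_nil, or_false] at hG
  rcases hG with rfl | rfl | rfl | rfl | rfl | rfl | rfl | rfl | rfl | rfl | rfl | rfl | rfl | rfl | rfl | rfl | rfl | rfl | rfl | rfl | rfl | rfl | rfl | rfl | rfl | rfl | rfl | rfl | rfl | rfl | rfl | rfl | rfl | rfl | rfl | rfl | rfl | rfl | rfl | rfl | rfl | rfl | rfl | rfl | rfl | rfl | rfl | rfl | rfl | rfl | rfl | rfl | rfl | rfl | rfl | rfl | rfl | rfl | rfl | rfl | rfl | rfl | rfl | rfl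
  · exact ⟨_, fac13824⟩
  · exact ⟨_, fac13825⟩
  · exact ⟨_, fac13826⟩
  · exact ⟨_, fac13827⟩
  · exact ⟨_, fac13828⟩
  · exact ⟨_, fac13829⟩
  · exact ⟨_, fac13830⟩
  · exact ⟨_, fac13831⟩
  · exact ⟨_, fac13832⟩
  · exact ⟨_, fac13833⟩
  · exact ⟨_, fac13834⟩
  · exact ⟨_, fac13835⟩
  · exact ⟨_, fac13836⟩
  · exact ⟨_, fac13837⟩
  · exact ⟨_, fac13838⟩
  · exact ⟨_, fac13839⟩
  · exact ⟨_, fac13840⟩
  · exact ⟨_, fac13841⟩
  · exact ⟨_, fac13842⟩
  · exact ⟨_, fac13843⟩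
  · exact ⟨_, fac13844⟩
  · exact ⟨_, fac13845⟩
  · exact ⟨_, fac13846⟩
  · exact ⟨_, fac13847⟩
  · exact ⟨_, fac13848⟩
  · exact ⟨_, fac13849⟩
  · exact ⟨_, fac13850⟩
  · exact ⟨_, fac13851⟩
  · exact ⟨_, fac13852⟩
  · exact ⟨_, fac13853⟩
  · exact ⟨_, fac13854⟩
  · exact ⟨_, fac13855⟩
  · exact ⟨_, fac13856⟩
  · exact ⟨_, fac13857⟩
  · exact ⟨_, fac13858⟩
  · exact ⟨_, fac13859⟩
  · exact ⟨_, fac13860⟩
  · exact ⟨_, fac13861⟩
  · exact ⟨_, fac13862⟩
  · exact ⟨_, fac13863⟩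
  · exact ⟨_, fac13864⟩
  · exact ⟨_, fac13865⟩
  · exact ⟨_, fac13866⟩
  · exact ⟨_, fac13867⟩
  · exact ⟨_, fac13868⟩
  · exact ⟨_, fac13869⟩
  · exact ⟨_, fac13870⟩
  · exact ⟨_, fac13871⟩
  · exact ⟨_, fac13872⟩
  · exact ⟨_, fac13873⟩
  · exact ⟨_, fac13874⟩
  · exact ⟨_, fac13875⟩
  · exact ⟨_, fac13876⟩
  · exact ⟨_, fac13877⟩
  · exact ⟨_, fac13878⟩
  · exact ⟨_, fac13879⟩
  · exact ⟨_, fac13880⟩
  · exact ⟨_, fac13881⟩
  · exact ⟨_, fac13882⟩
  · exact ⟨_, fac13883⟩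
  · exact ⟨_, fac13884⟩
  · exact ⟨_, fac13885⟩
  · exact ⟨_, fac13886⟩
  · exact ⟨_, fac13887⟩

theorem good216 : bx216.GoodK ((an : ℝ) / 100) (L.map (ITerm.term den)) (L2.map (ITerm.term den))
    (KL.map (KI.term den)) delta :=
  goodK_of_checkR an den (by decide) L L2 KL dtbl dtbl_ok rfl codes posN rowsA rowsB rowsC rows_tbl 12 256 8 72 b0 28 22
    (by decide) parts_ok (by decide +kernel) slice_ok lit_ok 1 (by decide +kernel) delta bx216 hd216
    (by decide) rls216 rls_ok216 (by decide) (planOf lams216) 190 dD216 dE216 els216 rfl pay216 delta_le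
    (fun b hb => by
      interval_cases b
      · exact bucket216_0
      · exact bucket216_1
      · exact bucket216_2
      · exact bucket216_3
      · exact bucket216_4
      · exact bucket216_5
      · exact bucket216_6
      · exact bucket216_7)

end Vale.Agent.P098.Exact.Sos6.Q93
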