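import Vale.Agent.P098.Exact.Sos6.Q93.Common
import Vale.Agent.P098.Exact.Sos6.Q93.Box217B0
import Vale.Agent.P098.Exact.Sos6.Q93.Box217B1
import Vale.Agent.P098.Exact.Sos6.Q93.Box217B2
import Vale.Agent.P098.Exact.Sos6.Q93.Box217B3
import Vale.Agent.P098.Exact.Sos6.Q93.Box217B4
import Vale.Agent.P098.Exact.Sos6.Q93.Box217B5
import Vale.Agent.P098.Exact.Sos6.Q93.Box217B6
import Vale.Agent.P098.Exact.Sos6.Q93.Box217B7

/-! Generated data of the dimension six interior check. -/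

noncomputable section

namespace Vale.Agent.P098.Exact.Sos6.Q93

set_option maxRecDepth 100000

theorem pay217 : dtbl.payOK 190 dD217 dE217 (elTot els217) = true := by decide +kernel

theorem rls_ok217 : ∀ G ∈ rls217, ∃ Ns, tbl.facR 72 b0 28 22 Ns G = true := by
  intro G hG
  simp only [rls217, List.mem_cons, List.not_mem_nil, or_false] at hG
  rcases hG with rfl | rfl | rfl | rfl | rfl | rfl | rfl | rfl | rfl | rfl | rfl | rfl | rfl | rfl | rfl | rfl | rfl | rfl | rfl | rfl | rfl | rfl | rfl | rfl | rfl | rfl | rfl | rfl | rfl | rfl | rfl | rfl | rfl | rfl | rfl | rfl | rfl | rfl | rfl | rfl | rfl | rfl | rfl | rfl | rfl | rfl | rfl | rfl | rfl | rfl | rfl | rfl | rfl | rfl | rfl | rfl | rfl | rfl | rfl | rfl | rfl | rfl | rfl | rfl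
  · exact ⟨_, fac13888⟩
  · exact ⟨_, fac13889⟩
  · exact ⟨_, fac13890⟩
  · exact ⟨_, fac13891⟩
  · exact ⟨_, fac13892⟩
  · exact ⟨_, fac13893⟩
  · exact ⟨_, fac13894⟩
  · exact ⟨_, fac13895⟩
  · exact ⟨_, fac13896⟩
  · exact ⟨_, fac13897⟩
  · exact ⟨_, fac13898⟩
  · exact ⟨_, fac13899⟩
  · exact ⟨_, fac13900⟩
  · exact ⟨_, fac13901⟩
  · exact ⟨_, fac13902⟩
  · exact ⟨_, fac13903⟩
  · exact ⟨_, fac13904⟩
  · exact ⟨_, fac13905⟩
  · exact ⟨_, fac13906⟩
  · exact ⟨_, fac13907⟩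
  · exact ⟨_, fac13908⟩
  · exact ⟨_, fac13909⟩
  · exact ⟨_, fac13910⟩
  · exact ⟨_, fac13911⟩
  · exact ⟨_, fac13912⟩
  · exact ⟨_, fac13913⟩
  · exact ⟨_, fac13914⟩
  · exact ⟨_, fac13915⟩
  · exact ⟨_, fac13916⟩
  · exact ⟨_, fac13917⟩
  · exact ⟨_, fac13918⟩
  · exact ⟨_, fac13919⟩
  · exact ⟨_, fac13920⟩
  · exact ⟨_, fac13921⟩
  · exact ⟨_, fac13922⟩
  · exact ⟨_, fac13923⟩
  · exact ⟨_, fac13924⟩
  · exact ⟨_, fac13925⟩
  · exact ⟨_, fac13926⟩
  · exact ⟨_, fac13927⟩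
  · exact ⟨_, fac13928⟩
  · exact ⟨_, fac13929⟩
  · exact ⟨_, fac13930⟩
  · exact ⟨_, fac13931⟩
  · exact ⟨_, fac13932⟩
  · exact ⟨_, fac13933⟩
  · exact ⟨_, fac13934⟩
  · exact ⟨_, fac13935⟩
  · exact ⟨_, fac13936⟩
  · exact ⟨_, fac13937⟩
  · exact ⟨_, fac13938⟩
  · exact ⟨_, fac13939⟩
  · exact ⟨_, fac13940⟩
  · exact ⟨_, fac13941⟩
  · exact ⟨_, fac13942⟩
  · exact ⟨_, fac13943⟩
  · exact ⟨_, fac13944⟩
  · exact ⟨_, fac13945⟩
  · exact ⟨_, fac13946⟩
  · exact ⟨_, fac13947⟩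
  · exact ⟨_, fac13948⟩
  · exact ⟨_, fac13949⟩
  · exact ⟨_, fac13950⟩
  · exact ⟨_, fac13951⟩

theorem good217 : bx217.GoodK ((an : ℝ) / 100) (L.map (ITerm.term den)) (L2.map (ITerm.term den))
    (KL.map (KI.term den)) delta :=
  goodK_of_checkR an den (by decide) L L2 KL dtbl dtbl_ok rfl codes posN rowsA rowsB rowsC rows_tbl 12 256 8 72 b0 28 22
    (by decide) parts_ok (by decide +kernel) slice_ok lit_ok 1 (by decide +kernel) delta bx217 hd217
    (by decide) rls217 rls_ok217 (by decide) (planOf lams217) 190 dD217 dE217 els217 rfl pay217 delta_le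
    (fun b hb => by
      interval_cases b
      · exact bucket217_0
      · exact bucket217_1
      · exact bucket217_2
      · exact bucket217_3
      · exact bucket217_4
      · exact bucket217_5
      · exact bucket217_6
      · exact bucket217_7)

end Vale.Agent.P098.Exact.Sos6.Q93
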