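import Vale.Agent.P098.Exact.Sos6.Q93.Common
import Vale.Agent.P098.Exact.Sos6.Q93.Box218B0
import Vale.Agent.P098.Exact.Sos6.Q93.Box218B1
import Vale.Agent.P098.Exact.Sos6.Q93.Box218B2
import Vale.Agent.P098.Exact.Sos6.Q93.Box218B3
import Vale.Agent.P098.Exact.Sos6.Q93.Box218B4
import Vale.Agent.P098.Exact.Sos6.Q93.Box218B5
import Vale.Agent.P098.Exact.Sos6.Q93.Box218B6
import Vale.Agent.P098.Exact.Sos6.Q93.Box218B7

/-! Generated data of the dimension six interior check. -/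

noncomputable section

namespace Vale.Agent.P098.Exact.Sos6.Q93

set_option maxRecDepth 100000

theorem pay218 : dtbl.payOK 190 dD218 dE218 (elTot els218) = true := by decide +kernel

theorem rls_ok218 : ∀ G ∈ rls218, ∃ Ns, tbl.facR 72 b0 28 22 Ns G = true := by
  intro G hG
  simp only [rls218, List.mem_cons, List.not_mem_nil, or_false] at hG
  rcases hG with rfl | rfl | rfl | rfl | rfl | rfl | rfl | rfl | rfl | rfl | rfl | rfl | rfl | rfl | rfl | rfl | rfl | rfl | rfl | rfl | rfl | rfl | rfl | rfl | rfl | rfl | rfl | rfl | rfl | rfl | rfl | rfl | rfl | rfl | rfl | rfl | rfl | rfl | rfl | rfl | rfl | rfl | rfl | rfl | rfl | rfl | rfl | rfl | rfl | rfl | rfl | rfl | rfl | rfl | rfl | rfl | rfl | rfl | rfl | rfl | rfl | rfl | rfl | rfl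
  · exact ⟨_, fac13952⟩
  · exact ⟨_, fac13953⟩
  · exact ⟨_, fac13954⟩
  · exact ⟨_, fac13955⟩
  · exact ⟨_, fac13956⟩
  · exact ⟨_, fac13957⟩
  · exact ⟨_, fac13958⟩
  · exact ⟨_, fac13959⟩
  · exact ⟨_, fac13960⟩
  · exact ⟨_, fac13961⟩
  · exact ⟨_, fac13962⟩
  · exact ⟨_, fac13963⟩
  · exact ⟨_, fac13964⟩
  · exact ⟨_, fac13965⟩
  · exact ⟨_, fac13966⟩
  · exact ⟨_, fac13967⟩
  · exact ⟨_, fac13968⟩
  · exact ⟨_, fac13969⟩
  · exact ⟨_, fac13970⟩
  · exact ⟨_, fac13971⟩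
  · exact ⟨_, fac13972⟩
  · exact ⟨_, fac13973⟩
  · exact ⟨_, fac13974⟩
  · exact ⟨_, fac13975⟩
  · exact ⟨_, fac13976⟩
  · exact ⟨_, fac13977⟩
  · exact ⟨_, fac13978⟩
  · exact ⟨_, fac13979⟩
  · exact ⟨_, fac13980⟩
  · exact ⟨_, fac13981⟩
  · exact ⟨_, fac13982⟩
  · exact ⟨_, fac13983⟩
  · exact ⟨_, fac13984⟩
  · exact ⟨_, fac13985⟩
  · exact ⟨_, fac13986⟩
  · exact ⟨_, fac13987⟩
  · exact ⟨_, fac13988⟩
  · exact ⟨_, fac13989⟩
  · exact ⟨_, fac13990⟩
  · exact ⟨_, fac13991⟩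
  · exact ⟨_, fac13992⟩
  · exact ⟨_, fac13993⟩
  · exact ⟨_, fac13994⟩
  · exact ⟨_, fac13995⟩
  · exact ⟨_, fac13996⟩
  · exact ⟨_, fac13997⟩
  · exact ⟨_, fac13998⟩
  · exact ⟨_, fac13999⟩
  · exact ⟨_, fac14000⟩
  · exact ⟨_, fac14001⟩
  · exact ⟨_, fac14002⟩
  · exact ⟨_, fac14003⟩
  · exact ⟨_, fac14004⟩
  · exact ⟨_, fac14005⟩
  · exact ⟨_, fac14006⟩
  · exact ⟨_, fac14007⟩
  · exact ⟨_, fac14008⟩
  · exact ⟨_, fac14009⟩
  · exact ⟨_, fac14010⟩
  · exact ⟨_, fac14011⟩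
  · exact ⟨_, fac14012⟩
  · exact ⟨_, fac14013⟩
  · exact ⟨_, fac14014⟩
  · exact ⟨_, fac14015⟩

theorem good218 : bx218.GoodK ((an : ℝ) / 100) (L.map (ITerm.term den)) (L2.map (ITerm.term den))
    (KL.map (KI.term den)) delta :=
  goodK_of_checkR an den (by decide) L L2 KL dtbl dtbl_ok rfl codes posN rowsA rowsB rowsC rows_tbl 12 256 8 72 b0 28 22
    (by decide) parts_ok (by decide +kernel) slice_ok lit_ok 1 (by decide +kernel) delta bx218 hd218
    (by decide) rls218 rls_ok218 (by decide) (planOf lams218) 190 dD218 dE218 els218 rfl pay218 delta_le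
    (fun b hb => by
      interval_cases b
      · exact bucket218_0
      · exact bucket218_1
      · exact bucket218_2
      · exact bucket218_3
      · exact bucket218_4
      · exact bucket218_5
      · exact bucket218_6
      · exact bucket218_7)

end Vale.Agent.P098.Exact.Sos6.Q93
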