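import Vale.Agent.P098.Exact.Sos6.Q93.Common
import Vale.Agent.P098.Exact.Sos6.Q93.Box219B0
import Vale.Agent.P098.Exact.Sos6.Q93.Box219B1
import Vale.Agent.P098.Exact.Sos6.Q93.Box219B2
import Vale.Agent.P098.Exact.Sos6.Q93.Box219B3
import Vale.Agent.P098.Exact.Sos6.Q93.Box219B4
import Vale.Agent.P098.Exact.Sos6.Q93.Box219B5
import Vale.Agent.P098.Exact.Sos6.Q93.Box219B6
import Vale.Agent.P098.Exact.Sos6.Q93.Box219B7

/-! Generated data of the dimension six interior check. -/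

noncomputable section

namespace Vale.Agent.P098.Exact.Sos6.Q93

set_option maxRecDepth 100000

theorem pay219 : dtbl.payOK 190 dD219 dE219 (elTot els219) = true := by decide +kernel

theorem rls_ok219 : ∀ G ∈ rls219, ∃ Ns, tbl.facR 72 b0 28 22 Ns G = true := by
  intro G hG
  simp only [rls219, List.mem_cons, List.not_mem_nil, or_false] at hG
  rcases hG with rfl | rfl | rfl | rfl | rfl | rfl | rfl | rfl | rfl | rfl | rfl | rfl | rfl | rfl | rfl | rfl | rfl | rfl | rfl | rfl | rfl | rfl | rfl | rfl | rfl | rfl | rfl | rfl | rfl | rfl | rfl | rfl | rfl | rfl | rfl | rfl | rfl | rfl | rfl | rfl | rfl | rfl | rfl | rfl | rfl | rfl | rfl | rfl | rfl | rfl | rfl | rfl | rfl | rfl | rfl | rfl | rfl | rfl | rfl | rfl | rfl | rfl | rfl | rfl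
  · exact ⟨_, fac14016⟩
  · exact ⟨_, fac14017⟩
  · exact ⟨_, fac14018⟩
  · exact ⟨_, fac14019⟩
  · exact ⟨_, fac14020⟩
  · exact ⟨_, fac14021⟩
  · exact ⟨_, fac14022⟩
  · exact ⟨_, fac14023⟩
  · exact ⟨_, fac14024⟩
  · exact ⟨_, fac14025⟩
  · exact ⟨_, fac14026⟩
  · exact ⟨_, fac14027⟩
  · exact ⟨_, fac14028⟩
  · exact ⟨_, fac14029⟩
  · exact ⟨_, fac14030⟩
  · exact ⟨_, fac14031⟩
  · exact ⟨_, fac14032⟩
  · exact ⟨_, fac14033⟩
  · exact ⟨_, fac14034⟩
  · exact ⟨_, fac14035⟩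
  · exact ⟨_, fac14036⟩
  · exact ⟨_, fac14037⟩
  · exact ⟨_, fac14038⟩
  · exact ⟨_, fac14039⟩
  · exact ⟨_, fac14040⟩
  · exact ⟨_, fac14041⟩
  · exact ⟨_, fac14042⟩
  · exact ⟨_, fac14043⟩
  · exact ⟨_, fac14044⟩
  · exact ⟨_, fac14045⟩
  · exact ⟨_, fac14046⟩
  · exact ⟨_, fac14047⟩
  · exact ⟨_, fac14048⟩
  · exact ⟨_, fac14049⟩
  · exact ⟨_, fac14050⟩
  · exact ⟨_, fac14051⟩
  · exact ⟨_, fac14052⟩
  · exact ⟨_, fac14053⟩
  · exact ⟨_, fac14054⟩
  · exact ⟨_, fac14055⟩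
  · exact ⟨_, fac14056⟩
  · exact ⟨_, fac14057⟩
  · exact ⟨_, fac14058⟩
  · exact ⟨_, fac14059⟩
  · exact ⟨_, fac14060⟩
  · exact ⟨_, fac14061⟩
  · exact ⟨_, fac14062⟩
  · exact ⟨_, fac14063⟩
  · exact ⟨_, fac14064⟩
  · exact ⟨_, fac14065⟩
  · exact ⟨_, fac14066⟩
  · exact ⟨_, fac14067⟩
  · exact ⟨_, fac14068⟩
  · exact ⟨_, fac14069⟩
  · exact ⟨_, fac14070⟩
  · exact ⟨_, fac14071⟩
  · exact ⟨_, fac14072⟩
  · exact ⟨_, fac14073⟩
  · exact ⟨_, fac14074⟩
  · exact ⟨_, fac14075⟩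
  · exact ⟨_, fac14076⟩
  · exact ⟨_, fac14077⟩
  · exact ⟨_, fac14078⟩
  · exact ⟨_, fac14079⟩

theorem good219 : bx219.GoodK ((an : ℝ) / 100) (L.map (ITerm.term den)) (L2.map (ITerm.term den))
    (KL.map (KI.term den)) delta :=
  goodK_of_checkR an den (by decide) L L2 KL dtbl dtbl_ok rfl codes posN rowsA rowsB rowsC rows_tbl 12 256 8 72 b0 28 22
    (by decide) parts_ok (by decide +kernel) slice_ok lit_ok 1 (by decide +kernel) delta bx219 hd219
    (by decide) rls219 rls_ok219 (by decide) (planOf lams219) 190 dD219 dE219 els219 rfl pay219 delta_le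
    (fun b hb => by
      interval_cases b
      · exact bucket219_0
      · exact bucket219_1
      · exact bucket219_2
      · exact bucket219_3
      · exact bucket219_4
      · exact bucket219_5
      · exact bucket219_6
      · exact bucket219_7)

end Vale.Agent.P098.Exact.Sos6.Q93
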