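import Vale.Agent.P098.Exact.Sos6.Q93.Common
import Vale.Agent.P098.Exact.Sos6.Q93.Box21B0
import Vale.Agent.P098.Exact.Sos6.Q93.Box21B1
import Vale.Agent.P098.Exact.Sos6.Q93.Box21B2
import Vale.Agent.P098.Exact.Sos6.Q93.Box21B3
import Vale.Agent.P098.Exact.Sos6.Q93.Box21B4
import Vale.Agent.P098.Exact.Sos6.Q93.Box21B5
import Vale.Agent.P098.Exact.Sos6.Q93.Box21B6
import Vale.Agent.P098.Exact.Sos6.Q93.Box21B7

/-! Generated data of the dimension six interior check. -/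

noncomputable section

namespace Vale.Agent.P098.Exact.Sos6.Q93

set_option maxRecDepth 100000

theorem pay21 : dtbl.payOK 190 dD21 dE21 (elTot els21) = true := by decide +kernel

theorem rls_ok21 : ∀ G ∈ rls21, ∃ Ns, tbl.facR 72 b0 28 22 Ns G = true := by
  intro G hG
  simp only [rls21, List.mem_cons, List.not_mem_nil, or_false] at hG
  rcases hG with rfl | rfl | rfl | rfl | rfl | rfl | rfl | rfl | rfl | rfl | rfl | rfl | rfl | rfl | rfl | rfl | rfl | rfl | rfl | rfl | rfl | rfl | rfl | rfl | rfl | rfl | rfl | rfl | rfl | rfl | rfl | rfl | rfl | rfl | rfl | rfl | rfl | rfl | rfl | rfl | rfl | rfl | rfl | rfl | rfl | rfl | rfl | rfl | rfl | rfl | rfl | rfl | rfl | rfl | rfl | rfl | rfl | rfl | rfl | rfl | rfl | rfl | rfl | rfl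
  · exact ⟨_, fac1344⟩
  · exact ⟨_, fac1345⟩
  · exact ⟨_, fac1346⟩
  · exact ⟨_, fac1347⟩
  · exact ⟨_, fac1348⟩
  · exact ⟨_, fac1349⟩
  · exact ⟨_, fac1350⟩
  · exact ⟨_, fac1351⟩
  · exact ⟨_, fac1352⟩
  · exact ⟨_, fac1353⟩
  · exact ⟨_, fac1354⟩
  · exact ⟨_, fac1355⟩
  · exact ⟨_, fac1356⟩
  · exact ⟨_, fac1357⟩
  · exact ⟨_, fac1358⟩
  · exact ⟨_, fac1359⟩
  · exact ⟨_, fac1360⟩
  · exact ⟨_, fac1361⟩
  · exact ⟨_, fac1362⟩
  · exact ⟨_, fac1363⟩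
  · exact ⟨_, fac1364⟩
  · exact ⟨_, fac1365⟩
  · exact ⟨_, fac1366⟩
  · exact ⟨_, fac1367⟩
  · exact ⟨_, fac1368⟩
  · exact ⟨_, fac1369⟩
  · exact ⟨_, fac1370⟩
  · exact ⟨_, fac1371⟩
  · exact ⟨_, fac1372⟩
  · exact ⟨_, fac1373⟩
  · exact ⟨_, fac1374⟩
  · exact ⟨_, fac1375⟩
  · exact ⟨_, fac1376⟩
  · exact ⟨_, fac1377⟩
  · exact ⟨_, fac1378⟩
  · exact ⟨_, fac1379⟩
  · exact ⟨_, fac1380⟩
  · exact ⟨_, fac1381⟩
  · exact ⟨_, fac1382⟩
  · exact ⟨_, fac1383⟩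
  · exact ⟨_, fac1384⟩
  · exact ⟨_, fac1385⟩
  · exact ⟨_, fac1386⟩
  · exact ⟨_, fac1387⟩
  · exact ⟨_, fac1388⟩
  · exact ⟨_, fac1389⟩
  · exact ⟨_, fac1390⟩
  · exact ⟨_, fac1391⟩
  · exact ⟨_, fac1392⟩
  · exact ⟨_, fac1393⟩
  · exact ⟨_, fac1394⟩
  · exact ⟨_, fac1395⟩
  · exact ⟨_, fac1396⟩
  · exact ⟨_, fac1397⟩
  · exact ⟨_, fac1398⟩
  · exact ⟨_, fac1399⟩
  · exact ⟨_, fac1400⟩
  · exact ⟨_, fac1401⟩
  · exact ⟨_, fac1402⟩
  · exact ⟨_, fac1403⟩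
  · exact ⟨_, fac1404⟩
  · exact ⟨_, fac1405⟩
  · exact ⟨_, fac1406⟩
  · exact ⟨_, fac1407⟩

theorem good21 : bx21.GoodK ((an : ℝ) / 100) (L.map (ITerm.term den)) (L2.map (ITerm.term den))
    (KL.map (KI.term den)) delta :=
  goodK_of_checkR an den (by decide) L L2 KL dtbl dtbl_ok rfl codes posN rowsA rowsB rowsC rows_tbl 12 256 8 72 b0 28 22
    (by decide) parts_ok (by decide +kernel) slice_ok lit_ok 1 (by decide +kernel) delta bx21 hd21
    (by decide) rls21 rls_ok21 (by decide) (planOf lams21) 190 dD21 dE21 els21 rfl pay21 delta_le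
    (fun b hb => by
      interval_cases b
      · exact bucket21_0
      · exact bucket21_1
      · exact bucket21_2
      · exact bucket21_3
      · exact bucket21_4
      · exact bucket21_5
      · exact bucket21_6
      · exact bucket21_7)

end Vale.Agent.P098.Exact.Sos6.Q93
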