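import Vale.Agent.P098.Exact.Sos6.Q93.Common
import Vale.Agent.P098.Exact.Sos6.Q93.Box220B0
import Vale.Agent.P098.Exact.Sos6.Q93.Box220B1
import Vale.Agent.P098.Exact.Sos6.Q93.Box220B2
import Vale.Agent.P098.Exact.Sos6.Q93.Box220B3
import Vale.Agent.P098.Exact.Sos6.Q93.Box220B4
import Vale.Agent.P098.Exact.Sos6.Q93.Box220B5
import Vale.Agent.P098.Exact.Sos6.Q93.Box220B6
import Vale.Agent.P098.Exact.Sos6.Q93.Box220B7

/-! Generated data of the dimension six interior check. -/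

noncomputable section

namespace Vale.Agent.P098.Exact.Sos6.Q93

set_option maxRecDepth 100000

theorem pay220 : dtbl.payOK 190 dD220 dE220 (elTot els220) = true := by decide +kernel

theorem rls_ok220 : ∀ G ∈ rls220, ∃ Ns, tbl.facR 72 b0 28 22 Ns G = true := by
  intro G hG
  simp only [rls220, List.mem_cons, List.not_mem_nil, or_false] at hG
  rcases hG with rfl | rfl | rfl | rfl | rfl | rfl | rfl | rfl | rfl | rfl | rfl | rfl | rfl | rfl | rfl | rfl | rfl | rfl | rfl | rfl | rfl | rfl | rfl | rfl | rfl | rfl | rfl | rfl | rfl | rfl | rfl | rfl | rfl | rfl | rfl | rfl | rfl | rfl | rfl | rfl | rfl | rfl | rfl | rfl | rfl | rfl | rfl | rfl | rfl | rfl | rfl | rfl | rfl | rfl | rfl | rfl | rfl | rfl | rfl | rfl | rfl | rfl | rfl | rfl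
  · exact ⟨_, fac14080⟩
  · exact ⟨_, fac14081⟩
  · exact ⟨_, fac14082⟩
  · exact ⟨_, fac14083⟩
  · exact ⟨_, fac14084⟩
  · exact ⟨_, fac14085⟩
  · exact ⟨_, fac14086⟩
  · exact ⟨_, fac14087⟩
  · exact ⟨_, fac14088⟩
  · exact ⟨_, fac14089⟩
  · exact ⟨_, fac14090⟩
  · exact ⟨_, fac14091⟩
  · exact ⟨_, fac14092⟩
  · exact ⟨_, fac14093⟩
  · exact ⟨_, fac14094⟩
  · exact ⟨_, fac14095⟩
  · exact ⟨_, fac14096⟩
  · exact ⟨_, fac14097⟩
  · exact ⟨_, fac14098⟩
  · exact ⟨_, fac14099⟩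
  · exact ⟨_, fac14100⟩
  · exact ⟨_, fac14101⟩
  · exact ⟨_, fac14102⟩
  · exact ⟨_, fac14103⟩
  · exact ⟨_, fac14104⟩
  · exact ⟨_, fac14105⟩
  · exact ⟨_, fac14106⟩
  · exact ⟨_, fac14107⟩
  · exact ⟨_, fac14108⟩
  · exact ⟨_, fac14109⟩
  · exact ⟨_, fac14110⟩
  · exact ⟨_, fac14111⟩
  · exact ⟨_, fac14112⟩
  · exact ⟨_, fac14113⟩
  · exact ⟨_, fac14114⟩
  · exact ⟨_, fac14115⟩
  · exact ⟨_, fac14116⟩
  · exact ⟨_, fac14117⟩
  · exact ⟨_, fac14118⟩
  · exact ⟨_, fac14119⟩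
  · exact ⟨_, fac14120⟩
  · exact ⟨_, fac14121⟩
  · exact ⟨_, fac14122⟩
  · exact ⟨_, fac14123⟩
  · exact ⟨_, fac14124⟩
  · exact ⟨_, fac14125⟩
  · exact ⟨_, fac14126⟩
  · exact ⟨_, fac14127⟩
  · exact ⟨_, fac14128⟩
  · exact ⟨_, fac14129⟩
  · exact ⟨_, fac14130⟩
  · exact ⟨_, fac14131⟩
  · exact ⟨_, fac14132⟩
  · exact ⟨_, fac14133⟩
  · exact ⟨_, fac14134⟩
  · exact ⟨_, fac14135⟩
  · exact ⟨_, fac14136⟩
  · exact ⟨_, fac14137⟩
  · exact ⟨_, fac14138⟩
  · exact ⟨_, fac14139⟩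
  · exact ⟨_, fac14140⟩
  · exact ⟨_, fac14141⟩
  · exact ⟨_, fac14142⟩
  · exact ⟨_, fac14143⟩

theorem good220 : bx220.GoodK ((an : ℝ) / 100) (L.map (ITerm.term den)) (L2.map (ITerm.term den))
    (KL.map (KI.term den)) delta :=
  goodK_of_checkR an den (by decide) L L2 KL dtbl dtbl_ok rfl codes posN rowsA rowsB rowsC rows_tbl 12 256 8 72 b0 28 22
    (by decide) parts_ok (by decide +kernel) slice_ok lit_ok 1 (by decide +kernel) delta bx220 hd220
    (by decide) rls220 rls_ok220 (by decide) (planOf lams220) 190 dD220 dE220 els220 rfl pay220 delta_le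
    (fun b hb => by
      interval_cases b
      · exact bucket220_0
      · exact bucket220_1
      · exact bucket220_2
      · exact bucket220_3
      · exact bucket220_4
      · exact bucket220_5
      · exact bucket220_6
      · exact bucket220_7)

end Vale.Agent.P098.Exact.Sos6.Q93
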