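import Vale.Agent.P098.Exact.Sos6.Q93.Common
import Vale.Agent.P098.Exact.Sos6.Q93.Box221B0
import Vale.Agent.P098.Exact.Sos6.Q93.Box221B1
import Vale.Agent.P098.Exact.Sos6.Q93.Box221B2
import Vale.Agent.P098.Exact.Sos6.Q93.Box221B3
import Vale.Agent.P098.Exact.Sos6.Q93.Box221B4
import Vale.Agent.P098.Exact.Sos6.Q93.Box221B5
import Vale.Agent.P098.Exact.Sos6.Q93.Box221B6
import Vale.Agent.P098.Exact.Sos6.Q93.Box221B7

/-! Generated data of the dimension six interior check. -/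

noncomputable section

namespace Vale.Agent.P098.Exact.Sos6.Q93

set_option maxRecDepth 100000

theorem pay221 : dtbl.payOK 190 dD221 dE221 (elTot els221) = true := by decide +kernel

theorem rls_ok221 : ∀ G ∈ rls221, ∃ Ns, tbl.facR 72 b0 28 22 Ns G = true := by
  intro G hG
  simp only [rls221, List.mem_cons, List.not_mem_nil, or_false] at hG
  rcases hG with rfl | rfl | rfl | rfl | rfl | rfl | rfl | rfl | rfl | rfl | rfl | rfl | rfl | rfl | rfl | rfl | rfl | rfl | rfl | rfl | rfl | rfl | rfl | rfl | rfl | rfl | rfl | rfl | rfl | rfl | rfl | rfl | rfl | rfl | rfl | rfl | rfl | rfl | rfl | rfl | rfl | rfl | rfl | rfl | rfl | rfl | rfl | rfl | rfl | rfl | rfl | rfl | rfl | rfl | rfl | rfl | rfl | rfl | rfl | rfl | rfl | rfl | rfl | rfl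
  · exact ⟨_, fac14144⟩
  · exact ⟨_, fac14145⟩
  · exact ⟨_, fac14146⟩
  · exact ⟨_, fac14147⟩
  · exact ⟨_, fac14148⟩
  · exact ⟨_, fac14149⟩
  · exact ⟨_, fac14150⟩
  · exact ⟨_, fac14151⟩
  · exact ⟨_, fac14152⟩
  · exact ⟨_, fac14153⟩
  · exact ⟨_, fac14154⟩
  · exact ⟨_, fac14155⟩
  · exact ⟨_, fac14156⟩
  · exact ⟨_, fac14157⟩
  · exact ⟨_, fac14158⟩
  · exact ⟨_, fac14159⟩
  · exact ⟨_, fac14160⟩
  · exact ⟨_, fac14161⟩
  · exact ⟨_, fac14162⟩
  · exact ⟨_, fac14163⟩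
  · exact ⟨_, fac14164⟩
  · exact ⟨_, fac14165⟩
  · exact ⟨_, fac14166⟩
  · exact ⟨_, fac14167⟩
  · exact ⟨_, fac14168⟩
  · exact ⟨_, fac14169⟩
  · exact ⟨_, fac14170⟩
  · exact ⟨_, fac14171⟩
  · exact ⟨_, fac14172⟩
  · exact ⟨_, fac14173⟩
  · exact ⟨_, fac14174⟩
  · exact ⟨_, fac14175⟩
  · exact ⟨_, fac14176⟩
  · exact ⟨_, fac14177⟩
  · exact ⟨_, fac14178⟩
  · exact ⟨_, fac14179⟩
  · exact ⟨_, fac14180⟩
  · exact ⟨_, fac14181⟩
  · exact ⟨_, fac14182⟩
  · exact ⟨_, fac14183⟩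
  · exact ⟨_, fac14184⟩
  · exact ⟨_, fac14185⟩
  · exact ⟨_, fac14186⟩
  · exact ⟨_, fac14187⟩
  · exact ⟨_, fac14188⟩
  · exact ⟨_, fac14189⟩
  · exact ⟨_, fac14190⟩
  · exact ⟨_, fac14191⟩
  · exact ⟨_, fac14192⟩
  · exact ⟨_, fac14193⟩
  · exact ⟨_, fac14194⟩
  · exact ⟨_, fac14195⟩
  · exact ⟨_, fac14196⟩
  · exact ⟨_, fac14197⟩
  · exact ⟨_, fac14198⟩
  · exact ⟨_, fac14199⟩
  · exact ⟨_, fac14200⟩
  · exact ⟨_, fac14201⟩
  · exact ⟨_, fac14202⟩
  · exact ⟨_, fac14203⟩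
  · exact ⟨_, fac14204⟩
  · exact ⟨_, fac14205⟩
  · exact ⟨_, fac14206⟩
  · exact ⟨_, fac14207⟩

theorem good221 : bx221.GoodK ((an : ℝ) / 100) (L.map (ITerm.term den)) (L2.map (ITerm.term den))
    (KL.map (KI.term den)) delta :=
  goodK_of_checkR an den (by decide) L L2 KL dtbl dtbl_ok rfl codes posN rowsA rowsB rowsC rows_tbl 12 256 8 72 b0 28 22
    (by decide) parts_ok (by decide +kernel) slice_ok lit_ok 1 (by decide +kernel) delta bx221 hd221
    (by decide) rls221 rls_ok221 (by decide) (planOf lams221) 190 dD221 dE221 els221 rfl pay221 delta_le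
    (fun b hb => by
      interval_cases b
      · exact bucket221_0
      · exact bucket221_1
      · exact bucket221_2
      · exact bucket221_3
      · exact bucket221_4
      · exact bucket221_5
      · exact bucket221_6
      · exact bucket221_7)

end Vale.Agent.P098.Exact.Sos6.Q93
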