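import Vale.Agent.P098.Exact.Sos6.Q93.Common
import Vale.Agent.P098.Exact.Sos6.Q93.Box222B0
import Vale.Agent.P098.Exact.Sos6.Q93.Box222B1
import Vale.Agent.P098.Exact.Sos6.Q93.Box222B2
import Vale.Agent.P098.Exact.Sos6.Q93.Box222B3
import Vale.Agent.P098.Exact.Sos6.Q93.Box222B4
import Vale.Agent.P098.Exact.Sos6.Q93.Box222B5
import Vale.Agent.P098.Exact.Sos6.Q93.Box222B6
import Vale.Agent.P098.Exact.Sos6.Q93.Box222B7

/-! Generated data of the dimension six interior check. -/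

noncomputable section

namespace Vale.Agent.P098.Exact.Sos6.Q93

set_option maxRecDepth 100000

theorem pay222 : dtbl.payOK 190 dD222 dE222 (elTot els222) = true := by decide +kernel

theorem rls_ok222 : ∀ G ∈ rls222, ∃ Ns, tbl.facR 72 b0 28 22 Ns G = true := by
  intro G hG
  simp only [rls222, List.mem_cons, List.not_mem_nil, or_false] at hG
  rcases hG with rfl | rfl | rfl | rfl | rfl | rfl | rfl | rfl | rfl | rfl | rfl | rfl | rfl | rfl | rfl | rfl | rfl | rfl | rfl | rfl | rfl | rfl | rfl | rfl | rfl | rfl | rfl | rfl | rfl | rfl | rfl | rfl | rfl | rfl | rfl | rfl | rfl | rfl | rfl | rfl | rfl | rfl | rfl | rfl | rfl | rfl | rfl | rfl | rfl | rfl | rfl | rfl | rfl | rfl | rfl | rfl | rfl | rfl | rfl | rfl | rfl | rfl | rfl | rfl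
  · exact ⟨_, fac14208⟩
  · exact ⟨_, fac14209⟩
  · exact ⟨_, fac14210⟩
  · exact ⟨_, fac14211⟩
  · exact ⟨_, fac14212⟩
  · exact ⟨_, fac14213⟩
  · exact ⟨_, fac14214⟩
  · exact ⟨_, fac14215⟩
  · exact ⟨_, fac14216⟩
  · exact ⟨_, fac14217⟩
  · exact ⟨_, fac14218⟩
  · exact ⟨_, fac14219⟩
  · exact ⟨_, fac14220⟩
  · exact ⟨_, fac14221⟩
  · exact ⟨_, fac14222⟩
  · exact ⟨_, fac14223⟩
  · exact ⟨_, fac14224⟩
  · exact ⟨_, fac14225⟩
  · exact ⟨_, fac14226⟩
  · exact ⟨_, fac14227⟩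
  · exact ⟨_, fac14228⟩
  · exact ⟨_, fac14229⟩
  · exact ⟨_, fac14230⟩
  · exact ⟨_, fac14231⟩
  · exact ⟨_, fac14232⟩
  · exact ⟨_, fac14233⟩
  · exact ⟨_, fac14234⟩
  · exact ⟨_, fac14235⟩
  · exact ⟨_, fac14236⟩
  · exact ⟨_, fac14237⟩
  · exact ⟨_, fac14238⟩
  · exact ⟨_, fac14239⟩
  · exact ⟨_, fac14240⟩
  · exact ⟨_, fac14241⟩
  · exact ⟨_, fac14242⟩
  · exact ⟨_, fac14243⟩
  · exact ⟨_, fac14244⟩
  · exact ⟨_, fac14245⟩
  · exact ⟨_, fac14246⟩
  · exact ⟨_, fac14247⟩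
  · exact ⟨_, fac14248⟩
  · exact ⟨_, fac14249⟩
  · exact ⟨_, fac14250⟩
  · exact ⟨_, fac14251⟩
  · exact ⟨_, fac14252⟩
  · exact ⟨_, fac14253⟩
  · exact ⟨_, fac14254⟩
  · exact ⟨_, fac14255⟩
  · exact ⟨_, fac14256⟩
  · exact ⟨_, fac14257⟩
  · exact ⟨_, fac14258⟩
  · exact ⟨_, fac14259⟩
  · exact ⟨_, fac14260⟩
  · exact ⟨_, fac14261⟩
  · exact ⟨_, fac14262⟩
  · exact ⟨_, fac14263⟩
  · exact ⟨_, fac14264⟩
  · exact ⟨_, fac14265⟩
  · exact ⟨_, fac14266⟩
  · exact ⟨_, fac14267⟩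
  · exact ⟨_, fac14268⟩
  · exact ⟨_, fac14269⟩
  · exact ⟨_, fac14270⟩
  · exact ⟨_, fac14271⟩

theorem good222 : bx222.GoodK ((an : ℝ) / 100) (L.map (ITerm.term den)) (L2.map (ITerm.term den))
    (KL.map (KI.term den)) delta :=
  goodK_of_checkR an den (by decide) L L2 KL dtbl dtbl_ok rfl codes posN rowsA rowsB rowsC rows_tbl 12 256 8 72 b0 28 22
    (by decide) parts_ok (by decide +kernel) slice_ok lit_ok 1 (by decide +kernel) delta bx222 hd222
    (by decide) rls222 rls_ok222 (by decide) (planOf lams222) 190 dD222 dE222 els222 rfl pay222 delta_le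
    (fun b hb => by
      interval_cases b
      · exact bucket222_0
      · exact bucket222_1
      · exact bucket222_2
      · exact bucket222_3
      · exact bucket222_4
      · exact bucket222_5
      · exact bucket222_6
      · exact bucket222_7)

end Vale.Agent.P098.Exact.Sos6.Q93
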