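import Vale.Agent.P098.Exact.Sos6.Q93.Common
import Vale.Agent.P098.Exact.Sos6.Q93.Box223B0
import Vale.Agent.P098.Exact.Sos6.Q93.Box223B1
import Vale.Agent.P098.Exact.Sos6.Q93.Box223B2
import Vale.Agent.P098.Exact.Sos6.Q93.Box223B3
import Vale.Agent.P098.Exact.Sos6.Q93.Box223B4
import Vale.Agent.P098.Exact.Sos6.Q93.Box223B5
import Vale.Agent.P098.Exact.Sos6.Q93.Box223B6
import Vale.Agent.P098.Exact.Sos6.Q93.Box223B7

/-! Generated data of the dimension six interior check. -/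

noncomputable section

namespace Vale.Agent.P098.Exact.Sos6.Q93

set_option maxRecDepth 100000

theorem pay223 : dtbl.payOK 190 dD223 dE223 (elTot els223) = true := by decide +kernel

theorem rls_ok223 : ∀ G ∈ rls223, ∃ Ns, tbl.facR 72 b0 28 22 Ns G = true := by
  intro G hG
  simp only [rls223, List.mem_cons, List.not_mem_nil, or_false] at hG
  rcases hG with rfl | rfl | rfl | rfl | rfl | rfl | rfl | rfl | rfl | rfl | rfl | rfl | rfl | rfl | rfl | rfl | rfl | rfl | rfl | rfl | rfl | rfl | rfl | rfl | rfl | rfl | rfl | rfl | rfl | rfl | rfl | rfl | rfl | rfl | rfl | rfl | rfl | rfl | rfl | rfl | rfl | rfl | rfl | rfl | rfl | rfl | rfl | rfl | rfl | rfl | rfl | rfl | rfl | rfl | rfl | rfl | rfl | rfl | rfl | rfl | rfl | rfl | rfl | rfl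
  · exact ⟨_, fac14272⟩
  · exact ⟨_, fac14273⟩
  · exact ⟨_, fac14274⟩
  · exact ⟨_, fac14275⟩
  · exact ⟨_, fac14276⟩
  · exact ⟨_, fac14277⟩
  · exact ⟨_, fac14278⟩
  · exact ⟨_, fac14279⟩
  · exact ⟨_, fac14280⟩
  · exact ⟨_, fac14281⟩
  · exact ⟨_, fac14282⟩
  · exact ⟨_, fac14283⟩
  · exact ⟨_, fac14284⟩
  · exact ⟨_, fac14285⟩
  · exact ⟨_, fac14286⟩
  · exact ⟨_, fac14287⟩
  · exact ⟨_, fac14288⟩
  · exact ⟨_, fac14289⟩
  · exact ⟨_, fac14290⟩
  · exact ⟨_, fac14291⟩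
  · exact ⟨_, fac14292⟩
  · exact ⟨_, fac14293⟩
  · exact ⟨_, fac14294⟩
  · exact ⟨_, fac14295⟩
  · exact ⟨_, fac14296⟩
  · exact ⟨_, fac14297⟩
  · exact ⟨_, fac14298⟩
  · exact ⟨_, fac14299⟩
  · exact ⟨_, fac14300⟩
  · exact ⟨_, fac14301⟩
  · exact ⟨_, fac14302⟩
  · exact ⟨_, fac14303⟩
  · exact ⟨_, fac14304⟩
  · exact ⟨_, fac14305⟩
  · exact ⟨_, fac14306⟩
  · exact ⟨_, fac14307⟩
  · exact ⟨_, fac14308⟩
  · exact ⟨_, fac14309⟩
  · exact ⟨_, fac14310⟩
  · exact ⟨_, fac14311⟩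
  · exact ⟨_, fac14312⟩
  · exact ⟨_, fac14313⟩
  · exact ⟨_, fac14314⟩
  · exact ⟨_, fac14315⟩
  · exact ⟨_, fac14316⟩
  · exact ⟨_, fac14317⟩
  · exact ⟨_, fac14318⟩
  · exact ⟨_, fac14319⟩
  · exact ⟨_, fac14320⟩
  · exact ⟨_, fac14321⟩
  · exact ⟨_, fac14322⟩
  · exact ⟨_, fac14323⟩
  · exact ⟨_, fac14324⟩
  · exact ⟨_, fac14325⟩
  · exact ⟨_, fac14326⟩
  · exact ⟨_, fac14327⟩
  · exact ⟨_, fac14328⟩
  · exact ⟨_, fac14329⟩
  · exact ⟨_, fac14330⟩
  · exact ⟨_, fac14331⟩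
  · exact ⟨_, fac14332⟩
  · exact ⟨_, fac14333⟩
  · exact ⟨_, fac14334⟩
  · exact ⟨_, fac14335⟩

theorem good223 : bx223.GoodK ((an : ℝ) / 100) (L.map (ITerm.term den)) (L2.map (ITerm.term den))
    (KL.map (KI.term den)) delta :=
  goodK_of_checkR an den (by decide) L L2 KL dtbl dtbl_ok rfl codes posN rowsA rowsB rowsC rows_tbl 12 256 8 72 b0 28 22
    (by decide) parts_ok (by decide +kernel) slice_ok lit_ok 1 (by decide +kernel) delta bx223 hd223
    (by decide) rls223 rls_ok223 (by decide) (planOf lams223) 190 dD223 dE223 els223 rfl pay223 delta_le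
    (fun b hb => by
      interval_cases b
      · exact bucket223_0
      · exact bucket223_1
      · exact bucket223_2
      · exact bucket223_3
      · exact bucket223_4
      · exact bucket223_5
      · exact bucket223_6
      · exact bucket223_7)

end Vale.Agent.P098.Exact.Sos6.Q93
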