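import Vale.Agent.P098.Exact.Sos6.Q93.Common
import Vale.Agent.P098.Exact.Sos6.Q93.Box224B0
import Vale.Agent.P098.Exact.Sos6.Q93.Box224B1
import Vale.Agent.P098.Exact.Sos6.Q93.Box224B2
import Vale.Agent.P098.Exact.Sos6.Q93.Box224B3
import Vale.Agent.P098.Exact.Sos6.Q93.Box224B4
import Vale.Agent.P098.Exact.Sos6.Q93.Box224B5
import Vale.Agent.P098.Exact.Sos6.Q93.Box224B6
import Vale.Agent.P098.Exact.Sos6.Q93.Box224B7

/-! Generated data of the dimension six interior check. -/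

noncomputable section

namespace Vale.Agent.P098.Exact.Sos6.Q93

set_option maxRecDepth 100000

theorem pay224 : dtbl.payOK 190 dD224 dE224 (elTot els224) = true := by decide +kernel

theorem rls_ok224 : ∀ G ∈ rls224, ∃ Ns, tbl.facR 72 b0 28 22 Ns G = true := by
  intro G hG
  simp only [rls224, List.mem_cons, List.not_mem_nil, or_false] at hG
  rcases hG with rfl | rfl | rfl | rfl | rfl | rfl | rfl | rfl | rfl | rfl | rfl | rfl | rfl | rfl | rfl | rfl | rfl | rfl | rfl | rfl | rfl | rfl | rfl | rfl | rfl | rfl | rfl | rfl | rfl | rfl | rfl | rfl | rfl | rfl | rfl | rfl | rfl | rfl | rfl | rfl | rfl | rfl | rfl | rfl | rfl | rfl | rfl | rfl | rfl | rfl | rfl | rfl | rfl | rfl | rfl | rfl | rfl | rfl | rfl | rfl | rfl | rfl | rfl | rfl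
  · exact ⟨_, fac14336⟩
  · exact ⟨_, fac14337⟩
  · exact ⟨_, fac14338⟩
  · exact ⟨_, fac14339⟩
  · exact ⟨_, fac14340⟩
  · exact ⟨_, fac14341⟩
  · exact ⟨_, fac14342⟩
  · exact ⟨_, fac14343⟩
  · exact ⟨_, fac14344⟩
  · exact ⟨_, fac14345⟩
  · exact ⟨_, fac14346⟩
  · exact ⟨_, fac14347⟩
  · exact ⟨_, fac14348⟩
  · exact ⟨_, fac14349⟩
  · exact ⟨_, fac14350⟩
  · exact ⟨_, fac14351⟩
  · exact ⟨_, fac14352⟩
  · exact ⟨_, fac14353⟩
  · exact ⟨_, fac14354⟩
  · exact ⟨_, fac14355⟩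
  · exact ⟨_, fac14356⟩
  · exact ⟨_, fac14357⟩
  · exact ⟨_, fac14358⟩
  · exact ⟨_, fac14359⟩
  · exact ⟨_, fac14360⟩
  · exact ⟨_, fac14361⟩
  · exact ⟨_, fac14362⟩
  · exact ⟨_, fac14363⟩
  · exact ⟨_, fac14364⟩
  · exact ⟨_, fac14365⟩
  · exact ⟨_, fac14366⟩
  · exact ⟨_, fac14367⟩
  · exact ⟨_, fac14368⟩
  · exact ⟨_, fac14369⟩
  · exact ⟨_, fac14370⟩
  · exact ⟨_, fac14371⟩
  · exact ⟨_, fac14372⟩
  · exact ⟨_, fac14373⟩
  · exact ⟨_, fac14374⟩
  · exact ⟨_, fac14375⟩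
  · exact ⟨_, fac14376⟩
  · exact ⟨_, fac14377⟩
  · exact ⟨_, fac14378⟩
  · exact ⟨_, fac14379⟩
  · exact ⟨_, fac14380⟩
  · exact ⟨_, fac14381⟩
  · exact ⟨_, fac14382⟩
  · exact ⟨_, fac14383⟩
  · exact ⟨_, fac14384⟩
  · exact ⟨_, fac14385⟩
  · exact ⟨_, fac14386⟩
  · exact ⟨_, fac14387⟩
  · exact ⟨_, fac14388⟩
  · exact ⟨_, fac14389⟩
  · exact ⟨_, fac14390⟩
  · exact ⟨_, fac14391⟩
  · exact ⟨_, fac14392⟩
  · exact ⟨_, fac14393⟩
  · exact ⟨_, fac14394⟩
  · exact ⟨_, fac14395⟩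
  · exact ⟨_, fac14396⟩
  · exact ⟨_, fac14397⟩
  · exact ⟨_, fac14398⟩
  · exact ⟨_, fac14399⟩

theorem good224 : bx224.GoodK ((an : ℝ) / 100) (L.map (ITerm.term den)) (L2.map (ITerm.term den))
    (KL.map (KI.term den)) delta :=
  goodK_of_checkR an den (by decide) L L2 KL dtbl dtbl_ok rfl codes posN rowsA rowsB rowsC rows_tbl 12 256 8 72 b0 28 22
    (by decide) parts_ok (by decide +kernel) slice_ok lit_ok 1 (by decide +kernel) delta bx224 hd224
    (by decide) rls224 rls_ok224 (by decide) (planOf lams224) 190 dD224 dE224 els224 rfl pay224 delta_le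
    (fun b hb => by
      interval_cases b
      · exact bucket224_0
      · exact bucket224_1
      · exact bucket224_2
      · exact bucket224_3
      · exact bucket224_4
      · exact bucket224_5
      · exact bucket224_6
      · exact bucket224_7)

end Vale.Agent.P098.Exact.Sos6.Q93
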