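import Vale.Agent.P098.Exact.Sos6.Q93.Common
import Vale.Agent.P098.Exact.Sos6.Q93.Box225B0
import Vale.Agent.P098.Exact.Sos6.Q93.Box225B1
import Vale.Agent.P098.Exact.Sos6.Q93.Box225B2
import Vale.Agent.P098.Exact.Sos6.Q93.Box225B3
import Vale.Agent.P098.Exact.Sos6.Q93.Box225B4
import Vale.Agent.P098.Exact.Sos6.Q93.Box225B5
import Vale.Agent.P098.Exact.Sos6.Q93.Box225B6
import Vale.Agent.P098.Exact.Sos6.Q93.Box225B7

/-! Generated data of the dimension six interior check. -/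

noncomputable section

namespace Vale.Agent.P098.Exact.Sos6.Q93

set_option maxRecDepth 100000

theorem pay225 : dtbl.payOK 190 dD225 dE225 (elTot els225) = true := by decide +kernel

theorem rls_ok225 : ∀ G ∈ rls225, ∃ Ns, tbl.facR 72 b0 28 22 Ns G = true := by
  intro G hG
  simp only [rls225, List.mem_cons, List.not_mem_nil, or_false] at hG
  rcases hG with rfl | rfl | rfl | rfl | rfl | rfl | rfl | rfl | rfl | rfl | rfl | rfl | rfl | rfl | rfl | rfl | rfl | rfl | rfl | rfl | rfl | rfl | rfl | rfl | rfl | rfl | rfl | rfl | rfl | rfl | rfl | rfl | rfl | rfl | rfl | rfl | rfl | rfl | rfl | rfl | rfl | rfl | rfl | rfl | rfl | rfl | rfl | rfl | rfl | rfl | rfl | rfl | rfl | rfl | rfl | rfl | rfl | rfl | rfl | rfl | rfl | rfl | rfl | rfl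
  · exact ⟨_, fac14400⟩
  · exact ⟨_, fac14401⟩
  · exact ⟨_, fac14402⟩
  · exact ⟨_, fac14403⟩
  · exact ⟨_, fac14404⟩
  · exact ⟨_, fac14405⟩
  · exact ⟨_, fac14406⟩
  · exact ⟨_, fac14407⟩
  · exact ⟨_, fac14408⟩
  · exact ⟨_, fac14409⟩
  · exact ⟨_, fac14410⟩
  · exact ⟨_, fac14411⟩
  · exact ⟨_, fac14412⟩
  · exact ⟨_, fac14413⟩
  · exact ⟨_, fac14414⟩
  · exact ⟨_, fac14415⟩
  · exact ⟨_, fac14416⟩
  · exact ⟨_, fac14417⟩
  · exact ⟨_, fac14418⟩
  · exact ⟨_, fac14419⟩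
  · exact ⟨_, fac14420⟩
  · exact ⟨_, fac14421⟩
  · exact ⟨_, fac14422⟩
  · exact ⟨_, fac14423⟩
  · exact ⟨_, fac14424⟩
  · exact ⟨_, fac14425⟩
  · exact ⟨_, fac14426⟩
  · exact ⟨_, fac14427⟩
  · exact ⟨_, fac14428⟩
  · exact ⟨_, fac14429⟩
  · exact ⟨_, fac14430⟩
  · exact ⟨_, fac14431⟩
  · exact ⟨_, fac14432⟩
  · exact ⟨_, fac14433⟩
  · exact ⟨_, fac14434⟩
  · exact ⟨_, fac14435⟩
  · exact ⟨_, fac14436⟩
  · exact ⟨_, fac14437⟩
  · exact ⟨_, fac14438⟩
  · exact ⟨_, fac14439⟩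
  · exact ⟨_, fac14440⟩
  · exact ⟨_, fac14441⟩
  · exact ⟨_, fac14442⟩
  · exact ⟨_, fac14443⟩
  · exact ⟨_, fac14444⟩
  · exact ⟨_, fac14445⟩
  · exact ⟨_, fac14446⟩
  · exact ⟨_, fac14447⟩
  · exact ⟨_, fac14448⟩
  · exact ⟨_, fac14449⟩
  · exact ⟨_, fac14450⟩
  · exact ⟨_, fac14451⟩
  · exact ⟨_, fac14452⟩
  · exact ⟨_, fac14453⟩
  · exact ⟨_, fac14454⟩
  · exact ⟨_, fac14455⟩
  · exact ⟨_, fac14456⟩
  · exact ⟨_, fac14457⟩
  · exact ⟨_, fac14458⟩
  · exact ⟨_, fac14459⟩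
  · exact ⟨_, fac14460⟩
  · exact ⟨_, fac14461⟩
  · exact ⟨_, fac14462⟩
  · exact ⟨_, fac14463⟩

theorem good225 : bx225.GoodK ((an : ℝ) / 100) (L.map (ITerm.term den)) (L2.map (ITerm.term den))
    (KL.map (KI.term den)) delta :=
  goodK_of_checkR an den (by decide) L L2 KL dtbl dtbl_ok rfl codes posN rowsA rowsB rowsC rows_tbl 12 256 8 72 b0 28 22
    (by decide) parts_ok (by decide +kernel) slice_ok lit_ok 1 (by decide +kernel) delta bx225 hd225
    (by decide) rls225 rls_ok225 (by decide) (planOf lams225) 190 dD225 dE225 els225 rfl pay225 delta_le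
    (fun b hb => by
      interval_cases b
      · exact bucket225_0
      · exact bucket225_1
      · exact bucket225_2
      · exact bucket225_3
      · exact bucket225_4
      · exact bucket225_5
      · exact bucket225_6
      · exact bucket225_7)

end Vale.Agent.P098.Exact.Sos6.Q93
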