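import Vale.Agent.P098.Exact.Sos6.Q93.Common
import Vale.Agent.P098.Exact.Sos6.Q93.Box22B0
import Vale.Agent.P098.Exact.Sos6.Q93.Box22B1
import Vale.Agent.P098.Exact.Sos6.Q93.Box22B2
import Vale.Agent.P098.Exact.Sos6.Q93.Box22B3
import Vale.Agent.P098.Exact.Sos6.Q93.Box22B4
import Vale.Agent.P098.Exact.Sos6.Q93.Box22B5
import Vale.Agent.P098.Exact.Sos6.Q93.Box22B6
import Vale.Agent.P098.Exact.Sos6.Q93.Box22B7

/-! Generated data of the dimension six interior check. -/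

noncomputable section

namespace Vale.Agent.P098.Exact.Sos6.Q93

set_option maxRecDepth 100000

theorem pay22 : dtbl.payOK 190 dD22 dE22 (elTot els22) = true := by decide +kernel

theorem rls_ok22 : ∀ G ∈ rls22, ∃ Ns, tbl.facR 72 b0 28 22 Ns G = true := by
  intro G hG
  simp only [rls22, List.mem_cons, List.not_mem_nil, or_false] at hG
  rcases hG with rfl | rfl | rfl | rfl | rfl | rfl | rfl | rfl | rfl | rfl | rfl | rfl | rfl | rfl | rfl | rfl | rfl | rfl | rfl | rfl | rfl | rfl | rfl | rfl | rfl | rfl | rfl | rfl | rfl | rfl | rfl | rfl | rfl | rfl | rfl | rfl | rfl | rfl | rfl | rfl | rfl | rfl | rfl | rfl | rfl | rfl | rfl | rfl | rfl | rfl | rfl | rfl | rfl | rfl | rfl | rfl | rfl | rfl | rfl | rfl | rfl | rfl | rfl | rfl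
  · exact ⟨_, fac1408⟩
  · exact ⟨_, fac1409⟩
  · exact ⟨_, fac1410⟩
  · exact ⟨_, fac1411⟩
  · exact ⟨_, fac1412⟩
  · exact ⟨_, fac1413⟩
  · exact ⟨_, fac1414⟩
  · exact ⟨_, fac1415⟩
  · exact ⟨_, fac1416⟩
  · exact ⟨_, fac1417⟩
  · exact ⟨_, fac1418⟩
  · exact ⟨_, fac1419⟩
  · exact ⟨_, fac1420⟩
  · exact ⟨_, fac1421⟩
  · exact ⟨_, fac1422⟩
  · exact ⟨_, fac1423⟩
  · exact ⟨_, fac1424⟩
  · exact ⟨_, fac1425⟩
  · exact ⟨_, fac1426⟩
  · exact ⟨_, fac1427⟩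
  · exact ⟨_, fac1428⟩
  · exact ⟨_, fac1429⟩
  · exact ⟨_, fac1430⟩
  · exact ⟨_, fac1431⟩
  · exact ⟨_, fac1432⟩
  · exact ⟨_, fac1433⟩
  · exact ⟨_, fac1434⟩
  · exact ⟨_, fac1435⟩
  · exact ⟨_, fac1436⟩
  · exact ⟨_, fac1437⟩
  · exact ⟨_, fac1438⟩
  · exact ⟨_, fac1439⟩
  · exact ⟨_, fac1440⟩
  · exact ⟨_, fac1441⟩
  · exact ⟨_, fac1442⟩
  · exact ⟨_, fac1443⟩
  · exact ⟨_, fac1444⟩
  · exact ⟨_, fac1445⟩
  · exact ⟨_, fac1446⟩
  · exact ⟨_, fac1447⟩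
  · exact ⟨_, fac1448⟩
  · exact ⟨_, fac1449⟩
  · exact ⟨_, fac1450⟩
  · exact ⟨_, fac1451⟩
  · exact ⟨_, fac1452⟩
  · exact ⟨_, fac1453⟩
  · exact ⟨_, fac1454⟩
  · exact ⟨_, fac1455⟩
  · exact ⟨_, fac1456⟩
  · exact ⟨_, fac1457⟩
  · exact ⟨_, fac1458⟩
  · exact ⟨_, fac1459⟩
  · exact ⟨_, fac1460⟩
  · exact ⟨_, fac1461⟩
  · exact ⟨_, fac1462⟩
  · exact ⟨_, fac1463⟩
  · exact ⟨_, fac1464⟩
  · exact ⟨_, fac1465⟩
  · exact ⟨_, fac1466⟩
  · exact ⟨_, fac1467⟩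
  · exact ⟨_, fac1468⟩
  · exact ⟨_, fac1469⟩
  · exact ⟨_, fac1470⟩
  · exact ⟨_, fac1471⟩

theorem good22 : bx22.GoodK ((an : ℝ) / 100) (L.map (ITerm.term den)) (L2.map (ITerm.term den))
    (KL.map (KI.term den)) delta :=
  goodK_of_checkR an den (by decide) L L2 KL dtbl dtbl_ok rfl codes posN rowsA rowsB rowsC rows_tbl 12 256 8 72 b0 28 22
    (by decide) parts_ok (by decide +kernel) slice_ok lit_ok 1 (by decide +kernel) delta bx22 hd22
    (by decide) rls22 rls_ok22 (by decide) (planOf lams22) 190 dD22 dE22 els22 rfl pay22 delta_le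
    (fun b hb => by
      interval_cases b
      · exact bucket22_0
      · exact bucket22_1
      · exact bucket22_2
      · exact bucket22_3
      · exact bucket22_4
      · exact bucket22_5
      · exact bucket22_6
      · exact bucket22_7)

end Vale.Agent.P098.Exact.Sos6.Q93
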