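import Vale.Agent.P098.Exact.Sos6.Q93.Common
import Vale.Agent.P098.Exact.Sos6.Q93.Box23B0
import Vale.Agent.P098.Exact.Sos6.Q93.Box23B1
import Vale.Agent.P098.Exact.Sos6.Q93.Box23B2
import Vale.Agent.P098.Exact.Sos6.Q93.Box23B3
import Vale.Agent.P098.Exact.Sos6.Q93.Box23B4
import Vale.Agent.P098.Exact.Sos6.Q93.Box23B5
import Vale.Agent.P098.Exact.Sos6.Q93.Box23B6
import Vale.Agent.P098.Exact.Sos6.Q93.Box23B7

/-! Generated data of the dimension six interior check. -/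

noncomputable section

namespace Vale.Agent.P098.Exact.Sos6.Q93

set_option maxRecDepth 100000

theorem pay23 : dtbl.payOK 190 dD23 dE23 (elTot els23) = true := by decide +kernel

theorem rls_ok23 : ∀ G ∈ rls23, ∃ Ns, tbl.facR 72 b0 28 22 Ns G = true := by
  intro G hG
  simp only [rls23, List.mem_cons, List.not_mem_nil, or_false] at hG
  rcases hG with rfl | rfl | rfl | rfl | rfl | rfl | rfl | rfl | rfl | rfl | rfl | rfl | rfl | rfl | rfl | rfl | rfl | rfl | rfl | rfl | rfl | rfl | rfl | rfl | rfl | rfl | rfl | rfl | rfl | rfl | rfl | rfl | rfl | rfl | rfl | rfl | rfl | rfl | rfl | rfl | rfl | rfl | rfl | rfl | rfl | rfl | rfl | rfl | rfl | rfl | rfl | rfl | rfl | rfl | rfl | rfl | rfl | rfl | rfl | rfl | rfl | rfl | rfl | rfl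
  · exact ⟨_, fac1472⟩
  · exact ⟨_, fac1473⟩
  · exact ⟨_, fac1474⟩
  · exact ⟨_, fac1475⟩
  · exact ⟨_, fac1476⟩
  · exact ⟨_, fac1477⟩
  · exact ⟨_, fac1478⟩
  · exact ⟨_, fac1479⟩
  · exact ⟨_, fac1480⟩
  · exact ⟨_, fac1481⟩
  · exact ⟨_, fac1482⟩
  · exact ⟨_, fac1483⟩
  · exact ⟨_, fac1484⟩
  · exact ⟨_, fac1485⟩
  · exact ⟨_, fac1486⟩
  · exact ⟨_, fac1487⟩
  · exact ⟨_, fac1488⟩
  · exact ⟨_, fac1489⟩
  · exact ⟨_, fac1490⟩
  · exact ⟨_, fac1491⟩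
  · exact ⟨_, fac1492⟩
  · exact ⟨_, fac1493⟩
  · exact ⟨_, fac1494⟩
  · exact ⟨_, fac1495⟩
  · exact ⟨_, fac1496⟩
  · exact ⟨_, fac1497⟩
  · exact ⟨_, fac1498⟩
  · exact ⟨_, fac1499⟩
  · exact ⟨_, fac1500⟩
  · exact ⟨_, fac1501⟩
  · exact ⟨_, fac1502⟩
  · exact ⟨_, fac1503⟩
  · exact ⟨_, fac1504⟩
  · exact ⟨_, fac1505⟩
  · exact ⟨_, fac1506⟩
  · exact ⟨_, fac1507⟩
  · exact ⟨_, fac1508⟩
  · exact ⟨_, fac1509⟩
  · exact ⟨_, fac1510⟩
  · exact ⟨_, fac1511⟩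
  · exact ⟨_, fac1512⟩
  · exact ⟨_, fac1513⟩
  · exact ⟨_, fac1514⟩
  · exact ⟨_, fac1515⟩
  · exact ⟨_, fac1516⟩
  · exact ⟨_, fac1517⟩
  · exact ⟨_, fac1518⟩
  · exact ⟨_, fac1519⟩
  · exact ⟨_, fac1520⟩
  · exact ⟨_, fac1521⟩
  · exact ⟨_, fac1522⟩
  · exact ⟨_, fac1523⟩
  · exact ⟨_, fac1524⟩
  · exact ⟨_, fac1525⟩
  · exact ⟨_, fac1526⟩
  · exact ⟨_, fac1527⟩
  · exact ⟨_, fac1528⟩
  · exact ⟨_, fac1529⟩
  · exact ⟨_, fac1530⟩
  · exact ⟨_, fac1531⟩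
  · exact ⟨_, fac1532⟩
  · exact ⟨_, fac1533⟩
  · exact ⟨_, fac1534⟩
  · exact ⟨_, fac1535⟩

theorem good23 : bx23.GoodK ((an : ℝ) / 100) (L.map (ITerm.term den)) (L2.map (ITerm.term den))
    (KL.map (KI.term den)) delta :=
  goodK_of_checkR an den (by decide) L L2 KL dtbl dtbl_ok rfl codes posN rowsA rowsB rowsC rows_tbl 12 256 8 72 b0 28 22
    (by decide) parts_ok (by decide +kernel) slice_ok lit_ok 1 (by decide +kernel) delta bx23 hd23
    (by decide) rls23 rls_ok23 (by decide) (planOf lams23) 190 dD23 dE23 els23 rfl pay23 delta_le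
    (fun b hb => by
      interval_cases b
      · exact bucket23_0
      · exact bucket23_1
      · exact bucket23_2
      · exact bucket23_3
      · exact bucket23_4
      · exact bucket23_5
      · exact bucket23_6
      · exact bucket23_7)

end Vale.Agent.P098.Exact.Sos6.Q93
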