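import Vale.Agent.P098.Exact.Sos6.Q93.Common
import Vale.Agent.P098.Exact.Sos6.Q93.Box24B0
import Vale.Agent.P098.Exact.Sos6.Q93.Box24B1
import Vale.Agent.P098.Exact.Sos6.Q93.Box24B2
import Vale.Agent.P098.Exact.Sos6.Q93.Box24B3
import Vale.Agent.P098.Exact.Sos6.Q93.Box24B4
import Vale.Agent.P098.Exact.Sos6.Q93.Box24B5
import Vale.Agent.P098.Exact.Sos6.Q93.Box24B6
import Vale.Agent.P098.Exact.Sos6.Q93.Box24B7

/-! Generated data of the dimension six interior check. -/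

noncomputable section

namespace Vale.Agent.P098.Exact.Sos6.Q93

set_option maxRecDepth 100000

theorem pay24 : dtbl.payOK 190 dD24 dE24 (elTot els24) = true := by decide +kernel

theorem rls_ok24 : ∀ G ∈ rls24, ∃ Ns, tbl.facR 72 b0 28 22 Ns G = true := by
  intro G hG
  simp only [rls24, List.mem_cons, List.not_mem_nil, or_false] at hG
  rcases hG with rfl | rfl | rfl | rfl | rfl | rfl | rfl | rfl | rfl | rfl | rfl | rfl | rfl | rfl | rfl | rfl | rfl | rfl | rfl | rfl | rfl | rfl | rfl | rfl | rfl | rfl | rfl | rfl | rfl | rfl | rfl | rfl | rfl | rfl | rfl | rfl | rfl | rfl | rfl | rfl | rfl | rfl | rfl | rfl | rfl | rfl | rfl | rfl | rfl | rfl | rfl | rfl | rfl | rfl | rfl | rfl | rfl | rfl | rfl | rfl | rfl | rfl | rfl | rfl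
  · exact ⟨_, fac1536⟩
  · exact ⟨_, fac1537⟩
  · exact ⟨_, fac1538⟩
  · exact ⟨_, fac1539⟩
  · exact ⟨_, fac1540⟩
  · exact ⟨_, fac1541⟩
  · exact ⟨_, fac1542⟩
  · exact ⟨_, fac1543⟩
  · exact ⟨_, fac1544⟩
  · exact ⟨_, fac1545⟩
  · exact ⟨_, fac1546⟩
  · exact ⟨_, fac1547⟩
  · exact ⟨_, fac1548⟩
  · exact ⟨_, fac1549⟩
  · exact ⟨_, fac1550⟩
  · exact ⟨_, fac1551⟩
  · exact ⟨_, fac1552⟩
  · exact ⟨_, fac1553⟩
  · exact ⟨_, fac1554⟩
  · exact ⟨_, fac1555⟩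
  · exact ⟨_, fac1556⟩
  · exact ⟨_, fac1557⟩
  · exact ⟨_, fac1558⟩
  · exact ⟨_, fac1559⟩
  · exact ⟨_, fac1560⟩
  · exact ⟨_, fac1561⟩
  · exact ⟨_, fac1562⟩
  · exact ⟨_, fac1563⟩
  · exact ⟨_, fac1564⟩
  · exact ⟨_, fac1565⟩
  · exact ⟨_, fac1566⟩
  · exact ⟨_, fac1567⟩
  · exact ⟨_, fac1568⟩
  · exact ⟨_, fac1569⟩
  · exact ⟨_, fac1570⟩
  · exact ⟨_, fac1571⟩
  · exact ⟨_, fac1572⟩
  · exact ⟨_, fac1573⟩
  · exact ⟨_, fac1574⟩
  · exact ⟨_, fac1575⟩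
  · exact ⟨_, fac1576⟩
  · exact ⟨_, fac1577⟩
  · exact ⟨_, fac1578⟩
  · exact ⟨_, fac1579⟩
  · exact ⟨_, fac1580⟩
  · exact ⟨_, fac1581⟩
  · exact ⟨_, fac1582⟩
  · exact ⟨_, fac1583⟩
  · exact ⟨_, fac1584⟩
  · exact ⟨_, fac1585⟩
  · exact ⟨_, fac1586⟩
  · exact ⟨_, fac1587⟩
  · exact ⟨_, fac1588⟩
  · exact ⟨_, fac1589⟩
  · exact ⟨_, fac1590⟩
  · exact ⟨_, fac1591⟩
  · exact ⟨_, fac1592⟩
  · exact ⟨_, fac1593⟩
  · exact ⟨_, fac1594⟩
  · exact ⟨_, fac1595⟩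
  · exact ⟨_, fac1596⟩
  · exact ⟨_, fac1597⟩
  · exact ⟨_, fac1598⟩
  · exact ⟨_, fac1599⟩

theorem good24 : bx24.GoodK ((an : ℝ) / 100) (L.map (ITerm.term den)) (L2.map (ITerm.term den))
    (KL.map (KI.term den)) delta :=
  goodK_of_checkR an den (by decide) L L2 KL dtbl dtbl_ok rfl codes posN rowsA rowsB rowsC rows_tbl 12 256 8 72 b0 28 22
    (by decide) parts_ok (by decide +kernel) slice_ok lit_ok 1 (by decide +kernel) delta bx24 hd24
    (by decide) rls24 rls_ok24 (by decide) (planOf lams24) 190 dD24 dE24 els24 rfl pay24 delta_le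
    (fun b hb => by
      interval_cases b
      · exact bucket24_0
      · exact bucket24_1
      · exact bucket24_2
      · exact bucket24_3
      · exact bucket24_4
      · exact bucket24_5
      · exact bucket24_6
      · exact bucket24_7)

end Vale.Agent.P098.Exact.Sos6.Q93
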