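import Vale.Agent.P098.Exact.Sos6.Q93.Common
import Vale.Agent.P098.Exact.Sos6.Q93.Box25B0
import Vale.Agent.P098.Exact.Sos6.Q93.Box25B1
import Vale.Agent.P098.Exact.Sos6.Q93.Box25B2
import Vale.Agent.P098.Exact.Sos6.Q93.Box25B3
import Vale.Agent.P098.Exact.Sos6.Q93.Box25B4
import Vale.Agent.P098.Exact.Sos6.Q93.Box25B5
import Vale.Agent.P098.Exact.Sos6.Q93.Box25B6
import Vale.Agent.P098.Exact.Sos6.Q93.Box25B7

/-! Generated data of the dimension six interior check. -/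

noncomputable section

namespace Vale.Agent.P098.Exact.Sos6.Q93

set_option maxRecDepth 100000

theorem pay25 : dtbl.payOK 190 dD25 dE25 (elTot els25) = true := by decide +kernel

theorem rls_ok25 : ∀ G ∈ rls25, ∃ Ns, tbl.facR 72 b0 28 22 Ns G = true := by
  intro G hG
  simp only [rls25, List.mem_cons, List.not_mem_nil, or_false] at hG
  rcases hG with rfl | rfl | rfl | rfl | rfl | rfl | rfl | rfl | rfl | rfl | rfl | rfl | rfl | rfl | rfl | rfl | rfl | rfl | rfl | rfl | rfl | rfl | rfl | rfl | rfl | rfl | rfl | rfl | rfl | rfl | rfl | rfl | rfl | rfl | rfl | rfl | rfl | rfl | rfl | rfl | rfl | rfl | rfl | rfl | rfl | rfl | rfl | rfl | rfl | rfl | rfl | rfl | rfl | rfl | rfl | rfl | rfl | rfl | rfl | rfl | rfl | rfl | rfl | rfl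
  · exact ⟨_, fac1600⟩
  · exact ⟨_, fac1601⟩
  · exact ⟨_, fac1602⟩
  · exact ⟨_, fac1603⟩
  · exact ⟨_, fac1604⟩
  · exact ⟨_, fac1605⟩
  · exact ⟨_, fac1606⟩
  · exact ⟨_, fac1607⟩
  · exact ⟨_, fac1608⟩
  · exact ⟨_, fac1609⟩
  · exact ⟨_, fac1610⟩
  · exact ⟨_, fac1611⟩
  · exact ⟨_, fac1612⟩
  · exact ⟨_, fac1613⟩
  · exact ⟨_, fac1614⟩
  · exact ⟨_, fac1615⟩
  · exact ⟨_, fac1616⟩
  · exact ⟨_, fac1617⟩
  · exact ⟨_, fac1618⟩
  · exact ⟨_, fac1619⟩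
  · exact ⟨_, fac1620⟩
  · exact ⟨_, fac1621⟩
  · exact ⟨_, fac1622⟩
  · exact ⟨_, fac1623⟩
  · exact ⟨_, fac1624⟩
  · exact ⟨_, fac1625⟩
  · exact ⟨_, fac1626⟩
  · exact ⟨_, fac1627⟩
  · exact ⟨_, fac1628⟩
  · exact ⟨_, fac1629⟩
  · exact ⟨_, fac1630⟩
  · exact ⟨_, fac1631⟩
  · exact ⟨_, fac1632⟩
  · exact ⟨_, fac1633⟩
  · exact ⟨_, fac1634⟩
  · exact ⟨_, fac1635⟩
  · exact ⟨_, fac1636⟩
  · exact ⟨_, fac1637⟩
  · exact ⟨_, fac1638⟩
  · exact ⟨_, fac1639⟩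
  · exact ⟨_, fac1640⟩
  · exact ⟨_, fac1641⟩
  · exact ⟨_, fac1642⟩
  · exact ⟨_, fac1643⟩
  · exact ⟨_, fac1644⟩
  · exact ⟨_, fac1645⟩
  · exact ⟨_, fac1646⟩
  · exact ⟨_, fac1647⟩
  · exact ⟨_, fac1648⟩
  · exact ⟨_, fac1649⟩
  · exact ⟨_, fac1650⟩
  · exact ⟨_, fac1651⟩
  · exact ⟨_, fac1652⟩
  · exact ⟨_, fac1653⟩
  · exact ⟨_, fac1654⟩
  · exact ⟨_, fac1655⟩
  · exact ⟨_, fac1656⟩
  · exact ⟨_, fac1657⟩
  · exact ⟨_, fac1658⟩
  · exact ⟨_, fac1659⟩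
  · exact ⟨_, fac1660⟩
  · exact ⟨_, fac1661⟩
  · exact ⟨_, fac1662⟩
  · exact ⟨_, fac1663⟩

theorem good25 : bx25.GoodK ((an : ℝ) / 100) (L.map (ITerm.term den)) (L2.map (ITerm.term den))
    (KL.map (KI.term den)) delta :=
  goodK_of_checkR an den (by decide) L L2 KL dtbl dtbl_ok rfl codes posN rowsA rowsB rowsC rows_tbl 12 256 8 72 b0 28 22
    (by decide) parts_ok (by decide +kernel) slice_ok lit_ok 1 (by decide +kernel) delta bx25 hd25
    (by decide) rls25 rls_ok25 (by decide) (planOf lams25) 190 dD25 dE25 els25 rfl pay25 delta_le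
    (fun b hb => by
      interval_cases b
      · exact bucket25_0
      · exact bucket25_1
      · exact bucket25_2
      · exact bucket25_3
      · exact bucket25_4
      · exact bucket25_5
      · exact bucket25_6
      · exact bucket25_7)

end Vale.Agent.P098.Exact.Sos6.Q93
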