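import Vale.Agent.P098.Exact.Sos6.Q93.Common
import Vale.Agent.P098.Exact.Sos6.Q93.Box26B0
import Vale.Agent.P098.Exact.Sos6.Q93.Box26B1
import Vale.Agent.P098.Exact.Sos6.Q93.Box26B2
import Vale.Agent.P098.Exact.Sos6.Q93.Box26B3
import Vale.Agent.P098.Exact.Sos6.Q93.Box26B4
import Vale.Agent.P098.Exact.Sos6.Q93.Box26B5
import Vale.Agent.P098.Exact.Sos6.Q93.Box26B6
import Vale.Agent.P098.Exact.Sos6.Q93.Box26B7

/-! Generated data of the dimension six interior check. -/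

noncomputable section

namespace Vale.Agent.P098.Exact.Sos6.Q93

set_option maxRecDepth 100000

theorem pay26 : dtbl.payOK 190 dD26 dE26 (elTot els26) = true := by decide +kernel

theorem rls_ok26 : ∀ G ∈ rls26, ∃ Ns, tbl.facR 72 b0 28 22 Ns G = true := by
  intro G hG
  simp only [rls26, List.mem_cons, List.not_mem_nil, or_false] at hG
  rcases hG with rfl | rfl | rfl | rfl | rfl | rfl | rfl | rfl | rfl | rfl | rfl | rfl | rfl | rfl | rfl | rfl | rfl | rfl | rfl | rfl | rfl | rfl | rfl | rfl | rfl | rfl | rfl | rfl | rfl | rfl | rfl | rfl | rfl | rfl | rfl | rfl | rfl | rfl | rfl | rfl | rfl | rfl | rfl | rfl | rfl | rfl | rfl | rfl | rfl | rfl | rfl | rfl | rfl | rfl | rfl | rfl | rfl | rfl | rfl | rfl | rfl | rfl | rfl | rfl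
  · exact ⟨_, fac1664⟩
  · exact ⟨_, fac1665⟩
  · exact ⟨_, fac1666⟩
  · exact ⟨_, fac1667⟩
  · exact ⟨_, fac1668⟩
  · exact ⟨_, fac1669⟩
  · exact ⟨_, fac1670⟩
  · exact ⟨_, fac1671⟩
  · exact ⟨_, fac1672⟩
  · exact ⟨_, fac1673⟩
  · exact ⟨_, fac1674⟩
  · exact ⟨_, fac1675⟩
  · exact ⟨_, fac1676⟩
  · exact ⟨_, fac1677⟩
  · exact ⟨_, fac1678⟩
  · exact ⟨_, fac1679⟩
  · exact ⟨_, fac1680⟩
  · exact ⟨_, fac1681⟩
  · exact ⟨_, fac1682⟩
  · exact ⟨_, fac1683⟩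
  · exact ⟨_, fac1684⟩
  · exact ⟨_, fac1685⟩
  · exact ⟨_, fac1686⟩
  · exact ⟨_, fac1687⟩
  · exact ⟨_, fac1688⟩
  · exact ⟨_, fac1689⟩
  · exact ⟨_, fac1690⟩
  · exact ⟨_, fac1691⟩
  · exact ⟨_, fac1692⟩
  · exact ⟨_, fac1693⟩
  · exact ⟨_, fac1694⟩
  · exact ⟨_, fac1695⟩
  · exact ⟨_, fac1696⟩
  · exact ⟨_, fac1697⟩
  · exact ⟨_, fac1698⟩
  · exact ⟨_, fac1699⟩
  · exact ⟨_, fac1700⟩
  · exact ⟨_, fac1701⟩
  · exact ⟨_, fac1702⟩
  · exact ⟨_, fac1703⟩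
  · exact ⟨_, fac1704⟩
  · exact ⟨_, fac1705⟩
  · exact ⟨_, fac1706⟩
  · exact ⟨_, fac1707⟩
  · exact ⟨_, fac1708⟩
  · exact ⟨_, fac1709⟩
  · exact ⟨_, fac1710⟩
  · exact ⟨_, fac1711⟩
  · exact ⟨_, fac1712⟩
  · exact ⟨_, fac1713⟩
  · exact ⟨_, fac1714⟩
  · exact ⟨_, fac1715⟩
  · exact ⟨_, fac1716⟩
  · exact ⟨_, fac1717⟩
  · exact ⟨_, fac1718⟩
  · exact ⟨_, fac1719⟩
  · exact ⟨_, fac1720⟩
  · exact ⟨_, fac1721⟩
  · exact ⟨_, fac1722⟩
  · exact ⟨_, fac1723⟩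
  · exact ⟨_, fac1724⟩
  · exact ⟨_, fac1725⟩
  · exact ⟨_, fac1726⟩
  · exact ⟨_, fac1727⟩

theorem good26 : bx26.GoodK ((an : ℝ) / 100) (L.map (ITerm.term den)) (L2.map (ITerm.term den))
    (KL.map (KI.term den)) delta :=
  goodK_of_checkR an den (by decide) L L2 KL dtbl dtbl_ok rfl codes posN rowsA rowsB rowsC rows_tbl 12 256 8 72 b0 28 22
    (by decide) parts_ok (by decide +kernel) slice_ok lit_ok 1 (by decide +kernel) delta bx26 hd26
    (by decide) rls26 rls_ok26 (by decide) (planOf lams26) 190 dD26 dE26 els26 rfl pay26 delta_le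
    (fun b hb => by
      interval_cases b
      · exact bucket26_0
      · exact bucket26_1
      · exact bucket26_2
      · exact bucket26_3
      · exact bucket26_4
      · exact bucket26_5
      · exact bucket26_6
      · exact bucket26_7)

end Vale.Agent.P098.Exact.Sos6.Q93
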