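import Vale.Agent.P098.Exact.Sos6.Q93.Common
import Vale.Agent.P098.Exact.Sos6.Q93.Box27B0
import Vale.Agent.P098.Exact.Sos6.Q93.Box27B1
import Vale.Agent.P098.Exact.Sos6.Q93.Box27B2
import Vale.Agent.P098.Exact.Sos6.Q93.Box27B3
import Vale.Agent.P098.Exact.Sos6.Q93.Box27B4
import Vale.Agent.P098.Exact.Sos6.Q93.Box27B5
import Vale.Agent.P098.Exact.Sos6.Q93.Box27B6
import Vale.Agent.P098.Exact.Sos6.Q93.Box27B7

/-! Generated data of the dimension six interior check. -/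

noncomputable section

namespace Vale.Agent.P098.Exact.Sos6.Q93

set_option maxRecDepth 100000

theorem pay27 : dtbl.payOK 190 dD27 dE27 (elTot els27) = true := by decide +kernel

theorem rls_ok27 : ∀ G ∈ rls27, ∃ Ns, tbl.facR 72 b0 28 22 Ns G = true := by
  intro G hG
  simp only [rls27, List.mem_cons, List.not_mem_nil, or_false] at hG
  rcases hG with rfl | rfl | rfl | rfl | rfl | rfl | rfl | rfl | rfl | rfl | rfl | rfl | rfl | rfl | rfl | rfl | rfl | rfl | rfl | rfl | rfl | rfl | rfl | rfl | rfl | rfl | rfl | rfl | rfl | rfl | rfl | rfl | rfl | rfl | rfl | rfl | rfl | rfl | rfl | rfl | rfl | rfl | rfl | rfl | rfl | rfl | rfl | rfl | rfl | rfl | rfl | rfl | rfl | rfl | rfl | rfl | rfl | rfl | rfl | rfl | rfl | rfl | rfl | rfl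
  · exact ⟨_, fac1728⟩
  · exact ⟨_, fac1729⟩
  · exact ⟨_, fac1730⟩
  · exact ⟨_, fac1731⟩
  · exact ⟨_, fac1732⟩
  · exact ⟨_, fac1733⟩
  · exact ⟨_, fac1734⟩
  · exact ⟨_, fac1735⟩
  · exact ⟨_, fac1736⟩
  · exact ⟨_, fac1737⟩
  · exact ⟨_, fac1738⟩
  · exact ⟨_, fac1739⟩
  · exact ⟨_, fac1740⟩
  · exact ⟨_, fac1741⟩
  · exact ⟨_, fac1742⟩
  · exact ⟨_, fac1743⟩
  · exact ⟨_, fac1744⟩
  · exact ⟨_, fac1745⟩
  · exact ⟨_, fac1746⟩
  · exact ⟨_, fac1747⟩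
  · exact ⟨_, fac1748⟩
  · exact ⟨_, fac1749⟩
  · exact ⟨_, fac1750⟩
  · exact ⟨_, fac1751⟩
  · exact ⟨_, fac1752⟩
  · exact ⟨_, fac1753⟩
  · exact ⟨_, fac1754⟩
  · exact ⟨_, fac1755⟩
  · exact ⟨_, fac1756⟩
  · exact ⟨_, fac1757⟩
  · exact ⟨_, fac1758⟩
  · exact ⟨_, fac1759⟩
  · exact ⟨_, fac1760⟩
  · exact ⟨_, fac1761⟩
  · exact ⟨_, fac1762⟩
  · exact ⟨_, fac1763⟩
  · exact ⟨_, fac1764⟩
  · exact ⟨_, fac1765⟩
  · exact ⟨_, fac1766⟩
  · exact ⟨_, fac1767⟩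
  · exact ⟨_, fac1768⟩
  · exact ⟨_, fac1769⟩
  · exact ⟨_, fac1770⟩
  · exact ⟨_, fac1771⟩
  · exact ⟨_, fac1772⟩
  · exact ⟨_, fac1773⟩
  · exact ⟨_, fac1774⟩
  · exact ⟨_, fac1775⟩
  · exact ⟨_, fac1776⟩
  · exact ⟨_, fac1777⟩
  · exact ⟨_, fac1778⟩
  · exact ⟨_, fac1779⟩
  · exact ⟨_, fac1780⟩
  · exact ⟨_, fac1781⟩
  · exact ⟨_, fac1782⟩
  · exact ⟨_, fac1783⟩
  · exact ⟨_, fac1784⟩
  · exact ⟨_, fac1785⟩
  · exact ⟨_, fac1786⟩
  · exact ⟨_, fac1787⟩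
  · exact ⟨_, fac1788⟩
  · exact ⟨_, fac1789⟩
  · exact ⟨_, fac1790⟩
  · exact ⟨_, fac1791⟩

theorem good27 : bx27.GoodK ((an : ℝ) / 100) (L.map (ITerm.term den)) (L2.map (ITerm.term den))
    (KL.map (KI.term den)) delta :=
  goodK_of_checkR an den (by decide) L L2 KL dtbl dtbl_ok rfl codes posN rowsA rowsB rowsC rows_tbl 12 256 8 72 b0 28 22
    (by decide) parts_ok (by decide +kernel) slice_ok lit_ok 1 (by decide +kernel) delta bx27 hd27
    (by decide) rls27 rls_ok27 (by decide) (planOf lams27) 190 dD27 dE27 els27 rfl pay27 delta_le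
    (fun b hb => by
      interval_cases b
      · exact bucket27_0
      · exact bucket27_1
      · exact bucket27_2
      · exact bucket27_3
      · exact bucket27_4
      · exact bucket27_5
      · exact bucket27_6
      · exact bucket27_7)

end Vale.Agent.P098.Exact.Sos6.Q93
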