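import Vale.Agent.P098.Exact.Sos6.Q93.Common
import Vale.Agent.P098.Exact.Sos6.Q93.Box28B0
import Vale.Agent.P098.Exact.Sos6.Q93.Box28B1
import Vale.Agent.P098.Exact.Sos6.Q93.Box28B2
import Vale.Agent.P098.Exact.Sos6.Q93.Box28B3
import Vale.Agent.P098.Exact.Sos6.Q93.Box28B4
import Vale.Agent.P098.Exact.Sos6.Q93.Box28B5
import Vale.Agent.P098.Exact.Sos6.Q93.Box28B6
import Vale.Agent.P098.Exact.Sos6.Q93.Box28B7

/-! Generated data of the dimension six interior check. -/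

noncomputable section

namespace Vale.Agent.P098.Exact.Sos6.Q93

set_option maxRecDepth 100000

theorem pay28 : dtbl.payOK 190 dD28 dE28 (elTot els28) = true := by decide +kernel

theorem rls_ok28 : ∀ G ∈ rls28, ∃ Ns, tbl.facR 72 b0 28 22 Ns G = true := by
  intro G hG
  simp only [rls28, List.mem_cons, List.not_mem_nil, or_false] at hG
  rcases hG with rfl | rfl | rfl | rfl | rfl | rfl | rfl | rfl | rfl | rfl | rfl | rfl | rfl | rfl | rfl | rfl | rfl | rfl | rfl | rfl | rfl | rfl | rfl | rfl | rfl | rfl | rfl | rfl | rfl | rfl | rfl | rfl | rfl | rfl | rfl | rfl | rfl | rfl | rfl | rfl | rfl | rfl | rfl | rfl | rfl | rfl | rfl | rfl | rfl | rfl | rfl | rfl | rfl | rfl | rfl | rfl | rfl | rfl | rfl | rfl | rfl | rfl | rfl | rfl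
  · exact ⟨_, fac1792⟩
  · exact ⟨_, fac1793⟩
  · exact ⟨_, fac1794⟩
  · exact ⟨_, fac1795⟩
  · exact ⟨_, fac1796⟩
  · exact ⟨_, fac1797⟩
  · exact ⟨_, fac1798⟩
  · exact ⟨_, fac1799⟩
  · exact ⟨_, fac1800⟩
  · exact ⟨_, fac1801⟩
  · exact ⟨_, fac1802⟩
  · exact ⟨_, fac1803⟩
  · exact ⟨_, fac1804⟩
  · exact ⟨_, fac1805⟩
  · exact ⟨_, fac1806⟩
  · exact ⟨_, fac1807⟩
  · exact ⟨_, fac1808⟩
  · exact ⟨_, fac1809⟩
  · exact ⟨_, fac1810⟩
  · exact ⟨_, fac1811⟩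
  · exact ⟨_, fac1812⟩
  · exact ⟨_, fac1813⟩
  · exact ⟨_, fac1814⟩
  · exact ⟨_, fac1815⟩
  · exact ⟨_, fac1816⟩
  · exact ⟨_, fac1817⟩
  · exact ⟨_, fac1818⟩
  · exact ⟨_, fac1819⟩
  · exact ⟨_, fac1820⟩
  · exact ⟨_, fac1821⟩
  · exact ⟨_, fac1822⟩
  · exact ⟨_, fac1823⟩
  · exact ⟨_, fac1824⟩
  · exact ⟨_, fac1825⟩
  · exact ⟨_, fac1826⟩
  · exact ⟨_, fac1827⟩
  · exact ⟨_, fac1828⟩
  · exact ⟨_, fac1829⟩
  · exact ⟨_, fac1830⟩
  · exact ⟨_, fac1831⟩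
  · exact ⟨_, fac1832⟩
  · exact ⟨_, fac1833⟩
  · exact ⟨_, fac1834⟩
  · exact ⟨_, fac1835⟩
  · exact ⟨_, fac1836⟩
  · exact ⟨_, fac1837⟩
  · exact ⟨_, fac1838⟩
  · exact ⟨_, fac1839⟩
  · exact ⟨_, fac1840⟩
  · exact ⟨_, fac1841⟩
  · exact ⟨_, fac1842⟩
  · exact ⟨_, fac1843⟩
  · exact ⟨_, fac1844⟩
  · exact ⟨_, fac1845⟩
  · exact ⟨_, fac1846⟩
  · exact ⟨_, fac1847⟩
  · exact ⟨_, fac1848⟩
  · exact ⟨_, fac1849⟩
  · exact ⟨_, fac1850⟩
  · exact ⟨_, fac1851⟩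
  · exact ⟨_, fac1852⟩
  · exact ⟨_, fac1853⟩
  · exact ⟨_, fac1854⟩
  · exact ⟨_, fac1855⟩

theorem good28 : bx28.GoodK ((an : ℝ) / 100) (L.map (ITerm.term den)) (L2.map (ITerm.term den))
    (KL.map (KI.term den)) delta :=
  goodK_of_checkR an den (by decide) L L2 KL dtbl dtbl_ok rfl codes posN rowsA rowsB rowsC rows_tbl 12 256 8 72 b0 28 22
    (by decide) parts_ok (by decide +kernel) slice_ok lit_ok 1 (by decide +kernel) delta bx28 hd28
    (by decide) rls28 rls_ok28 (by decide) (planOf lams28) 190 dD28 dE28 els28 rfl pay28 delta_le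
    (fun b hb => by
      interval_cases b
      · exact bucket28_0
      · exact bucket28_1
      · exact bucket28_2
      · exact bucket28_3
      · exact bucket28_4
      · exact bucket28_5
      · exact bucket28_6
      · exact bucket28_7)

end Vale.Agent.P098.Exact.Sos6.Q93
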