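import Vale.Agent.P098.Exact.Sos6.Q93.Common
import Vale.Agent.P098.Exact.Sos6.Q93.Box29B0
import Vale.Agent.P098.Exact.Sos6.Q93.Box29B1
import Vale.Agent.P098.Exact.Sos6.Q93.Box29B2
import Vale.Agent.P098.Exact.Sos6.Q93.Box29B3
import Vale.Agent.P098.Exact.Sos6.Q93.Box29B4
import Vale.Agent.P098.Exact.Sos6.Q93.Box29B5
import Vale.Agent.P098.Exact.Sos6.Q93.Box29B6
import Vale.Agent.P098.Exact.Sos6.Q93.Box29B7

/-! Generated data of the dimension six interior check. -/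

noncomputable section

namespace Vale.Agent.P098.Exact.Sos6.Q93

set_option maxRecDepth 100000

theorem pay29 : dtbl.payOK 190 dD29 dE29 (elTot els29) = true := by decide +kernel

theorem rls_ok29 : ∀ G ∈ rls29, ∃ Ns, tbl.facR 72 b0 28 22 Ns G = true := by
  intro G hG
  simp only [rls29, List.mem_cons, List.not_mem_nil, or_false] at hG
  rcases hG with rfl | rfl | rfl | rfl | rfl | rfl | rfl | rfl | rfl | rfl | rfl | rfl | rfl | rfl | rfl | rfl | rfl | rfl | rfl | rfl | rfl | rfl | rfl | rfl | rfl | rfl | rfl | rfl | rfl | rfl | rfl | rfl | rfl | rfl | rfl | rfl | rfl | rfl | rfl | rfl | rfl | rfl | rfl | rfl | rfl | rfl | rfl | rfl | rfl | rfl | rfl | rfl | rfl | rfl | rfl | rfl | rfl | rfl | rfl | rfl | rfl | rfl | rfl | rfl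
  · exact ⟨_, fac1856⟩
  · exact ⟨_, fac1857⟩
  · exact ⟨_, fac1858⟩
  · exact ⟨_, fac1859⟩
  · exact ⟨_, fac1860⟩
  · exact ⟨_, fac1861⟩
  · exact ⟨_, fac1862⟩
  · exact ⟨_, fac1863⟩
  · exact ⟨_, fac1864⟩
  · exact ⟨_, fac1865⟩
  · exact ⟨_, fac1866⟩
  · exact ⟨_, fac1867⟩
  · exact ⟨_, fac1868⟩
  · exact ⟨_, fac1869⟩
  · exact ⟨_, fac1870⟩
  · exact ⟨_, fac1871⟩
  · exact ⟨_, fac1872⟩
  · exact ⟨_, fac1873⟩
  · exact ⟨_, fac1874⟩
  · exact ⟨_, fac1875⟩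
  · exact ⟨_, fac1876⟩
  · exact ⟨_, fac1877⟩
  · exact ⟨_, fac1878⟩
  · exact ⟨_, fac1879⟩
  · exact ⟨_, fac1880⟩
  · exact ⟨_, fac1881⟩
  · exact ⟨_, fac1882⟩
  · exact ⟨_, fac1883⟩
  · exact ⟨_, fac1884⟩
  · exact ⟨_, fac1885⟩
  · exact ⟨_, fac1886⟩
  · exact ⟨_, fac1887⟩
  · exact ⟨_, fac1888⟩
  · exact ⟨_, fac1889⟩
  · exact ⟨_, fac1890⟩
  · exact ⟨_, fac1891⟩
  · exact ⟨_, fac1892⟩
  · exact ⟨_, fac1893⟩
  · exact ⟨_, fac1894⟩
  · exact ⟨_, fac1895⟩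
  · exact ⟨_, fac1896⟩
  · exact ⟨_, fac1897⟩
  · exact ⟨_, fac1898⟩
  · exact ⟨_, fac1899⟩
  · exact ⟨_, fac1900⟩
  · exact ⟨_, fac1901⟩
  · exact ⟨_, fac1902⟩
  · exact ⟨_, fac1903⟩
  · exact ⟨_, fac1904⟩
  · exact ⟨_, fac1905⟩
  · exact ⟨_, fac1906⟩
  · exact ⟨_, fac1907⟩
  · exact ⟨_, fac1908⟩
  · exact ⟨_, fac1909⟩
  · exact ⟨_, fac1910⟩
  · exact ⟨_, fac1911⟩
  · exact ⟨_, fac1912⟩
  · exact ⟨_, fac1913⟩
  · exact ⟨_, fac1914⟩
  · exact ⟨_, fac1915⟩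
  · exact ⟨_, fac1916⟩
  · exact ⟨_, fac1917⟩
  · exact ⟨_, fac1918⟩
  · exact ⟨_, fac1919⟩

theorem good29 : bx29.GoodK ((an : ℝ) / 100) (L.map (ITerm.term den)) (L2.map (ITerm.term den))
    (KL.map (KI.term den)) delta :=
  goodK_of_checkR an den (by decide) L L2 KL dtbl dtbl_ok rfl codes posN rowsA rowsB rowsC rows_tbl 12 256 8 72 b0 28 22
    (by decide) parts_ok (by decide +kernel) slice_ok lit_ok 1 (by decide +kernel) delta bx29 hd29
    (by decide) rls29 rls_ok29 (by decide) (planOf lams29) 190 dD29 dE29 els29 rfl pay29 delta_le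
    (fun b hb => by
      interval_cases b
      · exact bucket29_0
      · exact bucket29_1
      · exact bucket29_2
      · exact bucket29_3
      · exact bucket29_4
      · exact bucket29_5
      · exact bucket29_6
      · exact bucket29_7)

end Vale.Agent.P098.Exact.Sos6.Q93
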