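import Vale.Agent.P098.Exact.Sos6.Q93.Common
import Vale.Agent.P098.Exact.Sos6.Q93.Box2B0
import Vale.Agent.P098.Exact.Sos6.Q93.Box2B1
import Vale.Agent.P098.Exact.Sos6.Q93.Box2B2
import Vale.Agent.P098.Exact.Sos6.Q93.Box2B3
import Vale.Agent.P098.Exact.Sos6.Q93.Box2B4
import Vale.Agent.P098.Exact.Sos6.Q93.Box2B5
import Vale.Agent.P098.Exact.Sos6.Q93.Box2B6
import Vale.Agent.P098.Exact.Sos6.Q93.Box2B7

/-! Generated data of the dimension six interior check. -/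

noncomputable section

namespace Vale.Agent.P098.Exact.Sos6.Q93

set_option maxRecDepth 100000

theorem pay2 : dtbl.payOK 190 dD2 dE2 (elTot els2) = true := by decide +kernel

theorem rls_ok2 : ∀ G ∈ rls2, ∃ Ns, tbl.facR 72 b0 28 22 Ns G = true := by
  intro G hG
  simp only [rls2, List.mem_cons, List.not_mem_nil, or_false] at hG
  rcases hG with rfl | rfl | rfl | rfl | rfl | rfl | rfl | rfl | rfl | rfl | rfl | rfl | rfl | rfl | rfl | rfl | rfl | rfl | rfl | rfl | rfl | rfl | rfl | rfl | rfl | rfl | rfl | rfl | rfl | rfl | rfl | rfl | rfl | rfl | rfl | rfl | rfl | rfl | rfl | rfl | rfl | rfl | rfl | rfl | rfl | rfl | rfl | rfl | rfl | rfl | rfl | rfl | rfl | rfl | rfl | rfl | rfl | rfl | rfl | rfl | rfl | rfl | rfl | rfl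
  · exact ⟨_, fac128⟩
  · exact ⟨_, fac129⟩
  · exact ⟨_, fac130⟩
  · exact ⟨_, fac131⟩
  · exact ⟨_, fac132⟩
  · exact ⟨_, fac133⟩
  · exact ⟨_, fac134⟩
  · exact ⟨_, fac135⟩
  · exact ⟨_, fac136⟩
  · exact ⟨_, fac137⟩
  · exact ⟨_, fac138⟩
  · exact ⟨_, fac139⟩
  · exact ⟨_, fac140⟩
  · exact ⟨_, fac141⟩
  · exact ⟨_, fac142⟩
  · exact ⟨_, fac143⟩
  · exact ⟨_, fac144⟩
  · exact ⟨_, fac145⟩
  · exact ⟨_, fac146⟩
  · exact ⟨_, fac147⟩
  · exact ⟨_, fac148⟩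
  · exact ⟨_, fac149⟩
  · exact ⟨_, fac150⟩
  · exact ⟨_, fac151⟩
  · exact ⟨_, fac152⟩
  · exact ⟨_, fac153⟩
  · exact ⟨_, fac154⟩
  · exact ⟨_, fac155⟩
  · exact ⟨_, fac156⟩
  · exact ⟨_, fac157⟩
  · exact ⟨_, fac158⟩
  · exact ⟨_, fac159⟩
  · exact ⟨_, fac160⟩
  · exact ⟨_, fac161⟩
  · exact ⟨_, fac162⟩
  · exact ⟨_, fac163⟩
  · exact ⟨_, fac164⟩
  · exact ⟨_, fac165⟩
  · exact ⟨_, fac166⟩
  · exact ⟨_, fac167⟩
  · exact ⟨_, fac168⟩
  · exact ⟨_, fac169⟩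
  · exact ⟨_, fac170⟩
  · exact ⟨_, fac171⟩
  · exact ⟨_, fac172⟩
  · exact ⟨_, fac173⟩
  · exact ⟨_, fac174⟩
  · exact ⟨_, fac175⟩
  · exact ⟨_, fac176⟩
  · exact ⟨_, fac177⟩
  · exact ⟨_, fac178⟩
  · exact ⟨_, fac179⟩
  · exact ⟨_, fac180⟩
  · exact ⟨_, fac181⟩
  · exact ⟨_, fac182⟩
  · exact ⟨_, fac183⟩
  · exact ⟨_, fac184⟩
  · exact ⟨_, fac185⟩
  · exact ⟨_, fac186⟩
  · exact ⟨_, fac187⟩
  · exact ⟨_, fac188⟩
  · exact ⟨_, fac189⟩
  · exact ⟨_, fac190⟩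
  · exact ⟨_, fac191⟩

theorem good2 : bx2.GoodK ((an : ℝ) / 100) (L.map (ITerm.term den)) (L2.map (ITerm.term den))
    (KL.map (KI.term den)) delta :=
  goodK_of_checkR an den (by decide) L L2 KL dtbl dtbl_ok rfl codes posN rowsA rowsB rowsC rows_tbl 12 256 8 72 b0 28 22
    (by decide) parts_ok (by decide +kernel) slice_ok lit_ok 1 (by decide +kernel) delta bx2 hd2
    (by decide) rls2 rls_ok2 (by decide) (planOf lams2) 190 dD2 dE2 els2 rfl pay2 delta_le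
    (fun b hb => by
      interval_cases b
      · exact bucket2_0
      · exact bucket2_1
      · exact bucket2_2
      · exact bucket2_3
      · exact bucket2_4
      · exact bucket2_5
      · exact bucket2_6
      · exact bucket2_7)

end Vale.Agent.P098.Exact.Sos6.Q93
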