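import Vale.Agent.P098.Exact.Sos6.Q93.Common
import Vale.Agent.P098.Exact.Sos6.Q93.Box30B0
import Vale.Agent.P098.Exact.Sos6.Q93.Box30B1
import Vale.Agent.P098.Exact.Sos6.Q93.Box30B2
import Vale.Agent.P098.Exact.Sos6.Q93.Box30B3
import Vale.Agent.P098.Exact.Sos6.Q93.Box30B4
import Vale.Agent.P098.Exact.Sos6.Q93.Box30B5
import Vale.Agent.P098.Exact.Sos6.Q93.Box30B6
import Vale.Agent.P098.Exact.Sos6.Q93.Box30B7

/-! Generated data of the dimension six interior check. -/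

noncomputable section

namespace Vale.Agent.P098.Exact.Sos6.Q93

set_option maxRecDepth 100000

theorem pay30 : dtbl.payOK 190 dD30 dE30 (elTot els30) = true := by decide +kernel

theorem rls_ok30 : ∀ G ∈ rls30, ∃ Ns, tbl.facR 72 b0 28 22 Ns G = true := by
  intro G hG
  simp only [rls30, List.mem_cons, List.not_mem_nil, or_false] at hG
  rcases hG with rfl | rfl | rfl | rfl | rfl | rfl | rfl | rfl | rfl | rfl | rfl | rfl | rfl | rfl | rfl | rfl | rfl | rfl | rfl | rfl | rfl | rfl | rfl | rfl | rfl | rfl | rfl | rfl | rfl | rfl | rfl | rfl | rfl | rfl | rfl | rfl | rfl | rfl | rfl | rfl | rfl | rfl | rfl | rfl | rfl | rfl | rfl | rfl | rfl | rfl | rfl | rfl | rfl | rfl | rfl | rfl | rfl | rfl | rfl | rfl | rfl | rfl | rfl | rfl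
  · exact ⟨_, fac1920⟩
  · exact ⟨_, fac1921⟩
  · exact ⟨_, fac1922⟩
  · exact ⟨_, fac1923⟩
  · exact ⟨_, fac1924⟩
  · exact ⟨_, fac1925⟩
  · exact ⟨_, fac1926⟩
  · exact ⟨_, fac1927⟩
  · exact ⟨_, fac1928⟩
  · exact ⟨_, fac1929⟩
  · exact ⟨_, fac1930⟩
  · exact ⟨_, fac1931⟩
  · exact ⟨_, fac1932⟩
  · exact ⟨_, fac1933⟩
  · exact ⟨_, fac1934⟩
  · exact ⟨_, fac1935⟩
  · exact ⟨_, fac1936⟩
  · exact ⟨_, fac1937⟩
  · exact ⟨_, fac1938⟩
  · exact ⟨_, fac1939⟩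
  · exact ⟨_, fac1940⟩
  · exact ⟨_, fac1941⟩
  · exact ⟨_, fac1942⟩
  · exact ⟨_, fac1943⟩
  · exact ⟨_, fac1944⟩
  · exact ⟨_, fac1945⟩
  · exact ⟨_, fac1946⟩
  · exact ⟨_, fac1947⟩
  · exact ⟨_, fac1948⟩
  · exact ⟨_, fac1949⟩
  · exact ⟨_, fac1950⟩
  · exact ⟨_, fac1951⟩
  · exact ⟨_, fac1952⟩
  · exact ⟨_, fac1953⟩
  · exact ⟨_, fac1954⟩
  · exact ⟨_, fac1955⟩
  · exact ⟨_, fac1956⟩
  · exact ⟨_, fac1957⟩
  · exact ⟨_, fac1958⟩
  · exact ⟨_, fac1959⟩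
  · exact ⟨_, fac1960⟩
  · exact ⟨_, fac1961⟩
  · exact ⟨_, fac1962⟩
  · exact ⟨_, fac1963⟩
  · exact ⟨_, fac1964⟩
  · exact ⟨_, fac1965⟩
  · exact ⟨_, fac1966⟩
  · exact ⟨_, fac1967⟩
  · exact ⟨_, fac1968⟩
  · exact ⟨_, fac1969⟩
  · exact ⟨_, fac1970⟩
  · exact ⟨_, fac1971⟩
  · exact ⟨_, fac1972⟩
  · exact ⟨_, fac1973⟩
  · exact ⟨_, fac1974⟩
  · exact ⟨_, fac1975⟩
  · exact ⟨_, fac1976⟩
  · exact ⟨_, fac1977⟩
  · exact ⟨_, fac1978⟩
  · exact ⟨_, fac1979⟩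
  · exact ⟨_, fac1980⟩
  · exact ⟨_, fac1981⟩
  · exact ⟨_, fac1982⟩
  · exact ⟨_, fac1983⟩

theorem good30 : bx30.GoodK ((an : ℝ) / 100) (L.map (ITerm.term den)) (L2.map (ITerm.term den))
    (KL.map (KI.term den)) delta :=
  goodK_of_checkR an den (by decide) L L2 KL dtbl dtbl_ok rfl codes posN rowsA rowsB rowsC rows_tbl 12 256 8 72 b0 28 22
    (by decide) parts_ok (by decide +kernel) slice_ok lit_ok 1 (by decide +kernel) delta bx30 hd30
    (by decide) rls30 rls_ok30 (by decide) (planOf lams30) 190 dD30 dE30 els30 rfl pay30 delta_le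
    (fun b hb => by
      interval_cases b
      · exact bucket30_0
      · exact bucket30_1
      · exact bucket30_2
      · exact bucket30_3
      · exact bucket30_4
      · exact bucket30_5
      · exact bucket30_6
      · exact bucket30_7)

end Vale.Agent.P098.Exact.Sos6.Q93
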