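import Vale.Agent.P098.Exact.Sos6.Q93.Common
import Vale.Agent.P098.Exact.Sos6.Q93.Box31B0
import Vale.Agent.P098.Exact.Sos6.Q93.Box31B1
import Vale.Agent.P098.Exact.Sos6.Q93.Box31B2
import Vale.Agent.P098.Exact.Sos6.Q93.Box31B3
import Vale.Agent.P098.Exact.Sos6.Q93.Box31B4
import Vale.Agent.P098.Exact.Sos6.Q93.Box31B5
import Vale.Agent.P098.Exact.Sos6.Q93.Box31B6
import Vale.Agent.P098.Exact.Sos6.Q93.Box31B7

/-! Generated data of the dimension six interior check. -/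

noncomputable section

namespace Vale.Agent.P098.Exact.Sos6.Q93

set_option maxRecDepth 100000

theorem pay31 : dtbl.payOK 190 dD31 dE31 (elTot els31) = true := by decide +kernel

theorem rls_ok31 : ∀ G ∈ rls31, ∃ Ns, tbl.facR 72 b0 28 22 Ns G = true := by
  intro G hG
  simp only [rls31, List.mem_cons, List.not_mem_nil, or_false] at hG
  rcases hG with rfl | rfl | rfl | rfl | rfl | rfl | rfl | rfl | rfl | rfl | rfl | rfl | rfl | rfl | rfl | rfl | rfl | rfl | rfl | rfl | rfl | rfl | rfl | rfl | rfl | rfl | rfl | rfl | rfl | rfl | rfl | rfl | rfl | rfl | rfl | rfl | rfl | rfl | rfl | rfl | rfl | rfl | rfl | rfl | rfl | rfl | rfl | rfl | rfl | rfl | rfl | rfl | rfl | rfl | rfl | rfl | rfl | rfl | rfl | rfl | rfl | rfl | rfl | rfl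
  · exact ⟨_, fac1984⟩
  · exact ⟨_, fac1985⟩
  · exact ⟨_, fac1986⟩
  · exact ⟨_, fac1987⟩
  · exact ⟨_, fac1988⟩
  · exact ⟨_, fac1989⟩
  · exact ⟨_, fac1990⟩
  · exact ⟨_, fac1991⟩
  · exact ⟨_, fac1992⟩
  · exact ⟨_, fac1993⟩
  · exact ⟨_, fac1994⟩
  · exact ⟨_, fac1995⟩
  · exact ⟨_, fac1996⟩
  · exact ⟨_, fac1997⟩
  · exact ⟨_, fac1998⟩
  · exact ⟨_, fac1999⟩
  · exact ⟨_, fac2000⟩
  · exact ⟨_, fac2001⟩
  · exact ⟨_, fac2002⟩
  · exact ⟨_, fac2003⟩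
  · exact ⟨_, fac2004⟩
  · exact ⟨_, fac2005⟩
  · exact ⟨_, fac2006⟩
  · exact ⟨_, fac2007⟩
  · exact ⟨_, fac2008⟩
  · exact ⟨_, fac2009⟩
  · exact ⟨_, fac2010⟩
  · exact ⟨_, fac2011⟩
  · exact ⟨_, fac2012⟩
  · exact ⟨_, fac2013⟩
  · exact ⟨_, fac2014⟩
  · exact ⟨_, fac2015⟩
  · exact ⟨_, fac2016⟩
  · exact ⟨_, fac2017⟩
  · exact ⟨_, fac2018⟩
  · exact ⟨_, fac2019⟩
  · exact ⟨_, fac2020⟩
  · exact ⟨_, fac2021⟩
  · exact ⟨_, fac2022⟩
  · exact ⟨_, fac2023⟩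
  · exact ⟨_, fac2024⟩
  · exact ⟨_, fac2025⟩
  · exact ⟨_, fac2026⟩
  · exact ⟨_, fac2027⟩
  · exact ⟨_, fac2028⟩
  · exact ⟨_, fac2029⟩
  · exact ⟨_, fac2030⟩
  · exact ⟨_, fac2031⟩
  · exact ⟨_, fac2032⟩
  · exact ⟨_, fac2033⟩
  · exact ⟨_, fac2034⟩
  · exact ⟨_, fac2035⟩
  · exact ⟨_, fac2036⟩
  · exact ⟨_, fac2037⟩
  · exact ⟨_, fac2038⟩
  · exact ⟨_, fac2039⟩
  · exact ⟨_, fac2040⟩
  · exact ⟨_, fac2041⟩
  · exact ⟨_, fac2042⟩
  · exact ⟨_, fac2043⟩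
  · exact ⟨_, fac2044⟩
  · exact ⟨_, fac2045⟩
  · exact ⟨_, fac2046⟩
  · exact ⟨_, fac2047⟩

theorem good31 : bx31.GoodK ((an : ℝ) / 100) (L.map (ITerm.term den)) (L2.map (ITerm.term den))
    (KL.map (KI.term den)) delta :=
  goodK_of_checkR an den (by decide) L L2 KL dtbl dtbl_ok rfl codes posN rowsA rowsB rowsC rows_tbl 12 256 8 72 b0 28 22
    (by decide) parts_ok (by decide +kernel) slice_ok lit_ok 1 (by decide +kernel) delta bx31 hd31
    (by decide) rls31 rls_ok31 (by decide) (planOf lams31) 190 dD31 dE31 els31 rfl pay31 delta_le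
    (fun b hb => by
      interval_cases b
      · exact bucket31_0
      · exact bucket31_1
      · exact bucket31_2
      · exact bucket31_3
      · exact bucket31_4
      · exact bucket31_5
      · exact bucket31_6
      · exact bucket31_7)

end Vale.Agent.P098.Exact.Sos6.Q93
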