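import Vale.Agent.P098.Exact.Sos6.Q93.Common
import Vale.Agent.P098.Exact.Sos6.Q93.Box32B0
import Vale.Agent.P098.Exact.Sos6.Q93.Box32B1
import Vale.Agent.P098.Exact.Sos6.Q93.Box32B2
import Vale.Agent.P098.Exact.Sos6.Q93.Box32B3
import Vale.Agent.P098.Exact.Sos6.Q93.Box32B4
import Vale.Agent.P098.Exact.Sos6.Q93.Box32B5
import Vale.Agent.P098.Exact.Sos6.Q93.Box32B6
import Vale.Agent.P098.Exact.Sos6.Q93.Box32B7

/-! Generated data of the dimension six interior check. -/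

noncomputable section

namespace Vale.Agent.P098.Exact.Sos6.Q93

set_option maxRecDepth 100000

theorem pay32 : dtbl.payOK 190 dD32 dE32 (elTot els32) = true := by decide +kernel

theorem rls_ok32 : ∀ G ∈ rls32, ∃ Ns, tbl.facR 72 b0 28 22 Ns G = true := by
  intro G hG
  simp only [rls32, List.mem_cons, List.not_mem_nil, or_false] at hG
  rcases hG with rfl | rfl | rfl | rfl | rfl | rfl | rfl | rfl | rfl | rfl | rfl | rfl | rfl | rfl | rfl | rfl | rfl | rfl | rfl | rfl | rfl | rfl | rfl | rfl | rfl | rfl | rfl | rfl | rfl | rfl | rfl | rfl | rfl | rfl | rfl | rfl | rfl | rfl | rfl | rfl | rfl | rfl | rfl | rfl | rfl | rfl | rfl | rfl | rfl | rfl | rfl | rfl | rfl | rfl | rfl | rfl | rfl | rfl | rfl | rfl | rfl | rfl | rfl | rfl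
  · exact ⟨_, fac2048⟩
  · exact ⟨_, fac2049⟩
  · exact ⟨_, fac2050⟩
  · exact ⟨_, fac2051⟩
  · exact ⟨_, fac2052⟩
  · exact ⟨_, fac2053⟩
  · exact ⟨_, fac2054⟩
  · exact ⟨_, fac2055⟩
  · exact ⟨_, fac2056⟩
  · exact ⟨_, fac2057⟩
  · exact ⟨_, fac2058⟩
  · exact ⟨_, fac2059⟩
  · exact ⟨_, fac2060⟩
  · exact ⟨_, fac2061⟩
  · exact ⟨_, fac2062⟩
  · exact ⟨_, fac2063⟩
  · exact ⟨_, fac2064⟩
  · exact ⟨_, fac2065⟩
  · exact ⟨_, fac2066⟩
  · exact ⟨_, fac2067⟩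
  · exact ⟨_, fac2068⟩
  · exact ⟨_, fac2069⟩
  · exact ⟨_, fac2070⟩
  · exact ⟨_, fac2071⟩
  · exact ⟨_, fac2072⟩
  · exact ⟨_, fac2073⟩
  · exact ⟨_, fac2074⟩
  · exact ⟨_, fac2075⟩
  · exact ⟨_, fac2076⟩
  · exact ⟨_, fac2077⟩
  · exact ⟨_, fac2078⟩
  · exact ⟨_, fac2079⟩
  · exact ⟨_, fac2080⟩
  · exact ⟨_, fac2081⟩
  · exact ⟨_, fac2082⟩
  · exact ⟨_, fac2083⟩
  · exact ⟨_, fac2084⟩
  · exact ⟨_, fac2085⟩
  · exact ⟨_, fac2086⟩
  · exact ⟨_, fac2087⟩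
  · exact ⟨_, fac2088⟩
  · exact ⟨_, fac2089⟩
  · exact ⟨_, fac2090⟩
  · exact ⟨_, fac2091⟩
  · exact ⟨_, fac2092⟩
  · exact ⟨_, fac2093⟩
  · exact ⟨_, fac2094⟩
  · exact ⟨_, fac2095⟩
  · exact ⟨_, fac2096⟩
  · exact ⟨_, fac2097⟩
  · exact ⟨_, fac2098⟩
  · exact ⟨_, fac2099⟩
  · exact ⟨_, fac2100⟩
  · exact ⟨_, fac2101⟩
  · exact ⟨_, fac2102⟩
  · exact ⟨_, fac2103⟩
  · exact ⟨_, fac2104⟩
  · exact ⟨_, fac2105⟩
  · exact ⟨_, fac2106⟩
  · exact ⟨_, fac2107⟩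
  · exact ⟨_, fac2108⟩
  · exact ⟨_, fac2109⟩
  · exact ⟨_, fac2110⟩
  · exact ⟨_, fac2111⟩

theorem good32 : bx32.GoodK ((an : ℝ) / 100) (L.map (ITerm.term den)) (L2.map (ITerm.term den))
    (KL.map (KI.term den)) delta :=
  goodK_of_checkR an den (by decide) L L2 KL dtbl dtbl_ok rfl codes posN rowsA rowsB rowsC rows_tbl 12 256 8 72 b0 28 22
    (by decide) parts_ok (by decide +kernel) slice_ok lit_ok 1 (by decide +kernel) delta bx32 hd32
    (by decide) rls32 rls_ok32 (by decide) (planOf lams32) 190 dD32 dE32 els32 rfl pay32 delta_le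
    (fun b hb => by
      interval_cases b
      · exact bucket32_0
      · exact bucket32_1
      · exact bucket32_2
      · exact bucket32_3
      · exact bucket32_4
      · exact bucket32_5
      · exact bucket32_6
      · exact bucket32_7)

end Vale.Agent.P098.Exact.Sos6.Q93
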