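import Vale.Agent.P098.Exact.Sos6.Q93.Common
import Vale.Agent.P098.Exact.Sos6.Q93.Box33B0
import Vale.Agent.P098.Exact.Sos6.Q93.Box33B1
import Vale.Agent.P098.Exact.Sos6.Q93.Box33B2
import Vale.Agent.P098.Exact.Sos6.Q93.Box33B3
import Vale.Agent.P098.Exact.Sos6.Q93.Box33B4
import Vale.Agent.P098.Exact.Sos6.Q93.Box33B5
import Vale.Agent.P098.Exact.Sos6.Q93.Box33B6
import Vale.Agent.P098.Exact.Sos6.Q93.Box33B7

/-! Generated data of the dimension six interior check. -/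

noncomputable section

namespace Vale.Agent.P098.Exact.Sos6.Q93

set_option maxRecDepth 100000

theorem pay33 : dtbl.payOK 190 dD33 dE33 (elTot els33) = true := by decide +kernel

theorem rls_ok33 : ∀ G ∈ rls33, ∃ Ns, tbl.facR 72 b0 28 22 Ns G = true := by
  intro G hG
  simp only [rls33, List.mem_cons, List.not_mem_nil, or_false] at hG
  rcases hG with rfl | rfl | rfl | rfl | rfl | rfl | rfl | rfl | rfl | rfl | rfl | rfl | rfl | rfl | rfl | rfl | rfl | rfl | rfl | rfl | rfl | rfl | rfl | rfl | rfl | rfl | rfl | rfl | rfl | rfl | rfl | rfl | rfl | rfl | rfl | rfl | rfl | rfl | rfl | rfl | rfl | rfl | rfl | rfl | rfl | rfl | rfl | rfl | rfl | rfl | rfl | rfl | rfl | rfl | rfl | rfl | rfl | rfl | rfl | rfl | rfl | rfl | rfl | rfl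
  · exact ⟨_, fac2112⟩
  · exact ⟨_, fac2113⟩
  · exact ⟨_, fac2114⟩
  · exact ⟨_, fac2115⟩
  · exact ⟨_, fac2116⟩
  · exact ⟨_, fac2117⟩
  · exact ⟨_, fac2118⟩
  · exact ⟨_, fac2119⟩
  · exact ⟨_, fac2120⟩
  · exact ⟨_, fac2121⟩
  · exact ⟨_, fac2122⟩
  · exact ⟨_, fac2123⟩
  · exact ⟨_, fac2124⟩
  · exact ⟨_, fac2125⟩
  · exact ⟨_, fac2126⟩
  · exact ⟨_, fac2127⟩
  · exact ⟨_, fac2128⟩
  · exact ⟨_, fac2129⟩
  · exact ⟨_, fac2130⟩
  · exact ⟨_, fac2131⟩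
  · exact ⟨_, fac2132⟩
  · exact ⟨_, fac2133⟩
  · exact ⟨_, fac2134⟩
  · exact ⟨_, fac2135⟩
  · exact ⟨_, fac2136⟩
  · exact ⟨_, fac2137⟩
  · exact ⟨_, fac2138⟩
  · exact ⟨_, fac2139⟩
  · exact ⟨_, fac2140⟩
  · exact ⟨_, fac2141⟩
  · exact ⟨_, fac2142⟩
  · exact ⟨_, fac2143⟩
  · exact ⟨_, fac2144⟩
  · exact ⟨_, fac2145⟩
  · exact ⟨_, fac2146⟩
  · exact ⟨_, fac2147⟩
  · exact ⟨_, fac2148⟩
  · exact ⟨_, fac2149⟩
  · exact ⟨_, fac2150⟩
  · exact ⟨_, fac2151⟩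
  · exact ⟨_, fac2152⟩
  · exact ⟨_, fac2153⟩
  · exact ⟨_, fac2154⟩
  · exact ⟨_, fac2155⟩
  · exact ⟨_, fac2156⟩
  · exact ⟨_, fac2157⟩
  · exact ⟨_, fac2158⟩
  · exact ⟨_, fac2159⟩
  · exact ⟨_, fac2160⟩
  · exact ⟨_, fac2161⟩
  · exact ⟨_, fac2162⟩
  · exact ⟨_, fac2163⟩
  · exact ⟨_, fac2164⟩
  · exact ⟨_, fac2165⟩
  · exact ⟨_, fac2166⟩
  · exact ⟨_, fac2167⟩
  · exact ⟨_, fac2168⟩
  · exact ⟨_, fac2169⟩
  · exact ⟨_, fac2170⟩
  · exact ⟨_, fac2171⟩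
  · exact ⟨_, fac2172⟩
  · exact ⟨_, fac2173⟩
  · exact ⟨_, fac2174⟩
  · exact ⟨_, fac2175⟩

theorem good33 : bx33.GoodK ((an : ℝ) / 100) (L.map (ITerm.term den)) (L2.map (ITerm.term den))
    (KL.map (KI.term den)) delta :=
  goodK_of_checkR an den (by decide) L L2 KL dtbl dtbl_ok rfl codes posN rowsA rowsB rowsC rows_tbl 12 256 8 72 b0 28 22
    (by decide) parts_ok (by decide +kernel) slice_ok lit_ok 1 (by decide +kernel) delta bx33 hd33
    (by decide) rls33 rls_ok33 (by decide) (planOf lams33) 190 dD33 dE33 els33 rfl pay33 delta_le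
    (fun b hb => by
      interval_cases b
      · exact bucket33_0
      · exact bucket33_1
      · exact bucket33_2
      · exact bucket33_3
      · exact bucket33_4
      · exact bucket33_5
      · exact bucket33_6
      · exact bucket33_7)

end Vale.Agent.P098.Exact.Sos6.Q93
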