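import Vale.Agent.P098.Exact.Sos6.Q93.Common
import Vale.Agent.P098.Exact.Sos6.Q93.Box34B0
import Vale.Agent.P098.Exact.Sos6.Q93.Box34B1
import Vale.Agent.P098.Exact.Sos6.Q93.Box34B2
import Vale.Agent.P098.Exact.Sos6.Q93.Box34B3
import Vale.Agent.P098.Exact.Sos6.Q93.Box34B4
import Vale.Agent.P098.Exact.Sos6.Q93.Box34B5
import Vale.Agent.P098.Exact.Sos6.Q93.Box34B6
import Vale.Agent.P098.Exact.Sos6.Q93.Box34B7

/-! Generated data of the dimension six interior check. -/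

noncomputable section

namespace Vale.Agent.P098.Exact.Sos6.Q93

set_option maxRecDepth 100000

theorem pay34 : dtbl.payOK 190 dD34 dE34 (elTot els34) = true := by decide +kernel

theorem rls_ok34 : ∀ G ∈ rls34, ∃ Ns, tbl.facR 72 b0 28 22 Ns G = true := by
  intro G hG
  simp only [rls34, List.mem_cons, List.not_mem_nil, or_false] at hG
  rcases hG with rfl | rfl | rfl | rfl | rfl | rfl | rfl | rfl | rfl | rfl | rfl | rfl | rfl | rfl | rfl | rfl | rfl | rfl | rfl | rfl | rfl | rfl | rfl | rfl | rfl | rfl | rfl | rfl | rfl | rfl | rfl | rfl | rfl | rfl | rfl | rfl | rfl | rfl | rfl | rfl | rfl | rfl | rfl | rfl | rfl | rfl | rfl | rfl | rfl | rfl | rfl | rfl | rfl | rfl | rfl | rfl | rfl | rfl | rfl | rfl | rfl | rfl | rfl | rfl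
  · exact ⟨_, fac2176⟩
  · exact ⟨_, fac2177⟩
  · exact ⟨_, fac2178⟩
  · exact ⟨_, fac2179⟩
  · exact ⟨_, fac2180⟩
  · exact ⟨_, fac2181⟩
  · exact ⟨_, fac2182⟩
  · exact ⟨_, fac2183⟩
  · exact ⟨_, fac2184⟩
  · exact ⟨_, fac2185⟩
  · exact ⟨_, fac2186⟩
  · exact ⟨_, fac2187⟩
  · exact ⟨_, fac2188⟩
  · exact ⟨_, fac2189⟩
  · exact ⟨_, fac2190⟩
  · exact ⟨_, fac2191⟩
  · exact ⟨_, fac2192⟩
  · exact ⟨_, fac2193⟩
  · exact ⟨_, fac2194⟩
  · exact ⟨_, fac2195⟩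
  · exact ⟨_, fac2196⟩
  · exact ⟨_, fac2197⟩
  · exact ⟨_, fac2198⟩
  · exact ⟨_, fac2199⟩
  · exact ⟨_, fac2200⟩
  · exact ⟨_, fac2201⟩
  · exact ⟨_, fac2202⟩
  · exact ⟨_, fac2203⟩
  · exact ⟨_, fac2204⟩
  · exact ⟨_, fac2205⟩
  · exact ⟨_, fac2206⟩
  · exact ⟨_, fac2207⟩
  · exact ⟨_, fac2208⟩
  · exact ⟨_, fac2209⟩
  · exact ⟨_, fac2210⟩
  · exact ⟨_, fac2211⟩
  · exact ⟨_, fac2212⟩
  · exact ⟨_, fac2213⟩
  · exact ⟨_, fac2214⟩
  · exact ⟨_, fac2215⟩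
  · exact ⟨_, fac2216⟩
  · exact ⟨_, fac2217⟩
  · exact ⟨_, fac2218⟩
  · exact ⟨_, fac2219⟩
  · exact ⟨_, fac2220⟩
  · exact ⟨_, fac2221⟩
  · exact ⟨_, fac2222⟩
  · exact ⟨_, fac2223⟩
  · exact ⟨_, fac2224⟩
  · exact ⟨_, fac2225⟩
  · exact ⟨_, fac2226⟩
  · exact ⟨_, fac2227⟩
  · exact ⟨_, fac2228⟩
  · exact ⟨_, fac2229⟩
  · exact ⟨_, fac2230⟩
  · exact ⟨_, fac2231⟩
  · exact ⟨_, fac2232⟩
  · exact ⟨_, fac2233⟩
  · exact ⟨_, fac2234⟩
  · exact ⟨_, fac2235⟩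
  · exact ⟨_, fac2236⟩
  · exact ⟨_, fac2237⟩
  · exact ⟨_, fac2238⟩
  · exact ⟨_, fac2239⟩

theorem good34 : bx34.GoodK ((an : ℝ) / 100) (L.map (ITerm.term den)) (L2.map (ITerm.term den))
    (KL.map (KI.term den)) delta :=
  goodK_of_checkR an den (by decide) L L2 KL dtbl dtbl_ok rfl codes posN rowsA rowsB rowsC rows_tbl 12 256 8 72 b0 28 22
    (by decide) parts_ok (by decide +kernel) slice_ok lit_ok 1 (by decide +kernel) delta bx34 hd34
    (by decide) rls34 rls_ok34 (by decide) (planOf lams34) 190 dD34 dE34 els34 rfl pay34 delta_le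
    (fun b hb => by
      interval_cases b
      · exact bucket34_0
      · exact bucket34_1
      · exact bucket34_2
      · exact bucket34_3
      · exact bucket34_4
      · exact bucket34_5
      · exact bucket34_6
      · exact bucket34_7)

end Vale.Agent.P098.Exact.Sos6.Q93
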