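import Vale.Agent.P098.Exact.Sos6.Q93.Common
import Vale.Agent.P098.Exact.Sos6.Q93.Box35B0
import Vale.Agent.P098.Exact.Sos6.Q93.Box35B1
import Vale.Agent.P098.Exact.Sos6.Q93.Box35B2
import Vale.Agent.P098.Exact.Sos6.Q93.Box35B3
import Vale.Agent.P098.Exact.Sos6.Q93.Box35B4
import Vale.Agent.P098.Exact.Sos6.Q93.Box35B5
import Vale.Agent.P098.Exact.Sos6.Q93.Box35B6
import Vale.Agent.P098.Exact.Sos6.Q93.Box35B7

/-! Generated data of the dimension six interior check. -/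

noncomputable section

namespace Vale.Agent.P098.Exact.Sos6.Q93

set_option maxRecDepth 100000

theorem pay35 : dtbl.payOK 190 dD35 dE35 (elTot els35) = true := by decide +kernel

theorem rls_ok35 : ∀ G ∈ rls35, ∃ Ns, tbl.facR 72 b0 28 22 Ns G = true := by
  intro G hG
  simp only [rls35, List.mem_cons, List.not_mem_nil, or_false] at hG
  rcases hG with rfl | rfl | rfl | rfl | rfl | rfl | rfl | rfl | rfl | rfl | rfl | rfl | rfl | rfl | rfl | rfl | rfl | rfl | rfl | rfl | rfl | rfl | rfl | rfl | rfl | rfl | rfl | rfl | rfl | rfl | rfl | rfl | rfl | rfl | rfl | rfl | rfl | rfl | rfl | rfl | rfl | rfl | rfl | rfl | rfl | rfl | rfl | rfl | rfl | rfl | rfl | rfl | rfl | rfl | rfl | rfl | rfl | rfl | rfl | rfl | rfl | rfl | rfl | rfl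
  · exact ⟨_, fac2240⟩
  · exact ⟨_, fac2241⟩
  · exact ⟨_, fac2242⟩
  · exact ⟨_, fac2243⟩
  · exact ⟨_, fac2244⟩
  · exact ⟨_, fac2245⟩
  · exact ⟨_, fac2246⟩
  · exact ⟨_, fac2247⟩
  · exact ⟨_, fac2248⟩
  · exact ⟨_, fac2249⟩
  · exact ⟨_, fac2250⟩
  · exact ⟨_, fac2251⟩
  · exact ⟨_, fac2252⟩
  · exact ⟨_, fac2253⟩
  · exact ⟨_, fac2254⟩
  · exact ⟨_, fac2255⟩
  · exact ⟨_, fac2256⟩
  · exact ⟨_, fac2257⟩
  · exact ⟨_, fac2258⟩
  · exact ⟨_, fac2259⟩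
  · exact ⟨_, fac2260⟩
  · exact ⟨_, fac2261⟩
  · exact ⟨_, fac2262⟩
  · exact ⟨_, fac2263⟩
  · exact ⟨_, fac2264⟩
  · exact ⟨_, fac2265⟩
  · exact ⟨_, fac2266⟩
  · exact ⟨_, fac2267⟩
  · exact ⟨_, fac2268⟩
  · exact ⟨_, fac2269⟩
  · exact ⟨_, fac2270⟩
  · exact ⟨_, fac2271⟩
  · exact ⟨_, fac2272⟩
  · exact ⟨_, fac2273⟩
  · exact ⟨_, fac2274⟩
  · exact ⟨_, fac2275⟩
  · exact ⟨_, fac2276⟩
  · exact ⟨_, fac2277⟩
  · exact ⟨_, fac2278⟩
  · exact ⟨_, fac2279⟩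
  · exact ⟨_, fac2280⟩
  · exact ⟨_, fac2281⟩
  · exact ⟨_, fac2282⟩
  · exact ⟨_, fac2283⟩
  · exact ⟨_, fac2284⟩
  · exact ⟨_, fac2285⟩
  · exact ⟨_, fac2286⟩
  · exact ⟨_, fac2287⟩
  · exact ⟨_, fac2288⟩
  · exact ⟨_, fac2289⟩
  · exact ⟨_, fac2290⟩
  · exact ⟨_, fac2291⟩
  · exact ⟨_, fac2292⟩
  · exact ⟨_, fac2293⟩
  · exact ⟨_, fac2294⟩
  · exact ⟨_, fac2295⟩
  · exact ⟨_, fac2296⟩
  · exact ⟨_, fac2297⟩
  · exact ⟨_, fac2298⟩
  · exact ⟨_, fac2299⟩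
  · exact ⟨_, fac2300⟩
  · exact ⟨_, fac2301⟩
  · exact ⟨_, fac2302⟩
  · exact ⟨_, fac2303⟩

theorem good35 : bx35.GoodK ((an : ℝ) / 100) (L.map (ITerm.term den)) (L2.map (ITerm.term den))
    (KL.map (KI.term den)) delta :=
  goodK_of_checkR an den (by decide) L L2 KL dtbl dtbl_ok rfl codes posN rowsA rowsB rowsC rows_tbl 12 256 8 72 b0 28 22
    (by decide) parts_ok (by decide +kernel) slice_ok lit_ok 1 (by decide +kernel) delta bx35 hd35
    (by decide) rls35 rls_ok35 (by decide) (planOf lams35) 190 dD35 dE35 els35 rfl pay35 delta_le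
    (fun b hb => by
      interval_cases b
      · exact bucket35_0
      · exact bucket35_1
      · exact bucket35_2
      · exact bucket35_3
      · exact bucket35_4
      · exact bucket35_5
      · exact bucket35_6
      · exact bucket35_7)

end Vale.Agent.P098.Exact.Sos6.Q93
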