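import Vale.Agent.P098.Exact.Sos6.Q93.Common
import Vale.Agent.P098.Exact.Sos6.Q93.Box36B0
import Vale.Agent.P098.Exact.Sos6.Q93.Box36B1
import Vale.Agent.P098.Exact.Sos6.Q93.Box36B2
import Vale.Agent.P098.Exact.Sos6.Q93.Box36B3
import Vale.Agent.P098.Exact.Sos6.Q93.Box36B4
import Vale.Agent.P098.Exact.Sos6.Q93.Box36B5
import Vale.Agent.P098.Exact.Sos6.Q93.Box36B6
import Vale.Agent.P098.Exact.Sos6.Q93.Box36B7

/-! Generated data of the dimension six interior check. -/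

noncomputable section

namespace Vale.Agent.P098.Exact.Sos6.Q93

set_option maxRecDepth 100000

theorem pay36 : dtbl.payOK 190 dD36 dE36 (elTot els36) = true := by decide +kernel

theorem rls_ok36 : ∀ G ∈ rls36, ∃ Ns, tbl.facR 72 b0 28 22 Ns G = true := by
  intro G hG
  simp only [rls36, List.mem_cons, List.not_mem_nil, or_false] at hG
  rcases hG with rfl | rfl | rfl | rfl | rfl | rfl | rfl | rfl | rfl | rfl | rfl | rfl | rfl | rfl | rfl | rfl | rfl | rfl | rfl | rfl | rfl | rfl | rfl | rfl | rfl | rfl | rfl | rfl | rfl | rfl | rfl | rfl | rfl | rfl | rfl | rfl | rfl | rfl | rfl | rfl | rfl | rfl | rfl | rfl | rfl | rfl | rfl | rfl | rfl | rfl | rfl | rfl | rfl | rfl | rfl | rfl | rfl | rfl | rfl | rfl | rfl | rfl | rfl | rfl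
  · exact ⟨_, fac2304⟩
  · exact ⟨_, fac2305⟩
  · exact ⟨_, fac2306⟩
  · exact ⟨_, fac2307⟩
  · exact ⟨_, fac2308⟩
  · exact ⟨_, fac2309⟩
  · exact ⟨_, fac2310⟩
  · exact ⟨_, fac2311⟩
  · exact ⟨_, fac2312⟩
  · exact ⟨_, fac2313⟩
  · exact ⟨_, fac2314⟩
  · exact ⟨_, fac2315⟩
  · exact ⟨_, fac2316⟩
  · exact ⟨_, fac2317⟩
  · exact ⟨_, fac2318⟩
  · exact ⟨_, fac2319⟩
  · exact ⟨_, fac2320⟩
  · exact ⟨_, fac2321⟩
  · exact ⟨_, fac2322⟩
  · exact ⟨_, fac2323⟩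
  · exact ⟨_, fac2324⟩
  · exact ⟨_, fac2325⟩
  · exact ⟨_, fac2326⟩
  · exact ⟨_, fac2327⟩
  · exact ⟨_, fac2328⟩
  · exact ⟨_, fac2329⟩
  · exact ⟨_, fac2330⟩
  · exact ⟨_, fac2331⟩
  · exact ⟨_, fac2332⟩
  · exact ⟨_, fac2333⟩
  · exact ⟨_, fac2334⟩
  · exact ⟨_, fac2335⟩
  · exact ⟨_, fac2336⟩
  · exact ⟨_, fac2337⟩
  · exact ⟨_, fac2338⟩
  · exact ⟨_, fac2339⟩
  · exact ⟨_, fac2340⟩
  · exact ⟨_, fac2341⟩
  · exact ⟨_, fac2342⟩
  · exact ⟨_, fac2343⟩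
  · exact ⟨_, fac2344⟩
  · exact ⟨_, fac2345⟩
  · exact ⟨_, fac2346⟩
  · exact ⟨_, fac2347⟩
  · exact ⟨_, fac2348⟩
  · exact ⟨_, fac2349⟩
  · exact ⟨_, fac2350⟩
  · exact ⟨_, fac2351⟩
  · exact ⟨_, fac2352⟩
  · exact ⟨_, fac2353⟩
  · exact ⟨_, fac2354⟩
  · exact ⟨_, fac2355⟩
  · exact ⟨_, fac2356⟩
  · exact ⟨_, fac2357⟩
  · exact ⟨_, fac2358⟩
  · exact ⟨_, fac2359⟩
  · exact ⟨_, fac2360⟩
  · exact ⟨_, fac2361⟩
  · exact ⟨_, fac2362⟩
  · exact ⟨_, fac2363⟩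
  · exact ⟨_, fac2364⟩
  · exact ⟨_, fac2365⟩
  · exact ⟨_, fac2366⟩
  · exact ⟨_, fac2367⟩

theorem good36 : bx36.GoodK ((an : ℝ) / 100) (L.map (ITerm.term den)) (L2.map (ITerm.term den))
    (KL.map (KI.term den)) delta :=
  goodK_of_checkR an den (by decide) L L2 KL dtbl dtbl_ok rfl codes posN rowsA rowsB rowsC rows_tbl 12 256 8 72 b0 28 22
    (by decide) parts_ok (by decide +kernel) slice_ok lit_ok 1 (by decide +kernel) delta bx36 hd36
    (by decide) rls36 rls_ok36 (by decide) (planOf lams36) 190 dD36 dE36 els36 rfl pay36 delta_le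
    (fun b hb => by
      interval_cases b
      · exact bucket36_0
      · exact bucket36_1
      · exact bucket36_2
      · exact bucket36_3
      · exact bucket36_4
      · exact bucket36_5
      · exact bucket36_6
      · exact bucket36_7)

end Vale.Agent.P098.Exact.Sos6.Q93
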