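import Vale.Agent.P098.Exact.Sos6.Q93.Common
import Vale.Agent.P098.Exact.Sos6.Q93.Box37B0
import Vale.Agent.P098.Exact.Sos6.Q93.Box37B1
import Vale.Agent.P098.Exact.Sos6.Q93.Box37B2
import Vale.Agent.P098.Exact.Sos6.Q93.Box37B3
import Vale.Agent.P098.Exact.Sos6.Q93.Box37B4
import Vale.Agent.P098.Exact.Sos6.Q93.Box37B5
import Vale.Agent.P098.Exact.Sos6.Q93.Box37B6
import Vale.Agent.P098.Exact.Sos6.Q93.Box37B7

/-! Generated data of the dimension six interior check. -/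

noncomputable section

namespace Vale.Agent.P098.Exact.Sos6.Q93

set_option maxRecDepth 100000

theorem pay37 : dtbl.payOK 190 dD37 dE37 (elTot els37) = true := by decide +kernel

theorem rls_ok37 : ∀ G ∈ rls37, ∃ Ns, tbl.facR 72 b0 28 22 Ns G = true := by
  intro G hG
  simp only [rls37, List.mem_cons, List.not_mem_nil, or_false] at hG
  rcases hG with rfl | rfl | rfl | rfl | rfl | rfl | rfl | rfl | rfl | rfl | rfl | rfl | rfl | rfl | rfl | rfl | rfl | rfl | rfl | rfl | rfl | rfl | rfl | rfl | rfl | rfl | rfl | rfl | rfl | rfl | rfl | rfl | rfl | rfl | rfl | rfl | rfl | rfl | rfl | rfl | rfl | rfl | rfl | rfl | rfl | rfl | rfl | rfl | rfl | rfl | rfl | rfl | rfl | rfl | rfl | rfl | rfl | rfl | rfl | rfl | rfl | rfl | rfl | rfl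
  · exact ⟨_, fac2368⟩
  · exact ⟨_, fac2369⟩
  · exact ⟨_, fac2370⟩
  · exact ⟨_, fac2371⟩
  · exact ⟨_, fac2372⟩
  · exact ⟨_, fac2373⟩
  · exact ⟨_, fac2374⟩
  · exact ⟨_, fac2375⟩
  · exact ⟨_, fac2376⟩
  · exact ⟨_, fac2377⟩
  · exact ⟨_, fac2378⟩
  · exact ⟨_, fac2379⟩
  · exact ⟨_, fac2380⟩
  · exact ⟨_, fac2381⟩
  · exact ⟨_, fac2382⟩
  · exact ⟨_, fac2383⟩
  · exact ⟨_, fac2384⟩
  · exact ⟨_, fac2385⟩
  · exact ⟨_, fac2386⟩
  · exact ⟨_, fac2387⟩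
  · exact ⟨_, fac2388⟩
  · exact ⟨_, fac2389⟩
  · exact ⟨_, fac2390⟩
  · exact ⟨_, fac2391⟩
  · exact ⟨_, fac2392⟩
  · exact ⟨_, fac2393⟩
  · exact ⟨_, fac2394⟩
  · exact ⟨_, fac2395⟩
  · exact ⟨_, fac2396⟩
  · exact ⟨_, fac2397⟩
  · exact ⟨_, fac2398⟩
  · exact ⟨_, fac2399⟩
  · exact ⟨_, fac2400⟩
  · exact ⟨_, fac2401⟩
  · exact ⟨_, fac2402⟩
  · exact ⟨_, fac2403⟩
  · exact ⟨_, fac2404⟩
  · exact ⟨_, fac2405⟩
  · exact ⟨_, fac2406⟩
  · exact ⟨_, fac2407⟩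
  · exact ⟨_, fac2408⟩
  · exact ⟨_, fac2409⟩
  · exact ⟨_, fac2410⟩
  · exact ⟨_, fac2411⟩
  · exact ⟨_, fac2412⟩
  · exact ⟨_, fac2413⟩
  · exact ⟨_, fac2414⟩
  · exact ⟨_, fac2415⟩
  · exact ⟨_, fac2416⟩
  · exact ⟨_, fac2417⟩
  · exact ⟨_, fac2418⟩
  · exact ⟨_, fac2419⟩
  · exact ⟨_, fac2420⟩
  · exact ⟨_, fac2421⟩
  · exact ⟨_, fac2422⟩
  · exact ⟨_, fac2423⟩
  · exact ⟨_, fac2424⟩
  · exact ⟨_, fac2425⟩
  · exact ⟨_, fac2426⟩
  · exact ⟨_, fac2427⟩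
  · exact ⟨_, fac2428⟩
  · exact ⟨_, fac2429⟩
  · exact ⟨_, fac2430⟩
  · exact ⟨_, fac2431⟩

theorem good37 : bx37.GoodK ((an : ℝ) / 100) (L.map (ITerm.term den)) (L2.map (ITerm.term den))
    (KL.map (KI.term den)) delta :=
  goodK_of_checkR an den (by decide) L L2 KL dtbl dtbl_ok rfl codes posN rowsA rowsB rowsC rows_tbl 12 256 8 72 b0 28 22
    (by decide) parts_ok (by decide +kernel) slice_ok lit_ok 1 (by decide +kernel) delta bx37 hd37
    (by decide) rls37 rls_ok37 (by decide) (planOf lams37) 190 dD37 dE37 els37 rfl pay37 delta_le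
    (fun b hb => by
      interval_cases b
      · exact bucket37_0
      · exact bucket37_1
      · exact bucket37_2
      · exact bucket37_3
      · exact bucket37_4
      · exact bucket37_5
      · exact bucket37_6
      · exact bucket37_7)

end Vale.Agent.P098.Exact.Sos6.Q93
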