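import Vale.Agent.P098.Exact.Sos6.Q93.Common
import Vale.Agent.P098.Exact.Sos6.Q93.Box38B0
import Vale.Agent.P098.Exact.Sos6.Q93.Box38B1
import Vale.Agent.P098.Exact.Sos6.Q93.Box38B2
import Vale.Agent.P098.Exact.Sos6.Q93.Box38B3
import Vale.Agent.P098.Exact.Sos6.Q93.Box38B4
import Vale.Agent.P098.Exact.Sos6.Q93.Box38B5
import Vale.Agent.P098.Exact.Sos6.Q93.Box38B6
import Vale.Agent.P098.Exact.Sos6.Q93.Box38B7

/-! Generated data of the dimension six interior check. -/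

noncomputable section

namespace Vale.Agent.P098.Exact.Sos6.Q93

set_option maxRecDepth 100000

theorem pay38 : dtbl.payOK 190 dD38 dE38 (elTot els38) = true := by decide +kernel

theorem rls_ok38 : ∀ G ∈ rls38, ∃ Ns, tbl.facR 72 b0 28 22 Ns G = true := by
  intro G hG
  simp only [rls38, List.mem_cons, List.not_mem_nil, or_false] at hG
  rcases hG with rfl | rfl | rfl | rfl | rfl | rfl | rfl | rfl | rfl | rfl | rfl | rfl | rfl | rfl | rfl | rfl | rfl | rfl | rfl | rfl | rfl | rfl | rfl | rfl | rfl | rfl | rfl | rfl | rfl | rfl | rfl | rfl | rfl | rfl | rfl | rfl | rfl | rfl | rfl | rfl | rfl | rfl | rfl | rfl | rfl | rfl | rfl | rfl | rfl | rfl | rfl | rfl | rfl | rfl | rfl | rfl | rfl | rfl | rfl | rfl | rfl | rfl | rfl | rfl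
  · exact ⟨_, fac2432⟩
  · exact ⟨_, fac2433⟩
  · exact ⟨_, fac2434⟩
  · exact ⟨_, fac2435⟩
  · exact ⟨_, fac2436⟩
  · exact ⟨_, fac2437⟩
  · exact ⟨_, fac2438⟩
  · exact ⟨_, fac2439⟩
  · exact ⟨_, fac2440⟩
  · exact ⟨_, fac2441⟩
  · exact ⟨_, fac2442⟩
  · exact ⟨_, fac2443⟩
  · exact ⟨_, fac2444⟩
  · exact ⟨_, fac2445⟩
  · exact ⟨_, fac2446⟩
  · exact ⟨_, fac2447⟩
  · exact ⟨_, fac2448⟩
  · exact ⟨_, fac2449⟩
  · exact ⟨_, fac2450⟩
  · exact ⟨_, fac2451⟩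
  · exact ⟨_, fac2452⟩
  · exact ⟨_, fac2453⟩
  · exact ⟨_, fac2454⟩
  · exact ⟨_, fac2455⟩
  · exact ⟨_, fac2456⟩
  · exact ⟨_, fac2457⟩
  · exact ⟨_, fac2458⟩
  · exact ⟨_, fac2459⟩
  · exact ⟨_, fac2460⟩
  · exact ⟨_, fac2461⟩
  · exact ⟨_, fac2462⟩
  · exact ⟨_, fac2463⟩
  · exact ⟨_, fac2464⟩
  · exact ⟨_, fac2465⟩
  · exact ⟨_, fac2466⟩
  · exact ⟨_, fac2467⟩
  · exact ⟨_, fac2468⟩
  · exact ⟨_, fac2469⟩
  · exact ⟨_, fac2470⟩
  · exact ⟨_, fac2471⟩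
  · exact ⟨_, fac2472⟩
  · exact ⟨_, fac2473⟩
  · exact ⟨_, fac2474⟩
  · exact ⟨_, fac2475⟩
  · exact ⟨_, fac2476⟩
  · exact ⟨_, fac2477⟩
  · exact ⟨_, fac2478⟩
  · exact ⟨_, fac2479⟩
  · exact ⟨_, fac2480⟩
  · exact ⟨_, fac2481⟩
  · exact ⟨_, fac2482⟩
  · exact ⟨_, fac2483⟩
  · exact ⟨_, fac2484⟩
  · exact ⟨_, fac2485⟩
  · exact ⟨_, fac2486⟩
  · exact ⟨_, fac2487⟩
  · exact ⟨_, fac2488⟩
  · exact ⟨_, fac2489⟩
  · exact ⟨_, fac2490⟩
  · exact ⟨_, fac2491⟩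
  · exact ⟨_, fac2492⟩
  · exact ⟨_, fac2493⟩
  · exact ⟨_, fac2494⟩
  · exact ⟨_, fac2495⟩

theorem good38 : bx38.GoodK ((an : ℝ) / 100) (L.map (ITerm.term den)) (L2.map (ITerm.term den))
    (KL.map (KI.term den)) delta :=
  goodK_of_checkR an den (by decide) L L2 KL dtbl dtbl_ok rfl codes posN rowsA rowsB rowsC rows_tbl 12 256 8 72 b0 28 22
    (by decide) parts_ok (by decide +kernel) slice_ok lit_ok 1 (by decide +kernel) delta bx38 hd38
    (by decide) rls38 rls_ok38 (by decide) (planOf lams38) 190 dD38 dE38 els38 rfl pay38 delta_le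
    (fun b hb => by
      interval_cases b
      · exact bucket38_0
      · exact bucket38_1
      · exact bucket38_2
      · exact bucket38_3
      · exact bucket38_4
      · exact bucket38_5
      · exact bucket38_6
      · exact bucket38_7)

end Vale.Agent.P098.Exact.Sos6.Q93
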