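import Vale.Agent.P098.Exact.Sos6.Q93.Common
import Vale.Agent.P098.Exact.Sos6.Q93.Box39B0
import Vale.Agent.P098.Exact.Sos6.Q93.Box39B1
import Vale.Agent.P098.Exact.Sos6.Q93.Box39B2
import Vale.Agent.P098.Exact.Sos6.Q93.Box39B3
import Vale.Agent.P098.Exact.Sos6.Q93.Box39B4
import Vale.Agent.P098.Exact.Sos6.Q93.Box39B5
import Vale.Agent.P098.Exact.Sos6.Q93.Box39B6
import Vale.Agent.P098.Exact.Sos6.Q93.Box39B7

/-! Generated data of the dimension six interior check. -/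

noncomputable section

namespace Vale.Agent.P098.Exact.Sos6.Q93

set_option maxRecDepth 100000

theorem pay39 : dtbl.payOK 190 dD39 dE39 (elTot els39) = true := by decide +kernel

theorem rls_ok39 : ∀ G ∈ rls39, ∃ Ns, tbl.facR 72 b0 28 22 Ns G = true := by
  intro G hG
  simp only [rls39, List.mem_cons, List.not_mem_nil, or_false] at hG
  rcases hG with rfl | rfl | rfl | rfl | rfl | rfl | rfl | rfl | rfl | rfl | rfl | rfl | rfl | rfl | rfl | rfl | rfl | rfl | rfl | rfl | rfl | rfl | rfl | rfl | rfl | rfl | rfl | rfl | rfl | rfl | rfl | rfl | rfl | rfl | rfl | rfl | rfl | rfl | rfl | rfl | rfl | rfl | rfl | rfl | rfl | rfl | rfl | rfl | rfl | rfl | rfl | rfl | rfl | rfl | rfl | rfl | rfl | rfl | rfl | rfl | rfl | rfl | rfl | rfl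
  · exact ⟨_, fac2496⟩
  · exact ⟨_, fac2497⟩
  · exact ⟨_, fac2498⟩
  · exact ⟨_, fac2499⟩
  · exact ⟨_, fac2500⟩
  · exact ⟨_, fac2501⟩
  · exact ⟨_, fac2502⟩
  · exact ⟨_, fac2503⟩
  · exact ⟨_, fac2504⟩
  · exact ⟨_, fac2505⟩
  · exact ⟨_, fac2506⟩
  · exact ⟨_, fac2507⟩
  · exact ⟨_, fac2508⟩
  · exact ⟨_, fac2509⟩
  · exact ⟨_, fac2510⟩
  · exact ⟨_, fac2511⟩
  · exact ⟨_, fac2512⟩
  · exact ⟨_, fac2513⟩
  · exact ⟨_, fac2514⟩
  · exact ⟨_, fac2515⟩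
  · exact ⟨_, fac2516⟩
  · exact ⟨_, fac2517⟩
  · exact ⟨_, fac2518⟩
  · exact ⟨_, fac2519⟩
  · exact ⟨_, fac2520⟩
  · exact ⟨_, fac2521⟩
  · exact ⟨_, fac2522⟩
  · exact ⟨_, fac2523⟩
  · exact ⟨_, fac2524⟩
  · exact ⟨_, fac2525⟩
  · exact ⟨_, fac2526⟩
  · exact ⟨_, fac2527⟩
  · exact ⟨_, fac2528⟩
  · exact ⟨_, fac2529⟩
  · exact ⟨_, fac2530⟩
  · exact ⟨_, fac2531⟩
  · exact ⟨_, fac2532⟩
  · exact ⟨_, fac2533⟩
  · exact ⟨_, fac2534⟩
  · exact ⟨_, fac2535⟩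
  · exact ⟨_, fac2536⟩
  · exact ⟨_, fac2537⟩
  · exact ⟨_, fac2538⟩
  · exact ⟨_, fac2539⟩
  · exact ⟨_, fac2540⟩
  · exact ⟨_, fac2541⟩
  · exact ⟨_, fac2542⟩
  · exact ⟨_, fac2543⟩
  · exact ⟨_, fac2544⟩
  · exact ⟨_, fac2545⟩
  · exact ⟨_, fac2546⟩
  · exact ⟨_, fac2547⟩
  · exact ⟨_, fac2548⟩
  · exact ⟨_, fac2549⟩
  · exact ⟨_, fac2550⟩
  · exact ⟨_, fac2551⟩
  · exact ⟨_, fac2552⟩
  · exact ⟨_, fac2553⟩
  · exact ⟨_, fac2554⟩
  · exact ⟨_, fac2555⟩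
  · exact ⟨_, fac2556⟩
  · exact ⟨_, fac2557⟩
  · exact ⟨_, fac2558⟩
  · exact ⟨_, fac2559⟩

theorem good39 : bx39.GoodK ((an : ℝ) / 100) (L.map (ITerm.term den)) (L2.map (ITerm.term den))
    (KL.map (KI.term den)) delta :=
  goodK_of_checkR an den (by decide) L L2 KL dtbl dtbl_ok rfl codes posN rowsA rowsB rowsC rows_tbl 12 256 8 72 b0 28 22
    (by decide) parts_ok (by decide +kernel) slice_ok lit_ok 1 (by decide +kernel) delta bx39 hd39
    (by decide) rls39 rls_ok39 (by decide) (planOf lams39) 190 dD39 dE39 els39 rfl pay39 delta_le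
    (fun b hb => by
      interval_cases b
      · exact bucket39_0
      · exact bucket39_1
      · exact bucket39_2
      · exact bucket39_3
      · exact bucket39_4
      · exact bucket39_5
      · exact bucket39_6
      · exact bucket39_7)

end Vale.Agent.P098.Exact.Sos6.Q93
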