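import Vale.Agent.P098.Exact.Sos6.Q93.Common
import Vale.Agent.P098.Exact.Sos6.Q93.Box3B0
import Vale.Agent.P098.Exact.Sos6.Q93.Box3B1
import Vale.Agent.P098.Exact.Sos6.Q93.Box3B2
import Vale.Agent.P098.Exact.Sos6.Q93.Box3B3
import Vale.Agent.P098.Exact.Sos6.Q93.Box3B4
import Vale.Agent.P098.Exact.Sos6.Q93.Box3B5
import Vale.Agent.P098.Exact.Sos6.Q93.Box3B6
import Vale.Agent.P098.Exact.Sos6.Q93.Box3B7

/-! Generated data of the dimension six interior check. -/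

noncomputable section

namespace Vale.Agent.P098.Exact.Sos6.Q93

set_option maxRecDepth 100000

theorem pay3 : dtbl.payOK 190 dD3 dE3 (elTot els3) = true := by decide +kernel

theorem rls_ok3 : ∀ G ∈ rls3, ∃ Ns, tbl.facR 72 b0 28 22 Ns G = true := by
  intro G hG
  simp only [rls3, List.mem_cons, List.not_mem_nil, or_false] at hG
  rcases hG with rfl | rfl | rfl | rfl | rfl | rfl | rfl | rfl | rfl | rfl | rfl | rfl | rfl | rfl | rfl | rfl | rfl | rfl | rfl | rfl | rfl | rfl | rfl | rfl | rfl | rfl | rfl | rfl | rfl | rfl | rfl | rfl | rfl | rfl | rfl | rfl | rfl | rfl | rfl | rfl | rfl | rfl | rfl | rfl | rfl | rfl | rfl | rfl | rfl | rfl | rfl | rfl | rfl | rfl | rfl | rfl | rfl | rfl | rfl | rfl | rfl | rfl | rfl | rfl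
  · exact ⟨_, fac192⟩
  · exact ⟨_, fac193⟩
  · exact ⟨_, fac194⟩
  · exact ⟨_, fac195⟩
  · exact ⟨_, fac196⟩
  · exact ⟨_, fac197⟩
  · exact ⟨_, fac198⟩
  · exact ⟨_, fac199⟩
  · exact ⟨_, fac200⟩
  · exact ⟨_, fac201⟩
  · exact ⟨_, fac202⟩
  · exact ⟨_, fac203⟩
  · exact ⟨_, fac204⟩
  · exact ⟨_, fac205⟩
  · exact ⟨_, fac206⟩
  · exact ⟨_, fac207⟩
  · exact ⟨_, fac208⟩
  · exact ⟨_, fac209⟩
  · exact ⟨_, fac210⟩
  · exact ⟨_, fac211⟩
  · exact ⟨_, fac212⟩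
  · exact ⟨_, fac213⟩
  · exact ⟨_, fac214⟩
  · exact ⟨_, fac215⟩
  · exact ⟨_, fac216⟩
  · exact ⟨_, fac217⟩
  · exact ⟨_, fac218⟩
  · exact ⟨_, fac219⟩
  · exact ⟨_, fac220⟩
  · exact ⟨_, fac221⟩
  · exact ⟨_, fac222⟩
  · exact ⟨_, fac223⟩
  · exact ⟨_, fac224⟩
  · exact ⟨_, fac225⟩
  · exact ⟨_, fac226⟩
  · exact ⟨_, fac227⟩
  · exact ⟨_, fac228⟩
  · exact ⟨_, fac229⟩
  · exact ⟨_, fac230⟩
  · exact ⟨_, fac231⟩
  · exact ⟨_, fac232⟩
  · exact ⟨_, fac233⟩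
  · exact ⟨_, fac234⟩
  · exact ⟨_, fac235⟩
  · exact ⟨_, fac236⟩
  · exact ⟨_, fac237⟩
  · exact ⟨_, fac238⟩
  · exact ⟨_, fac239⟩
  · exact ⟨_, fac240⟩
  · exact ⟨_, fac241⟩
  · exact ⟨_, fac242⟩
  · exact ⟨_, fac243⟩
  · exact ⟨_, fac244⟩
  · exact ⟨_, fac245⟩
  · exact ⟨_, fac246⟩
  · exact ⟨_, fac247⟩
  · exact ⟨_, fac248⟩
  · exact ⟨_, fac249⟩
  · exact ⟨_, fac250⟩
  · exact ⟨_, fac251⟩
  · exact ⟨_, fac252⟩
  · exact ⟨_, fac253⟩
  · exact ⟨_, fac254⟩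
  · exact ⟨_, fac255⟩

theorem good3 : bx3.GoodK ((an : ℝ) / 100) (L.map (ITerm.term den)) (L2.map (ITerm.term den))
    (KL.map (KI.term den)) delta :=
  goodK_of_checkR an den (by decide) L L2 KL dtbl dtbl_ok rfl codes posN rowsA rowsB rowsC rows_tbl 12 256 8 72 b0 28 22
    (by decide) parts_ok (by decide +kernel) slice_ok lit_ok 1 (by decide +kernel) delta bx3 hd3
    (by decide) rls3 rls_ok3 (by decide) (planOf lams3) 190 dD3 dE3 els3 rfl pay3 delta_le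
    (fun b hb => by
      interval_cases b
      · exact bucket3_0
      · exact bucket3_1
      · exact bucket3_2
      · exact bucket3_3
      · exact bucket3_4
      · exact bucket3_5
      · exact bucket3_6
      · exact bucket3_7)

end Vale.Agent.P098.Exact.Sos6.Q93
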