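import Vale.Agent.P098.Exact.Sos6.Q93.Common
import Vale.Agent.P098.Exact.Sos6.Q93.Box40B0
import Vale.Agent.P098.Exact.Sos6.Q93.Box40B1
import Vale.Agent.P098.Exact.Sos6.Q93.Box40B2
import Vale.Agent.P098.Exact.Sos6.Q93.Box40B3
import Vale.Agent.P098.Exact.Sos6.Q93.Box40B4
import Vale.Agent.P098.Exact.Sos6.Q93.Box40B5
import Vale.Agent.P098.Exact.Sos6.Q93.Box40B6
import Vale.Agent.P098.Exact.Sos6.Q93.Box40B7

/-! Generated data of the dimension six interior check. -/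

noncomputable section

namespace Vale.Agent.P098.Exact.Sos6.Q93

set_option maxRecDepth 100000

theorem pay40 : dtbl.payOK 190 dD40 dE40 (elTot els40) = true := by decide +kernel

theorem rls_ok40 : ∀ G ∈ rls40, ∃ Ns, tbl.facR 72 b0 28 22 Ns G = true := by
  intro G hG
  simp only [rls40, List.mem_cons, List.not_mem_nil, or_false] at hG
  rcases hG with rfl | rfl | rfl | rfl | rfl | rfl | rfl | rfl | rfl | rfl | rfl | rfl | rfl | rfl | rfl | rfl | rfl | rfl | rfl | rfl | rfl | rfl | rfl | rfl | rfl | rfl | rfl | rfl | rfl | rfl | rfl | rfl | rfl | rfl | rfl | rfl | rfl | rfl | rfl | rfl | rfl | rfl | rfl | rfl | rfl | rfl | rfl | rfl | rfl | rfl | rfl | rfl | rfl | rfl | rfl | rfl | rfl | rfl | rfl | rfl | rfl | rfl | rfl | rfl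
  · exact ⟨_, fac2560⟩
  · exact ⟨_, fac2561⟩
  · exact ⟨_, fac2562⟩
  · exact ⟨_, fac2563⟩
  · exact ⟨_, fac2564⟩
  · exact ⟨_, fac2565⟩
  · exact ⟨_, fac2566⟩
  · exact ⟨_, fac2567⟩
  · exact ⟨_, fac2568⟩
  · exact ⟨_, fac2569⟩
  · exact ⟨_, fac2570⟩
  · exact ⟨_, fac2571⟩
  · exact ⟨_, fac2572⟩
  · exact ⟨_, fac2573⟩
  · exact ⟨_, fac2574⟩
  · exact ⟨_, fac2575⟩
  · exact ⟨_, fac2576⟩
  · exact ⟨_, fac2577⟩
  · exact ⟨_, fac2578⟩
  · exact ⟨_, fac2579⟩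
  · exact ⟨_, fac2580⟩
  · exact ⟨_, fac2581⟩
  · exact ⟨_, fac2582⟩
  · exact ⟨_, fac2583⟩
  · exact ⟨_, fac2584⟩
  · exact ⟨_, fac2585⟩
  · exact ⟨_, fac2586⟩
  · exact ⟨_, fac2587⟩
  · exact ⟨_, fac2588⟩
  · exact ⟨_, fac2589⟩
  · exact ⟨_, fac2590⟩
  · exact ⟨_, fac2591⟩
  · exact ⟨_, fac2592⟩
  · exact ⟨_, fac2593⟩
  · exact ⟨_, fac2594⟩
  · exact ⟨_, fac2595⟩
  · exact ⟨_, fac2596⟩
  · exact ⟨_, fac2597⟩
  · exact ⟨_, fac2598⟩
  · exact ⟨_, fac2599⟩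
  · exact ⟨_, fac2600⟩
  · exact ⟨_, fac2601⟩
  · exact ⟨_, fac2602⟩
  · exact ⟨_, fac2603⟩
  · exact ⟨_, fac2604⟩
  · exact ⟨_, fac2605⟩
  · exact ⟨_, fac2606⟩
  · exact ⟨_, fac2607⟩
  · exact ⟨_, fac2608⟩
  · exact ⟨_, fac2609⟩
  · exact ⟨_, fac2610⟩
  · exact ⟨_, fac2611⟩
  · exact ⟨_, fac2612⟩
  · exact ⟨_, fac2613⟩
  · exact ⟨_, fac2614⟩
  · exact ⟨_, fac2615⟩
  · exact ⟨_, fac2616⟩
  · exact ⟨_, fac2617⟩
  · exact ⟨_, fac2618⟩
  · exact ⟨_, fac2619⟩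
  · exact ⟨_, fac2620⟩
  · exact ⟨_, fac2621⟩
  · exact ⟨_, fac2622⟩
  · exact ⟨_, fac2623⟩

theorem good40 : bx40.GoodK ((an : ℝ) / 100) (L.map (ITerm.term den)) (L2.map (ITerm.term den))
    (KL.map (KI.term den)) delta :=
  goodK_of_checkR an den (by decide) L L2 KL dtbl dtbl_ok rfl codes posN rowsA rowsB rowsC rows_tbl 12 256 8 72 b0 28 22
    (by decide) parts_ok (by decide +kernel) slice_ok lit_ok 1 (by decide +kernel) delta bx40 hd40
    (by decide) rls40 rls_ok40 (by decide) (planOf lams40) 190 dD40 dE40 els40 rfl pay40 delta_le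
    (fun b hb => by
      interval_cases b
      · exact bucket40_0
      · exact bucket40_1
      · exact bucket40_2
      · exact bucket40_3
      · exact bucket40_4
      · exact bucket40_5
      · exact bucket40_6
      · exact bucket40_7)

end Vale.Agent.P098.Exact.Sos6.Q93
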