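import Vale.Agent.P098.Exact.Sos6.Q93.Common
import Vale.Agent.P098.Exact.Sos6.Q93.Box41B0
import Vale.Agent.P098.Exact.Sos6.Q93.Box41B1
import Vale.Agent.P098.Exact.Sos6.Q93.Box41B2
import Vale.Agent.P098.Exact.Sos6.Q93.Box41B3
import Vale.Agent.P098.Exact.Sos6.Q93.Box41B4
import Vale.Agent.P098.Exact.Sos6.Q93.Box41B5
import Vale.Agent.P098.Exact.Sos6.Q93.Box41B6
import Vale.Agent.P098.Exact.Sos6.Q93.Box41B7

/-! Generated data of the dimension six interior check. -/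

noncomputable section

namespace Vale.Agent.P098.Exact.Sos6.Q93

set_option maxRecDepth 100000

theorem pay41 : dtbl.payOK 190 dD41 dE41 (elTot els41) = true := by decide +kernel

theorem rls_ok41 : ∀ G ∈ rls41, ∃ Ns, tbl.facR 72 b0 28 22 Ns G = true := by
  intro G hG
  simp only [rls41, List.mem_cons, List.not_mem_nil, or_false] at hG
  rcases hG with rfl | rfl | rfl | rfl | rfl | rfl | rfl | rfl | rfl | rfl | rfl | rfl | rfl | rfl | rfl | rfl | rfl | rfl | rfl | rfl | rfl | rfl | rfl | rfl | rfl | rfl | rfl | rfl | rfl | rfl | rfl | rfl | rfl | rfl | rfl | rfl | rfl | rfl | rfl | rfl | rfl | rfl | rfl | rfl | rfl | rfl | rfl | rfl | rfl | rfl | rfl | rfl | rfl | rfl | rfl | rfl | rfl | rfl | rfl | rfl | rfl | rfl | rfl | rfl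
  · exact ⟨_, fac2624⟩
  · exact ⟨_, fac2625⟩
  · exact ⟨_, fac2626⟩
  · exact ⟨_, fac2627⟩
  · exact ⟨_, fac2628⟩
  · exact ⟨_, fac2629⟩
  · exact ⟨_, fac2630⟩
  · exact ⟨_, fac2631⟩
  · exact ⟨_, fac2632⟩
  · exact ⟨_, fac2633⟩
  · exact ⟨_, fac2634⟩
  · exact ⟨_, fac2635⟩
  · exact ⟨_, fac2636⟩
  · exact ⟨_, fac2637⟩
  · exact ⟨_, fac2638⟩
  · exact ⟨_, fac2639⟩
  · exact ⟨_, fac2640⟩
  · exact ⟨_, fac2641⟩
  · exact ⟨_, fac2642⟩
  · exact ⟨_, fac2643⟩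
  · exact ⟨_, fac2644⟩
  · exact ⟨_, fac2645⟩
  · exact ⟨_, fac2646⟩
  · exact ⟨_, fac2647⟩
  · exact ⟨_, fac2648⟩
  · exact ⟨_, fac2649⟩
  · exact ⟨_, fac2650⟩
  · exact ⟨_, fac2651⟩
  · exact ⟨_, fac2652⟩
  · exact ⟨_, fac2653⟩
  · exact ⟨_, fac2654⟩
  · exact ⟨_, fac2655⟩
  · exact ⟨_, fac2656⟩
  · exact ⟨_, fac2657⟩
  · exact ⟨_, fac2658⟩
  · exact ⟨_, fac2659⟩
  · exact ⟨_, fac2660⟩
  · exact ⟨_, fac2661⟩
  · exact ⟨_, fac2662⟩
  · exact ⟨_, fac2663⟩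
  · exact ⟨_, fac2664⟩
  · exact ⟨_, fac2665⟩
  · exact ⟨_, fac2666⟩
  · exact ⟨_, fac2667⟩
  · exact ⟨_, fac2668⟩
  · exact ⟨_, fac2669⟩
  · exact ⟨_, fac2670⟩
  · exact ⟨_, fac2671⟩
  · exact ⟨_, fac2672⟩
  · exact ⟨_, fac2673⟩
  · exact ⟨_, fac2674⟩
  · exact ⟨_, fac2675⟩
  · exact ⟨_, fac2676⟩
  · exact ⟨_, fac2677⟩
  · exact ⟨_, fac2678⟩
  · exact ⟨_, fac2679⟩
  · exact ⟨_, fac2680⟩
  · exact ⟨_, fac2681⟩
  · exact ⟨_, fac2682⟩
  · exact ⟨_, fac2683⟩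
  · exact ⟨_, fac2684⟩
  · exact ⟨_, fac2685⟩
  · exact ⟨_, fac2686⟩
  · exact ⟨_, fac2687⟩

theorem good41 : bx41.GoodK ((an : ℝ) / 100) (L.map (ITerm.term den)) (L2.map (ITerm.term den))
    (KL.map (KI.term den)) delta :=
  goodK_of_checkR an den (by decide) L L2 KL dtbl dtbl_ok rfl codes posN rowsA rowsB rowsC rows_tbl 12 256 8 72 b0 28 22
    (by decide) parts_ok (by decide +kernel) slice_ok lit_ok 1 (by decide +kernel) delta bx41 hd41
    (by decide) rls41 rls_ok41 (by decide) (planOf lams41) 190 dD41 dE41 els41 rfl pay41 delta_le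
    (fun b hb => by
      interval_cases b
      · exact bucket41_0
      · exact bucket41_1
      · exact bucket41_2
      · exact bucket41_3
      · exact bucket41_4
      · exact bucket41_5
      · exact bucket41_6
      · exact bucket41_7)

end Vale.Agent.P098.Exact.Sos6.Q93
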