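import Vale.Agent.P098.Exact.Sos6.Q93.Common
import Vale.Agent.P098.Exact.Sos6.Q93.Box43B0
import Vale.Agent.P098.Exact.Sos6.Q93.Box43B1
import Vale.Agent.P098.Exact.Sos6.Q93.Box43B2
import Vale.Agent.P098.Exact.Sos6.Q93.Box43B3
import Vale.Agent.P098.Exact.Sos6.Q93.Box43B4
import Vale.Agent.P098.Exact.Sos6.Q93.Box43B5
import Vale.Agent.P098.Exact.Sos6.Q93.Box43B6
import Vale.Agent.P098.Exact.Sos6.Q93.Box43B7

/-! Generated data of the dimension six interior check. -/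

noncomputable section

namespace Vale.Agent.P098.Exact.Sos6.Q93

set_option maxRecDepth 100000

theorem pay43 : dtbl.payOK 190 dD43 dE43 (elTot els43) = true := by decide +kernel

theorem rls_ok43 : ∀ G ∈ rls43, ∃ Ns, tbl.facR 72 b0 28 22 Ns G = true := by
  intro G hG
  simp only [rls43, List.mem_cons, List.not_mem_nil, or_false] at hG
  rcases hG with rfl | rfl | rfl | rfl | rfl | rfl | rfl | rfl | rfl | rfl | rfl | rfl | rfl | rfl | rfl | rfl | rfl | rfl | rfl | rfl | rfl | rfl | rfl | rfl | rfl | rfl | rfl | rfl | rfl | rfl | rfl | rfl | rfl | rfl | rfl | rfl | rfl | rfl | rfl | rfl | rfl | rfl | rfl | rfl | rfl | rfl | rfl | rfl | rfl | rfl | rfl | rfl | rfl | rfl | rfl | rfl | rfl | rfl | rfl | rfl | rfl | rfl | rfl | rfl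
  · exact ⟨_, fac2752⟩
  · exact ⟨_, fac2753⟩
  · exact ⟨_, fac2754⟩
  · exact ⟨_, fac2755⟩
  · exact ⟨_, fac2756⟩
  · exact ⟨_, fac2757⟩
  · exact ⟨_, fac2758⟩
  · exact ⟨_, fac2759⟩
  · exact ⟨_, fac2760⟩
  · exact ⟨_, fac2761⟩
  · exact ⟨_, fac2762⟩
  · exact ⟨_, fac2763⟩
  · exact ⟨_, fac2764⟩
  · exact ⟨_, fac2765⟩
  · exact ⟨_, fac2766⟩
  · exact ⟨_, fac2767⟩
  · exact ⟨_, fac2768⟩
  · exact ⟨_, fac2769⟩
  · exact ⟨_, fac2770⟩
  · exact ⟨_, fac2771⟩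
  · exact ⟨_, fac2772⟩
  · exact ⟨_, fac2773⟩
  · exact ⟨_, fac2774⟩
  · exact ⟨_, fac2775⟩
  · exact ⟨_, fac2776⟩
  · exact ⟨_, fac2777⟩
  · exact ⟨_, fac2778⟩
  · exact ⟨_, fac2779⟩
  · exact ⟨_, fac2780⟩
  · exact ⟨_, fac2781⟩
  · exact ⟨_, fac2782⟩
  · exact ⟨_, fac2783⟩
  · exact ⟨_, fac2784⟩
  · exact ⟨_, fac2785⟩
  · exact ⟨_, fac2786⟩
  · exact ⟨_, fac2787⟩
  · exact ⟨_, fac2788⟩
  · exact ⟨_, fac2789⟩
  · exact ⟨_, fac2790⟩
  · exact ⟨_, fac2791⟩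
  · exact ⟨_, fac2792⟩
  · exact ⟨_, fac2793⟩
  · exact ⟨_, fac2794⟩
  · exact ⟨_, fac2795⟩
  · exact ⟨_, fac2796⟩
  · exact ⟨_, fac2797⟩
  · exact ⟨_, fac2798⟩
  · exact ⟨_, fac2799⟩
  · exact ⟨_, fac2800⟩
  · exact ⟨_, fac2801⟩
  · exact ⟨_, fac2802⟩
  · exact ⟨_, fac2803⟩
  · exact ⟨_, fac2804⟩
  · exact ⟨_, fac2805⟩
  · exact ⟨_, fac2806⟩
  · exact ⟨_, fac2807⟩
  · exact ⟨_, fac2808⟩
  · exact ⟨_, fac2809⟩
  · exact ⟨_, fac2810⟩
  · exact ⟨_, fac2811⟩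
  · exact ⟨_, fac2812⟩
  · exact ⟨_, fac2813⟩
  · exact ⟨_, fac2814⟩
  · exact ⟨_, fac2815⟩

theorem good43 : bx43.GoodK ((an : ℝ) / 100) (L.map (ITerm.term den)) (L2.map (ITerm.term den))
    (KL.map (KI.term den)) delta :=
  goodK_of_checkR an den (by decide) L L2 KL dtbl dtbl_ok rfl codes posN rowsA rowsB rowsC rows_tbl 12 256 8 72 b0 28 22
    (by decide) parts_ok (by decide +kernel) slice_ok lit_ok 1 (by decide +kernel) delta bx43 hd43
    (by decide) rls43 rls_ok43 (by decide) (planOf lams43) 190 dD43 dE43 els43 rfl pay43 delta_le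
    (fun b hb => by
      interval_cases b
      · exact bucket43_0
      · exact bucket43_1
      · exact bucket43_2
      · exact bucket43_3
      · exact bucket43_4
      · exact bucket43_5
      · exact bucket43_6
      · exact bucket43_7)

end Vale.Agent.P098.Exact.Sos6.Q93
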