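import Vale.Agent.P098.Exact.Sos6.Q93.Common
import Vale.Agent.P098.Exact.Sos6.Q93.Box44B0
import Vale.Agent.P098.Exact.Sos6.Q93.Box44B1
import Vale.Agent.P098.Exact.Sos6.Q93.Box44B2
import Vale.Agent.P098.Exact.Sos6.Q93.Box44B3
import Vale.Agent.P098.Exact.Sos6.Q93.Box44B4
import Vale.Agent.P098.Exact.Sos6.Q93.Box44B5
import Vale.Agent.P098.Exact.Sos6.Q93.Box44B6
import Vale.Agent.P098.Exact.Sos6.Q93.Box44B7

/-! Generated data of the dimension six interior check. -/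

noncomputable section

namespace Vale.Agent.P098.Exact.Sos6.Q93

set_option maxRecDepth 100000

theorem pay44 : dtbl.payOK 190 dD44 dE44 (elTot els44) = true := by decide +kernel

theorem rls_ok44 : ∀ G ∈ rls44, ∃ Ns, tbl.facR 72 b0 28 22 Ns G = true := by
  intro G hG
  simp only [rls44, List.mem_cons, List.not_mem_nil, or_false] at hG
  rcases hG with rfl | rfl | rfl | rfl | rfl | rfl | rfl | rfl | rfl | rfl | rfl | rfl | rfl | rfl | rfl | rfl | rfl | rfl | rfl | rfl | rfl | rfl | rfl | rfl | rfl | rfl | rfl | rfl | rfl | rfl | rfl | rfl | rfl | rfl | rfl | rfl | rfl | rfl | rfl | rfl | rfl | rfl | rfl | rfl | rfl | rfl | rfl | rfl | rfl | rfl | rfl | rfl | rfl | rfl | rfl | rfl | rfl | rfl | rfl | rfl | rfl | rfl | rfl | rfl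
  · exact ⟨_, fac2816⟩
  · exact ⟨_, fac2817⟩
  · exact ⟨_, fac2818⟩
  · exact ⟨_, fac2819⟩
  · exact ⟨_, fac2820⟩
  · exact ⟨_, fac2821⟩
  · exact ⟨_, fac2822⟩
  · exact ⟨_, fac2823⟩
  · exact ⟨_, fac2824⟩
  · exact ⟨_, fac2825⟩
  · exact ⟨_, fac2826⟩
  · exact ⟨_, fac2827⟩
  · exact ⟨_, fac2828⟩
  · exact ⟨_, fac2829⟩
  · exact ⟨_, fac2830⟩
  · exact ⟨_, fac2831⟩
  · exact ⟨_, fac2832⟩
  · exact ⟨_, fac2833⟩
  · exact ⟨_, fac2834⟩
  · exact ⟨_, fac2835⟩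
  · exact ⟨_, fac2836⟩
  · exact ⟨_, fac2837⟩
  · exact ⟨_, fac2838⟩
  · exact ⟨_, fac2839⟩
  · exact ⟨_, fac2840⟩
  · exact ⟨_, fac2841⟩
  · exact ⟨_, fac2842⟩
  · exact ⟨_, fac2843⟩
  · exact ⟨_, fac2844⟩
  · exact ⟨_, fac2845⟩
  · exact ⟨_, fac2846⟩
  · exact ⟨_, fac2847⟩
  · exact ⟨_, fac2848⟩
  · exact ⟨_, fac2849⟩
  · exact ⟨_, fac2850⟩
  · exact ⟨_, fac2851⟩
  · exact ⟨_, fac2852⟩
  · exact ⟨_, fac2853⟩
  · exact ⟨_, fac2854⟩
  · exact ⟨_, fac2855⟩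
  · exact ⟨_, fac2856⟩
  · exact ⟨_, fac2857⟩
  · exact ⟨_, fac2858⟩
  · exact ⟨_, fac2859⟩
  · exact ⟨_, fac2860⟩
  · exact ⟨_, fac2861⟩
  · exact ⟨_, fac2862⟩
  · exact ⟨_, fac2863⟩
  · exact ⟨_, fac2864⟩
  · exact ⟨_, fac2865⟩
  · exact ⟨_, fac2866⟩
  · exact ⟨_, fac2867⟩
  · exact ⟨_, fac2868⟩
  · exact ⟨_, fac2869⟩
  · exact ⟨_, fac2870⟩
  · exact ⟨_, fac2871⟩
  · exact ⟨_, fac2872⟩
  · exact ⟨_, fac2873⟩
  · exact ⟨_, fac2874⟩
  · exact ⟨_, fac2875⟩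
  · exact ⟨_, fac2876⟩
  · exact ⟨_, fac2877⟩
  · exact ⟨_, fac2878⟩
  · exact ⟨_, fac2879⟩

theorem good44 : bx44.GoodK ((an : ℝ) / 100) (L.map (ITerm.term den)) (L2.map (ITerm.term den))
    (KL.map (KI.term den)) delta :=
  goodK_of_checkR an den (by decide) L L2 KL dtbl dtbl_ok rfl codes posN rowsA rowsB rowsC rows_tbl 12 256 8 72 b0 28 22
    (by decide) parts_ok (by decide +kernel) slice_ok lit_ok 1 (by decide +kernel) delta bx44 hd44
    (by decide) rls44 rls_ok44 (by decide) (planOf lams44) 190 dD44 dE44 els44 rfl pay44 delta_le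
    (fun b hb => by
      interval_cases b
      · exact bucket44_0
      · exact bucket44_1
      · exact bucket44_2
      · exact bucket44_3
      · exact bucket44_4
      · exact bucket44_5
      · exact bucket44_6
      · exact bucket44_7)

end Vale.Agent.P098.Exact.Sos6.Q93
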