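import Vale.Agent.P098.Exact.Sos6.Q93.Common
import Vale.Agent.P098.Exact.Sos6.Q93.Box45B0
import Vale.Agent.P098.Exact.Sos6.Q93.Box45B1
import Vale.Agent.P098.Exact.Sos6.Q93.Box45B2
import Vale.Agent.P098.Exact.Sos6.Q93.Box45B3
import Vale.Agent.P098.Exact.Sos6.Q93.Box45B4
import Vale.Agent.P098.Exact.Sos6.Q93.Box45B5
import Vale.Agent.P098.Exact.Sos6.Q93.Box45B6
import Vale.Agent.P098.Exact.Sos6.Q93.Box45B7

/-! Generated data of the dimension six interior check. -/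

noncomputable section

namespace Vale.Agent.P098.Exact.Sos6.Q93

set_option maxRecDepth 100000

theorem pay45 : dtbl.payOK 190 dD45 dE45 (elTot els45) = true := by decide +kernel

theorem rls_ok45 : ∀ G ∈ rls45, ∃ Ns, tbl.facR 72 b0 28 22 Ns G = true := by
  intro G hG
  simp only [rls45, List.mem_cons, List.not_mem_nil, or_false] at hG
  rcases hG with rfl | rfl | rfl | rfl | rfl | rfl | rfl | rfl | rfl | rfl | rfl | rfl | rfl | rfl | rfl | rfl | rfl | rfl | rfl | rfl | rfl | rfl | rfl | rfl | rfl | rfl | rfl | rfl | rfl | rfl | rfl | rfl | rfl | rfl | rfl | rfl | rfl | rfl | rfl | rfl | rfl | rfl | rfl | rfl | rfl | rfl | rfl | rfl | rfl | rfl | rfl | rfl | rfl | rfl | rfl | rfl | rfl | rfl | rfl | rfl | rfl | rfl | rfl | rfl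
  · exact ⟨_, fac2880⟩
  · exact ⟨_, fac2881⟩
  · exact ⟨_, fac2882⟩
  · exact ⟨_, fac2883⟩
  · exact ⟨_, fac2884⟩
  · exact ⟨_, fac2885⟩
  · exact ⟨_, fac2886⟩
  · exact ⟨_, fac2887⟩
  · exact ⟨_, fac2888⟩
  · exact ⟨_, fac2889⟩
  · exact ⟨_, fac2890⟩
  · exact ⟨_, fac2891⟩
  · exact ⟨_, fac2892⟩
  · exact ⟨_, fac2893⟩
  · exact ⟨_, fac2894⟩
  · exact ⟨_, fac2895⟩
  · exact ⟨_, fac2896⟩
  · exact ⟨_, fac2897⟩
  · exact ⟨_, fac2898⟩
  · exact ⟨_, fac2899⟩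
  · exact ⟨_, fac2900⟩
  · exact ⟨_, fac2901⟩
  · exact ⟨_, fac2902⟩
  · exact ⟨_, fac2903⟩
  · exact ⟨_, fac2904⟩
  · exact ⟨_, fac2905⟩
  · exact ⟨_, fac2906⟩
  · exact ⟨_, fac2907⟩
  · exact ⟨_, fac2908⟩
  · exact ⟨_, fac2909⟩
  · exact ⟨_, fac2910⟩
  · exact ⟨_, fac2911⟩
  · exact ⟨_, fac2912⟩
  · exact ⟨_, fac2913⟩
  · exact ⟨_, fac2914⟩
  · exact ⟨_, fac2915⟩
  · exact ⟨_, fac2916⟩
  · exact ⟨_, fac2917⟩
  · exact ⟨_, fac2918⟩
  · exact ⟨_, fac2919⟩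
  · exact ⟨_, fac2920⟩
  · exact ⟨_, fac2921⟩
  · exact ⟨_, fac2922⟩
  · exact ⟨_, fac2923⟩
  · exact ⟨_, fac2924⟩
  · exact ⟨_, fac2925⟩
  · exact ⟨_, fac2926⟩
  · exact ⟨_, fac2927⟩
  · exact ⟨_, fac2928⟩
  · exact ⟨_, fac2929⟩
  · exact ⟨_, fac2930⟩
  · exact ⟨_, fac2931⟩
  · exact ⟨_, fac2932⟩
  · exact ⟨_, fac2933⟩
  · exact ⟨_, fac2934⟩
  · exact ⟨_, fac2935⟩
  · exact ⟨_, fac2936⟩
  · exact ⟨_, fac2937⟩
  · exact ⟨_, fac2938⟩
  · exact ⟨_, fac2939⟩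
  · exact ⟨_, fac2940⟩
  · exact ⟨_, fac2941⟩
  · exact ⟨_, fac2942⟩
  · exact ⟨_, fac2943⟩

theorem good45 : bx45.GoodK ((an : ℝ) / 100) (L.map (ITerm.term den)) (L2.map (ITerm.term den))
    (KL.map (KI.term den)) delta :=
  goodK_of_checkR an den (by decide) L L2 KL dtbl dtbl_ok rfl codes posN rowsA rowsB rowsC rows_tbl 12 256 8 72 b0 28 22
    (by decide) parts_ok (by decide +kernel) slice_ok lit_ok 1 (by decide +kernel) delta bx45 hd45
    (by decide) rls45 rls_ok45 (by decide) (planOf lams45) 190 dD45 dE45 els45 rfl pay45 delta_le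
    (fun b hb => by
      interval_cases b
      · exact bucket45_0
      · exact bucket45_1
      · exact bucket45_2
      · exact bucket45_3
      · exact bucket45_4
      · exact bucket45_5
      · exact bucket45_6
      · exact bucket45_7)

end Vale.Agent.P098.Exact.Sos6.Q93
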