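import Vale.Agent.P098.Exact.Sos6.Q93.Common
import Vale.Agent.P098.Exact.Sos6.Q93.Box46B0
import Vale.Agent.P098.Exact.Sos6.Q93.Box46B1
import Vale.Agent.P098.Exact.Sos6.Q93.Box46B2
import Vale.Agent.P098.Exact.Sos6.Q93.Box46B3
import Vale.Agent.P098.Exact.Sos6.Q93.Box46B4
import Vale.Agent.P098.Exact.Sos6.Q93.Box46B5
import Vale.Agent.P098.Exact.Sos6.Q93.Box46B6
import Vale.Agent.P098.Exact.Sos6.Q93.Box46B7

/-! Generated data of the dimension six interior check. -/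

noncomputable section

namespace Vale.Agent.P098.Exact.Sos6.Q93

set_option maxRecDepth 100000

theorem pay46 : dtbl.payOK 190 dD46 dE46 (elTot els46) = true := by decide +kernel

theorem rls_ok46 : ∀ G ∈ rls46, ∃ Ns, tbl.facR 72 b0 28 22 Ns G = true := by
  intro G hG
  simp only [rls46, List.mem_cons, List.not_mem_nil, or_false] at hG
  rcases hG with rfl | rfl | rfl | rfl | rfl | rfl | rfl | rfl | rfl | rfl | rfl | rfl | rfl | rfl | rfl | rfl | rfl | rfl | rfl | rfl | rfl | rfl | rfl | rfl | rfl | rfl | rfl | rfl | rfl | rfl | rfl | rfl | rfl | rfl | rfl | rfl | rfl | rfl | rfl | rfl | rfl | rfl | rfl | rfl | rfl | rfl | rfl | rfl | rfl | rfl | rfl | rfl | rfl | rfl | rfl | rfl | rfl | rfl | rfl | rfl | rfl | rfl | rfl | rfl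
  · exact ⟨_, fac2944⟩
  · exact ⟨_, fac2945⟩
  · exact ⟨_, fac2946⟩
  · exact ⟨_, fac2947⟩
  · exact ⟨_, fac2948⟩
  · exact ⟨_, fac2949⟩
  · exact ⟨_, fac2950⟩
  · exact ⟨_, fac2951⟩
  · exact ⟨_, fac2952⟩
  · exact ⟨_, fac2953⟩
  · exact ⟨_, fac2954⟩
  · exact ⟨_, fac2955⟩
  · exact ⟨_, fac2956⟩
  · exact ⟨_, fac2957⟩
  · exact ⟨_, fac2958⟩
  · exact ⟨_, fac2959⟩
  · exact ⟨_, fac2960⟩
  · exact ⟨_, fac2961⟩
  · exact ⟨_, fac2962⟩
  · exact ⟨_, fac2963⟩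
  · exact ⟨_, fac2964⟩
  · exact ⟨_, fac2965⟩
  · exact ⟨_, fac2966⟩
  · exact ⟨_, fac2967⟩
  · exact ⟨_, fac2968⟩
  · exact ⟨_, fac2969⟩
  · exact ⟨_, fac2970⟩
  · exact ⟨_, fac2971⟩
  · exact ⟨_, fac2972⟩
  · exact ⟨_, fac2973⟩
  · exact ⟨_, fac2974⟩
  · exact ⟨_, fac2975⟩
  · exact ⟨_, fac2976⟩
  · exact ⟨_, fac2977⟩
  · exact ⟨_, fac2978⟩
  · exact ⟨_, fac2979⟩
  · exact ⟨_, fac2980⟩
  · exact ⟨_, fac2981⟩
  · exact ⟨_, fac2982⟩
  · exact ⟨_, fac2983⟩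
  · exact ⟨_, fac2984⟩
  · exact ⟨_, fac2985⟩
  · exact ⟨_, fac2986⟩
  · exact ⟨_, fac2987⟩
  · exact ⟨_, fac2988⟩
  · exact ⟨_, fac2989⟩
  · exact ⟨_, fac2990⟩
  · exact ⟨_, fac2991⟩
  · exact ⟨_, fac2992⟩
  · exact ⟨_, fac2993⟩
  · exact ⟨_, fac2994⟩
  · exact ⟨_, fac2995⟩
  · exact ⟨_, fac2996⟩
  · exact ⟨_, fac2997⟩
  · exact ⟨_, fac2998⟩
  · exact ⟨_, fac2999⟩
  · exact ⟨_, fac3000⟩
  · exact ⟨_, fac3001⟩
  · exact ⟨_, fac3002⟩
  · exact ⟨_, fac3003⟩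
  · exact ⟨_, fac3004⟩
  · exact ⟨_, fac3005⟩
  · exact ⟨_, fac3006⟩
  · exact ⟨_, fac3007⟩

theorem good46 : bx46.GoodK ((an : ℝ) / 100) (L.map (ITerm.term den)) (L2.map (ITerm.term den))
    (KL.map (KI.term den)) delta :=
  goodK_of_checkR an den (by decide) L L2 KL dtbl dtbl_ok rfl codes posN rowsA rowsB rowsC rows_tbl 12 256 8 72 b0 28 22
    (by decide) parts_ok (by decide +kernel) slice_ok lit_ok 1 (by decide +kernel) delta bx46 hd46
    (by decide) rls46 rls_ok46 (by decide) (planOf lams46) 190 dD46 dE46 els46 rfl pay46 delta_le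
    (fun b hb => by
      interval_cases b
      · exact bucket46_0
      · exact bucket46_1
      · exact bucket46_2
      · exact bucket46_3
      · exact bucket46_4
      · exact bucket46_5
      · exact bucket46_6
      · exact bucket46_7)

end Vale.Agent.P098.Exact.Sos6.Q93
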