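import Vale.Agent.P098.Exact.Sos6.Q93.Common
import Vale.Agent.P098.Exact.Sos6.Q93.Box47B0
import Vale.Agent.P098.Exact.Sos6.Q93.Box47B1
import Vale.Agent.P098.Exact.Sos6.Q93.Box47B2
import Vale.Agent.P098.Exact.Sos6.Q93.Box47B3
import Vale.Agent.P098.Exact.Sos6.Q93.Box47B4
import Vale.Agent.P098.Exact.Sos6.Q93.Box47B5
import Vale.Agent.P098.Exact.Sos6.Q93.Box47B6
import Vale.Agent.P098.Exact.Sos6.Q93.Box47B7

/-! Generated data of the dimension six interior check. -/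

noncomputable section

namespace Vale.Agent.P098.Exact.Sos6.Q93

set_option maxRecDepth 100000

theorem pay47 : dtbl.payOK 190 dD47 dE47 (elTot els47) = true := by decide +kernel

theorem rls_ok47 : ∀ G ∈ rls47, ∃ Ns, tbl.facR 72 b0 28 22 Ns G = true := by
  intro G hG
  simp only [rls47, List.mem_cons, List.not_mem_nil, or_false] at hG
  rcases hG with rfl | rfl | rfl | rfl | rfl | rfl | rfl | rfl | rfl | rfl | rfl | rfl | rfl | rfl | rfl | rfl | rfl | rfl | rfl | rfl | rfl | rfl | rfl | rfl | rfl | rfl | rfl | rfl | rfl | rfl | rfl | rfl | rfl | rfl | rfl | rfl | rfl | rfl | rfl | rfl | rfl | rfl | rfl | rfl | rfl | rfl | rfl | rfl | rfl | rfl | rfl | rfl | rfl | rfl | rfl | rfl | rfl | rfl | rfl | rfl | rfl | rfl | rfl | rfl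
  · exact ⟨_, fac3008⟩
  · exact ⟨_, fac3009⟩
  · exact ⟨_, fac3010⟩
  · exact ⟨_, fac3011⟩
  · exact ⟨_, fac3012⟩
  · exact ⟨_, fac3013⟩
  · exact ⟨_, fac3014⟩
  · exact ⟨_, fac3015⟩
  · exact ⟨_, fac3016⟩
  · exact ⟨_, fac3017⟩
  · exact ⟨_, fac3018⟩
  · exact ⟨_, fac3019⟩
  · exact ⟨_, fac3020⟩
  · exact ⟨_, fac3021⟩
  · exact ⟨_, fac3022⟩
  · exact ⟨_, fac3023⟩
  · exact ⟨_, fac3024⟩
  · exact ⟨_, fac3025⟩
  · exact ⟨_, fac3026⟩
  · exact ⟨_, fac3027⟩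
  · exact ⟨_, fac3028⟩
  · exact ⟨_, fac3029⟩
  · exact ⟨_, fac3030⟩
  · exact ⟨_, fac3031⟩
  · exact ⟨_, fac3032⟩
  · exact ⟨_, fac3033⟩
  · exact ⟨_, fac3034⟩
  · exact ⟨_, fac3035⟩
  · exact ⟨_, fac3036⟩
  · exact ⟨_, fac3037⟩
  · exact ⟨_, fac3038⟩
  · exact ⟨_, fac3039⟩
  · exact ⟨_, fac3040⟩
  · exact ⟨_, fac3041⟩
  · exact ⟨_, fac3042⟩
  · exact ⟨_, fac3043⟩
  · exact ⟨_, fac3044⟩
  · exact ⟨_, fac3045⟩
  · exact ⟨_, fac3046⟩
  · exact ⟨_, fac3047⟩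
  · exact ⟨_, fac3048⟩
  · exact ⟨_, fac3049⟩
  · exact ⟨_, fac3050⟩
  · exact ⟨_, fac3051⟩
  · exact ⟨_, fac3052⟩
  · exact ⟨_, fac3053⟩
  · exact ⟨_, fac3054⟩
  · exact ⟨_, fac3055⟩
  · exact ⟨_, fac3056⟩
  · exact ⟨_, fac3057⟩
  · exact ⟨_, fac3058⟩
  · exact ⟨_, fac3059⟩
  · exact ⟨_, fac3060⟩
  · exact ⟨_, fac3061⟩
  · exact ⟨_, fac3062⟩
  · exact ⟨_, fac3063⟩
  · exact ⟨_, fac3064⟩
  · exact ⟨_, fac3065⟩
  · exact ⟨_, fac3066⟩
  · exact ⟨_, fac3067⟩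
  · exact ⟨_, fac3068⟩
  · exact ⟨_, fac3069⟩
  · exact ⟨_, fac3070⟩
  · exact ⟨_, fac3071⟩

theorem good47 : bx47.GoodK ((an : ℝ) / 100) (L.map (ITerm.term den)) (L2.map (ITerm.term den))
    (KL.map (KI.term den)) delta :=
  goodK_of_checkR an den (by decide) L L2 KL dtbl dtbl_ok rfl codes posN rowsA rowsB rowsC rows_tbl 12 256 8 72 b0 28 22
    (by decide) parts_ok (by decide +kernel) slice_ok lit_ok 1 (by decide +kernel) delta bx47 hd47
    (by decide) rls47 rls_ok47 (by decide) (planOf lams47) 190 dD47 dE47 els47 rfl pay47 delta_le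
    (fun b hb => by
      interval_cases b
      · exact bucket47_0
      · exact bucket47_1
      · exact bucket47_2
      · exact bucket47_3
      · exact bucket47_4
      · exact bucket47_5
      · exact bucket47_6
      · exact bucket47_7)

end Vale.Agent.P098.Exact.Sos6.Q93
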