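import Vale.Agent.P098.Exact.Sos6.Q93.Common
import Vale.Agent.P098.Exact.Sos6.Q93.Box48B0
import Vale.Agent.P098.Exact.Sos6.Q93.Box48B1
import Vale.Agent.P098.Exact.Sos6.Q93.Box48B2
import Vale.Agent.P098.Exact.Sos6.Q93.Box48B3
import Vale.Agent.P098.Exact.Sos6.Q93.Box48B4
import Vale.Agent.P098.Exact.Sos6.Q93.Box48B5
import Vale.Agent.P098.Exact.Sos6.Q93.Box48B6
import Vale.Agent.P098.Exact.Sos6.Q93.Box48B7

/-! Generated data of the dimension six interior check. -/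

noncomputable section

namespace Vale.Agent.P098.Exact.Sos6.Q93

set_option maxRecDepth 100000

theorem pay48 : dtbl.payOK 190 dD48 dE48 (elTot els48) = true := by decide +kernel

theorem rls_ok48 : ∀ G ∈ rls48, ∃ Ns, tbl.facR 72 b0 28 22 Ns G = true := by
  intro G hG
  simp only [rls48, List.mem_cons, List.not_mem_nil, or_false] at hG
  rcases hG with rfl | rfl | rfl | rfl | rfl | rfl | rfl | rfl | rfl | rfl | rfl | rfl | rfl | rfl | rfl | rfl | rfl | rfl | rfl | rfl | rfl | rfl | rfl | rfl | rfl | rfl | rfl | rfl | rfl | rfl | rfl | rfl | rfl | rfl | rfl | rfl | rfl | rfl | rfl | rfl | rfl | rfl | rfl | rfl | rfl | rfl | rfl | rfl | rfl | rfl | rfl | rfl | rfl | rfl | rfl | rfl | rfl | rfl | rfl | rfl | rfl | rfl | rfl | rfl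
  · exact ⟨_, fac3072⟩
  · exact ⟨_, fac3073⟩
  · exact ⟨_, fac3074⟩
  · exact ⟨_, fac3075⟩
  · exact ⟨_, fac3076⟩
  · exact ⟨_, fac3077⟩
  · exact ⟨_, fac3078⟩
  · exact ⟨_, fac3079⟩
  · exact ⟨_, fac3080⟩
  · exact ⟨_, fac3081⟩
  · exact ⟨_, fac3082⟩
  · exact ⟨_, fac3083⟩
  · exact ⟨_, fac3084⟩
  · exact ⟨_, fac3085⟩
  · exact ⟨_, fac3086⟩
  · exact ⟨_, fac3087⟩
  · exact ⟨_, fac3088⟩
  · exact ⟨_, fac3089⟩
  · exact ⟨_, fac3090⟩
  · exact ⟨_, fac3091⟩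
  · exact ⟨_, fac3092⟩
  · exact ⟨_, fac3093⟩
  · exact ⟨_, fac3094⟩
  · exact ⟨_, fac3095⟩
  · exact ⟨_, fac3096⟩
  · exact ⟨_, fac3097⟩
  · exact ⟨_, fac3098⟩
  · exact ⟨_, fac3099⟩
  · exact ⟨_, fac3100⟩
  · exact ⟨_, fac3101⟩
  · exact ⟨_, fac3102⟩
  · exact ⟨_, fac3103⟩
  · exact ⟨_, fac3104⟩
  · exact ⟨_, fac3105⟩
  · exact ⟨_, fac3106⟩
  · exact ⟨_, fac3107⟩
  · exact ⟨_, fac3108⟩
  · exact ⟨_, fac3109⟩
  · exact ⟨_, fac3110⟩
  · exact ⟨_, fac3111⟩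
  · exact ⟨_, fac3112⟩
  · exact ⟨_, fac3113⟩
  · exact ⟨_, fac3114⟩
  · exact ⟨_, fac3115⟩
  · exact ⟨_, fac3116⟩
  · exact ⟨_, fac3117⟩
  · exact ⟨_, fac3118⟩
  · exact ⟨_, fac3119⟩
  · exact ⟨_, fac3120⟩
  · exact ⟨_, fac3121⟩
  · exact ⟨_, fac3122⟩
  · exact ⟨_, fac3123⟩
  · exact ⟨_, fac3124⟩
  · exact ⟨_, fac3125⟩
  · exact ⟨_, fac3126⟩
  · exact ⟨_, fac3127⟩
  · exact ⟨_, fac3128⟩
  · exact ⟨_, fac3129⟩
  · exact ⟨_, fac3130⟩
  · exact ⟨_, fac3131⟩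
  · exact ⟨_, fac3132⟩
  · exact ⟨_, fac3133⟩
  · exact ⟨_, fac3134⟩
  · exact ⟨_, fac3135⟩

theorem good48 : bx48.GoodK ((an : ℝ) / 100) (L.map (ITerm.term den)) (L2.map (ITerm.term den))
    (KL.map (KI.term den)) delta :=
  goodK_of_checkR an den (by decide) L L2 KL dtbl dtbl_ok rfl codes posN rowsA rowsB rowsC rows_tbl 12 256 8 72 b0 28 22
    (by decide) parts_ok (by decide +kernel) slice_ok lit_ok 1 (by decide +kernel) delta bx48 hd48
    (by decide) rls48 rls_ok48 (by decide) (planOf lams48) 190 dD48 dE48 els48 rfl pay48 delta_le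
    (fun b hb => by
      interval_cases b
      · exact bucket48_0
      · exact bucket48_1
      · exact bucket48_2
      · exact bucket48_3
      · exact bucket48_4
      · exact bucket48_5
      · exact bucket48_6
      · exact bucket48_7)

end Vale.Agent.P098.Exact.Sos6.Q93
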