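import Vale.Agent.P098.Exact.Sos6.Q93.Common
import Vale.Agent.P098.Exact.Sos6.Q93.Box49B0
import Vale.Agent.P098.Exact.Sos6.Q93.Box49B1
import Vale.Agent.P098.Exact.Sos6.Q93.Box49B2
import Vale.Agent.P098.Exact.Sos6.Q93.Box49B3
import Vale.Agent.P098.Exact.Sos6.Q93.Box49B4
import Vale.Agent.P098.Exact.Sos6.Q93.Box49B5
import Vale.Agent.P098.Exact.Sos6.Q93.Box49B6
import Vale.Agent.P098.Exact.Sos6.Q93.Box49B7

/-! Generated data of the dimension six interior check. -/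

noncomputable section

namespace Vale.Agent.P098.Exact.Sos6.Q93

set_option maxRecDepth 100000

theorem pay49 : dtbl.payOK 190 dD49 dE49 (elTot els49) = true := by decide +kernel

theorem rls_ok49 : ∀ G ∈ rls49, ∃ Ns, tbl.facR 72 b0 28 22 Ns G = true := by
  intro G hG
  simp only [rls49, List.mem_cons, List.not_mem_nil, or_false] at hG
  rcases hG with rfl | rfl | rfl | rfl | rfl | rfl | rfl | rfl | rfl | rfl | rfl | rfl | rfl | rfl | rfl | rfl | rfl | rfl | rfl | rfl | rfl | rfl | rfl | rfl | rfl | rfl | rfl | rfl | rfl | rfl | rfl | rfl | rfl | rfl | rfl | rfl | rfl | rfl | rfl | rfl | rfl | rfl | rfl | rfl | rfl | rfl | rfl | rfl | rfl | rfl | rfl | rfl | rfl | rfl | rfl | rfl | rfl | rfl | rfl | rfl | rfl | rfl | rfl | rfl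
  · exact ⟨_, fac3136⟩
  · exact ⟨_, fac3137⟩
  · exact ⟨_, fac3138⟩
  · exact ⟨_, fac3139⟩
  · exact ⟨_, fac3140⟩
  · exact ⟨_, fac3141⟩
  · exact ⟨_, fac3142⟩
  · exact ⟨_, fac3143⟩
  · exact ⟨_, fac3144⟩
  · exact ⟨_, fac3145⟩
  · exact ⟨_, fac3146⟩
  · exact ⟨_, fac3147⟩
  · exact ⟨_, fac3148⟩
  · exact ⟨_, fac3149⟩
  · exact ⟨_, fac3150⟩
  · exact ⟨_, fac3151⟩
  · exact ⟨_, fac3152⟩
  · exact ⟨_, fac3153⟩
  · exact ⟨_, fac3154⟩
  · exact ⟨_, fac3155⟩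
  · exact ⟨_, fac3156⟩
  · exact ⟨_, fac3157⟩
  · exact ⟨_, fac3158⟩
  · exact ⟨_, fac3159⟩
  · exact ⟨_, fac3160⟩
  · exact ⟨_, fac3161⟩
  · exact ⟨_, fac3162⟩
  · exact ⟨_, fac3163⟩
  · exact ⟨_, fac3164⟩
  · exact ⟨_, fac3165⟩
  · exact ⟨_, fac3166⟩
  · exact ⟨_, fac3167⟩
  · exact ⟨_, fac3168⟩
  · exact ⟨_, fac3169⟩
  · exact ⟨_, fac3170⟩
  · exact ⟨_, fac3171⟩
  · exact ⟨_, fac3172⟩
  · exact ⟨_, fac3173⟩
  · exact ⟨_, fac3174⟩
  · exact ⟨_, fac3175⟩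
  · exact ⟨_, fac3176⟩
  · exact ⟨_, fac3177⟩
  · exact ⟨_, fac3178⟩
  · exact ⟨_, fac3179⟩
  · exact ⟨_, fac3180⟩
  · exact ⟨_, fac3181⟩
  · exact ⟨_, fac3182⟩
  · exact ⟨_, fac3183⟩
  · exact ⟨_, fac3184⟩
  · exact ⟨_, fac3185⟩
  · exact ⟨_, fac3186⟩
  · exact ⟨_, fac3187⟩
  · exact ⟨_, fac3188⟩
  · exact ⟨_, fac3189⟩
  · exact ⟨_, fac3190⟩
  · exact ⟨_, fac3191⟩
  · exact ⟨_, fac3192⟩
  · exact ⟨_, fac3193⟩
  · exact ⟨_, fac3194⟩
  · exact ⟨_, fac3195⟩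
  · exact ⟨_, fac3196⟩
  · exact ⟨_, fac3197⟩
  · exact ⟨_, fac3198⟩
  · exact ⟨_, fac3199⟩

theorem good49 : bx49.GoodK ((an : ℝ) / 100) (L.map (ITerm.term den)) (L2.map (ITerm.term den))
    (KL.map (KI.term den)) delta :=
  goodK_of_checkR an den (by decide) L L2 KL dtbl dtbl_ok rfl codes posN rowsA rowsB rowsC rows_tbl 12 256 8 72 b0 28 22
    (by decide) parts_ok (by decide +kernel) slice_ok lit_ok 1 (by decide +kernel) delta bx49 hd49
    (by decide) rls49 rls_ok49 (by decide) (planOf lams49) 190 dD49 dE49 els49 rfl pay49 delta_le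
    (fun b hb => by
      interval_cases b
      · exact bucket49_0
      · exact bucket49_1
      · exact bucket49_2
      · exact bucket49_3
      · exact bucket49_4
      · exact bucket49_5
      · exact bucket49_6
      · exact bucket49_7)

end Vale.Agent.P098.Exact.Sos6.Q93
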