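import Vale.Agent.P098.Exact.Sos6.Q93.Common
import Vale.Agent.P098.Exact.Sos6.Q93.Box4B0
import Vale.Agent.P098.Exact.Sos6.Q93.Box4B1
import Vale.Agent.P098.Exact.Sos6.Q93.Box4B2
import Vale.Agent.P098.Exact.Sos6.Q93.Box4B3
import Vale.Agent.P098.Exact.Sos6.Q93.Box4B4
import Vale.Agent.P098.Exact.Sos6.Q93.Box4B5
import Vale.Agent.P098.Exact.Sos6.Q93.Box4B6
import Vale.Agent.P098.Exact.Sos6.Q93.Box4B7

/-! Generated data of the dimension six interior check. -/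

noncomputable section

namespace Vale.Agent.P098.Exact.Sos6.Q93

set_option maxRecDepth 100000

theorem pay4 : dtbl.payOK 190 dD4 dE4 (elTot els4) = true := by decide +kernel

theorem rls_ok4 : ∀ G ∈ rls4, ∃ Ns, tbl.facR 72 b0 28 22 Ns G = true := by
  intro G hG
  simp only [rls4, List.mem_cons, List.not_mem_nil, or_false] at hG
  rcases hG with rfl | rfl | rfl | rfl | rfl | rfl | rfl | rfl | rfl | rfl | rfl | rfl | rfl | rfl | rfl | rfl | rfl | rfl | rfl | rfl | rfl | rfl | rfl | rfl | rfl | rfl | rfl | rfl | rfl | rfl | rfl | rfl | rfl | rfl | rfl | rfl | rfl | rfl | rfl | rfl | rfl | rfl | rfl | rfl | rfl | rfl | rfl | rfl | rfl | rfl | rfl | rfl | rfl | rfl | rfl | rfl | rfl | rfl | rfl | rfl | rfl | rfl | rfl | rfl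
  · exact ⟨_, fac256⟩
  · exact ⟨_, fac257⟩
  · exact ⟨_, fac258⟩
  · exact ⟨_, fac259⟩
  · exact ⟨_, fac260⟩
  · exact ⟨_, fac261⟩
  · exact ⟨_, fac262⟩
  · exact ⟨_, fac263⟩
  · exact ⟨_, fac264⟩
  · exact ⟨_, fac265⟩
  · exact ⟨_, fac266⟩
  · exact ⟨_, fac267⟩
  · exact ⟨_, fac268⟩
  · exact ⟨_, fac269⟩
  · exact ⟨_, fac270⟩
  · exact ⟨_, fac271⟩
  · exact ⟨_, fac272⟩
  · exact ⟨_, fac273⟩
  · exact ⟨_, fac274⟩
  · exact ⟨_, fac275⟩
  · exact ⟨_, fac276⟩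
  · exact ⟨_, fac277⟩
  · exact ⟨_, fac278⟩
  · exact ⟨_, fac279⟩
  · exact ⟨_, fac280⟩
  · exact ⟨_, fac281⟩
  · exact ⟨_, fac282⟩
  · exact ⟨_, fac283⟩
  · exact ⟨_, fac284⟩
  · exact ⟨_, fac285⟩
  · exact ⟨_, fac286⟩
  · exact ⟨_, fac287⟩
  · exact ⟨_, fac288⟩
  · exact ⟨_, fac289⟩
  · exact ⟨_, fac290⟩
  · exact ⟨_, fac291⟩
  · exact ⟨_, fac292⟩
  · exact ⟨_, fac293⟩
  · exact ⟨_, fac294⟩
  · exact ⟨_, fac295⟩
  · exact ⟨_, fac296⟩
  · exact ⟨_, fac297⟩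
  · exact ⟨_, fac298⟩
  · exact ⟨_, fac299⟩
  · exact ⟨_, fac300⟩
  · exact ⟨_, fac301⟩
  · exact ⟨_, fac302⟩
  · exact ⟨_, fac303⟩
  · exact ⟨_, fac304⟩
  · exact ⟨_, fac305⟩
  · exact ⟨_, fac306⟩
  · exact ⟨_, fac307⟩
  · exact ⟨_, fac308⟩
  · exact ⟨_, fac309⟩
  · exact ⟨_, fac310⟩
  · exact ⟨_, fac311⟩
  · exact ⟨_, fac312⟩
  · exact ⟨_, fac313⟩
  · exact ⟨_, fac314⟩
  · exact ⟨_, fac315⟩
  · exact ⟨_, fac316⟩
  · exact ⟨_, fac317⟩
  · exact ⟨_, fac318⟩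
  · exact ⟨_, fac319⟩

theorem good4 : bx4.GoodK ((an : ℝ) / 100) (L.map (ITerm.term den)) (L2.map (ITerm.term den))
    (KL.map (KI.term den)) delta :=
  goodK_of_checkR an den (by decide) L L2 KL dtbl dtbl_ok rfl codes posN rowsA rowsB rowsC rows_tbl 12 256 8 72 b0 28 22
    (by decide) parts_ok (by decide +kernel) slice_ok lit_ok 1 (by decide +kernel) delta bx4 hd4
    (by decide) rls4 rls_ok4 (by decide) (planOf lams4) 190 dD4 dE4 els4 rfl pay4 delta_le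
    (fun b hb => by
      interval_cases b
      · exact bucket4_0
      · exact bucket4_1
      · exact bucket4_2
      · exact bucket4_3
      · exact bucket4_4
      · exact bucket4_5
      · exact bucket4_6
      · exact bucket4_7)

end Vale.Agent.P098.Exact.Sos6.Q93
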