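import Vale.Agent.P098.Exact.Sos6.Q93.Common
import Vale.Agent.P098.Exact.Sos6.Q93.Box50B0
import Vale.Agent.P098.Exact.Sos6.Q93.Box50B1
import Vale.Agent.P098.Exact.Sos6.Q93.Box50B2
import Vale.Agent.P098.Exact.Sos6.Q93.Box50B3
import Vale.Agent.P098.Exact.Sos6.Q93.Box50B4
import Vale.Agent.P098.Exact.Sos6.Q93.Box50B5
import Vale.Agent.P098.Exact.Sos6.Q93.Box50B6
import Vale.Agent.P098.Exact.Sos6.Q93.Box50B7

/-! Generated data of the dimension six interior check. -/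

noncomputable section

namespace Vale.Agent.P098.Exact.Sos6.Q93

set_option maxRecDepth 100000

theorem pay50 : dtbl.payOK 190 dD50 dE50 (elTot els50) = true := by decide +kernel

theorem rls_ok50 : ∀ G ∈ rls50, ∃ Ns, tbl.facR 72 b0 28 22 Ns G = true := by
  intro G hG
  simp only [rls50, List.mem_cons, List.not_mem_nil, or_false] at hG
  rcases hG with rfl | rfl | rfl | rfl | rfl | rfl | rfl | rfl | rfl | rfl | rfl | rfl | rfl | rfl | rfl | rfl | rfl | rfl | rfl | rfl | rfl | rfl | rfl | rfl | rfl | rfl | rfl | rfl | rfl | rfl | rfl | rfl | rfl | rfl | rfl | rfl | rfl | rfl | rfl | rfl | rfl | rfl | rfl | rfl | rfl | rfl | rfl | rfl | rfl | rfl | rfl | rfl | rfl | rfl | rfl | rfl | rfl | rfl | rfl | rfl | rfl | rfl | rfl | rfl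
  · exact ⟨_, fac3200⟩
  · exact ⟨_, fac3201⟩
  · exact ⟨_, fac3202⟩
  · exact ⟨_, fac3203⟩
  · exact ⟨_, fac3204⟩
  · exact ⟨_, fac3205⟩
  · exact ⟨_, fac3206⟩
  · exact ⟨_, fac3207⟩
  · exact ⟨_, fac3208⟩
  · exact ⟨_, fac3209⟩
  · exact ⟨_, fac3210⟩
  · exact ⟨_, fac3211⟩
  · exact ⟨_, fac3212⟩
  · exact ⟨_, fac3213⟩
  · exact ⟨_, fac3214⟩
  · exact ⟨_, fac3215⟩
  · exact ⟨_, fac3216⟩
  · exact ⟨_, fac3217⟩
  · exact ⟨_, fac3218⟩
  · exact ⟨_, fac3219⟩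
  · exact ⟨_, fac3220⟩
  · exact ⟨_, fac3221⟩
  · exact ⟨_, fac3222⟩
  · exact ⟨_, fac3223⟩
  · exact ⟨_, fac3224⟩
  · exact ⟨_, fac3225⟩
  · exact ⟨_, fac3226⟩
  · exact ⟨_, fac3227⟩
  · exact ⟨_, fac3228⟩
  · exact ⟨_, fac3229⟩
  · exact ⟨_, fac3230⟩
  · exact ⟨_, fac3231⟩
  · exact ⟨_, fac3232⟩
  · exact ⟨_, fac3233⟩
  · exact ⟨_, fac3234⟩
  · exact ⟨_, fac3235⟩
  · exact ⟨_, fac3236⟩
  · exact ⟨_, fac3237⟩
  · exact ⟨_, fac3238⟩
  · exact ⟨_, fac3239⟩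
  · exact ⟨_, fac3240⟩
  · exact ⟨_, fac3241⟩
  · exact ⟨_, fac3242⟩
  · exact ⟨_, fac3243⟩
  · exact ⟨_, fac3244⟩
  · exact ⟨_, fac3245⟩
  · exact ⟨_, fac3246⟩
  · exact ⟨_, fac3247⟩
  · exact ⟨_, fac3248⟩
  · exact ⟨_, fac3249⟩
  · exact ⟨_, fac3250⟩
  · exact ⟨_, fac3251⟩
  · exact ⟨_, fac3252⟩
  · exact ⟨_, fac3253⟩
  · exact ⟨_, fac3254⟩
  · exact ⟨_, fac3255⟩
  · exact ⟨_, fac3256⟩
  · exact ⟨_, fac3257⟩
  · exact ⟨_, fac3258⟩
  · exact ⟨_, fac3259⟩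
  · exact ⟨_, fac3260⟩
  · exact ⟨_, fac3261⟩
  · exact ⟨_, fac3262⟩
  · exact ⟨_, fac3263⟩

theorem good50 : bx50.GoodK ((an : ℝ) / 100) (L.map (ITerm.term den)) (L2.map (ITerm.term den))
    (KL.map (KI.term den)) delta :=
  goodK_of_checkR an den (by decide) L L2 KL dtbl dtbl_ok rfl codes posN rowsA rowsB rowsC rows_tbl 12 256 8 72 b0 28 22
    (by decide) parts_ok (by decide +kernel) slice_ok lit_ok 1 (by decide +kernel) delta bx50 hd50
    (by decide) rls50 rls_ok50 (by decide) (planOf lams50) 190 dD50 dE50 els50 rfl pay50 delta_le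
    (fun b hb => by
      interval_cases b
      · exact bucket50_0
      · exact bucket50_1
      · exact bucket50_2
      · exact bucket50_3
      · exact bucket50_4
      · exact bucket50_5
      · exact bucket50_6
      · exact bucket50_7)

end Vale.Agent.P098.Exact.Sos6.Q93
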