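import Vale.Agent.P098.Exact.Sos6.Q93.Common
import Vale.Agent.P098.Exact.Sos6.Q93.Box51B0
import Vale.Agent.P098.Exact.Sos6.Q93.Box51B1
import Vale.Agent.P098.Exact.Sos6.Q93.Box51B2
import Vale.Agent.P098.Exact.Sos6.Q93.Box51B3
import Vale.Agent.P098.Exact.Sos6.Q93.Box51B4
import Vale.Agent.P098.Exact.Sos6.Q93.Box51B5
import Vale.Agent.P098.Exact.Sos6.Q93.Box51B6
import Vale.Agent.P098.Exact.Sos6.Q93.Box51B7

/-! Generated data of the dimension six interior check. -/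

noncomputable section

namespace Vale.Agent.P098.Exact.Sos6.Q93

set_option maxRecDepth 100000

theorem pay51 : dtbl.payOK 190 dD51 dE51 (elTot els51) = true := by decide +kernel

theorem rls_ok51 : ∀ G ∈ rls51, ∃ Ns, tbl.facR 72 b0 28 22 Ns G = true := by
  intro G hG
  simp only [rls51, List.mem_cons, List.not_mem_nil, or_false] at hG
  rcases hG with rfl | rfl | rfl | rfl | rfl | rfl | rfl | rfl | rfl | rfl | rfl | rfl | rfl | rfl | rfl | rfl | rfl | rfl | rfl | rfl | rfl | rfl | rfl | rfl | rfl | rfl | rfl | rfl | rfl | rfl | rfl | rfl | rfl | rfl | rfl | rfl | rfl | rfl | rfl | rfl | rfl | rfl | rfl | rfl | rfl | rfl | rfl | rfl | rfl | rfl | rfl | rfl | rfl | rfl | rfl | rfl | rfl | rfl | rfl | rfl | rfl | rfl | rfl | rfl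
  · exact ⟨_, fac3264⟩
  · exact ⟨_, fac3265⟩
  · exact ⟨_, fac3266⟩
  · exact ⟨_, fac3267⟩
  · exact ⟨_, fac3268⟩
  · exact ⟨_, fac3269⟩
  · exact ⟨_, fac3270⟩
  · exact ⟨_, fac3271⟩
  · exact ⟨_, fac3272⟩
  · exact ⟨_, fac3273⟩
  · exact ⟨_, fac3274⟩
  · exact ⟨_, fac3275⟩
  · exact ⟨_, fac3276⟩
  · exact ⟨_, fac3277⟩
  · exact ⟨_, fac3278⟩
  · exact ⟨_, fac3279⟩
  · exact ⟨_, fac3280⟩
  · exact ⟨_, fac3281⟩
  · exact ⟨_, fac3282⟩
  · exact ⟨_, fac3283⟩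
  · exact ⟨_, fac3284⟩
  · exact ⟨_, fac3285⟩
  · exact ⟨_, fac3286⟩
  · exact ⟨_, fac3287⟩
  · exact ⟨_, fac3288⟩
  · exact ⟨_, fac3289⟩
  · exact ⟨_, fac3290⟩
  · exact ⟨_, fac3291⟩
  · exact ⟨_, fac3292⟩
  · exact ⟨_, fac3293⟩
  · exact ⟨_, fac3294⟩
  · exact ⟨_, fac3295⟩
  · exact ⟨_, fac3296⟩
  · exact ⟨_, fac3297⟩
  · exact ⟨_, fac3298⟩
  · exact ⟨_, fac3299⟩
  · exact ⟨_, fac3300⟩
  · exact ⟨_, fac3301⟩
  · exact ⟨_, fac3302⟩
  · exact ⟨_, fac3303⟩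
  · exact ⟨_, fac3304⟩
  · exact ⟨_, fac3305⟩
  · exact ⟨_, fac3306⟩
  · exact ⟨_, fac3307⟩
  · exact ⟨_, fac3308⟩
  · exact ⟨_, fac3309⟩
  · exact ⟨_, fac3310⟩
  · exact ⟨_, fac3311⟩
  · exact ⟨_, fac3312⟩
  · exact ⟨_, fac3313⟩
  · exact ⟨_, fac3314⟩
  · exact ⟨_, fac3315⟩
  · exact ⟨_, fac3316⟩
  · exact ⟨_, fac3317⟩
  · exact ⟨_, fac3318⟩
  · exact ⟨_, fac3319⟩
  · exact ⟨_, fac3320⟩
  · exact ⟨_, fac3321⟩
  · exact ⟨_, fac3322⟩
  · exact ⟨_, fac3323⟩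
  · exact ⟨_, fac3324⟩
  · exact ⟨_, fac3325⟩
  · exact ⟨_, fac3326⟩
  · exact ⟨_, fac3327⟩

theorem good51 : bx51.GoodK ((an : ℝ) / 100) (L.map (ITerm.term den)) (L2.map (ITerm.term den))
    (KL.map (KI.term den)) delta :=
  goodK_of_checkR an den (by decide) L L2 KL dtbl dtbl_ok rfl codes posN rowsA rowsB rowsC rows_tbl 12 256 8 72 b0 28 22
    (by decide) parts_ok (by decide +kernel) slice_ok lit_ok 1 (by decide +kernel) delta bx51 hd51
    (by decide) rls51 rls_ok51 (by decide) (planOf lams51) 190 dD51 dE51 els51 rfl pay51 delta_le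
    (fun b hb => by
      interval_cases b
      · exact bucket51_0
      · exact bucket51_1
      · exact bucket51_2
      · exact bucket51_3
      · exact bucket51_4
      · exact bucket51_5
      · exact bucket51_6
      · exact bucket51_7)

end Vale.Agent.P098.Exact.Sos6.Q93
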