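import Vale.Agent.P098.Exact.Sos6.Q93.Common
import Vale.Agent.P098.Exact.Sos6.Q93.Box52B0
import Vale.Agent.P098.Exact.Sos6.Q93.Box52B1
import Vale.Agent.P098.Exact.Sos6.Q93.Box52B2
import Vale.Agent.P098.Exact.Sos6.Q93.Box52B3
import Vale.Agent.P098.Exact.Sos6.Q93.Box52B4
import Vale.Agent.P098.Exact.Sos6.Q93.Box52B5
import Vale.Agent.P098.Exact.Sos6.Q93.Box52B6
import Vale.Agent.P098.Exact.Sos6.Q93.Box52B7

/-! Generated data of the dimension six interior check. -/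

noncomputable section

namespace Vale.Agent.P098.Exact.Sos6.Q93

set_option maxRecDepth 100000

theorem pay52 : dtbl.payOK 190 dD52 dE52 (elTot els52) = true := by decide +kernel

theorem rls_ok52 : ∀ G ∈ rls52, ∃ Ns, tbl.facR 72 b0 28 22 Ns G = true := by
  intro G hG
  simp only [rls52, List.mem_cons, List.not_mem_nil, or_false] at hG
  rcases hG with rfl | rfl | rfl | rfl | rfl | rfl | rfl | rfl | rfl | rfl | rfl | rfl | rfl | rfl | rfl | rfl | rfl | rfl | rfl | rfl | rfl | rfl | rfl | rfl | rfl | rfl | rfl | rfl | rfl | rfl | rfl | rfl | rfl | rfl | rfl | rfl | rfl | rfl | rfl | rfl | rfl | rfl | rfl | rfl | rfl | rfl | rfl | rfl | rfl | rfl | rfl | rfl | rfl | rfl | rfl | rfl | rfl | rfl | rfl | rfl | rfl | rfl | rfl | rfl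
  · exact ⟨_, fac3328⟩
  · exact ⟨_, fac3329⟩
  · exact ⟨_, fac3330⟩
  · exact ⟨_, fac3331⟩
  · exact ⟨_, fac3332⟩
  · exact ⟨_, fac3333⟩
  · exact ⟨_, fac3334⟩
  · exact ⟨_, fac3335⟩
  · exact ⟨_, fac3336⟩
  · exact ⟨_, fac3337⟩
  · exact ⟨_, fac3338⟩
  · exact ⟨_, fac3339⟩
  · exact ⟨_, fac3340⟩
  · exact ⟨_, fac3341⟩
  · exact ⟨_, fac3342⟩
  · exact ⟨_, fac3343⟩
  · exact ⟨_, fac3344⟩
  · exact ⟨_, fac3345⟩
  · exact ⟨_, fac3346⟩
  · exact ⟨_, fac3347⟩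
  · exact ⟨_, fac3348⟩
  · exact ⟨_, fac3349⟩
  · exact ⟨_, fac3350⟩
  · exact ⟨_, fac3351⟩
  · exact ⟨_, fac3352⟩
  · exact ⟨_, fac3353⟩
  · exact ⟨_, fac3354⟩
  · exact ⟨_, fac3355⟩
  · exact ⟨_, fac3356⟩
  · exact ⟨_, fac3357⟩
  · exact ⟨_, fac3358⟩
  · exact ⟨_, fac3359⟩
  · exact ⟨_, fac3360⟩
  · exact ⟨_, fac3361⟩
  · exact ⟨_, fac3362⟩
  · exact ⟨_, fac3363⟩
  · exact ⟨_, fac3364⟩
  · exact ⟨_, fac3365⟩
  · exact ⟨_, fac3366⟩
  · exact ⟨_, fac3367⟩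
  · exact ⟨_, fac3368⟩
  · exact ⟨_, fac3369⟩
  · exact ⟨_, fac3370⟩
  · exact ⟨_, fac3371⟩
  · exact ⟨_, fac3372⟩
  · exact ⟨_, fac3373⟩
  · exact ⟨_, fac3374⟩
  · exact ⟨_, fac3375⟩
  · exact ⟨_, fac3376⟩
  · exact ⟨_, fac3377⟩
  · exact ⟨_, fac3378⟩
  · exact ⟨_, fac3379⟩
  · exact ⟨_, fac3380⟩
  · exact ⟨_, fac3381⟩
  · exact ⟨_, fac3382⟩
  · exact ⟨_, fac3383⟩
  · exact ⟨_, fac3384⟩
  · exact ⟨_, fac3385⟩
  · exact ⟨_, fac3386⟩
  · exact ⟨_, fac3387⟩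
  · exact ⟨_, fac3388⟩
  · exact ⟨_, fac3389⟩
  · exact ⟨_, fac3390⟩
  · exact ⟨_, fac3391⟩

theorem good52 : bx52.GoodK ((an : ℝ) / 100) (L.map (ITerm.term den)) (L2.map (ITerm.term den))
    (KL.map (KI.term den)) delta :=
  goodK_of_checkR an den (by decide) L L2 KL dtbl dtbl_ok rfl codes posN rowsA rowsB rowsC rows_tbl 12 256 8 72 b0 28 22
    (by decide) parts_ok (by decide +kernel) slice_ok lit_ok 1 (by decide +kernel) delta bx52 hd52
    (by decide) rls52 rls_ok52 (by decide) (planOf lams52) 190 dD52 dE52 els52 rfl pay52 delta_le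
    (fun b hb => by
      interval_cases b
      · exact bucket52_0
      · exact bucket52_1
      · exact bucket52_2
      · exact bucket52_3
      · exact bucket52_4
      · exact bucket52_5
      · exact bucket52_6
      · exact bucket52_7)

end Vale.Agent.P098.Exact.Sos6.Q93
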