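import Vale.Agent.P098.Exact.Sos6.Q93.Common
import Vale.Agent.P098.Exact.Sos6.Q93.Box56B0
import Vale.Agent.P098.Exact.Sos6.Q93.Box56B1
import Vale.Agent.P098.Exact.Sos6.Q93.Box56B2
import Vale.Agent.P098.Exact.Sos6.Q93.Box56B3
import Vale.Agent.P098.Exact.Sos6.Q93.Box56B4
import Vale.Agent.P098.Exact.Sos6.Q93.Box56B5
import Vale.Agent.P098.Exact.Sos6.Q93.Box56B6
import Vale.Agent.P098.Exact.Sos6.Q93.Box56B7

/-! Generated data of the dimension six interior check. -/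

noncomputable section

namespace Vale.Agent.P098.Exact.Sos6.Q93

set_option maxRecDepth 100000

theorem pay56 : dtbl.payOK 190 dD56 dE56 (elTot els56) = true := by decide +kernel

theorem rls_ok56 : ∀ G ∈ rls56, ∃ Ns, tbl.facR 72 b0 28 22 Ns G = true := by
  intro G hG
  simp only [rls56, List.mem_cons, List.not_mem_nil, or_false] at hG
  rcases hG with rfl | rfl | rfl | rfl | rfl | rfl | rfl | rfl | rfl | rfl | rfl | rfl | rfl | rfl | rfl | rfl | rfl | rfl | rfl | rfl | rfl | rfl | rfl | rfl | rfl | rfl | rfl | rfl | rfl | rfl | rfl | rfl | rfl | rfl | rfl | rfl | rfl | rfl | rfl | rfl | rfl | rfl | rfl | rfl | rfl | rfl | rfl | rfl | rfl | rfl | rfl | rfl | rfl | rfl | rfl | rfl | rfl | rfl | rfl | rfl | rfl | rfl | rfl | rfl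
  · exact ⟨_, fac3584⟩
  · exact ⟨_, fac3585⟩
  · exact ⟨_, fac3586⟩
  · exact ⟨_, fac3587⟩
  · exact ⟨_, fac3588⟩
  · exact ⟨_, fac3589⟩
  · exact ⟨_, fac3590⟩
  · exact ⟨_, fac3591⟩
  · exact ⟨_, fac3592⟩
  · exact ⟨_, fac3593⟩
  · exact ⟨_, fac3594⟩
  · exact ⟨_, fac3595⟩
  · exact ⟨_, fac3596⟩
  · exact ⟨_, fac3597⟩
  · exact ⟨_, fac3598⟩
  · exact ⟨_, fac3599⟩
  · exact ⟨_, fac3600⟩
  · exact ⟨_, fac3601⟩
  · exact ⟨_, fac3602⟩
  · exact ⟨_, fac3603⟩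
  · exact ⟨_, fac3604⟩
  · exact ⟨_, fac3605⟩
  · exact ⟨_, fac3606⟩
  · exact ⟨_, fac3607⟩
  · exact ⟨_, fac3608⟩
  · exact ⟨_, fac3609⟩
  · exact ⟨_, fac3610⟩
  · exact ⟨_, fac3611⟩
  · exact ⟨_, fac3612⟩
  · exact ⟨_, fac3613⟩
  · exact ⟨_, fac3614⟩
  · exact ⟨_, fac3615⟩
  · exact ⟨_, fac3616⟩
  · exact ⟨_, fac3617⟩
  · exact ⟨_, fac3618⟩
  · exact ⟨_, fac3619⟩
  · exact ⟨_, fac3620⟩
  · exact ⟨_, fac3621⟩
  · exact ⟨_, fac3622⟩
  · exact ⟨_, fac3623⟩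
  · exact ⟨_, fac3624⟩
  · exact ⟨_, fac3625⟩
  · exact ⟨_, fac3626⟩
  · exact ⟨_, fac3627⟩
  · exact ⟨_, fac3628⟩
  · exact ⟨_, fac3629⟩
  · exact ⟨_, fac3630⟩
  · exact ⟨_, fac3631⟩
  · exact ⟨_, fac3632⟩
  · exact ⟨_, fac3633⟩
  · exact ⟨_, fac3634⟩
  · exact ⟨_, fac3635⟩
  · exact ⟨_, fac3636⟩
  · exact ⟨_, fac3637⟩
  · exact ⟨_, fac3638⟩
  · exact ⟨_, fac3639⟩
  · exact ⟨_, fac3640⟩
  · exact ⟨_, fac3641⟩
  · exact ⟨_, fac3642⟩
  · exact ⟨_, fac3643⟩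
  · exact ⟨_, fac3644⟩
  · exact ⟨_, fac3645⟩
  · exact ⟨_, fac3646⟩
  · exact ⟨_, fac3647⟩

theorem good56 : bx56.GoodK ((an : ℝ) / 100) (L.map (ITerm.term den)) (L2.map (ITerm.term den))
    (KL.map (KI.term den)) delta :=
  goodK_of_checkR an den (by decide) L L2 KL dtbl dtbl_ok rfl codes posN rowsA rowsB rowsC rows_tbl 12 256 8 72 b0 28 22
    (by decide) parts_ok (by decide +kernel) slice_ok lit_ok 1 (by decide +kernel) delta bx56 hd56
    (by decide) rls56 rls_ok56 (by decide) (planOf lams56) 190 dD56 dE56 els56 rfl pay56 delta_le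
    (fun b hb => by
      interval_cases b
      · exact bucket56_0
      · exact bucket56_1
      · exact bucket56_2
      · exact bucket56_3
      · exact bucket56_4
      · exact bucket56_5
      · exact bucket56_6
      · exact bucket56_7)

end Vale.Agent.P098.Exact.Sos6.Q93
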