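import Vale.Agent.P098.Exact.Sos6.Q93.Common
import Vale.Agent.P098.Exact.Sos6.Q93.Box57B0
import Vale.Agent.P098.Exact.Sos6.Q93.Box57B1
import Vale.Agent.P098.Exact.Sos6.Q93.Box57B2
import Vale.Agent.P098.Exact.Sos6.Q93.Box57B3
import Vale.Agent.P098.Exact.Sos6.Q93.Box57B4
import Vale.Agent.P098.Exact.Sos6.Q93.Box57B5
import Vale.Agent.P098.Exact.Sos6.Q93.Box57B6
import Vale.Agent.P098.Exact.Sos6.Q93.Box57B7

/-! Generated data of the dimension six interior check. -/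

noncomputable section

namespace Vale.Agent.P098.Exact.Sos6.Q93

set_option maxRecDepth 100000

theorem pay57 : dtbl.payOK 190 dD57 dE57 (elTot els57) = true := by decide +kernel

theorem rls_ok57 : ∀ G ∈ rls57, ∃ Ns, tbl.facR 72 b0 28 22 Ns G = true := by
  intro G hG
  simp only [rls57, List.mem_cons, List.not_mem_nil, or_false] at hG
  rcases hG with rfl | rfl | rfl | rfl | rfl | rfl | rfl | rfl | rfl | rfl | rfl | rfl | rfl | rfl | rfl | rfl | rfl | rfl | rfl | rfl | rfl | rfl | rfl | rfl | rfl | rfl | rfl | rfl | rfl | rfl | rfl | rfl | rfl | rfl | rfl | rfl | rfl | rfl | rfl | rfl | rfl | rfl | rfl | rfl | rfl | rfl | rfl | rfl | rfl | rfl | rfl | rfl | rfl | rfl | rfl | rfl | rfl | rfl | rfl | rfl | rfl | rfl | rfl | rfl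
  · exact ⟨_, fac3648⟩
  · exact ⟨_, fac3649⟩
  · exact ⟨_, fac3650⟩
  · exact ⟨_, fac3651⟩
  · exact ⟨_, fac3652⟩
  · exact ⟨_, fac3653⟩
  · exact ⟨_, fac3654⟩
  · exact ⟨_, fac3655⟩
  · exact ⟨_, fac3656⟩
  · exact ⟨_, fac3657⟩
  · exact ⟨_, fac3658⟩
  · exact ⟨_, fac3659⟩
  · exact ⟨_, fac3660⟩
  · exact ⟨_, fac3661⟩
  · exact ⟨_, fac3662⟩
  · exact ⟨_, fac3663⟩
  · exact ⟨_, fac3664⟩
  · exact ⟨_, fac3665⟩
  · exact ⟨_, fac3666⟩
  · exact ⟨_, fac3667⟩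
  · exact ⟨_, fac3668⟩
  · exact ⟨_, fac3669⟩
  · exact ⟨_, fac3670⟩
  · exact ⟨_, fac3671⟩
  · exact ⟨_, fac3672⟩
  · exact ⟨_, fac3673⟩
  · exact ⟨_, fac3674⟩
  · exact ⟨_, fac3675⟩
  · exact ⟨_, fac3676⟩
  · exact ⟨_, fac3677⟩
  · exact ⟨_, fac3678⟩
  · exact ⟨_, fac3679⟩
  · exact ⟨_, fac3680⟩
  · exact ⟨_, fac3681⟩
  · exact ⟨_, fac3682⟩
  · exact ⟨_, fac3683⟩
  · exact ⟨_, fac3684⟩
  · exact ⟨_, fac3685⟩
  · exact ⟨_, fac3686⟩
  · exact ⟨_, fac3687⟩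
  · exact ⟨_, fac3688⟩
  · exact ⟨_, fac3689⟩
  · exact ⟨_, fac3690⟩
  · exact ⟨_, fac3691⟩
  · exact ⟨_, fac3692⟩
  · exact ⟨_, fac3693⟩
  · exact ⟨_, fac3694⟩
  · exact ⟨_, fac3695⟩
  · exact ⟨_, fac3696⟩
  · exact ⟨_, fac3697⟩
  · exact ⟨_, fac3698⟩
  · exact ⟨_, fac3699⟩
  · exact ⟨_, fac3700⟩
  · exact ⟨_, fac3701⟩
  · exact ⟨_, fac3702⟩
  · exact ⟨_, fac3703⟩
  · exact ⟨_, fac3704⟩
  · exact ⟨_, fac3705⟩
  · exact ⟨_, fac3706⟩
  · exact ⟨_, fac3707⟩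
  · exact ⟨_, fac3708⟩
  · exact ⟨_, fac3709⟩
  · exact ⟨_, fac3710⟩
  · exact ⟨_, fac3711⟩

theorem good57 : bx57.GoodK ((an : ℝ) / 100) (L.map (ITerm.term den)) (L2.map (ITerm.term den))
    (KL.map (KI.term den)) delta :=
  goodK_of_checkR an den (by decide) L L2 KL dtbl dtbl_ok rfl codes posN rowsA rowsB rowsC rows_tbl 12 256 8 72 b0 28 22
    (by decide) parts_ok (by decide +kernel) slice_ok lit_ok 1 (by decide +kernel) delta bx57 hd57
    (by decide) rls57 rls_ok57 (by decide) (planOf lams57) 190 dD57 dE57 els57 rfl pay57 delta_le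
    (fun b hb => by
      interval_cases b
      · exact bucket57_0
      · exact bucket57_1
      · exact bucket57_2
      · exact bucket57_3
      · exact bucket57_4
      · exact bucket57_5
      · exact bucket57_6
      · exact bucket57_7)

end Vale.Agent.P098.Exact.Sos6.Q93
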