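import Vale.Agent.P098.Exact.Sos6.Q93.Common
import Vale.Agent.P098.Exact.Sos6.Q93.Box58B0
import Vale.Agent.P098.Exact.Sos6.Q93.Box58B1
import Vale.Agent.P098.Exact.Sos6.Q93.Box58B2
import Vale.Agent.P098.Exact.Sos6.Q93.Box58B3
import Vale.Agent.P098.Exact.Sos6.Q93.Box58B4
import Vale.Agent.P098.Exact.Sos6.Q93.Box58B5
import Vale.Agent.P098.Exact.Sos6.Q93.Box58B6
import Vale.Agent.P098.Exact.Sos6.Q93.Box58B7

/-! Generated data of the dimension six interior check. -/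

noncomputable section

namespace Vale.Agent.P098.Exact.Sos6.Q93

set_option maxRecDepth 100000

theorem pay58 : dtbl.payOK 190 dD58 dE58 (elTot els58) = true := by decide +kernel

theorem rls_ok58 : ∀ G ∈ rls58, ∃ Ns, tbl.facR 72 b0 28 22 Ns G = true := by
  intro G hG
  simp only [rls58, List.mem_cons, List.not_mem_nil, or_false] at hG
  rcases hG with rfl | rfl | rfl | rfl | rfl | rfl | rfl | rfl | rfl | rfl | rfl | rfl | rfl | rfl | rfl | rfl | rfl | rfl | rfl | rfl | rfl | rfl | rfl | rfl | rfl | rfl | rfl | rfl | rfl | rfl | rfl | rfl | rfl | rfl | rfl | rfl | rfl | rfl | rfl | rfl | rfl | rfl | rfl | rfl | rfl | rfl | rfl | rfl | rfl | rfl | rfl | rfl | rfl | rfl | rfl | rfl | rfl | rfl | rfl | rfl | rfl | rfl | rfl | rfl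
  · exact ⟨_, fac3712⟩
  · exact ⟨_, fac3713⟩
  · exact ⟨_, fac3714⟩
  · exact ⟨_, fac3715⟩
  · exact ⟨_, fac3716⟩
  · exact ⟨_, fac3717⟩
  · exact ⟨_, fac3718⟩
  · exact ⟨_, fac3719⟩
  · exact ⟨_, fac3720⟩
  · exact ⟨_, fac3721⟩
  · exact ⟨_, fac3722⟩
  · exact ⟨_, fac3723⟩
  · exact ⟨_, fac3724⟩
  · exact ⟨_, fac3725⟩
  · exact ⟨_, fac3726⟩
  · exact ⟨_, fac3727⟩
  · exact ⟨_, fac3728⟩
  · exact ⟨_, fac3729⟩
  · exact ⟨_, fac3730⟩
  · exact ⟨_, fac3731⟩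
  · exact ⟨_, fac3732⟩
  · exact ⟨_, fac3733⟩
  · exact ⟨_, fac3734⟩
  · exact ⟨_, fac3735⟩
  · exact ⟨_, fac3736⟩
  · exact ⟨_, fac3737⟩
  · exact ⟨_, fac3738⟩
  · exact ⟨_, fac3739⟩
  · exact ⟨_, fac3740⟩
  · exact ⟨_, fac3741⟩
  · exact ⟨_, fac3742⟩
  · exact ⟨_, fac3743⟩
  · exact ⟨_, fac3744⟩
  · exact ⟨_, fac3745⟩
  · exact ⟨_, fac3746⟩
  · exact ⟨_, fac3747⟩
  · exact ⟨_, fac3748⟩
  · exact ⟨_, fac3749⟩
  · exact ⟨_, fac3750⟩
  · exact ⟨_, fac3751⟩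
  · exact ⟨_, fac3752⟩
  · exact ⟨_, fac3753⟩
  · exact ⟨_, fac3754⟩
  · exact ⟨_, fac3755⟩
  · exact ⟨_, fac3756⟩
  · exact ⟨_, fac3757⟩
  · exact ⟨_, fac3758⟩
  · exact ⟨_, fac3759⟩
  · exact ⟨_, fac3760⟩
  · exact ⟨_, fac3761⟩
  · exact ⟨_, fac3762⟩
  · exact ⟨_, fac3763⟩
  · exact ⟨_, fac3764⟩
  · exact ⟨_, fac3765⟩
  · exact ⟨_, fac3766⟩
  · exact ⟨_, fac3767⟩
  · exact ⟨_, fac3768⟩
  · exact ⟨_, fac3769⟩
  · exact ⟨_, fac3770⟩
  · exact ⟨_, fac3771⟩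
  · exact ⟨_, fac3772⟩
  · exact ⟨_, fac3773⟩
  · exact ⟨_, fac3774⟩
  · exact ⟨_, fac3775⟩

theorem good58 : bx58.GoodK ((an : ℝ) / 100) (L.map (ITerm.term den)) (L2.map (ITerm.term den))
    (KL.map (KI.term den)) delta :=
  goodK_of_checkR an den (by decide) L L2 KL dtbl dtbl_ok rfl codes posN rowsA rowsB rowsC rows_tbl 12 256 8 72 b0 28 22
    (by decide) parts_ok (by decide +kernel) slice_ok lit_ok 1 (by decide +kernel) delta bx58 hd58
    (by decide) rls58 rls_ok58 (by decide) (planOf lams58) 190 dD58 dE58 els58 rfl pay58 delta_le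
    (fun b hb => by
      interval_cases b
      · exact bucket58_0
      · exact bucket58_1
      · exact bucket58_2
      · exact bucket58_3
      · exact bucket58_4
      · exact bucket58_5
      · exact bucket58_6
      · exact bucket58_7)

end Vale.Agent.P098.Exact.Sos6.Q93
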