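import Vale.Agent.P098.Exact.Sos6.Q93.Common
import Vale.Agent.P098.Exact.Sos6.Q93.Box59B0
import Vale.Agent.P098.Exact.Sos6.Q93.Box59B1
import Vale.Agent.P098.Exact.Sos6.Q93.Box59B2
import Vale.Agent.P098.Exact.Sos6.Q93.Box59B3
import Vale.Agent.P098.Exact.Sos6.Q93.Box59B4
import Vale.Agent.P098.Exact.Sos6.Q93.Box59B5
import Vale.Agent.P098.Exact.Sos6.Q93.Box59B6
import Vale.Agent.P098.Exact.Sos6.Q93.Box59B7

/-! Generated data of the dimension six interior check. -/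

noncomputable section

namespace Vale.Agent.P098.Exact.Sos6.Q93

set_option maxRecDepth 100000

theorem pay59 : dtbl.payOK 190 dD59 dE59 (elTot els59) = true := by decide +kernel

theorem rls_ok59 : ∀ G ∈ rls59, ∃ Ns, tbl.facR 72 b0 28 22 Ns G = true := by
  intro G hG
  simp only [rls59, List.mem_cons, List.not_mem_nil, or_false] at hG
  rcases hG with rfl | rfl | rfl | rfl | rfl | rfl | rfl | rfl | rfl | rfl | rfl | rfl | rfl | rfl | rfl | rfl | rfl | rfl | rfl | rfl | rfl | rfl | rfl | rfl | rfl | rfl | rfl | rfl | rfl | rfl | rfl | rfl | rfl | rfl | rfl | rfl | rfl | rfl | rfl | rfl | rfl | rfl | rfl | rfl | rfl | rfl | rfl | rfl | rfl | rfl | rfl | rfl | rfl | rfl | rfl | rfl | rfl | rfl | rfl | rfl | rfl | rfl | rfl | rfl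
  · exact ⟨_, fac3776⟩
  · exact ⟨_, fac3777⟩
  · exact ⟨_, fac3778⟩
  · exact ⟨_, fac3779⟩
  · exact ⟨_, fac3780⟩
  · exact ⟨_, fac3781⟩
  · exact ⟨_, fac3782⟩
  · exact ⟨_, fac3783⟩
  · exact ⟨_, fac3784⟩
  · exact ⟨_, fac3785⟩
  · exact ⟨_, fac3786⟩
  · exact ⟨_, fac3787⟩
  · exact ⟨_, fac3788⟩
  · exact ⟨_, fac3789⟩
  · exact ⟨_, fac3790⟩
  · exact ⟨_, fac3791⟩
  · exact ⟨_, fac3792⟩
  · exact ⟨_, fac3793⟩
  · exact ⟨_, fac3794⟩
  · exact ⟨_, fac3795⟩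
  · exact ⟨_, fac3796⟩
  · exact ⟨_, fac3797⟩
  · exact ⟨_, fac3798⟩
  · exact ⟨_, fac3799⟩
  · exact ⟨_, fac3800⟩
  · exact ⟨_, fac3801⟩
  · exact ⟨_, fac3802⟩
  · exact ⟨_, fac3803⟩
  · exact ⟨_, fac3804⟩
  · exact ⟨_, fac3805⟩
  · exact ⟨_, fac3806⟩
  · exact ⟨_, fac3807⟩
  · exact ⟨_, fac3808⟩
  · exact ⟨_, fac3809⟩
  · exact ⟨_, fac3810⟩
  · exact ⟨_, fac3811⟩
  · exact ⟨_, fac3812⟩
  · exact ⟨_, fac3813⟩
  · exact ⟨_, fac3814⟩
  · exact ⟨_, fac3815⟩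
  · exact ⟨_, fac3816⟩
  · exact ⟨_, fac3817⟩
  · exact ⟨_, fac3818⟩
  · exact ⟨_, fac3819⟩
  · exact ⟨_, fac3820⟩
  · exact ⟨_, fac3821⟩
  · exact ⟨_, fac3822⟩
  · exact ⟨_, fac3823⟩
  · exact ⟨_, fac3824⟩
  · exact ⟨_, fac3825⟩
  · exact ⟨_, fac3826⟩
  · exact ⟨_, fac3827⟩
  · exact ⟨_, fac3828⟩
  · exact ⟨_, fac3829⟩
  · exact ⟨_, fac3830⟩
  · exact ⟨_, fac3831⟩
  · exact ⟨_, fac3832⟩
  · exact ⟨_, fac3833⟩
  · exact ⟨_, fac3834⟩
  · exact ⟨_, fac3835⟩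
  · exact ⟨_, fac3836⟩
  · exact ⟨_, fac3837⟩
  · exact ⟨_, fac3838⟩
  · exact ⟨_, fac3839⟩

theorem good59 : bx59.GoodK ((an : ℝ) / 100) (L.map (ITerm.term den)) (L2.map (ITerm.term den))
    (KL.map (KI.term den)) delta :=
  goodK_of_checkR an den (by decide) L L2 KL dtbl dtbl_ok rfl codes posN rowsA rowsB rowsC rows_tbl 12 256 8 72 b0 28 22
    (by decide) parts_ok (by decide +kernel) slice_ok lit_ok 1 (by decide +kernel) delta bx59 hd59
    (by decide) rls59 rls_ok59 (by decide) (planOf lams59) 190 dD59 dE59 els59 rfl pay59 delta_le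
    (fun b hb => by
      interval_cases b
      · exact bucket59_0
      · exact bucket59_1
      · exact bucket59_2
      · exact bucket59_3
      · exact bucket59_4
      · exact bucket59_5
      · exact bucket59_6
      · exact bucket59_7)

end Vale.Agent.P098.Exact.Sos6.Q93
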