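import Vale.Agent.P098.Exact.Sos6.Q93.Common
import Vale.Agent.P098.Exact.Sos6.Q93.Box5B0
import Vale.Agent.P098.Exact.Sos6.Q93.Box5B1
import Vale.Agent.P098.Exact.Sos6.Q93.Box5B2
import Vale.Agent.P098.Exact.Sos6.Q93.Box5B3
import Vale.Agent.P098.Exact.Sos6.Q93.Box5B4
import Vale.Agent.P098.Exact.Sos6.Q93.Box5B5
import Vale.Agent.P098.Exact.Sos6.Q93.Box5B6
import Vale.Agent.P098.Exact.Sos6.Q93.Box5B7

/-! Generated data of the dimension six interior check. -/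

noncomputable section

namespace Vale.Agent.P098.Exact.Sos6.Q93

set_option maxRecDepth 100000

theorem pay5 : dtbl.payOK 190 dD5 dE5 (elTot els5) = true := by decide +kernel

theorem rls_ok5 : ∀ G ∈ rls5, ∃ Ns, tbl.facR 72 b0 28 22 Ns G = true := by
  intro G hG
  simp only [rls5, List.mem_cons, List.not_mem_nil, or_false] at hG
  rcases hG with rfl | rfl | rfl | rfl | rfl | rfl | rfl | rfl | rfl | rfl | rfl | rfl | rfl | rfl | rfl | rfl | rfl | rfl | rfl | rfl | rfl | rfl | rfl | rfl | rfl | rfl | rfl | rfl | rfl | rfl | rfl | rfl | rfl | rfl | rfl | rfl | rfl | rfl | rfl | rfl | rfl | rfl | rfl | rfl | rfl | rfl | rfl | rfl | rfl | rfl | rfl | rfl | rfl | rfl | rfl | rfl | rfl | rfl | rfl | rfl | rfl | rfl | rfl | rfl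
  · exact ⟨_, fac320⟩
  · exact ⟨_, fac321⟩
  · exact ⟨_, fac322⟩
  · exact ⟨_, fac323⟩
  · exact ⟨_, fac324⟩
  · exact ⟨_, fac325⟩
  · exact ⟨_, fac326⟩
  · exact ⟨_, fac327⟩
  · exact ⟨_, fac328⟩
  · exact ⟨_, fac329⟩
  · exact ⟨_, fac330⟩
  · exact ⟨_, fac331⟩
  · exact ⟨_, fac332⟩
  · exact ⟨_, fac333⟩
  · exact ⟨_, fac334⟩
  · exact ⟨_, fac335⟩
  · exact ⟨_, fac336⟩
  · exact ⟨_, fac337⟩
  · exact ⟨_, fac338⟩
  · exact ⟨_, fac339⟩
  · exact ⟨_, fac340⟩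
  · exact ⟨_, fac341⟩
  · exact ⟨_, fac342⟩
  · exact ⟨_, fac343⟩
  · exact ⟨_, fac344⟩
  · exact ⟨_, fac345⟩
  · exact ⟨_, fac346⟩
  · exact ⟨_, fac347⟩
  · exact ⟨_, fac348⟩
  · exact ⟨_, fac349⟩
  · exact ⟨_, fac350⟩
  · exact ⟨_, fac351⟩
  · exact ⟨_, fac352⟩
  · exact ⟨_, fac353⟩
  · exact ⟨_, fac354⟩
  · exact ⟨_, fac355⟩
  · exact ⟨_, fac356⟩
  · exact ⟨_, fac357⟩
  · exact ⟨_, fac358⟩
  · exact ⟨_, fac359⟩
  · exact ⟨_, fac360⟩
  · exact ⟨_, fac361⟩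
  · exact ⟨_, fac362⟩
  · exact ⟨_, fac363⟩
  · exact ⟨_, fac364⟩
  · exact ⟨_, fac365⟩
  · exact ⟨_, fac366⟩
  · exact ⟨_, fac367⟩
  · exact ⟨_, fac368⟩
  · exact ⟨_, fac369⟩
  · exact ⟨_, fac370⟩
  · exact ⟨_, fac371⟩
  · exact ⟨_, fac372⟩
  · exact ⟨_, fac373⟩
  · exact ⟨_, fac374⟩
  · exact ⟨_, fac375⟩
  · exact ⟨_, fac376⟩
  · exact ⟨_, fac377⟩
  · exact ⟨_, fac378⟩
  · exact ⟨_, fac379⟩
  · exact ⟨_, fac380⟩
  · exact ⟨_, fac381⟩
  · exact ⟨_, fac382⟩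
  · exact ⟨_, fac383⟩

theorem good5 : bx5.GoodK ((an : ℝ) / 100) (L.map (ITerm.term den)) (L2.map (ITerm.term den))
    (KL.map (KI.term den)) delta :=
  goodK_of_checkR an den (by decide) L L2 KL dtbl dtbl_ok rfl codes posN rowsA rowsB rowsC rows_tbl 12 256 8 72 b0 28 22
    (by decide) parts_ok (by decide +kernel) slice_ok lit_ok 1 (by decide +kernel) delta bx5 hd5
    (by decide) rls5 rls_ok5 (by decide) (planOf lams5) 190 dD5 dE5 els5 rfl pay5 delta_le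
    (fun b hb => by
      interval_cases b
      · exact bucket5_0
      · exact bucket5_1
      · exact bucket5_2
      · exact bucket5_3
      · exact bucket5_4
      · exact bucket5_5
      · exact bucket5_6
      · exact bucket5_7)

end Vale.Agent.P098.Exact.Sos6.Q93
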