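import Vale.Agent.P098.Exact.Sos6.Q93.Common
import Vale.Agent.P098.Exact.Sos6.Q93.Box60B0
import Vale.Agent.P098.Exact.Sos6.Q93.Box60B1
import Vale.Agent.P098.Exact.Sos6.Q93.Box60B2
import Vale.Agent.P098.Exact.Sos6.Q93.Box60B3
import Vale.Agent.P098.Exact.Sos6.Q93.Box60B4
import Vale.Agent.P098.Exact.Sos6.Q93.Box60B5
import Vale.Agent.P098.Exact.Sos6.Q93.Box60B6
import Vale.Agent.P098.Exact.Sos6.Q93.Box60B7

/-! Generated data of the dimension six interior check. -/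

noncomputable section

namespace Vale.Agent.P098.Exact.Sos6.Q93

set_option maxRecDepth 100000

theorem pay60 : dtbl.payOK 190 dD60 dE60 (elTot els60) = true := by decide +kernel

theorem rls_ok60 : ∀ G ∈ rls60, ∃ Ns, tbl.facR 72 b0 28 22 Ns G = true := by
  intro G hG
  simp only [rls60, List.mem_cons, List.not_mem_nil, or_false] at hG
  rcases hG with rfl | rfl | rfl | rfl | rfl | rfl | rfl | rfl | rfl | rfl | rfl | rfl | rfl | rfl | rfl | rfl | rfl | rfl | rfl | rfl | rfl | rfl | rfl | rfl | rfl | rfl | rfl | rfl | rfl | rfl | rfl | rfl | rfl | rfl | rfl | rfl | rfl | rfl | rfl | rfl | rfl | rfl | rfl | rfl | rfl | rfl | rfl | rfl | rfl | rfl | rfl | rfl | rfl | rfl | rfl | rfl | rfl | rfl | rfl | rfl | rfl | rfl | rfl | rfl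
  · exact ⟨_, fac3840⟩
  · exact ⟨_, fac3841⟩
  · exact ⟨_, fac3842⟩
  · exact ⟨_, fac3843⟩
  · exact ⟨_, fac3844⟩
  · exact ⟨_, fac3845⟩
  · exact ⟨_, fac3846⟩
  · exact ⟨_, fac3847⟩
  · exact ⟨_, fac3848⟩
  · exact ⟨_, fac3849⟩
  · exact ⟨_, fac3850⟩
  · exact ⟨_, fac3851⟩
  · exact ⟨_, fac3852⟩
  · exact ⟨_, fac3853⟩
  · exact ⟨_, fac3854⟩
  · exact ⟨_, fac3855⟩
  · exact ⟨_, fac3856⟩
  · exact ⟨_, fac3857⟩
  · exact ⟨_, fac3858⟩
  · exact ⟨_, fac3859⟩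
  · exact ⟨_, fac3860⟩
  · exact ⟨_, fac3861⟩
  · exact ⟨_, fac3862⟩
  · exact ⟨_, fac3863⟩
  · exact ⟨_, fac3864⟩
  · exact ⟨_, fac3865⟩
  · exact ⟨_, fac3866⟩
  · exact ⟨_, fac3867⟩
  · exact ⟨_, fac3868⟩
  · exact ⟨_, fac3869⟩
  · exact ⟨_, fac3870⟩
  · exact ⟨_, fac3871⟩
  · exact ⟨_, fac3872⟩
  · exact ⟨_, fac3873⟩
  · exact ⟨_, fac3874⟩
  · exact ⟨_, fac3875⟩
  · exact ⟨_, fac3876⟩
  · exact ⟨_, fac3877⟩
  · exact ⟨_, fac3878⟩
  · exact ⟨_, fac3879⟩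
  · exact ⟨_, fac3880⟩
  · exact ⟨_, fac3881⟩
  · exact ⟨_, fac3882⟩
  · exact ⟨_, fac3883⟩
  · exact ⟨_, fac3884⟩
  · exact ⟨_, fac3885⟩
  · exact ⟨_, fac3886⟩
  · exact ⟨_, fac3887⟩
  · exact ⟨_, fac3888⟩
  · exact ⟨_, fac3889⟩
  · exact ⟨_, fac3890⟩
  · exact ⟨_, fac3891⟩
  · exact ⟨_, fac3892⟩
  · exact ⟨_, fac3893⟩
  · exact ⟨_, fac3894⟩
  · exact ⟨_, fac3895⟩
  · exact ⟨_, fac3896⟩
  · exact ⟨_, fac3897⟩
  · exact ⟨_, fac3898⟩
  · exact ⟨_, fac3899⟩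
  · exact ⟨_, fac3900⟩
  · exact ⟨_, fac3901⟩
  · exact ⟨_, fac3902⟩
  · exact ⟨_, fac3903⟩

theorem good60 : bx60.GoodK ((an : ℝ) / 100) (L.map (ITerm.term den)) (L2.map (ITerm.term den))
    (KL.map (KI.term den)) delta :=
  goodK_of_checkR an den (by decide) L L2 KL dtbl dtbl_ok rfl codes posN rowsA rowsB rowsC rows_tbl 12 256 8 72 b0 28 22
    (by decide) parts_ok (by decide +kernel) slice_ok lit_ok 1 (by decide +kernel) delta bx60 hd60
    (by decide) rls60 rls_ok60 (by decide) (planOf lams60) 190 dD60 dE60 els60 rfl pay60 delta_le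
    (fun b hb => by
      interval_cases b
      · exact bucket60_0
      · exact bucket60_1
      · exact bucket60_2
      · exact bucket60_3
      · exact bucket60_4
      · exact bucket60_5
      · exact bucket60_6
      · exact bucket60_7)

end Vale.Agent.P098.Exact.Sos6.Q93
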