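import Vale.Agent.P098.Exact.Sos6.Q93.Common
import Vale.Agent.P098.Exact.Sos6.Q93.Box61B0
import Vale.Agent.P098.Exact.Sos6.Q93.Box61B1
import Vale.Agent.P098.Exact.Sos6.Q93.Box61B2
import Vale.Agent.P098.Exact.Sos6.Q93.Box61B3
import Vale.Agent.P098.Exact.Sos6.Q93.Box61B4
import Vale.Agent.P098.Exact.Sos6.Q93.Box61B5
import Vale.Agent.P098.Exact.Sos6.Q93.Box61B6
import Vale.Agent.P098.Exact.Sos6.Q93.Box61B7

/-! Generated data of the dimension six interior check. -/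

noncomputable section

namespace Vale.Agent.P098.Exact.Sos6.Q93

set_option maxRecDepth 100000

theorem pay61 : dtbl.payOK 190 dD61 dE61 (elTot els61) = true := by decide +kernel

theorem rls_ok61 : ∀ G ∈ rls61, ∃ Ns, tbl.facR 72 b0 28 22 Ns G = true := by
  intro G hG
  simp only [rls61, List.mem_cons, List.not_mem_nil, or_false] at hG
  rcases hG with rfl | rfl | rfl | rfl | rfl | rfl | rfl | rfl | rfl | rfl | rfl | rfl | rfl | rfl | rfl | rfl | rfl | rfl | rfl | rfl | rfl | rfl | rfl | rfl | rfl | rfl | rfl | rfl | rfl | rfl | rfl | rfl | rfl | rfl | rfl | rfl | rfl | rfl | rfl | rfl | rfl | rfl | rfl | rfl | rfl | rfl | rfl | rfl | rfl | rfl | rfl | rfl | rfl | rfl | rfl | rfl | rfl | rfl | rfl | rfl | rfl | rfl | rfl | rfl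
  · exact ⟨_, fac3904⟩
  · exact ⟨_, fac3905⟩
  · exact ⟨_, fac3906⟩
  · exact ⟨_, fac3907⟩
  · exact ⟨_, fac3908⟩
  · exact ⟨_, fac3909⟩
  · exact ⟨_, fac3910⟩
  · exact ⟨_, fac3911⟩
  · exact ⟨_, fac3912⟩
  · exact ⟨_, fac3913⟩
  · exact ⟨_, fac3914⟩
  · exact ⟨_, fac3915⟩
  · exact ⟨_, fac3916⟩
  · exact ⟨_, fac3917⟩
  · exact ⟨_, fac3918⟩
  · exact ⟨_, fac3919⟩
  · exact ⟨_, fac3920⟩
  · exact ⟨_, fac3921⟩
  · exact ⟨_, fac3922⟩
  · exact ⟨_, fac3923⟩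
  · exact ⟨_, fac3924⟩
  · exact ⟨_, fac3925⟩
  · exact ⟨_, fac3926⟩
  · exact ⟨_, fac3927⟩
  · exact ⟨_, fac3928⟩
  · exact ⟨_, fac3929⟩
  · exact ⟨_, fac3930⟩
  · exact ⟨_, fac3931⟩
  · exact ⟨_, fac3932⟩
  · exact ⟨_, fac3933⟩
  · exact ⟨_, fac3934⟩
  · exact ⟨_, fac3935⟩
  · exact ⟨_, fac3936⟩
  · exact ⟨_, fac3937⟩
  · exact ⟨_, fac3938⟩
  · exact ⟨_, fac3939⟩
  · exact ⟨_, fac3940⟩
  · exact ⟨_, fac3941⟩
  · exact ⟨_, fac3942⟩
  · exact ⟨_, fac3943⟩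
  · exact ⟨_, fac3944⟩
  · exact ⟨_, fac3945⟩
  · exact ⟨_, fac3946⟩
  · exact ⟨_, fac3947⟩
  · exact ⟨_, fac3948⟩
  · exact ⟨_, fac3949⟩
  · exact ⟨_, fac3950⟩
  · exact ⟨_, fac3951⟩
  · exact ⟨_, fac3952⟩
  · exact ⟨_, fac3953⟩
  · exact ⟨_, fac3954⟩
  · exact ⟨_, fac3955⟩
  · exact ⟨_, fac3956⟩
  · exact ⟨_, fac3957⟩
  · exact ⟨_, fac3958⟩
  · exact ⟨_, fac3959⟩
  · exact ⟨_, fac3960⟩
  · exact ⟨_, fac3961⟩
  · exact ⟨_, fac3962⟩
  · exact ⟨_, fac3963⟩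
  · exact ⟨_, fac3964⟩
  · exact ⟨_, fac3965⟩
  · exact ⟨_, fac3966⟩
  · exact ⟨_, fac3967⟩

theorem good61 : bx61.GoodK ((an : ℝ) / 100) (L.map (ITerm.term den)) (L2.map (ITerm.term den))
    (KL.map (KI.term den)) delta :=
  goodK_of_checkR an den (by decide) L L2 KL dtbl dtbl_ok rfl codes posN rowsA rowsB rowsC rows_tbl 12 256 8 72 b0 28 22
    (by decide) parts_ok (by decide +kernel) slice_ok lit_ok 1 (by decide +kernel) delta bx61 hd61
    (by decide) rls61 rls_ok61 (by decide) (planOf lams61) 190 dD61 dE61 els61 rfl pay61 delta_le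
    (fun b hb => by
      interval_cases b
      · exact bucket61_0
      · exact bucket61_1
      · exact bucket61_2
      · exact bucket61_3
      · exact bucket61_4
      · exact bucket61_5
      · exact bucket61_6
      · exact bucket61_7)

end Vale.Agent.P098.Exact.Sos6.Q93
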