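import Vale.Agent.P098.Exact.Sos6.Q93.Common
import Vale.Agent.P098.Exact.Sos6.Q93.Box62B0
import Vale.Agent.P098.Exact.Sos6.Q93.Box62B1
import Vale.Agent.P098.Exact.Sos6.Q93.Box62B2
import Vale.Agent.P098.Exact.Sos6.Q93.Box62B3
import Vale.Agent.P098.Exact.Sos6.Q93.Box62B4
import Vale.Agent.P098.Exact.Sos6.Q93.Box62B5
import Vale.Agent.P098.Exact.Sos6.Q93.Box62B6
import Vale.Agent.P098.Exact.Sos6.Q93.Box62B7

/-! Generated data of the dimension six interior check. -/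

noncomputable section

namespace Vale.Agent.P098.Exact.Sos6.Q93

set_option maxRecDepth 100000

theorem pay62 : dtbl.payOK 190 dD62 dE62 (elTot els62) = true := by decide +kernel

theorem rls_ok62 : ∀ G ∈ rls62, ∃ Ns, tbl.facR 72 b0 28 22 Ns G = true := by
  intro G hG
  simp only [rls62, List.mem_cons, List.not_mem_nil, or_false] at hG
  rcases hG with rfl | rfl | rfl | rfl | rfl | rfl | rfl | rfl | rfl | rfl | rfl | rfl | rfl | rfl | rfl | rfl | rfl | rfl | rfl | rfl | rfl | rfl | rfl | rfl | rfl | rfl | rfl | rfl | rfl | rfl | rfl | rfl | rfl | rfl | rfl | rfl | rfl | rfl | rfl | rfl | rfl | rfl | rfl | rfl | rfl | rfl | rfl | rfl | rfl | rfl | rfl | rfl | rfl | rfl | rfl | rfl | rfl | rfl | rfl | rfl | rfl | rfl | rfl | rfl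
  · exact ⟨_, fac3968⟩
  · exact ⟨_, fac3969⟩
  · exact ⟨_, fac3970⟩
  · exact ⟨_, fac3971⟩
  · exact ⟨_, fac3972⟩
  · exact ⟨_, fac3973⟩
  · exact ⟨_, fac3974⟩
  · exact ⟨_, fac3975⟩
  · exact ⟨_, fac3976⟩
  · exact ⟨_, fac3977⟩
  · exact ⟨_, fac3978⟩
  · exact ⟨_, fac3979⟩
  · exact ⟨_, fac3980⟩
  · exact ⟨_, fac3981⟩
  · exact ⟨_, fac3982⟩
  · exact ⟨_, fac3983⟩
  · exact ⟨_, fac3984⟩
  · exact ⟨_, fac3985⟩
  · exact ⟨_, fac3986⟩
  · exact ⟨_, fac3987⟩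
  · exact ⟨_, fac3988⟩
  · exact ⟨_, fac3989⟩
  · exact ⟨_, fac3990⟩
  · exact ⟨_, fac3991⟩
  · exact ⟨_, fac3992⟩
  · exact ⟨_, fac3993⟩
  · exact ⟨_, fac3994⟩
  · exact ⟨_, fac3995⟩
  · exact ⟨_, fac3996⟩
  · exact ⟨_, fac3997⟩
  · exact ⟨_, fac3998⟩
  · exact ⟨_, fac3999⟩
  · exact ⟨_, fac4000⟩
  · exact ⟨_, fac4001⟩
  · exact ⟨_, fac4002⟩
  · exact ⟨_, fac4003⟩
  · exact ⟨_, fac4004⟩
  · exact ⟨_, fac4005⟩
  · exact ⟨_, fac4006⟩
  · exact ⟨_, fac4007⟩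
  · exact ⟨_, fac4008⟩
  · exact ⟨_, fac4009⟩
  · exact ⟨_, fac4010⟩
  · exact ⟨_, fac4011⟩
  · exact ⟨_, fac4012⟩
  · exact ⟨_, fac4013⟩
  · exact ⟨_, fac4014⟩
  · exact ⟨_, fac4015⟩
  · exact ⟨_, fac4016⟩
  · exact ⟨_, fac4017⟩
  · exact ⟨_, fac4018⟩
  · exact ⟨_, fac4019⟩
  · exact ⟨_, fac4020⟩
  · exact ⟨_, fac4021⟩
  · exact ⟨_, fac4022⟩
  · exact ⟨_, fac4023⟩
  · exact ⟨_, fac4024⟩
  · exact ⟨_, fac4025⟩
  · exact ⟨_, fac4026⟩
  · exact ⟨_, fac4027⟩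
  · exact ⟨_, fac4028⟩
  · exact ⟨_, fac4029⟩
  · exact ⟨_, fac4030⟩
  · exact ⟨_, fac4031⟩

theorem good62 : bx62.GoodK ((an : ℝ) / 100) (L.map (ITerm.term den)) (L2.map (ITerm.term den))
    (KL.map (KI.term den)) delta :=
  goodK_of_checkR an den (by decide) L L2 KL dtbl dtbl_ok rfl codes posN rowsA rowsB rowsC rows_tbl 12 256 8 72 b0 28 22
    (by decide) parts_ok (by decide +kernel) slice_ok lit_ok 1 (by decide +kernel) delta bx62 hd62
    (by decide) rls62 rls_ok62 (by decide) (planOf lams62) 190 dD62 dE62 els62 rfl pay62 delta_le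
    (fun b hb => by
      interval_cases b
      · exact bucket62_0
      · exact bucket62_1
      · exact bucket62_2
      · exact bucket62_3
      · exact bucket62_4
      · exact bucket62_5
      · exact bucket62_6
      · exact bucket62_7)

end Vale.Agent.P098.Exact.Sos6.Q93
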