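import Vale.Agent.P098.Exact.Sos6.Q93.Common
import Vale.Agent.P098.Exact.Sos6.Q93.Box63B0
import Vale.Agent.P098.Exact.Sos6.Q93.Box63B1
import Vale.Agent.P098.Exact.Sos6.Q93.Box63B2
import Vale.Agent.P098.Exact.Sos6.Q93.Box63B3
import Vale.Agent.P098.Exact.Sos6.Q93.Box63B4
import Vale.Agent.P098.Exact.Sos6.Q93.Box63B5
import Vale.Agent.P098.Exact.Sos6.Q93.Box63B6
import Vale.Agent.P098.Exact.Sos6.Q93.Box63B7

/-! Generated data of the dimension six interior check. -/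

noncomputable section

namespace Vale.Agent.P098.Exact.Sos6.Q93

set_option maxRecDepth 100000

theorem pay63 : dtbl.payOK 190 dD63 dE63 (elTot els63) = true := by decide +kernel

theorem rls_ok63 : ∀ G ∈ rls63, ∃ Ns, tbl.facR 72 b0 28 22 Ns G = true := by
  intro G hG
  simp only [rls63, List.mem_cons, List.not_mem_nil, or_false] at hG
  rcases hG with rfl | rfl | rfl | rfl | rfl | rfl | rfl | rfl | rfl | rfl | rfl | rfl | rfl | rfl | rfl | rfl | rfl | rfl | rfl | rfl | rfl | rfl | rfl | rfl | rfl | rfl | rfl | rfl | rfl | rfl | rfl | rfl | rfl | rfl | rfl | rfl | rfl | rfl | rfl | rfl | rfl | rfl | rfl | rfl | rfl | rfl | rfl | rfl | rfl | rfl | rfl | rfl | rfl | rfl | rfl | rfl | rfl | rfl | rfl | rfl | rfl | rfl | rfl | rfl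
  · exact ⟨_, fac4032⟩
  · exact ⟨_, fac4033⟩
  · exact ⟨_, fac4034⟩
  · exact ⟨_, fac4035⟩
  · exact ⟨_, fac4036⟩
  · exact ⟨_, fac4037⟩
  · exact ⟨_, fac4038⟩
  · exact ⟨_, fac4039⟩
  · exact ⟨_, fac4040⟩
  · exact ⟨_, fac4041⟩
  · exact ⟨_, fac4042⟩
  · exact ⟨_, fac4043⟩
  · exact ⟨_, fac4044⟩
  · exact ⟨_, fac4045⟩
  · exact ⟨_, fac4046⟩
  · exact ⟨_, fac4047⟩
  · exact ⟨_, fac4048⟩
  · exact ⟨_, fac4049⟩
  · exact ⟨_, fac4050⟩
  · exact ⟨_, fac4051⟩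
  · exact ⟨_, fac4052⟩
  · exact ⟨_, fac4053⟩
  · exact ⟨_, fac4054⟩
  · exact ⟨_, fac4055⟩
  · exact ⟨_, fac4056⟩
  · exact ⟨_, fac4057⟩
  · exact ⟨_, fac4058⟩
  · exact ⟨_, fac4059⟩
  · exact ⟨_, fac4060⟩
  · exact ⟨_, fac4061⟩
  · exact ⟨_, fac4062⟩
  · exact ⟨_, fac4063⟩
  · exact ⟨_, fac4064⟩
  · exact ⟨_, fac4065⟩
  · exact ⟨_, fac4066⟩
  · exact ⟨_, fac4067⟩
  · exact ⟨_, fac4068⟩
  · exact ⟨_, fac4069⟩
  · exact ⟨_, fac4070⟩
  · exact ⟨_, fac4071⟩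
  · exact ⟨_, fac4072⟩
  · exact ⟨_, fac4073⟩
  · exact ⟨_, fac4074⟩
  · exact ⟨_, fac4075⟩
  · exact ⟨_, fac4076⟩
  · exact ⟨_, fac4077⟩
  · exact ⟨_, fac4078⟩
  · exact ⟨_, fac4079⟩
  · exact ⟨_, fac4080⟩
  · exact ⟨_, fac4081⟩
  · exact ⟨_, fac4082⟩
  · exact ⟨_, fac4083⟩
  · exact ⟨_, fac4084⟩
  · exact ⟨_, fac4085⟩
  · exact ⟨_, fac4086⟩
  · exact ⟨_, fac4087⟩
  · exact ⟨_, fac4088⟩
  · exact ⟨_, fac4089⟩
  · exact ⟨_, fac4090⟩
  · exact ⟨_, fac4091⟩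
  · exact ⟨_, fac4092⟩
  · exact ⟨_, fac4093⟩
  · exact ⟨_, fac4094⟩
  · exact ⟨_, fac4095⟩

theorem good63 : bx63.GoodK ((an : ℝ) / 100) (L.map (ITerm.term den)) (L2.map (ITerm.term den))
    (KL.map (KI.term den)) delta :=
  goodK_of_checkR an den (by decide) L L2 KL dtbl dtbl_ok rfl codes posN rowsA rowsB rowsC rows_tbl 12 256 8 72 b0 28 22
    (by decide) parts_ok (by decide +kernel) slice_ok lit_ok 1 (by decide +kernel) delta bx63 hd63
    (by decide) rls63 rls_ok63 (by decide) (planOf lams63) 190 dD63 dE63 els63 rfl pay63 delta_le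
    (fun b hb => by
      interval_cases b
      · exact bucket63_0
      · exact bucket63_1
      · exact bucket63_2
      · exact bucket63_3
      · exact bucket63_4
      · exact bucket63_5
      · exact bucket63_6
      · exact bucket63_7)

end Vale.Agent.P098.Exact.Sos6.Q93
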