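import Vale.Agent.P098.Exact.Sos6.Q93.Common
import Vale.Agent.P098.Exact.Sos6.Q93.Box66B0
import Vale.Agent.P098.Exact.Sos6.Q93.Box66B1
import Vale.Agent.P098.Exact.Sos6.Q93.Box66B2
import Vale.Agent.P098.Exact.Sos6.Q93.Box66B3
import Vale.Agent.P098.Exact.Sos6.Q93.Box66B4
import Vale.Agent.P098.Exact.Sos6.Q93.Box66B5
import Vale.Agent.P098.Exact.Sos6.Q93.Box66B6
import Vale.Agent.P098.Exact.Sos6.Q93.Box66B7

/-! Generated data of the dimension six interior check. -/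

noncomputable section

namespace Vale.Agent.P098.Exact.Sos6.Q93

set_option maxRecDepth 100000

theorem pay66 : dtbl.payOK 190 dD66 dE66 (elTot els66) = true := by decide +kernel

theorem rls_ok66 : ∀ G ∈ rls66, ∃ Ns, tbl.facR 72 b0 28 22 Ns G = true := by
  intro G hG
  simp only [rls66, List.mem_cons, List.not_mem_nil, or_false] at hG
  rcases hG with rfl | rfl | rfl | rfl | rfl | rfl | rfl | rfl | rfl | rfl | rfl | rfl | rfl | rfl | rfl | rfl | rfl | rfl | rfl | rfl | rfl | rfl | rfl | rfl | rfl | rfl | rfl | rfl | rfl | rfl | rfl | rfl | rfl | rfl | rfl | rfl | rfl | rfl | rfl | rfl | rfl | rfl | rfl | rfl | rfl | rfl | rfl | rfl | rfl | rfl | rfl | rfl | rfl | rfl | rfl | rfl | rfl | rfl | rfl | rfl | rfl | rfl | rfl | rfl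
  · exact ⟨_, fac4224⟩
  · exact ⟨_, fac4225⟩
  · exact ⟨_, fac4226⟩
  · exact ⟨_, fac4227⟩
  · exact ⟨_, fac4228⟩
  · exact ⟨_, fac4229⟩
  · exact ⟨_, fac4230⟩
  · exact ⟨_, fac4231⟩
  · exact ⟨_, fac4232⟩
  · exact ⟨_, fac4233⟩
  · exact ⟨_, fac4234⟩
  · exact ⟨_, fac4235⟩
  · exact ⟨_, fac4236⟩
  · exact ⟨_, fac4237⟩
  · exact ⟨_, fac4238⟩
  · exact ⟨_, fac4239⟩
  · exact ⟨_, fac4240⟩
  · exact ⟨_, fac4241⟩
  · exact ⟨_, fac4242⟩
  · exact ⟨_, fac4243⟩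
  · exact ⟨_, fac4244⟩
  · exact ⟨_, fac4245⟩
  · exact ⟨_, fac4246⟩
  · exact ⟨_, fac4247⟩
  · exact ⟨_, fac4248⟩
  · exact ⟨_, fac4249⟩
  · exact ⟨_, fac4250⟩
  · exact ⟨_, fac4251⟩
  · exact ⟨_, fac4252⟩
  · exact ⟨_, fac4253⟩
  · exact ⟨_, fac4254⟩
  · exact ⟨_, fac4255⟩
  · exact ⟨_, fac4256⟩
  · exact ⟨_, fac4257⟩
  · exact ⟨_, fac4258⟩
  · exact ⟨_, fac4259⟩
  · exact ⟨_, fac4260⟩
  · exact ⟨_, fac4261⟩
  · exact ⟨_, fac4262⟩
  · exact ⟨_, fac4263⟩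
  · exact ⟨_, fac4264⟩
  · exact ⟨_, fac4265⟩
  · exact ⟨_, fac4266⟩
  · exact ⟨_, fac4267⟩
  · exact ⟨_, fac4268⟩
  · exact ⟨_, fac4269⟩
  · exact ⟨_, fac4270⟩
  · exact ⟨_, fac4271⟩
  · exact ⟨_, fac4272⟩
  · exact ⟨_, fac4273⟩
  · exact ⟨_, fac4274⟩
  · exact ⟨_, fac4275⟩
  · exact ⟨_, fac4276⟩
  · exact ⟨_, fac4277⟩
  · exact ⟨_, fac4278⟩
  · exact ⟨_, fac4279⟩
  · exact ⟨_, fac4280⟩
  · exact ⟨_, fac4281⟩
  · exact ⟨_, fac4282⟩
  · exact ⟨_, fac4283⟩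
  · exact ⟨_, fac4284⟩
  · exact ⟨_, fac4285⟩
  · exact ⟨_, fac4286⟩
  · exact ⟨_, fac4287⟩

theorem good66 : bx66.GoodK ((an : ℝ) / 100) (L.map (ITerm.term den)) (L2.map (ITerm.term den))
    (KL.map (KI.term den)) delta :=
  goodK_of_checkR an den (by decide) L L2 KL dtbl dtbl_ok rfl codes posN rowsA rowsB rowsC rows_tbl 12 256 8 72 b0 28 22
    (by decide) parts_ok (by decide +kernel) slice_ok lit_ok 1 (by decide +kernel) delta bx66 hd66
    (by decide) rls66 rls_ok66 (by decide) (planOf lams66) 190 dD66 dE66 els66 rfl pay66 delta_le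
    (fun b hb => by
      interval_cases b
      · exact bucket66_0
      · exact bucket66_1
      · exact bucket66_2
      · exact bucket66_3
      · exact bucket66_4
      · exact bucket66_5
      · exact bucket66_6
      · exact bucket66_7)

end Vale.Agent.P098.Exact.Sos6.Q93
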