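import Vale.Agent.P098.Exact.Sos6.Q93.Common
import Vale.Agent.P098.Exact.Sos6.Q93.Box67B0
import Vale.Agent.P098.Exact.Sos6.Q93.Box67B1
import Vale.Agent.P098.Exact.Sos6.Q93.Box67B2
import Vale.Agent.P098.Exact.Sos6.Q93.Box67B3
import Vale.Agent.P098.Exact.Sos6.Q93.Box67B4
import Vale.Agent.P098.Exact.Sos6.Q93.Box67B5
import Vale.Agent.P098.Exact.Sos6.Q93.Box67B6
import Vale.Agent.P098.Exact.Sos6.Q93.Box67B7

/-! Generated data of the dimension six interior check. -/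

noncomputable section

namespace Vale.Agent.P098.Exact.Sos6.Q93

set_option maxRecDepth 100000

theorem pay67 : dtbl.payOK 190 dD67 dE67 (elTot els67) = true := by decide +kernel

theorem rls_ok67 : ∀ G ∈ rls67, ∃ Ns, tbl.facR 72 b0 28 22 Ns G = true := by
  intro G hG
  simp only [rls67, List.mem_cons, List.not_mem_nil, or_false] at hG
  rcases hG with rfl | rfl | rfl | rfl | rfl | rfl | rfl | rfl | rfl | rfl | rfl | rfl | rfl | rfl | rfl | rfl | rfl | rfl | rfl | rfl | rfl | rfl | rfl | rfl | rfl | rfl | rfl | rfl | rfl | rfl | rfl | rfl | rfl | rfl | rfl | rfl | rfl | rfl | rfl | rfl | rfl | rfl | rfl | rfl | rfl | rfl | rfl | rfl | rfl | rfl | rfl | rfl | rfl | rfl | rfl | rfl | rfl | rfl | rfl | rfl | rfl | rfl | rfl | rfl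
  · exact ⟨_, fac4288⟩
  · exact ⟨_, fac4289⟩
  · exact ⟨_, fac4290⟩
  · exact ⟨_, fac4291⟩
  · exact ⟨_, fac4292⟩
  · exact ⟨_, fac4293⟩
  · exact ⟨_, fac4294⟩
  · exact ⟨_, fac4295⟩
  · exact ⟨_, fac4296⟩
  · exact ⟨_, fac4297⟩
  · exact ⟨_, fac4298⟩
  · exact ⟨_, fac4299⟩
  · exact ⟨_, fac4300⟩
  · exact ⟨_, fac4301⟩
  · exact ⟨_, fac4302⟩
  · exact ⟨_, fac4303⟩
  · exact ⟨_, fac4304⟩
  · exact ⟨_, fac4305⟩
  · exact ⟨_, fac4306⟩
  · exact ⟨_, fac4307⟩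
  · exact ⟨_, fac4308⟩
  · exact ⟨_, fac4309⟩
  · exact ⟨_, fac4310⟩
  · exact ⟨_, fac4311⟩
  · exact ⟨_, fac4312⟩
  · exact ⟨_, fac4313⟩
  · exact ⟨_, fac4314⟩
  · exact ⟨_, fac4315⟩
  · exact ⟨_, fac4316⟩
  · exact ⟨_, fac4317⟩
  · exact ⟨_, fac4318⟩
  · exact ⟨_, fac4319⟩
  · exact ⟨_, fac4320⟩
  · exact ⟨_, fac4321⟩
  · exact ⟨_, fac4322⟩
  · exact ⟨_, fac4323⟩
  · exact ⟨_, fac4324⟩
  · exact ⟨_, fac4325⟩
  · exact ⟨_, fac4326⟩
  · exact ⟨_, fac4327⟩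
  · exact ⟨_, fac4328⟩
  · exact ⟨_, fac4329⟩
  · exact ⟨_, fac4330⟩
  · exact ⟨_, fac4331⟩
  · exact ⟨_, fac4332⟩
  · exact ⟨_, fac4333⟩
  · exact ⟨_, fac4334⟩
  · exact ⟨_, fac4335⟩
  · exact ⟨_, fac4336⟩
  · exact ⟨_, fac4337⟩
  · exact ⟨_, fac4338⟩
  · exact ⟨_, fac4339⟩
  · exact ⟨_, fac4340⟩
  · exact ⟨_, fac4341⟩
  · exact ⟨_, fac4342⟩
  · exact ⟨_, fac4343⟩
  · exact ⟨_, fac4344⟩
  · exact ⟨_, fac4345⟩
  · exact ⟨_, fac4346⟩
  · exact ⟨_, fac4347⟩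
  · exact ⟨_, fac4348⟩
  · exact ⟨_, fac4349⟩
  · exact ⟨_, fac4350⟩
  · exact ⟨_, fac4351⟩

theorem good67 : bx67.GoodK ((an : ℝ) / 100) (L.map (ITerm.term den)) (L2.map (ITerm.term den))
    (KL.map (KI.term den)) delta :=
  goodK_of_checkR an den (by decide) L L2 KL dtbl dtbl_ok rfl codes posN rowsA rowsB rowsC rows_tbl 12 256 8 72 b0 28 22
    (by decide) parts_ok (by decide +kernel) slice_ok lit_ok 1 (by decide +kernel) delta bx67 hd67
    (by decide) rls67 rls_ok67 (by decide) (planOf lams67) 190 dD67 dE67 els67 rfl pay67 delta_le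
    (fun b hb => by
      interval_cases b
      · exact bucket67_0
      · exact bucket67_1
      · exact bucket67_2
      · exact bucket67_3
      · exact bucket67_4
      · exact bucket67_5
      · exact bucket67_6
      · exact bucket67_7)

end Vale.Agent.P098.Exact.Sos6.Q93
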