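import Vale.Agent.P098.Exact.Sos6.Q93.Common
import Vale.Agent.P098.Exact.Sos6.Q93.Box68B0
import Vale.Agent.P098.Exact.Sos6.Q93.Box68B1
import Vale.Agent.P098.Exact.Sos6.Q93.Box68B2
import Vale.Agent.P098.Exact.Sos6.Q93.Box68B3
import Vale.Agent.P098.Exact.Sos6.Q93.Box68B4
import Vale.Agent.P098.Exact.Sos6.Q93.Box68B5
import Vale.Agent.P098.Exact.Sos6.Q93.Box68B6
import Vale.Agent.P098.Exact.Sos6.Q93.Box68B7

/-! Generated data of the dimension six interior check. -/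

noncomputable section

namespace Vale.Agent.P098.Exact.Sos6.Q93

set_option maxRecDepth 100000

theorem pay68 : dtbl.payOK 190 dD68 dE68 (elTot els68) = true := by decide +kernel

theorem rls_ok68 : ∀ G ∈ rls68, ∃ Ns, tbl.facR 72 b0 28 22 Ns G = true := by
  intro G hG
  simp only [rls68, List.mem_cons, List.not_mem_nil, or_false] at hG
  rcases hG with rfl | rfl | rfl | rfl | rfl | rfl | rfl | rfl | rfl | rfl | rfl | rfl | rfl | rfl | rfl | rfl | rfl | rfl | rfl | rfl | rfl | rfl | rfl | rfl | rfl | rfl | rfl | rfl | rfl | rfl | rfl | rfl | rfl | rfl | rfl | rfl | rfl | rfl | rfl | rfl | rfl | rfl | rfl | rfl | rfl | rfl | rfl | rfl | rfl | rfl | rfl | rfl | rfl | rfl | rfl | rfl | rfl | rfl | rfl | rfl | rfl | rfl | rfl | rfl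
  · exact ⟨_, fac4352⟩
  · exact ⟨_, fac4353⟩
  · exact ⟨_, fac4354⟩
  · exact ⟨_, fac4355⟩
  · exact ⟨_, fac4356⟩
  · exact ⟨_, fac4357⟩
  · exact ⟨_, fac4358⟩
  · exact ⟨_, fac4359⟩
  · exact ⟨_, fac4360⟩
  · exact ⟨_, fac4361⟩
  · exact ⟨_, fac4362⟩
  · exact ⟨_, fac4363⟩
  · exact ⟨_, fac4364⟩
  · exact ⟨_, fac4365⟩
  · exact ⟨_, fac4366⟩
  · exact ⟨_, fac4367⟩
  · exact ⟨_, fac4368⟩
  · exact ⟨_, fac4369⟩
  · exact ⟨_, fac4370⟩
  · exact ⟨_, fac4371⟩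
  · exact ⟨_, fac4372⟩
  · exact ⟨_, fac4373⟩
  · exact ⟨_, fac4374⟩
  · exact ⟨_, fac4375⟩
  · exact ⟨_, fac4376⟩
  · exact ⟨_, fac4377⟩
  · exact ⟨_, fac4378⟩
  · exact ⟨_, fac4379⟩
  · exact ⟨_, fac4380⟩
  · exact ⟨_, fac4381⟩
  · exact ⟨_, fac4382⟩
  · exact ⟨_, fac4383⟩
  · exact ⟨_, fac4384⟩
  · exact ⟨_, fac4385⟩
  · exact ⟨_, fac4386⟩
  · exact ⟨_, fac4387⟩
  · exact ⟨_, fac4388⟩
  · exact ⟨_, fac4389⟩
  · exact ⟨_, fac4390⟩
  · exact ⟨_, fac4391⟩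
  · exact ⟨_, fac4392⟩
  · exact ⟨_, fac4393⟩
  · exact ⟨_, fac4394⟩
  · exact ⟨_, fac4395⟩
  · exact ⟨_, fac4396⟩
  · exact ⟨_, fac4397⟩
  · exact ⟨_, fac4398⟩
  · exact ⟨_, fac4399⟩
  · exact ⟨_, fac4400⟩
  · exact ⟨_, fac4401⟩
  · exact ⟨_, fac4402⟩
  · exact ⟨_, fac4403⟩
  · exact ⟨_, fac4404⟩
  · exact ⟨_, fac4405⟩
  · exact ⟨_, fac4406⟩
  · exact ⟨_, fac4407⟩
  · exact ⟨_, fac4408⟩
  · exact ⟨_, fac4409⟩
  · exact ⟨_, fac4410⟩
  · exact ⟨_, fac4411⟩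
  · exact ⟨_, fac4412⟩
  · exact ⟨_, fac4413⟩
  · exact ⟨_, fac4414⟩
  · exact ⟨_, fac4415⟩

theorem good68 : bx68.GoodK ((an : ℝ) / 100) (L.map (ITerm.term den)) (L2.map (ITerm.term den))
    (KL.map (KI.term den)) delta :=
  goodK_of_checkR an den (by decide) L L2 KL dtbl dtbl_ok rfl codes posN rowsA rowsB rowsC rows_tbl 12 256 8 72 b0 28 22
    (by decide) parts_ok (by decide +kernel) slice_ok lit_ok 1 (by decide +kernel) delta bx68 hd68
    (by decide) rls68 rls_ok68 (by decide) (planOf lams68) 190 dD68 dE68 els68 rfl pay68 delta_le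
    (fun b hb => by
      interval_cases b
      · exact bucket68_0
      · exact bucket68_1
      · exact bucket68_2
      · exact bucket68_3
      · exact bucket68_4
      · exact bucket68_5
      · exact bucket68_6
      · exact bucket68_7)

end Vale.Agent.P098.Exact.Sos6.Q93
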