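import Vale.Agent.P098.Exact.Sos6.Q93.Common
import Vale.Agent.P098.Exact.Sos6.Q93.Box69B0
import Vale.Agent.P098.Exact.Sos6.Q93.Box69B1
import Vale.Agent.P098.Exact.Sos6.Q93.Box69B2
import Vale.Agent.P098.Exact.Sos6.Q93.Box69B3
import Vale.Agent.P098.Exact.Sos6.Q93.Box69B4
import Vale.Agent.P098.Exact.Sos6.Q93.Box69B5
import Vale.Agent.P098.Exact.Sos6.Q93.Box69B6
import Vale.Agent.P098.Exact.Sos6.Q93.Box69B7

/-! Generated data of the dimension six interior check. -/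

noncomputable section

namespace Vale.Agent.P098.Exact.Sos6.Q93

set_option maxRecDepth 100000

theorem pay69 : dtbl.payOK 190 dD69 dE69 (elTot els69) = true := by decide +kernel

theorem rls_ok69 : ∀ G ∈ rls69, ∃ Ns, tbl.facR 72 b0 28 22 Ns G = true := by
  intro G hG
  simp only [rls69, List.mem_cons, List.not_mem_nil, or_false] at hG
  rcases hG with rfl | rfl | rfl | rfl | rfl | rfl | rfl | rfl | rfl | rfl | rfl | rfl | rfl | rfl | rfl | rfl | rfl | rfl | rfl | rfl | rfl | rfl | rfl | rfl | rfl | rfl | rfl | rfl | rfl | rfl | rfl | rfl | rfl | rfl | rfl | rfl | rfl | rfl | rfl | rfl | rfl | rfl | rfl | rfl | rfl | rfl | rfl | rfl | rfl | rfl | rfl | rfl | rfl | rfl | rfl | rfl | rfl | rfl | rfl | rfl | rfl | rfl | rfl | rfl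
  · exact ⟨_, fac4416⟩
  · exact ⟨_, fac4417⟩
  · exact ⟨_, fac4418⟩
  · exact ⟨_, fac4419⟩
  · exact ⟨_, fac4420⟩
  · exact ⟨_, fac4421⟩
  · exact ⟨_, fac4422⟩
  · exact ⟨_, fac4423⟩
  · exact ⟨_, fac4424⟩
  · exact ⟨_, fac4425⟩
  · exact ⟨_, fac4426⟩
  · exact ⟨_, fac4427⟩
  · exact ⟨_, fac4428⟩
  · exact ⟨_, fac4429⟩
  · exact ⟨_, fac4430⟩
  · exact ⟨_, fac4431⟩
  · exact ⟨_, fac4432⟩
  · exact ⟨_, fac4433⟩
  · exact ⟨_, fac4434⟩
  · exact ⟨_, fac4435⟩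
  · exact ⟨_, fac4436⟩
  · exact ⟨_, fac4437⟩
  · exact ⟨_, fac4438⟩
  · exact ⟨_, fac4439⟩
  · exact ⟨_, fac4440⟩
  · exact ⟨_, fac4441⟩
  · exact ⟨_, fac4442⟩
  · exact ⟨_, fac4443⟩
  · exact ⟨_, fac4444⟩
  · exact ⟨_, fac4445⟩
  · exact ⟨_, fac4446⟩
  · exact ⟨_, fac4447⟩
  · exact ⟨_, fac4448⟩
  · exact ⟨_, fac4449⟩
  · exact ⟨_, fac4450⟩
  · exact ⟨_, fac4451⟩
  · exact ⟨_, fac4452⟩
  · exact ⟨_, fac4453⟩
  · exact ⟨_, fac4454⟩
  · exact ⟨_, fac4455⟩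
  · exact ⟨_, fac4456⟩
  · exact ⟨_, fac4457⟩
  · exact ⟨_, fac4458⟩
  · exact ⟨_, fac4459⟩
  · exact ⟨_, fac4460⟩
  · exact ⟨_, fac4461⟩
  · exact ⟨_, fac4462⟩
  · exact ⟨_, fac4463⟩
  · exact ⟨_, fac4464⟩
  · exact ⟨_, fac4465⟩
  · exact ⟨_, fac4466⟩
  · exact ⟨_, fac4467⟩
  · exact ⟨_, fac4468⟩
  · exact ⟨_, fac4469⟩
  · exact ⟨_, fac4470⟩
  · exact ⟨_, fac4471⟩
  · exact ⟨_, fac4472⟩
  · exact ⟨_, fac4473⟩
  · exact ⟨_, fac4474⟩
  · exact ⟨_, fac4475⟩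
  · exact ⟨_, fac4476⟩
  · exact ⟨_, fac4477⟩
  · exact ⟨_, fac4478⟩
  · exact ⟨_, fac4479⟩

theorem good69 : bx69.GoodK ((an : ℝ) / 100) (L.map (ITerm.term den)) (L2.map (ITerm.term den))
    (KL.map (KI.term den)) delta :=
  goodK_of_checkR an den (by decide) L L2 KL dtbl dtbl_ok rfl codes posN rowsA rowsB rowsC rows_tbl 12 256 8 72 b0 28 22
    (by decide) parts_ok (by decide +kernel) slice_ok lit_ok 1 (by decide +kernel) delta bx69 hd69
    (by decide) rls69 rls_ok69 (by decide) (planOf lams69) 190 dD69 dE69 els69 rfl pay69 delta_le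
    (fun b hb => by
      interval_cases b
      · exact bucket69_0
      · exact bucket69_1
      · exact bucket69_2
      · exact bucket69_3
      · exact bucket69_4
      · exact bucket69_5
      · exact bucket69_6
      · exact bucket69_7)

end Vale.Agent.P098.Exact.Sos6.Q93
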