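import Vale.Agent.P098.Exact.Sos6.Q93.Common
import Vale.Agent.P098.Exact.Sos6.Q93.Box6B0
import Vale.Agent.P098.Exact.Sos6.Q93.Box6B1
import Vale.Agent.P098.Exact.Sos6.Q93.Box6B2
import Vale.Agent.P098.Exact.Sos6.Q93.Box6B3
import Vale.Agent.P098.Exact.Sos6.Q93.Box6B4
import Vale.Agent.P098.Exact.Sos6.Q93.Box6B5
import Vale.Agent.P098.Exact.Sos6.Q93.Box6B6
import Vale.Agent.P098.Exact.Sos6.Q93.Box6B7

/-! Generated data of the dimension six interior check. -/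

noncomputable section

namespace Vale.Agent.P098.Exact.Sos6.Q93

set_option maxRecDepth 100000

theorem pay6 : dtbl.payOK 190 dD6 dE6 (elTot els6) = true := by decide +kernel

theorem rls_ok6 : ∀ G ∈ rls6, ∃ Ns, tbl.facR 72 b0 28 22 Ns G = true := by
  intro G hG
  simp only [rls6, List.mem_cons, List.not_mem_nil, or_false] at hG
  rcases hG with rfl | rfl | rfl | rfl | rfl | rfl | rfl | rfl | rfl | rfl | rfl | rfl | rfl | rfl | rfl | rfl | rfl | rfl | rfl | rfl | rfl | rfl | rfl | rfl | rfl | rfl | rfl | rfl | rfl | rfl | rfl | rfl | rfl | rfl | rfl | rfl | rfl | rfl | rfl | rfl | rfl | rfl | rfl | rfl | rfl | rfl | rfl | rfl | rfl | rfl | rfl | rfl | rfl | rfl | rfl | rfl | rfl | rfl | rfl | rfl | rfl | rfl | rfl | rfl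
  · exact ⟨_, fac384⟩
  · exact ⟨_, fac385⟩
  · exact ⟨_, fac386⟩
  · exact ⟨_, fac387⟩
  · exact ⟨_, fac388⟩
  · exact ⟨_, fac389⟩
  · exact ⟨_, fac390⟩
  · exact ⟨_, fac391⟩
  · exact ⟨_, fac392⟩
  · exact ⟨_, fac393⟩
  · exact ⟨_, fac394⟩
  · exact ⟨_, fac395⟩
  · exact ⟨_, fac396⟩
  · exact ⟨_, fac397⟩
  · exact ⟨_, fac398⟩
  · exact ⟨_, fac399⟩
  · exact ⟨_, fac400⟩
  · exact ⟨_, fac401⟩
  · exact ⟨_, fac402⟩
  · exact ⟨_, fac403⟩
  · exact ⟨_, fac404⟩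
  · exact ⟨_, fac405⟩
  · exact ⟨_, fac406⟩
  · exact ⟨_, fac407⟩
  · exact ⟨_, fac408⟩
  · exact ⟨_, fac409⟩
  · exact ⟨_, fac410⟩
  · exact ⟨_, fac411⟩
  · exact ⟨_, fac412⟩
  · exact ⟨_, fac413⟩
  · exact ⟨_, fac414⟩
  · exact ⟨_, fac415⟩
  · exact ⟨_, fac416⟩
  · exact ⟨_, fac417⟩
  · exact ⟨_, fac418⟩
  · exact ⟨_, fac419⟩
  · exact ⟨_, fac420⟩
  · exact ⟨_, fac421⟩
  · exact ⟨_, fac422⟩
  · exact ⟨_, fac423⟩
  · exact ⟨_, fac424⟩
  · exact ⟨_, fac425⟩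
  · exact ⟨_, fac426⟩
  · exact ⟨_, fac427⟩
  · exact ⟨_, fac428⟩
  · exact ⟨_, fac429⟩
  · exact ⟨_, fac430⟩
  · exact ⟨_, fac431⟩
  · exact ⟨_, fac432⟩
  · exact ⟨_, fac433⟩
  · exact ⟨_, fac434⟩
  · exact ⟨_, fac435⟩
  · exact ⟨_, fac436⟩
  · exact ⟨_, fac437⟩
  · exact ⟨_, fac438⟩
  · exact ⟨_, fac439⟩
  · exact ⟨_, fac440⟩
  · exact ⟨_, fac441⟩
  · exact ⟨_, fac442⟩
  · exact ⟨_, fac443⟩
  · exact ⟨_, fac444⟩
  · exact ⟨_, fac445⟩
  · exact ⟨_, fac446⟩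
  · exact ⟨_, fac447⟩

theorem good6 : bx6.GoodK ((an : ℝ) / 100) (L.map (ITerm.term den)) (L2.map (ITerm.term den))
    (KL.map (KI.term den)) delta :=
  goodK_of_checkR an den (by decide) L L2 KL dtbl dtbl_ok rfl codes posN rowsA rowsB rowsC rows_tbl 12 256 8 72 b0 28 22
    (by decide) parts_ok (by decide +kernel) slice_ok lit_ok 1 (by decide +kernel) delta bx6 hd6
    (by decide) rls6 rls_ok6 (by decide) (planOf lams6) 190 dD6 dE6 els6 rfl pay6 delta_le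
    (fun b hb => by
      interval_cases b
      · exact bucket6_0
      · exact bucket6_1
      · exact bucket6_2
      · exact bucket6_3
      · exact bucket6_4
      · exact bucket6_5
      · exact bucket6_6
      · exact bucket6_7)

end Vale.Agent.P098.Exact.Sos6.Q93
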