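import Vale.Agent.P098.Exact.Sos6.Q93.Common
import Vale.Agent.P098.Exact.Sos6.Q93.Box70B0
import Vale.Agent.P098.Exact.Sos6.Q93.Box70B1
import Vale.Agent.P098.Exact.Sos6.Q93.Box70B2
import Vale.Agent.P098.Exact.Sos6.Q93.Box70B3
import Vale.Agent.P098.Exact.Sos6.Q93.Box70B4
import Vale.Agent.P098.Exact.Sos6.Q93.Box70B5
import Vale.Agent.P098.Exact.Sos6.Q93.Box70B6
import Vale.Agent.P098.Exact.Sos6.Q93.Box70B7

/-! Generated data of the dimension six interior check. -/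

noncomputable section

namespace Vale.Agent.P098.Exact.Sos6.Q93

set_option maxRecDepth 100000

theorem pay70 : dtbl.payOK 190 dD70 dE70 (elTot els70) = true := by decide +kernel

theorem rls_ok70 : ∀ G ∈ rls70, ∃ Ns, tbl.facR 72 b0 28 22 Ns G = true := by
  intro G hG
  simp only [rls70, List.mem_cons, List.not_mem_nil, or_false] at hG
  rcases hG with rfl | rfl | rfl | rfl | rfl | rfl | rfl | rfl | rfl | rfl | rfl | rfl | rfl | rfl | rfl | rfl | rfl | rfl | rfl | rfl | rfl | rfl | rfl | rfl | rfl | rfl | rfl | rfl | rfl | rfl | rfl | rfl | rfl | rfl | rfl | rfl | rfl | rfl | rfl | rfl | rfl | rfl | rfl | rfl | rfl | rfl | rfl | rfl | rfl | rfl | rfl | rfl | rfl | rfl | rfl | rfl | rfl | rfl | rfl | rfl | rfl | rfl | rfl | rfl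
  · exact ⟨_, fac4480⟩
  · exact ⟨_, fac4481⟩
  · exact ⟨_, fac4482⟩
  · exact ⟨_, fac4483⟩
  · exact ⟨_, fac4484⟩
  · exact ⟨_, fac4485⟩
  · exact ⟨_, fac4486⟩
  · exact ⟨_, fac4487⟩
  · exact ⟨_, fac4488⟩
  · exact ⟨_, fac4489⟩
  · exact ⟨_, fac4490⟩
  · exact ⟨_, fac4491⟩
  · exact ⟨_, fac4492⟩
  · exact ⟨_, fac4493⟩
  · exact ⟨_, fac4494⟩
  · exact ⟨_, fac4495⟩
  · exact ⟨_, fac4496⟩
  · exact ⟨_, fac4497⟩
  · exact ⟨_, fac4498⟩
  · exact ⟨_, fac4499⟩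
  · exact ⟨_, fac4500⟩
  · exact ⟨_, fac4501⟩
  · exact ⟨_, fac4502⟩
  · exact ⟨_, fac4503⟩
  · exact ⟨_, fac4504⟩
  · exact ⟨_, fac4505⟩
  · exact ⟨_, fac4506⟩
  · exact ⟨_, fac4507⟩
  · exact ⟨_, fac4508⟩
  · exact ⟨_, fac4509⟩
  · exact ⟨_, fac4510⟩
  · exact ⟨_, fac4511⟩
  · exact ⟨_, fac4512⟩
  · exact ⟨_, fac4513⟩
  · exact ⟨_, fac4514⟩
  · exact ⟨_, fac4515⟩
  · exact ⟨_, fac4516⟩
  · exact ⟨_, fac4517⟩
  · exact ⟨_, fac4518⟩
  · exact ⟨_, fac4519⟩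
  · exact ⟨_, fac4520⟩
  · exact ⟨_, fac4521⟩
  · exact ⟨_, fac4522⟩
  · exact ⟨_, fac4523⟩
  · exact ⟨_, fac4524⟩
  · exact ⟨_, fac4525⟩
  · exact ⟨_, fac4526⟩
  · exact ⟨_, fac4527⟩
  · exact ⟨_, fac4528⟩
  · exact ⟨_, fac4529⟩
  · exact ⟨_, fac4530⟩
  · exact ⟨_, fac4531⟩
  · exact ⟨_, fac4532⟩
  · exact ⟨_, fac4533⟩
  · exact ⟨_, fac4534⟩
  · exact ⟨_, fac4535⟩
  · exact ⟨_, fac4536⟩
  · exact ⟨_, fac4537⟩
  · exact ⟨_, fac4538⟩
  · exact ⟨_, fac4539⟩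
  · exact ⟨_, fac4540⟩
  · exact ⟨_, fac4541⟩
  · exact ⟨_, fac4542⟩
  · exact ⟨_, fac4543⟩

theorem good70 : bx70.GoodK ((an : ℝ) / 100) (L.map (ITerm.term den)) (L2.map (ITerm.term den))
    (KL.map (KI.term den)) delta :=
  goodK_of_checkR an den (by decide) L L2 KL dtbl dtbl_ok rfl codes posN rowsA rowsB rowsC rows_tbl 12 256 8 72 b0 28 22
    (by decide) parts_ok (by decide +kernel) slice_ok lit_ok 1 (by decide +kernel) delta bx70 hd70
    (by decide) rls70 rls_ok70 (by decide) (planOf lams70) 190 dD70 dE70 els70 rfl pay70 delta_le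
    (fun b hb => by
      interval_cases b
      · exact bucket70_0
      · exact bucket70_1
      · exact bucket70_2
      · exact bucket70_3
      · exact bucket70_4
      · exact bucket70_5
      · exact bucket70_6
      · exact bucket70_7)

end Vale.Agent.P098.Exact.Sos6.Q93
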