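import Vale.Agent.P098.Exact.Sos6.Q93.Common
import Vale.Agent.P098.Exact.Sos6.Q93.Box71B0
import Vale.Agent.P098.Exact.Sos6.Q93.Box71B1
import Vale.Agent.P098.Exact.Sos6.Q93.Box71B2
import Vale.Agent.P098.Exact.Sos6.Q93.Box71B3
import Vale.Agent.P098.Exact.Sos6.Q93.Box71B4
import Vale.Agent.P098.Exact.Sos6.Q93.Box71B5
import Vale.Agent.P098.Exact.Sos6.Q93.Box71B6
import Vale.Agent.P098.Exact.Sos6.Q93.Box71B7

/-! Generated data of the dimension six interior check. -/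

noncomputable section

namespace Vale.Agent.P098.Exact.Sos6.Q93

set_option maxRecDepth 100000

theorem pay71 : dtbl.payOK 190 dD71 dE71 (elTot els71) = true := by decide +kernel

theorem rls_ok71 : ∀ G ∈ rls71, ∃ Ns, tbl.facR 72 b0 28 22 Ns G = true := by
  intro G hG
  simp only [rls71, List.mem_cons, List.not_mem_nil, or_false] at hG
  rcases hG with rfl | rfl | rfl | rfl | rfl | rfl | rfl | rfl | rfl | rfl | rfl | rfl | rfl | rfl | rfl | rfl | rfl | rfl | rfl | rfl | rfl | rfl | rfl | rfl | rfl | rfl | rfl | rfl | rfl | rfl | rfl | rfl | rfl | rfl | rfl | rfl | rfl | rfl | rfl | rfl | rfl | rfl | rfl | rfl | rfl | rfl | rfl | rfl | rfl | rfl | rfl | rfl | rfl | rfl | rfl | rfl | rfl | rfl | rfl | rfl | rfl | rfl | rfl | rfl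
  · exact ⟨_, fac4544⟩
  · exact ⟨_, fac4545⟩
  · exact ⟨_, fac4546⟩
  · exact ⟨_, fac4547⟩
  · exact ⟨_, fac4548⟩
  · exact ⟨_, fac4549⟩
  · exact ⟨_, fac4550⟩
  · exact ⟨_, fac4551⟩
  · exact ⟨_, fac4552⟩
  · exact ⟨_, fac4553⟩
  · exact ⟨_, fac4554⟩
  · exact ⟨_, fac4555⟩
  · exact ⟨_, fac4556⟩
  · exact ⟨_, fac4557⟩
  · exact ⟨_, fac4558⟩
  · exact ⟨_, fac4559⟩
  · exact ⟨_, fac4560⟩
  · exact ⟨_, fac4561⟩
  · exact ⟨_, fac4562⟩
  · exact ⟨_, fac4563⟩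
  · exact ⟨_, fac4564⟩
  · exact ⟨_, fac4565⟩
  · exact ⟨_, fac4566⟩
  · exact ⟨_, fac4567⟩
  · exact ⟨_, fac4568⟩
  · exact ⟨_, fac4569⟩
  · exact ⟨_, fac4570⟩
  · exact ⟨_, fac4571⟩
  · exact ⟨_, fac4572⟩
  · exact ⟨_, fac4573⟩
  · exact ⟨_, fac4574⟩
  · exact ⟨_, fac4575⟩
  · exact ⟨_, fac4576⟩
  · exact ⟨_, fac4577⟩
  · exact ⟨_, fac4578⟩
  · exact ⟨_, fac4579⟩
  · exact ⟨_, fac4580⟩
  · exact ⟨_, fac4581⟩
  · exact ⟨_, fac4582⟩
  · exact ⟨_, fac4583⟩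
  · exact ⟨_, fac4584⟩
  · exact ⟨_, fac4585⟩
  · exact ⟨_, fac4586⟩
  · exact ⟨_, fac4587⟩
  · exact ⟨_, fac4588⟩
  · exact ⟨_, fac4589⟩
  · exact ⟨_, fac4590⟩
  · exact ⟨_, fac4591⟩
  · exact ⟨_, fac4592⟩
  · exact ⟨_, fac4593⟩
  · exact ⟨_, fac4594⟩
  · exact ⟨_, fac4595⟩
  · exact ⟨_, fac4596⟩
  · exact ⟨_, fac4597⟩
  · exact ⟨_, fac4598⟩
  · exact ⟨_, fac4599⟩
  · exact ⟨_, fac4600⟩
  · exact ⟨_, fac4601⟩
  · exact ⟨_, fac4602⟩
  · exact ⟨_, fac4603⟩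
  · exact ⟨_, fac4604⟩
  · exact ⟨_, fac4605⟩
  · exact ⟨_, fac4606⟩
  · exact ⟨_, fac4607⟩

theorem good71 : bx71.GoodK ((an : ℝ) / 100) (L.map (ITerm.term den)) (L2.map (ITerm.term den))
    (KL.map (KI.term den)) delta :=
  goodK_of_checkR an den (by decide) L L2 KL dtbl dtbl_ok rfl codes posN rowsA rowsB rowsC rows_tbl 12 256 8 72 b0 28 22
    (by decide) parts_ok (by decide +kernel) slice_ok lit_ok 1 (by decide +kernel) delta bx71 hd71
    (by decide) rls71 rls_ok71 (by decide) (planOf lams71) 190 dD71 dE71 els71 rfl pay71 delta_le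
    (fun b hb => by
      interval_cases b
      · exact bucket71_0
      · exact bucket71_1
      · exact bucket71_2
      · exact bucket71_3
      · exact bucket71_4
      · exact bucket71_5
      · exact bucket71_6
      · exact bucket71_7)

end Vale.Agent.P098.Exact.Sos6.Q93
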