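import Vale.Agent.P098.Exact.Sos6.Q93.Common
import Vale.Agent.P098.Exact.Sos6.Q93.Box72B0
import Vale.Agent.P098.Exact.Sos6.Q93.Box72B1
import Vale.Agent.P098.Exact.Sos6.Q93.Box72B2
import Vale.Agent.P098.Exact.Sos6.Q93.Box72B3
import Vale.Agent.P098.Exact.Sos6.Q93.Box72B4
import Vale.Agent.P098.Exact.Sos6.Q93.Box72B5
import Vale.Agent.P098.Exact.Sos6.Q93.Box72B6
import Vale.Agent.P098.Exact.Sos6.Q93.Box72B7

/-! Generated data of the dimension six interior check. -/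

noncomputable section

namespace Vale.Agent.P098.Exact.Sos6.Q93

set_option maxRecDepth 100000

theorem pay72 : dtbl.payOK 190 dD72 dE72 (elTot els72) = true := by decide +kernel

theorem rls_ok72 : ∀ G ∈ rls72, ∃ Ns, tbl.facR 72 b0 28 22 Ns G = true := by
  intro G hG
  simp only [rls72, List.mem_cons, List.not_mem_nil, or_false] at hG
  rcases hG with rfl | rfl | rfl | rfl | rfl | rfl | rfl | rfl | rfl | rfl | rfl | rfl | rfl | rfl | rfl | rfl | rfl | rfl | rfl | rfl | rfl | rfl | rfl | rfl | rfl | rfl | rfl | rfl | rfl | rfl | rfl | rfl | rfl | rfl | rfl | rfl | rfl | rfl | rfl | rfl | rfl | rfl | rfl | rfl | rfl | rfl | rfl | rfl | rfl | rfl | rfl | rfl | rfl | rfl | rfl | rfl | rfl | rfl | rfl | rfl | rfl | rfl | rfl | rfl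
  · exact ⟨_, fac4608⟩
  · exact ⟨_, fac4609⟩
  · exact ⟨_, fac4610⟩
  · exact ⟨_, fac4611⟩
  · exact ⟨_, fac4612⟩
  · exact ⟨_, fac4613⟩
  · exact ⟨_, fac4614⟩
  · exact ⟨_, fac4615⟩
  · exact ⟨_, fac4616⟩
  · exact ⟨_, fac4617⟩
  · exact ⟨_, fac4618⟩
  · exact ⟨_, fac4619⟩
  · exact ⟨_, fac4620⟩
  · exact ⟨_, fac4621⟩
  · exact ⟨_, fac4622⟩
  · exact ⟨_, fac4623⟩
  · exact ⟨_, fac4624⟩
  · exact ⟨_, fac4625⟩
  · exact ⟨_, fac4626⟩
  · exact ⟨_, fac4627⟩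
  · exact ⟨_, fac4628⟩
  · exact ⟨_, fac4629⟩
  · exact ⟨_, fac4630⟩
  · exact ⟨_, fac4631⟩
  · exact ⟨_, fac4632⟩
  · exact ⟨_, fac4633⟩
  · exact ⟨_, fac4634⟩
  · exact ⟨_, fac4635⟩
  · exact ⟨_, fac4636⟩
  · exact ⟨_, fac4637⟩
  · exact ⟨_, fac4638⟩
  · exact ⟨_, fac4639⟩
  · exact ⟨_, fac4640⟩
  · exact ⟨_, fac4641⟩
  · exact ⟨_, fac4642⟩
  · exact ⟨_, fac4643⟩
  · exact ⟨_, fac4644⟩
  · exact ⟨_, fac4645⟩
  · exact ⟨_, fac4646⟩
  · exact ⟨_, fac4647⟩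
  · exact ⟨_, fac4648⟩
  · exact ⟨_, fac4649⟩
  · exact ⟨_, fac4650⟩
  · exact ⟨_, fac4651⟩
  · exact ⟨_, fac4652⟩
  · exact ⟨_, fac4653⟩
  · exact ⟨_, fac4654⟩
  · exact ⟨_, fac4655⟩
  · exact ⟨_, fac4656⟩
  · exact ⟨_, fac4657⟩
  · exact ⟨_, fac4658⟩
  · exact ⟨_, fac4659⟩
  · exact ⟨_, fac4660⟩
  · exact ⟨_, fac4661⟩
  · exact ⟨_, fac4662⟩
  · exact ⟨_, fac4663⟩
  · exact ⟨_, fac4664⟩
  · exact ⟨_, fac4665⟩
  · exact ⟨_, fac4666⟩
  · exact ⟨_, fac4667⟩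
  · exact ⟨_, fac4668⟩
  · exact ⟨_, fac4669⟩
  · exact ⟨_, fac4670⟩
  · exact ⟨_, fac4671⟩

theorem good72 : bx72.GoodK ((an : ℝ) / 100) (L.map (ITerm.term den)) (L2.map (ITerm.term den))
    (KL.map (KI.term den)) delta :=
  goodK_of_checkR an den (by decide) L L2 KL dtbl dtbl_ok rfl codes posN rowsA rowsB rowsC rows_tbl 12 256 8 72 b0 28 22
    (by decide) parts_ok (by decide +kernel) slice_ok lit_ok 1 (by decide +kernel) delta bx72 hd72
    (by decide) rls72 rls_ok72 (by decide) (planOf lams72) 190 dD72 dE72 els72 rfl pay72 delta_le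
    (fun b hb => by
      interval_cases b
      · exact bucket72_0
      · exact bucket72_1
      · exact bucket72_2
      · exact bucket72_3
      · exact bucket72_4
      · exact bucket72_5
      · exact bucket72_6
      · exact bucket72_7)

end Vale.Agent.P098.Exact.Sos6.Q93
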