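import Vale.Agent.P098.Exact.Sos6.Q93.Common
import Vale.Agent.P098.Exact.Sos6.Q93.Box73B0
import Vale.Agent.P098.Exact.Sos6.Q93.Box73B1
import Vale.Agent.P098.Exact.Sos6.Q93.Box73B2
import Vale.Agent.P098.Exact.Sos6.Q93.Box73B3
import Vale.Agent.P098.Exact.Sos6.Q93.Box73B4
import Vale.Agent.P098.Exact.Sos6.Q93.Box73B5
import Vale.Agent.P098.Exact.Sos6.Q93.Box73B6
import Vale.Agent.P098.Exact.Sos6.Q93.Box73B7

/-! Generated data of the dimension six interior check. -/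

noncomputable section

namespace Vale.Agent.P098.Exact.Sos6.Q93

set_option maxRecDepth 100000

theorem pay73 : dtbl.payOK 190 dD73 dE73 (elTot els73) = true := by decide +kernel

theorem rls_ok73 : ∀ G ∈ rls73, ∃ Ns, tbl.facR 72 b0 28 22 Ns G = true := by
  intro G hG
  simp only [rls73, List.mem_cons, List.not_mem_nil, or_false] at hG
  rcases hG with rfl | rfl | rfl | rfl | rfl | rfl | rfl | rfl | rfl | rfl | rfl | rfl | rfl | rfl | rfl | rfl | rfl | rfl | rfl | rfl | rfl | rfl | rfl | rfl | rfl | rfl | rfl | rfl | rfl | rfl | rfl | rfl | rfl | rfl | rfl | rfl | rfl | rfl | rfl | rfl | rfl | rfl | rfl | rfl | rfl | rfl | rfl | rfl | rfl | rfl | rfl | rfl | rfl | rfl | rfl | rfl | rfl | rfl | rfl | rfl | rfl | rfl | rfl | rfl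
  · exact ⟨_, fac4672⟩
  · exact ⟨_, fac4673⟩
  · exact ⟨_, fac4674⟩
  · exact ⟨_, fac4675⟩
  · exact ⟨_, fac4676⟩
  · exact ⟨_, fac4677⟩
  · exact ⟨_, fac4678⟩
  · exact ⟨_, fac4679⟩
  · exact ⟨_, fac4680⟩
  · exact ⟨_, fac4681⟩
  · exact ⟨_, fac4682⟩
  · exact ⟨_, fac4683⟩
  · exact ⟨_, fac4684⟩
  · exact ⟨_, fac4685⟩
  · exact ⟨_, fac4686⟩
  · exact ⟨_, fac4687⟩
  · exact ⟨_, fac4688⟩
  · exact ⟨_, fac4689⟩
  · exact ⟨_, fac4690⟩
  · exact ⟨_, fac4691⟩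
  · exact ⟨_, fac4692⟩
  · exact ⟨_, fac4693⟩
  · exact ⟨_, fac4694⟩
  · exact ⟨_, fac4695⟩
  · exact ⟨_, fac4696⟩
  · exact ⟨_, fac4697⟩
  · exact ⟨_, fac4698⟩
  · exact ⟨_, fac4699⟩
  · exact ⟨_, fac4700⟩
  · exact ⟨_, fac4701⟩
  · exact ⟨_, fac4702⟩
  · exact ⟨_, fac4703⟩
  · exact ⟨_, fac4704⟩
  · exact ⟨_, fac4705⟩
  · exact ⟨_, fac4706⟩
  · exact ⟨_, fac4707⟩
  · exact ⟨_, fac4708⟩
  · exact ⟨_, fac4709⟩
  · exact ⟨_, fac4710⟩
  · exact ⟨_, fac4711⟩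
  · exact ⟨_, fac4712⟩
  · exact ⟨_, fac4713⟩
  · exact ⟨_, fac4714⟩
  · exact ⟨_, fac4715⟩
  · exact ⟨_, fac4716⟩
  · exact ⟨_, fac4717⟩
  · exact ⟨_, fac4718⟩
  · exact ⟨_, fac4719⟩
  · exact ⟨_, fac4720⟩
  · exact ⟨_, fac4721⟩
  · exact ⟨_, fac4722⟩
  · exact ⟨_, fac4723⟩
  · exact ⟨_, fac4724⟩
  · exact ⟨_, fac4725⟩
  · exact ⟨_, fac4726⟩
  · exact ⟨_, fac4727⟩
  · exact ⟨_, fac4728⟩
  · exact ⟨_, fac4729⟩
  · exact ⟨_, fac4730⟩
  · exact ⟨_, fac4731⟩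
  · exact ⟨_, fac4732⟩
  · exact ⟨_, fac4733⟩
  · exact ⟨_, fac4734⟩
  · exact ⟨_, fac4735⟩

theorem good73 : bx73.GoodK ((an : ℝ) / 100) (L.map (ITerm.term den)) (L2.map (ITerm.term den))
    (KL.map (KI.term den)) delta :=
  goodK_of_checkR an den (by decide) L L2 KL dtbl dtbl_ok rfl codes posN rowsA rowsB rowsC rows_tbl 12 256 8 72 b0 28 22
    (by decide) parts_ok (by decide +kernel) slice_ok lit_ok 1 (by decide +kernel) delta bx73 hd73
    (by decide) rls73 rls_ok73 (by decide) (planOf lams73) 190 dD73 dE73 els73 rfl pay73 delta_le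
    (fun b hb => by
      interval_cases b
      · exact bucket73_0
      · exact bucket73_1
      · exact bucket73_2
      · exact bucket73_3
      · exact bucket73_4
      · exact bucket73_5
      · exact bucket73_6
      · exact bucket73_7)

end Vale.Agent.P098.Exact.Sos6.Q93
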