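import Vale.Agent.P098.Exact.Sos6.Q93.Common
import Vale.Agent.P098.Exact.Sos6.Q93.Box74B0
import Vale.Agent.P098.Exact.Sos6.Q93.Box74B1
import Vale.Agent.P098.Exact.Sos6.Q93.Box74B2
import Vale.Agent.P098.Exact.Sos6.Q93.Box74B3
import Vale.Agent.P098.Exact.Sos6.Q93.Box74B4
import Vale.Agent.P098.Exact.Sos6.Q93.Box74B5
import Vale.Agent.P098.Exact.Sos6.Q93.Box74B6
import Vale.Agent.P098.Exact.Sos6.Q93.Box74B7

/-! Generated data of the dimension six interior check. -/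

noncomputable section

namespace Vale.Agent.P098.Exact.Sos6.Q93

set_option maxRecDepth 100000

theorem pay74 : dtbl.payOK 190 dD74 dE74 (elTot els74) = true := by decide +kernel

theorem rls_ok74 : ∀ G ∈ rls74, ∃ Ns, tbl.facR 72 b0 28 22 Ns G = true := by
  intro G hG
  simp only [rls74, List.mem_cons, List.not_mem_nil, or_false] at hG
  rcases hG with rfl | rfl | rfl | rfl | rfl | rfl | rfl | rfl | rfl | rfl | rfl | rfl | rfl | rfl | rfl | rfl | rfl | rfl | rfl | rfl | rfl | rfl | rfl | rfl | rfl | rfl | rfl | rfl | rfl | rfl | rfl | rfl | rfl | rfl | rfl | rfl | rfl | rfl | rfl | rfl | rfl | rfl | rfl | rfl | rfl | rfl | rfl | rfl | rfl | rfl | rfl | rfl | rfl | rfl | rfl | rfl | rfl | rfl | rfl | rfl | rfl | rfl | rfl | rfl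
  · exact ⟨_, fac4736⟩
  · exact ⟨_, fac4737⟩
  · exact ⟨_, fac4738⟩
  · exact ⟨_, fac4739⟩
  · exact ⟨_, fac4740⟩
  · exact ⟨_, fac4741⟩
  · exact ⟨_, fac4742⟩
  · exact ⟨_, fac4743⟩
  · exact ⟨_, fac4744⟩
  · exact ⟨_, fac4745⟩
  · exact ⟨_, fac4746⟩
  · exact ⟨_, fac4747⟩
  · exact ⟨_, fac4748⟩
  · exact ⟨_, fac4749⟩
  · exact ⟨_, fac4750⟩
  · exact ⟨_, fac4751⟩
  · exact ⟨_, fac4752⟩
  · exact ⟨_, fac4753⟩
  · exact ⟨_, fac4754⟩
  · exact ⟨_, fac4755⟩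
  · exact ⟨_, fac4756⟩
  · exact ⟨_, fac4757⟩
  · exact ⟨_, fac4758⟩
  · exact ⟨_, fac4759⟩
  · exact ⟨_, fac4760⟩
  · exact ⟨_, fac4761⟩
  · exact ⟨_, fac4762⟩
  · exact ⟨_, fac4763⟩
  · exact ⟨_, fac4764⟩
  · exact ⟨_, fac4765⟩
  · exact ⟨_, fac4766⟩
  · exact ⟨_, fac4767⟩
  · exact ⟨_, fac4768⟩
  · exact ⟨_, fac4769⟩
  · exact ⟨_, fac4770⟩
  · exact ⟨_, fac4771⟩
  · exact ⟨_, fac4772⟩
  · exact ⟨_, fac4773⟩
  · exact ⟨_, fac4774⟩
  · exact ⟨_, fac4775⟩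
  · exact ⟨_, fac4776⟩
  · exact ⟨_, fac4777⟩
  · exact ⟨_, fac4778⟩
  · exact ⟨_, fac4779⟩
  · exact ⟨_, fac4780⟩
  · exact ⟨_, fac4781⟩
  · exact ⟨_, fac4782⟩
  · exact ⟨_, fac4783⟩
  · exact ⟨_, fac4784⟩
  · exact ⟨_, fac4785⟩
  · exact ⟨_, fac4786⟩
  · exact ⟨_, fac4787⟩
  · exact ⟨_, fac4788⟩
  · exact ⟨_, fac4789⟩
  · exact ⟨_, fac4790⟩
  · exact ⟨_, fac4791⟩
  · exact ⟨_, fac4792⟩
  · exact ⟨_, fac4793⟩
  · exact ⟨_, fac4794⟩
  · exact ⟨_, fac4795⟩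
  · exact ⟨_, fac4796⟩
  · exact ⟨_, fac4797⟩
  · exact ⟨_, fac4798⟩
  · exact ⟨_, fac4799⟩

theorem good74 : bx74.GoodK ((an : ℝ) / 100) (L.map (ITerm.term den)) (L2.map (ITerm.term den))
    (KL.map (KI.term den)) delta :=
  goodK_of_checkR an den (by decide) L L2 KL dtbl dtbl_ok rfl codes posN rowsA rowsB rowsC rows_tbl 12 256 8 72 b0 28 22
    (by decide) parts_ok (by decide +kernel) slice_ok lit_ok 1 (by decide +kernel) delta bx74 hd74
    (by decide) rls74 rls_ok74 (by decide) (planOf lams74) 190 dD74 dE74 els74 rfl pay74 delta_le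
    (fun b hb => by
      interval_cases b
      · exact bucket74_0
      · exact bucket74_1
      · exact bucket74_2
      · exact bucket74_3
      · exact bucket74_4
      · exact bucket74_5
      · exact bucket74_6
      · exact bucket74_7)

end Vale.Agent.P098.Exact.Sos6.Q93
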