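import Vale.Agent.P098.Exact.Sos6.Q93.Common
import Vale.Agent.P098.Exact.Sos6.Q93.Box75B0
import Vale.Agent.P098.Exact.Sos6.Q93.Box75B1
import Vale.Agent.P098.Exact.Sos6.Q93.Box75B2
import Vale.Agent.P098.Exact.Sos6.Q93.Box75B3
import Vale.Agent.P098.Exact.Sos6.Q93.Box75B4
import Vale.Agent.P098.Exact.Sos6.Q93.Box75B5
import Vale.Agent.P098.Exact.Sos6.Q93.Box75B6
import Vale.Agent.P098.Exact.Sos6.Q93.Box75B7

/-! Generated data of the dimension six interior check. -/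

noncomputable section

namespace Vale.Agent.P098.Exact.Sos6.Q93

set_option maxRecDepth 100000

theorem pay75 : dtbl.payOK 190 dD75 dE75 (elTot els75) = true := by decide +kernel

theorem rls_ok75 : ∀ G ∈ rls75, ∃ Ns, tbl.facR 72 b0 28 22 Ns G = true := by
  intro G hG
  simp only [rls75, List.mem_cons, List.not_mem_nil, or_false] at hG
  rcases hG with rfl | rfl | rfl | rfl | rfl | rfl | rfl | rfl | rfl | rfl | rfl | rfl | rfl | rfl | rfl | rfl | rfl | rfl | rfl | rfl | rfl | rfl | rfl | rfl | rfl | rfl | rfl | rfl | rfl | rfl | rfl | rfl | rfl | rfl | rfl | rfl | rfl | rfl | rfl | rfl | rfl | rfl | rfl | rfl | rfl | rfl | rfl | rfl | rfl | rfl | rfl | rfl | rfl | rfl | rfl | rfl | rfl | rfl | rfl | rfl | rfl | rfl | rfl | rfl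
  · exact ⟨_, fac4800⟩
  · exact ⟨_, fac4801⟩
  · exact ⟨_, fac4802⟩
  · exact ⟨_, fac4803⟩
  · exact ⟨_, fac4804⟩
  · exact ⟨_, fac4805⟩
  · exact ⟨_, fac4806⟩
  · exact ⟨_, fac4807⟩
  · exact ⟨_, fac4808⟩
  · exact ⟨_, fac4809⟩
  · exact ⟨_, fac4810⟩
  · exact ⟨_, fac4811⟩
  · exact ⟨_, fac4812⟩
  · exact ⟨_, fac4813⟩
  · exact ⟨_, fac4814⟩
  · exact ⟨_, fac4815⟩
  · exact ⟨_, fac4816⟩
  · exact ⟨_, fac4817⟩
  · exact ⟨_, fac4818⟩
  · exact ⟨_, fac4819⟩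
  · exact ⟨_, fac4820⟩
  · exact ⟨_, fac4821⟩
  · exact ⟨_, fac4822⟩
  · exact ⟨_, fac4823⟩
  · exact ⟨_, fac4824⟩
  · exact ⟨_, fac4825⟩
  · exact ⟨_, fac4826⟩
  · exact ⟨_, fac4827⟩
  · exact ⟨_, fac4828⟩
  · exact ⟨_, fac4829⟩
  · exact ⟨_, fac4830⟩
  · exact ⟨_, fac4831⟩
  · exact ⟨_, fac4832⟩
  · exact ⟨_, fac4833⟩
  · exact ⟨_, fac4834⟩
  · exact ⟨_, fac4835⟩
  · exact ⟨_, fac4836⟩
  · exact ⟨_, fac4837⟩
  · exact ⟨_, fac4838⟩
  · exact ⟨_, fac4839⟩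
  · exact ⟨_, fac4840⟩
  · exact ⟨_, fac4841⟩
  · exact ⟨_, fac4842⟩
  · exact ⟨_, fac4843⟩
  · exact ⟨_, fac4844⟩
  · exact ⟨_, fac4845⟩
  · exact ⟨_, fac4846⟩
  · exact ⟨_, fac4847⟩
  · exact ⟨_, fac4848⟩
  · exact ⟨_, fac4849⟩
  · exact ⟨_, fac4850⟩
  · exact ⟨_, fac4851⟩
  · exact ⟨_, fac4852⟩
  · exact ⟨_, fac4853⟩
  · exact ⟨_, fac4854⟩
  · exact ⟨_, fac4855⟩
  · exact ⟨_, fac4856⟩
  · exact ⟨_, fac4857⟩
  · exact ⟨_, fac4858⟩
  · exact ⟨_, fac4859⟩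
  · exact ⟨_, fac4860⟩
  · exact ⟨_, fac4861⟩
  · exact ⟨_, fac4862⟩
  · exact ⟨_, fac4863⟩

theorem good75 : bx75.GoodK ((an : ℝ) / 100) (L.map (ITerm.term den)) (L2.map (ITerm.term den))
    (KL.map (KI.term den)) delta :=
  goodK_of_checkR an den (by decide) L L2 KL dtbl dtbl_ok rfl codes posN rowsA rowsB rowsC rows_tbl 12 256 8 72 b0 28 22
    (by decide) parts_ok (by decide +kernel) slice_ok lit_ok 1 (by decide +kernel) delta bx75 hd75
    (by decide) rls75 rls_ok75 (by decide) (planOf lams75) 190 dD75 dE75 els75 rfl pay75 delta_le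
    (fun b hb => by
      interval_cases b
      · exact bucket75_0
      · exact bucket75_1
      · exact bucket75_2
      · exact bucket75_3
      · exact bucket75_4
      · exact bucket75_5
      · exact bucket75_6
      · exact bucket75_7)

end Vale.Agent.P098.Exact.Sos6.Q93
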