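import Vale.Agent.P098.Exact.Sos6.Q93.Common
import Vale.Agent.P098.Exact.Sos6.Q93.Box76B0
import Vale.Agent.P098.Exact.Sos6.Q93.Box76B1
import Vale.Agent.P098.Exact.Sos6.Q93.Box76B2
import Vale.Agent.P098.Exact.Sos6.Q93.Box76B3
import Vale.Agent.P098.Exact.Sos6.Q93.Box76B4
import Vale.Agent.P098.Exact.Sos6.Q93.Box76B5
import Vale.Agent.P098.Exact.Sos6.Q93.Box76B6
import Vale.Agent.P098.Exact.Sos6.Q93.Box76B7

/-! Generated data of the dimension six interior check. -/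

noncomputable section

namespace Vale.Agent.P098.Exact.Sos6.Q93

set_option maxRecDepth 100000

theorem pay76 : dtbl.payOK 190 dD76 dE76 (elTot els76) = true := by decide +kernel

theorem rls_ok76 : ∀ G ∈ rls76, ∃ Ns, tbl.facR 72 b0 28 22 Ns G = true := by
  intro G hG
  simp only [rls76, List.mem_cons, List.not_mem_nil, or_false] at hG
  rcases hG with rfl | rfl | rfl | rfl | rfl | rfl | rfl | rfl | rfl | rfl | rfl | rfl | rfl | rfl | rfl | rfl | rfl | rfl | rfl | rfl | rfl | rfl | rfl | rfl | rfl | rfl | rfl | rfl | rfl | rfl | rfl | rfl | rfl | rfl | rfl | rfl | rfl | rfl | rfl | rfl | rfl | rfl | rfl | rfl | rfl | rfl | rfl | rfl | rfl | rfl | rfl | rfl | rfl | rfl | rfl | rfl | rfl | rfl | rfl | rfl | rfl | rfl | rfl | rfl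
  · exact ⟨_, fac4864⟩
  · exact ⟨_, fac4865⟩
  · exact ⟨_, fac4866⟩
  · exact ⟨_, fac4867⟩
  · exact ⟨_, fac4868⟩
  · exact ⟨_, fac4869⟩
  · exact ⟨_, fac4870⟩
  · exact ⟨_, fac4871⟩
  · exact ⟨_, fac4872⟩
  · exact ⟨_, fac4873⟩
  · exact ⟨_, fac4874⟩
  · exact ⟨_, fac4875⟩
  · exact ⟨_, fac4876⟩
  · exact ⟨_, fac4877⟩
  · exact ⟨_, fac4878⟩
  · exact ⟨_, fac4879⟩
  · exact ⟨_, fac4880⟩
  · exact ⟨_, fac4881⟩
  · exact ⟨_, fac4882⟩
  · exact ⟨_, fac4883⟩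
  · exact ⟨_, fac4884⟩
  · exact ⟨_, fac4885⟩
  · exact ⟨_, fac4886⟩
  · exact ⟨_, fac4887⟩
  · exact ⟨_, fac4888⟩
  · exact ⟨_, fac4889⟩
  · exact ⟨_, fac4890⟩
  · exact ⟨_, fac4891⟩
  · exact ⟨_, fac4892⟩
  · exact ⟨_, fac4893⟩
  · exact ⟨_, fac4894⟩
  · exact ⟨_, fac4895⟩
  · exact ⟨_, fac4896⟩
  · exact ⟨_, fac4897⟩
  · exact ⟨_, fac4898⟩
  · exact ⟨_, fac4899⟩
  · exact ⟨_, fac4900⟩
  · exact ⟨_, fac4901⟩
  · exact ⟨_, fac4902⟩
  · exact ⟨_, fac4903⟩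
  · exact ⟨_, fac4904⟩
  · exact ⟨_, fac4905⟩
  · exact ⟨_, fac4906⟩
  · exact ⟨_, fac4907⟩
  · exact ⟨_, fac4908⟩
  · exact ⟨_, fac4909⟩
  · exact ⟨_, fac4910⟩
  · exact ⟨_, fac4911⟩
  · exact ⟨_, fac4912⟩
  · exact ⟨_, fac4913⟩
  · exact ⟨_, fac4914⟩
  · exact ⟨_, fac4915⟩
  · exact ⟨_, fac4916⟩
  · exact ⟨_, fac4917⟩
  · exact ⟨_, fac4918⟩
  · exact ⟨_, fac4919⟩
  · exact ⟨_, fac4920⟩
  · exact ⟨_, fac4921⟩
  · exact ⟨_, fac4922⟩
  · exact ⟨_, fac4923⟩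
  · exact ⟨_, fac4924⟩
  · exact ⟨_, fac4925⟩
  · exact ⟨_, fac4926⟩
  · exact ⟨_, fac4927⟩

theorem good76 : bx76.GoodK ((an : ℝ) / 100) (L.map (ITerm.term den)) (L2.map (ITerm.term den))
    (KL.map (KI.term den)) delta :=
  goodK_of_checkR an den (by decide) L L2 KL dtbl dtbl_ok rfl codes posN rowsA rowsB rowsC rows_tbl 12 256 8 72 b0 28 22
    (by decide) parts_ok (by decide +kernel) slice_ok lit_ok 1 (by decide +kernel) delta bx76 hd76
    (by decide) rls76 rls_ok76 (by decide) (planOf lams76) 190 dD76 dE76 els76 rfl pay76 delta_le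
    (fun b hb => by
      interval_cases b
      · exact bucket76_0
      · exact bucket76_1
      · exact bucket76_2
      · exact bucket76_3
      · exact bucket76_4
      · exact bucket76_5
      · exact bucket76_6
      · exact bucket76_7)

end Vale.Agent.P098.Exact.Sos6.Q93
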