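import Vale.Agent.P098.Exact.Sos6.Q93.Common
import Vale.Agent.P098.Exact.Sos6.Q93.Box77B0
import Vale.Agent.P098.Exact.Sos6.Q93.Box77B1
import Vale.Agent.P098.Exact.Sos6.Q93.Box77B2
import Vale.Agent.P098.Exact.Sos6.Q93.Box77B3
import Vale.Agent.P098.Exact.Sos6.Q93.Box77B4
import Vale.Agent.P098.Exact.Sos6.Q93.Box77B5
import Vale.Agent.P098.Exact.Sos6.Q93.Box77B6
import Vale.Agent.P098.Exact.Sos6.Q93.Box77B7

/-! Generated data of the dimension six interior check. -/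

noncomputable section

namespace Vale.Agent.P098.Exact.Sos6.Q93

set_option maxRecDepth 100000

theorem pay77 : dtbl.payOK 190 dD77 dE77 (elTot els77) = true := by decide +kernel

theorem rls_ok77 : ∀ G ∈ rls77, ∃ Ns, tbl.facR 72 b0 28 22 Ns G = true := by
  intro G hG
  simp only [rls77, List.mem_cons, List.not_mem_nil, or_false] at hG
  rcases hG with rfl | rfl | rfl | rfl | rfl | rfl | rfl | rfl | rfl | rfl | rfl | rfl | rfl | rfl | rfl | rfl | rfl | rfl | rfl | rfl | rfl | rfl | rfl | rfl | rfl | rfl | rfl | rfl | rfl | rfl | rfl | rfl | rfl | rfl | rfl | rfl | rfl | rfl | rfl | rfl | rfl | rfl | rfl | rfl | rfl | rfl | rfl | rfl | rfl | rfl | rfl | rfl | rfl | rfl | rfl | rfl | rfl | rfl | rfl | rfl | rfl | rfl | rfl | rfl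
  · exact ⟨_, fac4928⟩
  · exact ⟨_, fac4929⟩
  · exact ⟨_, fac4930⟩
  · exact ⟨_, fac4931⟩
  · exact ⟨_, fac4932⟩
  · exact ⟨_, fac4933⟩
  · exact ⟨_, fac4934⟩
  · exact ⟨_, fac4935⟩
  · exact ⟨_, fac4936⟩
  · exact ⟨_, fac4937⟩
  · exact ⟨_, fac4938⟩
  · exact ⟨_, fac4939⟩
  · exact ⟨_, fac4940⟩
  · exact ⟨_, fac4941⟩
  · exact ⟨_, fac4942⟩
  · exact ⟨_, fac4943⟩
  · exact ⟨_, fac4944⟩
  · exact ⟨_, fac4945⟩
  · exact ⟨_, fac4946⟩
  · exact ⟨_, fac4947⟩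
  · exact ⟨_, fac4948⟩
  · exact ⟨_, fac4949⟩
  · exact ⟨_, fac4950⟩
  · exact ⟨_, fac4951⟩
  · exact ⟨_, fac4952⟩
  · exact ⟨_, fac4953⟩
  · exact ⟨_, fac4954⟩
  · exact ⟨_, fac4955⟩
  · exact ⟨_, fac4956⟩
  · exact ⟨_, fac4957⟩
  · exact ⟨_, fac4958⟩
  · exact ⟨_, fac4959⟩
  · exact ⟨_, fac4960⟩
  · exact ⟨_, fac4961⟩
  · exact ⟨_, fac4962⟩
  · exact ⟨_, fac4963⟩
  · exact ⟨_, fac4964⟩
  · exact ⟨_, fac4965⟩
  · exact ⟨_, fac4966⟩
  · exact ⟨_, fac4967⟩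
  · exact ⟨_, fac4968⟩
  · exact ⟨_, fac4969⟩
  · exact ⟨_, fac4970⟩
  · exact ⟨_, fac4971⟩
  · exact ⟨_, fac4972⟩
  · exact ⟨_, fac4973⟩
  · exact ⟨_, fac4974⟩
  · exact ⟨_, fac4975⟩
  · exact ⟨_, fac4976⟩
  · exact ⟨_, fac4977⟩
  · exact ⟨_, fac4978⟩
  · exact ⟨_, fac4979⟩
  · exact ⟨_, fac4980⟩
  · exact ⟨_, fac4981⟩
  · exact ⟨_, fac4982⟩
  · exact ⟨_, fac4983⟩
  · exact ⟨_, fac4984⟩
  · exact ⟨_, fac4985⟩
  · exact ⟨_, fac4986⟩
  · exact ⟨_, fac4987⟩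
  · exact ⟨_, fac4988⟩
  · exact ⟨_, fac4989⟩
  · exact ⟨_, fac4990⟩
  · exact ⟨_, fac4991⟩

theorem good77 : bx77.GoodK ((an : ℝ) / 100) (L.map (ITerm.term den)) (L2.map (ITerm.term den))
    (KL.map (KI.term den)) delta :=
  goodK_of_checkR an den (by decide) L L2 KL dtbl dtbl_ok rfl codes posN rowsA rowsB rowsC rows_tbl 12 256 8 72 b0 28 22
    (by decide) parts_ok (by decide +kernel) slice_ok lit_ok 1 (by decide +kernel) delta bx77 hd77
    (by decide) rls77 rls_ok77 (by decide) (planOf lams77) 190 dD77 dE77 els77 rfl pay77 delta_le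
    (fun b hb => by
      interval_cases b
      · exact bucket77_0
      · exact bucket77_1
      · exact bucket77_2
      · exact bucket77_3
      · exact bucket77_4
      · exact bucket77_5
      · exact bucket77_6
      · exact bucket77_7)

end Vale.Agent.P098.Exact.Sos6.Q93
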