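import Vale.Agent.P098.Exact.Sos6.Q93.Common
import Vale.Agent.P098.Exact.Sos6.Q93.Box78B0
import Vale.Agent.P098.Exact.Sos6.Q93.Box78B1
import Vale.Agent.P098.Exact.Sos6.Q93.Box78B2
import Vale.Agent.P098.Exact.Sos6.Q93.Box78B3
import Vale.Agent.P098.Exact.Sos6.Q93.Box78B4
import Vale.Agent.P098.Exact.Sos6.Q93.Box78B5
import Vale.Agent.P098.Exact.Sos6.Q93.Box78B6
import Vale.Agent.P098.Exact.Sos6.Q93.Box78B7

/-! Generated data of the dimension six interior check. -/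

noncomputable section

namespace Vale.Agent.P098.Exact.Sos6.Q93

set_option maxRecDepth 100000

theorem pay78 : dtbl.payOK 190 dD78 dE78 (elTot els78) = true := by decide +kernel

theorem rls_ok78 : ∀ G ∈ rls78, ∃ Ns, tbl.facR 72 b0 28 22 Ns G = true := by
  intro G hG
  simp only [rls78, List.mem_cons, List.not_mem_nil, or_false] at hG
  rcases hG with rfl | rfl | rfl | rfl | rfl | rfl | rfl | rfl | rfl | rfl | rfl | rfl | rfl | rfl | rfl | rfl | rfl | rfl | rfl | rfl | rfl | rfl | rfl | rfl | rfl | rfl | rfl | rfl | rfl | rfl | rfl | rfl | rfl | rfl | rfl | rfl | rfl | rfl | rfl | rfl | rfl | rfl | rfl | rfl | rfl | rfl | rfl | rfl | rfl | rfl | rfl | rfl | rfl | rfl | rfl | rfl | rfl | rfl | rfl | rfl | rfl | rfl | rfl | rfl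
  · exact ⟨_, fac4992⟩
  · exact ⟨_, fac4993⟩
  · exact ⟨_, fac4994⟩
  · exact ⟨_, fac4995⟩
  · exact ⟨_, fac4996⟩
  · exact ⟨_, fac4997⟩
  · exact ⟨_, fac4998⟩
  · exact ⟨_, fac4999⟩
  · exact ⟨_, fac5000⟩
  · exact ⟨_, fac5001⟩
  · exact ⟨_, fac5002⟩
  · exact ⟨_, fac5003⟩
  · exact ⟨_, fac5004⟩
  · exact ⟨_, fac5005⟩
  · exact ⟨_, fac5006⟩
  · exact ⟨_, fac5007⟩
  · exact ⟨_, fac5008⟩
  · exact ⟨_, fac5009⟩
  · exact ⟨_, fac5010⟩
  · exact ⟨_, fac5011⟩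
  · exact ⟨_, fac5012⟩
  · exact ⟨_, fac5013⟩
  · exact ⟨_, fac5014⟩
  · exact ⟨_, fac5015⟩
  · exact ⟨_, fac5016⟩
  · exact ⟨_, fac5017⟩
  · exact ⟨_, fac5018⟩
  · exact ⟨_, fac5019⟩
  · exact ⟨_, fac5020⟩
  · exact ⟨_, fac5021⟩
  · exact ⟨_, fac5022⟩
  · exact ⟨_, fac5023⟩
  · exact ⟨_, fac5024⟩
  · exact ⟨_, fac5025⟩
  · exact ⟨_, fac5026⟩
  · exact ⟨_, fac5027⟩
  · exact ⟨_, fac5028⟩
  · exact ⟨_, fac5029⟩
  · exact ⟨_, fac5030⟩
  · exact ⟨_, fac5031⟩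
  · exact ⟨_, fac5032⟩
  · exact ⟨_, fac5033⟩
  · exact ⟨_, fac5034⟩
  · exact ⟨_, fac5035⟩
  · exact ⟨_, fac5036⟩
  · exact ⟨_, fac5037⟩
  · exact ⟨_, fac5038⟩
  · exact ⟨_, fac5039⟩
  · exact ⟨_, fac5040⟩
  · exact ⟨_, fac5041⟩
  · exact ⟨_, fac5042⟩
  · exact ⟨_, fac5043⟩
  · exact ⟨_, fac5044⟩
  · exact ⟨_, fac5045⟩
  · exact ⟨_, fac5046⟩
  · exact ⟨_, fac5047⟩
  · exact ⟨_, fac5048⟩
  · exact ⟨_, fac5049⟩
  · exact ⟨_, fac5050⟩
  · exact ⟨_, fac5051⟩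
  · exact ⟨_, fac5052⟩
  · exact ⟨_, fac5053⟩
  · exact ⟨_, fac5054⟩
  · exact ⟨_, fac5055⟩

theorem good78 : bx78.GoodK ((an : ℝ) / 100) (L.map (ITerm.term den)) (L2.map (ITerm.term den))
    (KL.map (KI.term den)) delta :=
  goodK_of_checkR an den (by decide) L L2 KL dtbl dtbl_ok rfl codes posN rowsA rowsB rowsC rows_tbl 12 256 8 72 b0 28 22
    (by decide) parts_ok (by decide +kernel) slice_ok lit_ok 1 (by decide +kernel) delta bx78 hd78
    (by decide) rls78 rls_ok78 (by decide) (planOf lams78) 190 dD78 dE78 els78 rfl pay78 delta_le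
    (fun b hb => by
      interval_cases b
      · exact bucket78_0
      · exact bucket78_1
      · exact bucket78_2
      · exact bucket78_3
      · exact bucket78_4
      · exact bucket78_5
      · exact bucket78_6
      · exact bucket78_7)

end Vale.Agent.P098.Exact.Sos6.Q93
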