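import Vale.Agent.P098.Exact.Sos6.Q93.Common
import Vale.Agent.P098.Exact.Sos6.Q93.Box79B0
import Vale.Agent.P098.Exact.Sos6.Q93.Box79B1
import Vale.Agent.P098.Exact.Sos6.Q93.Box79B2
import Vale.Agent.P098.Exact.Sos6.Q93.Box79B3
import Vale.Agent.P098.Exact.Sos6.Q93.Box79B4
import Vale.Agent.P098.Exact.Sos6.Q93.Box79B5
import Vale.Agent.P098.Exact.Sos6.Q93.Box79B6
import Vale.Agent.P098.Exact.Sos6.Q93.Box79B7

/-! Generated data of the dimension six interior check. -/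

noncomputable section

namespace Vale.Agent.P098.Exact.Sos6.Q93

set_option maxRecDepth 100000

theorem pay79 : dtbl.payOK 190 dD79 dE79 (elTot els79) = true := by decide +kernel

theorem rls_ok79 : ∀ G ∈ rls79, ∃ Ns, tbl.facR 72 b0 28 22 Ns G = true := by
  intro G hG
  simp only [rls79, List.mem_cons, List.not_mem_nil, or_false] at hG
  rcases hG with rfl | rfl | rfl | rfl | rfl | rfl | rfl | rfl | rfl | rfl | rfl | rfl | rfl | rfl | rfl | rfl | rfl | rfl | rfl | rfl | rfl | rfl | rfl | rfl | rfl | rfl | rfl | rfl | rfl | rfl | rfl | rfl | rfl | rfl | rfl | rfl | rfl | rfl | rfl | rfl | rfl | rfl | rfl | rfl | rfl | rfl | rfl | rfl | rfl | rfl | rfl | rfl | rfl | rfl | rfl | rfl | rfl | rfl | rfl | rfl | rfl | rfl | rfl | rfl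
  · exact ⟨_, fac5056⟩
  · exact ⟨_, fac5057⟩
  · exact ⟨_, fac5058⟩
  · exact ⟨_, fac5059⟩
  · exact ⟨_, fac5060⟩
  · exact ⟨_, fac5061⟩
  · exact ⟨_, fac5062⟩
  · exact ⟨_, fac5063⟩
  · exact ⟨_, fac5064⟩
  · exact ⟨_, fac5065⟩
  · exact ⟨_, fac5066⟩
  · exact ⟨_, fac5067⟩
  · exact ⟨_, fac5068⟩
  · exact ⟨_, fac5069⟩
  · exact ⟨_, fac5070⟩
  · exact ⟨_, fac5071⟩
  · exact ⟨_, fac5072⟩
  · exact ⟨_, fac5073⟩
  · exact ⟨_, fac5074⟩
  · exact ⟨_, fac5075⟩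
  · exact ⟨_, fac5076⟩
  · exact ⟨_, fac5077⟩
  · exact ⟨_, fac5078⟩
  · exact ⟨_, fac5079⟩
  · exact ⟨_, fac5080⟩
  · exact ⟨_, fac5081⟩
  · exact ⟨_, fac5082⟩
  · exact ⟨_, fac5083⟩
  · exact ⟨_, fac5084⟩
  · exact ⟨_, fac5085⟩
  · exact ⟨_, fac5086⟩
  · exact ⟨_, fac5087⟩
  · exact ⟨_, fac5088⟩
  · exact ⟨_, fac5089⟩
  · exact ⟨_, fac5090⟩
  · exact ⟨_, fac5091⟩
  · exact ⟨_, fac5092⟩
  · exact ⟨_, fac5093⟩
  · exact ⟨_, fac5094⟩
  · exact ⟨_, fac5095⟩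
  · exact ⟨_, fac5096⟩
  · exact ⟨_, fac5097⟩
  · exact ⟨_, fac5098⟩
  · exact ⟨_, fac5099⟩
  · exact ⟨_, fac5100⟩
  · exact ⟨_, fac5101⟩
  · exact ⟨_, fac5102⟩
  · exact ⟨_, fac5103⟩
  · exact ⟨_, fac5104⟩
  · exact ⟨_, fac5105⟩
  · exact ⟨_, fac5106⟩
  · exact ⟨_, fac5107⟩
  · exact ⟨_, fac5108⟩
  · exact ⟨_, fac5109⟩
  · exact ⟨_, fac5110⟩
  · exact ⟨_, fac5111⟩
  · exact ⟨_, fac5112⟩
  · exact ⟨_, fac5113⟩
  · exact ⟨_, fac5114⟩
  · exact ⟨_, fac5115⟩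
  · exact ⟨_, fac5116⟩
  · exact ⟨_, fac5117⟩
  · exact ⟨_, fac5118⟩
  · exact ⟨_, fac5119⟩

theorem good79 : bx79.GoodK ((an : ℝ) / 100) (L.map (ITerm.term den)) (L2.map (ITerm.term den))
    (KL.map (KI.term den)) delta :=
  goodK_of_checkR an den (by decide) L L2 KL dtbl dtbl_ok rfl codes posN rowsA rowsB rowsC rows_tbl 12 256 8 72 b0 28 22
    (by decide) parts_ok (by decide +kernel) slice_ok lit_ok 1 (by decide +kernel) delta bx79 hd79
    (by decide) rls79 rls_ok79 (by decide) (planOf lams79) 190 dD79 dE79 els79 rfl pay79 delta_le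
    (fun b hb => by
      interval_cases b
      · exact bucket79_0
      · exact bucket79_1
      · exact bucket79_2
      · exact bucket79_3
      · exact bucket79_4
      · exact bucket79_5
      · exact bucket79_6
      · exact bucket79_7)

end Vale.Agent.P098.Exact.Sos6.Q93
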