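import Vale.Agent.P098.Exact.Sos6.Q93.Common
import Vale.Agent.P098.Exact.Sos6.Q93.Box7B0
import Vale.Agent.P098.Exact.Sos6.Q93.Box7B1
import Vale.Agent.P098.Exact.Sos6.Q93.Box7B2
import Vale.Agent.P098.Exact.Sos6.Q93.Box7B3
import Vale.Agent.P098.Exact.Sos6.Q93.Box7B4
import Vale.Agent.P098.Exact.Sos6.Q93.Box7B5
import Vale.Agent.P098.Exact.Sos6.Q93.Box7B6
import Vale.Agent.P098.Exact.Sos6.Q93.Box7B7

/-! Generated data of the dimension six interior check. -/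

noncomputable section

namespace Vale.Agent.P098.Exact.Sos6.Q93

set_option maxRecDepth 100000

theorem pay7 : dtbl.payOK 190 dD7 dE7 (elTot els7) = true := by decide +kernel

theorem rls_ok7 : ∀ G ∈ rls7, ∃ Ns, tbl.facR 72 b0 28 22 Ns G = true := by
  intro G hG
  simp only [rls7, List.mem_cons, List.not_mem_nil, or_false] at hG
  rcases hG with rfl | rfl | rfl | rfl | rfl | rfl | rfl | rfl | rfl | rfl | rfl | rfl | rfl | rfl | rfl | rfl | rfl | rfl | rfl | rfl | rfl | rfl | rfl | rfl | rfl | rfl | rfl | rfl | rfl | rfl | rfl | rfl | rfl | rfl | rfl | rfl | rfl | rfl | rfl | rfl | rfl | rfl | rfl | rfl | rfl | rfl | rfl | rfl | rfl | rfl | rfl | rfl | rfl | rfl | rfl | rfl | rfl | rfl | rfl | rfl | rfl | rfl | rfl | rfl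
  · exact ⟨_, fac448⟩
  · exact ⟨_, fac449⟩
  · exact ⟨_, fac450⟩
  · exact ⟨_, fac451⟩
  · exact ⟨_, fac452⟩
  · exact ⟨_, fac453⟩
  · exact ⟨_, fac454⟩
  · exact ⟨_, fac455⟩
  · exact ⟨_, fac456⟩
  · exact ⟨_, fac457⟩
  · exact ⟨_, fac458⟩
  · exact ⟨_, fac459⟩
  · exact ⟨_, fac460⟩
  · exact ⟨_, fac461⟩
  · exact ⟨_, fac462⟩
  · exact ⟨_, fac463⟩
  · exact ⟨_, fac464⟩
  · exact ⟨_, fac465⟩
  · exact ⟨_, fac466⟩
  · exact ⟨_, fac467⟩
  · exact ⟨_, fac468⟩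
  · exact ⟨_, fac469⟩
  · exact ⟨_, fac470⟩
  · exact ⟨_, fac471⟩
  · exact ⟨_, fac472⟩
  · exact ⟨_, fac473⟩
  · exact ⟨_, fac474⟩
  · exact ⟨_, fac475⟩
  · exact ⟨_, fac476⟩
  · exact ⟨_, fac477⟩
  · exact ⟨_, fac478⟩
  · exact ⟨_, fac479⟩
  · exact ⟨_, fac480⟩
  · exact ⟨_, fac481⟩
  · exact ⟨_, fac482⟩
  · exact ⟨_, fac483⟩
  · exact ⟨_, fac484⟩
  · exact ⟨_, fac485⟩
  · exact ⟨_, fac486⟩
  · exact ⟨_, fac487⟩
  · exact ⟨_, fac488⟩
  · exact ⟨_, fac489⟩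
  · exact ⟨_, fac490⟩
  · exact ⟨_, fac491⟩
  · exact ⟨_, fac492⟩
  · exact ⟨_, fac493⟩
  · exact ⟨_, fac494⟩
  · exact ⟨_, fac495⟩
  · exact ⟨_, fac496⟩
  · exact ⟨_, fac497⟩
  · exact ⟨_, fac498⟩
  · exact ⟨_, fac499⟩
  · exact ⟨_, fac500⟩
  · exact ⟨_, fac501⟩
  · exact ⟨_, fac502⟩
  · exact ⟨_, fac503⟩
  · exact ⟨_, fac504⟩
  · exact ⟨_, fac505⟩
  · exact ⟨_, fac506⟩
  · exact ⟨_, fac507⟩
  · exact ⟨_, fac508⟩
  · exact ⟨_, fac509⟩
  · exact ⟨_, fac510⟩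
  · exact ⟨_, fac511⟩

theorem good7 : bx7.GoodK ((an : ℝ) / 100) (L.map (ITerm.term den)) (L2.map (ITerm.term den))
    (KL.map (KI.term den)) delta :=
  goodK_of_checkR an den (by decide) L L2 KL dtbl dtbl_ok rfl codes posN rowsA rowsB rowsC rows_tbl 12 256 8 72 b0 28 22
    (by decide) parts_ok (by decide +kernel) slice_ok lit_ok 1 (by decide +kernel) delta bx7 hd7
    (by decide) rls7 rls_ok7 (by decide) (planOf lams7) 190 dD7 dE7 els7 rfl pay7 delta_le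
    (fun b hb => by
      interval_cases b
      · exact bucket7_0
      · exact bucket7_1
      · exact bucket7_2
      · exact bucket7_3
      · exact bucket7_4
      · exact bucket7_5
      · exact bucket7_6
      · exact bucket7_7)

end Vale.Agent.P098.Exact.Sos6.Q93
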