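import Vale.Agent.P098.Exact.Sos6.Q93.Common
import Vale.Agent.P098.Exact.Sos6.Q93.Box80B0
import Vale.Agent.P098.Exact.Sos6.Q93.Box80B1
import Vale.Agent.P098.Exact.Sos6.Q93.Box80B2
import Vale.Agent.P098.Exact.Sos6.Q93.Box80B3
import Vale.Agent.P098.Exact.Sos6.Q93.Box80B4
import Vale.Agent.P098.Exact.Sos6.Q93.Box80B5
import Vale.Agent.P098.Exact.Sos6.Q93.Box80B6
import Vale.Agent.P098.Exact.Sos6.Q93.Box80B7

/-! Generated data of the dimension six interior check. -/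

noncomputable section

namespace Vale.Agent.P098.Exact.Sos6.Q93

set_option maxRecDepth 100000

theorem pay80 : dtbl.payOK 190 dD80 dE80 (elTot els80) = true := by decide +kernel

theorem rls_ok80 : ∀ G ∈ rls80, ∃ Ns, tbl.facR 72 b0 28 22 Ns G = true := by
  intro G hG
  simp only [rls80, List.mem_cons, List.not_mem_nil, or_false] at hG
  rcases hG with rfl | rfl | rfl | rfl | rfl | rfl | rfl | rfl | rfl | rfl | rfl | rfl | rfl | rfl | rfl | rfl | rfl | rfl | rfl | rfl | rfl | rfl | rfl | rfl | rfl | rfl | rfl | rfl | rfl | rfl | rfl | rfl | rfl | rfl | rfl | rfl | rfl | rfl | rfl | rfl | rfl | rfl | rfl | rfl | rfl | rfl | rfl | rfl | rfl | rfl | rfl | rfl | rfl | rfl | rfl | rfl | rfl | rfl | rfl | rfl | rfl | rfl | rfl | rfl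
  · exact ⟨_, fac5120⟩
  · exact ⟨_, fac5121⟩
  · exact ⟨_, fac5122⟩
  · exact ⟨_, fac5123⟩
  · exact ⟨_, fac5124⟩
  · exact ⟨_, fac5125⟩
  · exact ⟨_, fac5126⟩
  · exact ⟨_, fac5127⟩
  · exact ⟨_, fac5128⟩
  · exact ⟨_, fac5129⟩
  · exact ⟨_, fac5130⟩
  · exact ⟨_, fac5131⟩
  · exact ⟨_, fac5132⟩
  · exact ⟨_, fac5133⟩
  · exact ⟨_, fac5134⟩
  · exact ⟨_, fac5135⟩
  · exact ⟨_, fac5136⟩
  · exact ⟨_, fac5137⟩
  · exact ⟨_, fac5138⟩
  · exact ⟨_, fac5139⟩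
  · exact ⟨_, fac5140⟩
  · exact ⟨_, fac5141⟩
  · exact ⟨_, fac5142⟩
  · exact ⟨_, fac5143⟩
  · exact ⟨_, fac5144⟩
  · exact ⟨_, fac5145⟩
  · exact ⟨_, fac5146⟩
  · exact ⟨_, fac5147⟩
  · exact ⟨_, fac5148⟩
  · exact ⟨_, fac5149⟩
  · exact ⟨_, fac5150⟩
  · exact ⟨_, fac5151⟩
  · exact ⟨_, fac5152⟩
  · exact ⟨_, fac5153⟩
  · exact ⟨_, fac5154⟩
  · exact ⟨_, fac5155⟩
  · exact ⟨_, fac5156⟩
  · exact ⟨_, fac5157⟩
  · exact ⟨_, fac5158⟩
  · exact ⟨_, fac5159⟩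
  · exact ⟨_, fac5160⟩
  · exact ⟨_, fac5161⟩
  · exact ⟨_, fac5162⟩
  · exact ⟨_, fac5163⟩
  · exact ⟨_, fac5164⟩
  · exact ⟨_, fac5165⟩
  · exact ⟨_, fac5166⟩
  · exact ⟨_, fac5167⟩
  · exact ⟨_, fac5168⟩
  · exact ⟨_, fac5169⟩
  · exact ⟨_, fac5170⟩
  · exact ⟨_, fac5171⟩
  · exact ⟨_, fac5172⟩
  · exact ⟨_, fac5173⟩
  · exact ⟨_, fac5174⟩
  · exact ⟨_, fac5175⟩
  · exact ⟨_, fac5176⟩
  · exact ⟨_, fac5177⟩
  · exact ⟨_, fac5178⟩
  · exact ⟨_, fac5179⟩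
  · exact ⟨_, fac5180⟩
  · exact ⟨_, fac5181⟩
  · exact ⟨_, fac5182⟩
  · exact ⟨_, fac5183⟩

theorem good80 : bx80.GoodK ((an : ℝ) / 100) (L.map (ITerm.term den)) (L2.map (ITerm.term den))
    (KL.map (KI.term den)) delta :=
  goodK_of_checkR an den (by decide) L L2 KL dtbl dtbl_ok rfl codes posN rowsA rowsB rowsC rows_tbl 12 256 8 72 b0 28 22
    (by decide) parts_ok (by decide +kernel) slice_ok lit_ok 1 (by decide +kernel) delta bx80 hd80
    (by decide) rls80 rls_ok80 (by decide) (planOf lams80) 190 dD80 dE80 els80 rfl pay80 delta_le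
    (fun b hb => by
      interval_cases b
      · exact bucket80_0
      · exact bucket80_1
      · exact bucket80_2
      · exact bucket80_3
      · exact bucket80_4
      · exact bucket80_5
      · exact bucket80_6
      · exact bucket80_7)

end Vale.Agent.P098.Exact.Sos6.Q93
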