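import Vale.Agent.P098.Exact.Sos6.Q93.Common
import Vale.Agent.P098.Exact.Sos6.Q93.Box81B0
import Vale.Agent.P098.Exact.Sos6.Q93.Box81B1
import Vale.Agent.P098.Exact.Sos6.Q93.Box81B2
import Vale.Agent.P098.Exact.Sos6.Q93.Box81B3
import Vale.Agent.P098.Exact.Sos6.Q93.Box81B4
import Vale.Agent.P098.Exact.Sos6.Q93.Box81B5
import Vale.Agent.P098.Exact.Sos6.Q93.Box81B6
import Vale.Agent.P098.Exact.Sos6.Q93.Box81B7

/-! Generated data of the dimension six interior check. -/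

noncomputable section

namespace Vale.Agent.P098.Exact.Sos6.Q93

set_option maxRecDepth 100000

theorem pay81 : dtbl.payOK 190 dD81 dE81 (elTot els81) = true := by decide +kernel

theorem rls_ok81 : ∀ G ∈ rls81, ∃ Ns, tbl.facR 72 b0 28 22 Ns G = true := by
  intro G hG
  simp only [rls81, List.mem_cons, List.not_mem_nil, or_false] at hG
  rcases hG with rfl | rfl | rfl | rfl | rfl | rfl | rfl | rfl | rfl | rfl | rfl | rfl | rfl | rfl | rfl | rfl | rfl | rfl | rfl | rfl | rfl | rfl | rfl | rfl | rfl | rfl | rfl | rfl | rfl | rfl | rfl | rfl | rfl | rfl | rfl | rfl | rfl | rfl | rfl | rfl | rfl | rfl | rfl | rfl | rfl | rfl | rfl | rfl | rfl | rfl | rfl | rfl | rfl | rfl | rfl | rfl | rfl | rfl | rfl | rfl | rfl | rfl | rfl | rfl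
  · exact ⟨_, fac5184⟩
  · exact ⟨_, fac5185⟩
  · exact ⟨_, fac5186⟩
  · exact ⟨_, fac5187⟩
  · exact ⟨_, fac5188⟩
  · exact ⟨_, fac5189⟩
  · exact ⟨_, fac5190⟩
  · exact ⟨_, fac5191⟩
  · exact ⟨_, fac5192⟩
  · exact ⟨_, fac5193⟩
  · exact ⟨_, fac5194⟩
  · exact ⟨_, fac5195⟩
  · exact ⟨_, fac5196⟩
  · exact ⟨_, fac5197⟩
  · exact ⟨_, fac5198⟩
  · exact ⟨_, fac5199⟩
  · exact ⟨_, fac5200⟩
  · exact ⟨_, fac5201⟩
  · exact ⟨_, fac5202⟩
  · exact ⟨_, fac5203⟩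
  · exact ⟨_, fac5204⟩
  · exact ⟨_, fac5205⟩
  · exact ⟨_, fac5206⟩
  · exact ⟨_, fac5207⟩
  · exact ⟨_, fac5208⟩
  · exact ⟨_, fac5209⟩
  · exact ⟨_, fac5210⟩
  · exact ⟨_, fac5211⟩
  · exact ⟨_, fac5212⟩
  · exact ⟨_, fac5213⟩
  · exact ⟨_, fac5214⟩
  · exact ⟨_, fac5215⟩
  · exact ⟨_, fac5216⟩
  · exact ⟨_, fac5217⟩
  · exact ⟨_, fac5218⟩
  · exact ⟨_, fac5219⟩
  · exact ⟨_, fac5220⟩
  · exact ⟨_, fac5221⟩
  · exact ⟨_, fac5222⟩
  · exact ⟨_, fac5223⟩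
  · exact ⟨_, fac5224⟩
  · exact ⟨_, fac5225⟩
  · exact ⟨_, fac5226⟩
  · exact ⟨_, fac5227⟩
  · exact ⟨_, fac5228⟩
  · exact ⟨_, fac5229⟩
  · exact ⟨_, fac5230⟩
  · exact ⟨_, fac5231⟩
  · exact ⟨_, fac5232⟩
  · exact ⟨_, fac5233⟩
  · exact ⟨_, fac5234⟩
  · exact ⟨_, fac5235⟩
  · exact ⟨_, fac5236⟩
  · exact ⟨_, fac5237⟩
  · exact ⟨_, fac5238⟩
  · exact ⟨_, fac5239⟩
  · exact ⟨_, fac5240⟩
  · exact ⟨_, fac5241⟩
  · exact ⟨_, fac5242⟩
  · exact ⟨_, fac5243⟩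
  · exact ⟨_, fac5244⟩
  · exact ⟨_, fac5245⟩
  · exact ⟨_, fac5246⟩
  · exact ⟨_, fac5247⟩

theorem good81 : bx81.GoodK ((an : ℝ) / 100) (L.map (ITerm.term den)) (L2.map (ITerm.term den))
    (KL.map (KI.term den)) delta :=
  goodK_of_checkR an den (by decide) L L2 KL dtbl dtbl_ok rfl codes posN rowsA rowsB rowsC rows_tbl 12 256 8 72 b0 28 22
    (by decide) parts_ok (by decide +kernel) slice_ok lit_ok 1 (by decide +kernel) delta bx81 hd81
    (by decide) rls81 rls_ok81 (by decide) (planOf lams81) 190 dD81 dE81 els81 rfl pay81 delta_le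
    (fun b hb => by
      interval_cases b
      · exact bucket81_0
      · exact bucket81_1
      · exact bucket81_2
      · exact bucket81_3
      · exact bucket81_4
      · exact bucket81_5
      · exact bucket81_6
      · exact bucket81_7)

end Vale.Agent.P098.Exact.Sos6.Q93
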