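import Vale.Agent.P098.Exact.Sos6.Q93.Common
import Vale.Agent.P098.Exact.Sos6.Q93.Box82B0
import Vale.Agent.P098.Exact.Sos6.Q93.Box82B1
import Vale.Agent.P098.Exact.Sos6.Q93.Box82B2
import Vale.Agent.P098.Exact.Sos6.Q93.Box82B3
import Vale.Agent.P098.Exact.Sos6.Q93.Box82B4
import Vale.Agent.P098.Exact.Sos6.Q93.Box82B5
import Vale.Agent.P098.Exact.Sos6.Q93.Box82B6
import Vale.Agent.P098.Exact.Sos6.Q93.Box82B7

/-! Generated data of the dimension six interior check. -/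

noncomputable section

namespace Vale.Agent.P098.Exact.Sos6.Q93

set_option maxRecDepth 100000

theorem pay82 : dtbl.payOK 190 dD82 dE82 (elTot els82) = true := by decide +kernel

theorem rls_ok82 : ∀ G ∈ rls82, ∃ Ns, tbl.facR 72 b0 28 22 Ns G = true := by
  intro G hG
  simp only [rls82, List.mem_cons, List.not_mem_nil, or_false] at hG
  rcases hG with rfl | rfl | rfl | rfl | rfl | rfl | rfl | rfl | rfl | rfl | rfl | rfl | rfl | rfl | rfl | rfl | rfl | rfl | rfl | rfl | rfl | rfl | rfl | rfl | rfl | rfl | rfl | rfl | rfl | rfl | rfl | rfl | rfl | rfl | rfl | rfl | rfl | rfl | rfl | rfl | rfl | rfl | rfl | rfl | rfl | rfl | rfl | rfl | rfl | rfl | rfl | rfl | rfl | rfl | rfl | rfl | rfl | rfl | rfl | rfl | rfl | rfl | rfl | rfl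
  · exact ⟨_, fac5248⟩
  · exact ⟨_, fac5249⟩
  · exact ⟨_, fac5250⟩
  · exact ⟨_, fac5251⟩
  · exact ⟨_, fac5252⟩
  · exact ⟨_, fac5253⟩
  · exact ⟨_, fac5254⟩
  · exact ⟨_, fac5255⟩
  · exact ⟨_, fac5256⟩
  · exact ⟨_, fac5257⟩
  · exact ⟨_, fac5258⟩
  · exact ⟨_, fac5259⟩
  · exact ⟨_, fac5260⟩
  · exact ⟨_, fac5261⟩
  · exact ⟨_, fac5262⟩
  · exact ⟨_, fac5263⟩
  · exact ⟨_, fac5264⟩
  · exact ⟨_, fac5265⟩
  · exact ⟨_, fac5266⟩
  · exact ⟨_, fac5267⟩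
  · exact ⟨_, fac5268⟩
  · exact ⟨_, fac5269⟩
  · exact ⟨_, fac5270⟩
  · exact ⟨_, fac5271⟩
  · exact ⟨_, fac5272⟩
  · exact ⟨_, fac5273⟩
  · exact ⟨_, fac5274⟩
  · exact ⟨_, fac5275⟩
  · exact ⟨_, fac5276⟩
  · exact ⟨_, fac5277⟩
  · exact ⟨_, fac5278⟩
  · exact ⟨_, fac5279⟩
  · exact ⟨_, fac5280⟩
  · exact ⟨_, fac5281⟩
  · exact ⟨_, fac5282⟩
  · exact ⟨_, fac5283⟩
  · exact ⟨_, fac5284⟩
  · exact ⟨_, fac5285⟩
  · exact ⟨_, fac5286⟩
  · exact ⟨_, fac5287⟩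
  · exact ⟨_, fac5288⟩
  · exact ⟨_, fac5289⟩
  · exact ⟨_, fac5290⟩
  · exact ⟨_, fac5291⟩
  · exact ⟨_, fac5292⟩
  · exact ⟨_, fac5293⟩
  · exact ⟨_, fac5294⟩
  · exact ⟨_, fac5295⟩
  · exact ⟨_, fac5296⟩
  · exact ⟨_, fac5297⟩
  · exact ⟨_, fac5298⟩
  · exact ⟨_, fac5299⟩
  · exact ⟨_, fac5300⟩
  · exact ⟨_, fac5301⟩
  · exact ⟨_, fac5302⟩
  · exact ⟨_, fac5303⟩
  · exact ⟨_, fac5304⟩
  · exact ⟨_, fac5305⟩
  · exact ⟨_, fac5306⟩
  · exact ⟨_, fac5307⟩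
  · exact ⟨_, fac5308⟩
  · exact ⟨_, fac5309⟩
  · exact ⟨_, fac5310⟩
  · exact ⟨_, fac5311⟩

theorem good82 : bx82.GoodK ((an : ℝ) / 100) (L.map (ITerm.term den)) (L2.map (ITerm.term den))
    (KL.map (KI.term den)) delta :=
  goodK_of_checkR an den (by decide) L L2 KL dtbl dtbl_ok rfl codes posN rowsA rowsB rowsC rows_tbl 12 256 8 72 b0 28 22
    (by decide) parts_ok (by decide +kernel) slice_ok lit_ok 1 (by decide +kernel) delta bx82 hd82
    (by decide) rls82 rls_ok82 (by decide) (planOf lams82) 190 dD82 dE82 els82 rfl pay82 delta_le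
    (fun b hb => by
      interval_cases b
      · exact bucket82_0
      · exact bucket82_1
      · exact bucket82_2
      · exact bucket82_3
      · exact bucket82_4
      · exact bucket82_5
      · exact bucket82_6
      · exact bucket82_7)

end Vale.Agent.P098.Exact.Sos6.Q93
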