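import Vale.Agent.P098.Exact.Sos6.Q93.Common
import Vale.Agent.P098.Exact.Sos6.Q93.Box83B0
import Vale.Agent.P098.Exact.Sos6.Q93.Box83B1
import Vale.Agent.P098.Exact.Sos6.Q93.Box83B2
import Vale.Agent.P098.Exact.Sos6.Q93.Box83B3
import Vale.Agent.P098.Exact.Sos6.Q93.Box83B4
import Vale.Agent.P098.Exact.Sos6.Q93.Box83B5
import Vale.Agent.P098.Exact.Sos6.Q93.Box83B6
import Vale.Agent.P098.Exact.Sos6.Q93.Box83B7

/-! Generated data of the dimension six interior check. -/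

noncomputable section

namespace Vale.Agent.P098.Exact.Sos6.Q93

set_option maxRecDepth 100000

theorem pay83 : dtbl.payOK 190 dD83 dE83 (elTot els83) = true := by decide +kernel

theorem rls_ok83 : ∀ G ∈ rls83, ∃ Ns, tbl.facR 72 b0 28 22 Ns G = true := by
  intro G hG
  simp only [rls83, List.mem_cons, List.not_mem_nil, or_false] at hG
  rcases hG with rfl | rfl | rfl | rfl | rfl | rfl | rfl | rfl | rfl | rfl | rfl | rfl | rfl | rfl | rfl | rfl | rfl | rfl | rfl | rfl | rfl | rfl | rfl | rfl | rfl | rfl | rfl | rfl | rfl | rfl | rfl | rfl | rfl | rfl | rfl | rfl | rfl | rfl | rfl | rfl | rfl | rfl | rfl | rfl | rfl | rfl | rfl | rfl | rfl | rfl | rfl | rfl | rfl | rfl | rfl | rfl | rfl | rfl | rfl | rfl | rfl | rfl | rfl | rfl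
  · exact ⟨_, fac5312⟩
  · exact ⟨_, fac5313⟩
  · exact ⟨_, fac5314⟩
  · exact ⟨_, fac5315⟩
  · exact ⟨_, fac5316⟩
  · exact ⟨_, fac5317⟩
  · exact ⟨_, fac5318⟩
  · exact ⟨_, fac5319⟩
  · exact ⟨_, fac5320⟩
  · exact ⟨_, fac5321⟩
  · exact ⟨_, fac5322⟩
  · exact ⟨_, fac5323⟩
  · exact ⟨_, fac5324⟩
  · exact ⟨_, fac5325⟩
  · exact ⟨_, fac5326⟩
  · exact ⟨_, fac5327⟩
  · exact ⟨_, fac5328⟩
  · exact ⟨_, fac5329⟩
  · exact ⟨_, fac5330⟩
  · exact ⟨_, fac5331⟩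
  · exact ⟨_, fac5332⟩
  · exact ⟨_, fac5333⟩
  · exact ⟨_, fac5334⟩
  · exact ⟨_, fac5335⟩
  · exact ⟨_, fac5336⟩
  · exact ⟨_, fac5337⟩
  · exact ⟨_, fac5338⟩
  · exact ⟨_, fac5339⟩
  · exact ⟨_, fac5340⟩
  · exact ⟨_, fac5341⟩
  · exact ⟨_, fac5342⟩
  · exact ⟨_, fac5343⟩
  · exact ⟨_, fac5344⟩
  · exact ⟨_, fac5345⟩
  · exact ⟨_, fac5346⟩
  · exact ⟨_, fac5347⟩
  · exact ⟨_, fac5348⟩
  · exact ⟨_, fac5349⟩
  · exact ⟨_, fac5350⟩
  · exact ⟨_, fac5351⟩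
  · exact ⟨_, fac5352⟩
  · exact ⟨_, fac5353⟩
  · exact ⟨_, fac5354⟩
  · exact ⟨_, fac5355⟩
  · exact ⟨_, fac5356⟩
  · exact ⟨_, fac5357⟩
  · exact ⟨_, fac5358⟩
  · exact ⟨_, fac5359⟩
  · exact ⟨_, fac5360⟩
  · exact ⟨_, fac5361⟩
  · exact ⟨_, fac5362⟩
  · exact ⟨_, fac5363⟩
  · exact ⟨_, fac5364⟩
  · exact ⟨_, fac5365⟩
  · exact ⟨_, fac5366⟩
  · exact ⟨_, fac5367⟩
  · exact ⟨_, fac5368⟩
  · exact ⟨_, fac5369⟩
  · exact ⟨_, fac5370⟩
  · exact ⟨_, fac5371⟩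
  · exact ⟨_, fac5372⟩
  · exact ⟨_, fac5373⟩
  · exact ⟨_, fac5374⟩
  · exact ⟨_, fac5375⟩

theorem good83 : bx83.GoodK ((an : ℝ) / 100) (L.map (ITerm.term den)) (L2.map (ITerm.term den))
    (KL.map (KI.term den)) delta :=
  goodK_of_checkR an den (by decide) L L2 KL dtbl dtbl_ok rfl codes posN rowsA rowsB rowsC rows_tbl 12 256 8 72 b0 28 22
    (by decide) parts_ok (by decide +kernel) slice_ok lit_ok 1 (by decide +kernel) delta bx83 hd83
    (by decide) rls83 rls_ok83 (by decide) (planOf lams83) 190 dD83 dE83 els83 rfl pay83 delta_le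
    (fun b hb => by
      interval_cases b
      · exact bucket83_0
      · exact bucket83_1
      · exact bucket83_2
      · exact bucket83_3
      · exact bucket83_4
      · exact bucket83_5
      · exact bucket83_6
      · exact bucket83_7)

end Vale.Agent.P098.Exact.Sos6.Q93
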