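import Vale.Agent.P098.Exact.Sos6.Q93.Common
import Vale.Agent.P098.Exact.Sos6.Q93.Box84B0
import Vale.Agent.P098.Exact.Sos6.Q93.Box84B1
import Vale.Agent.P098.Exact.Sos6.Q93.Box84B2
import Vale.Agent.P098.Exact.Sos6.Q93.Box84B3
import Vale.Agent.P098.Exact.Sos6.Q93.Box84B4
import Vale.Agent.P098.Exact.Sos6.Q93.Box84B5
import Vale.Agent.P098.Exact.Sos6.Q93.Box84B6
import Vale.Agent.P098.Exact.Sos6.Q93.Box84B7

/-! Generated data of the dimension six interior check. -/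

noncomputable section

namespace Vale.Agent.P098.Exact.Sos6.Q93

set_option maxRecDepth 100000

theorem pay84 : dtbl.payOK 190 dD84 dE84 (elTot els84) = true := by decide +kernel

theorem rls_ok84 : ∀ G ∈ rls84, ∃ Ns, tbl.facR 72 b0 28 22 Ns G = true := by
  intro G hG
  simp only [rls84, List.mem_cons, List.not_mem_nil, or_false] at hG
  rcases hG with rfl | rfl | rfl | rfl | rfl | rfl | rfl | rfl | rfl | rfl | rfl | rfl | rfl | rfl | rfl | rfl | rfl | rfl | rfl | rfl | rfl | rfl | rfl | rfl | rfl | rfl | rfl | rfl | rfl | rfl | rfl | rfl | rfl | rfl | rfl | rfl | rfl | rfl | rfl | rfl | rfl | rfl | rfl | rfl | rfl | rfl | rfl | rfl | rfl | rfl | rfl | rfl | rfl | rfl | rfl | rfl | rfl | rfl | rfl | rfl | rfl | rfl | rfl | rfl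
  · exact ⟨_, fac5376⟩
  · exact ⟨_, fac5377⟩
  · exact ⟨_, fac5378⟩
  · exact ⟨_, fac5379⟩
  · exact ⟨_, fac5380⟩
  · exact ⟨_, fac5381⟩
  · exact ⟨_, fac5382⟩
  · exact ⟨_, fac5383⟩
  · exact ⟨_, fac5384⟩
  · exact ⟨_, fac5385⟩
  · exact ⟨_, fac5386⟩
  · exact ⟨_, fac5387⟩
  · exact ⟨_, fac5388⟩
  · exact ⟨_, fac5389⟩
  · exact ⟨_, fac5390⟩
  · exact ⟨_, fac5391⟩
  · exact ⟨_, fac5392⟩
  · exact ⟨_, fac5393⟩
  · exact ⟨_, fac5394⟩
  · exact ⟨_, fac5395⟩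
  · exact ⟨_, fac5396⟩
  · exact ⟨_, fac5397⟩
  · exact ⟨_, fac5398⟩
  · exact ⟨_, fac5399⟩
  · exact ⟨_, fac5400⟩
  · exact ⟨_, fac5401⟩
  · exact ⟨_, fac5402⟩
  · exact ⟨_, fac5403⟩
  · exact ⟨_, fac5404⟩
  · exact ⟨_, fac5405⟩
  · exact ⟨_, fac5406⟩
  · exact ⟨_, fac5407⟩
  · exact ⟨_, fac5408⟩
  · exact ⟨_, fac5409⟩
  · exact ⟨_, fac5410⟩
  · exact ⟨_, fac5411⟩
  · exact ⟨_, fac5412⟩
  · exact ⟨_, fac5413⟩
  · exact ⟨_, fac5414⟩
  · exact ⟨_, fac5415⟩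
  · exact ⟨_, fac5416⟩
  · exact ⟨_, fac5417⟩
  · exact ⟨_, fac5418⟩
  · exact ⟨_, fac5419⟩
  · exact ⟨_, fac5420⟩
  · exact ⟨_, fac5421⟩
  · exact ⟨_, fac5422⟩
  · exact ⟨_, fac5423⟩
  · exact ⟨_, fac5424⟩
  · exact ⟨_, fac5425⟩
  · exact ⟨_, fac5426⟩
  · exact ⟨_, fac5427⟩
  · exact ⟨_, fac5428⟩
  · exact ⟨_, fac5429⟩
  · exact ⟨_, fac5430⟩
  · exact ⟨_, fac5431⟩
  · exact ⟨_, fac5432⟩
  · exact ⟨_, fac5433⟩
  · exact ⟨_, fac5434⟩
  · exact ⟨_, fac5435⟩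
  · exact ⟨_, fac5436⟩
  · exact ⟨_, fac5437⟩
  · exact ⟨_, fac5438⟩
  · exact ⟨_, fac5439⟩

theorem good84 : bx84.GoodK ((an : ℝ) / 100) (L.map (ITerm.term den)) (L2.map (ITerm.term den))
    (KL.map (KI.term den)) delta :=
  goodK_of_checkR an den (by decide) L L2 KL dtbl dtbl_ok rfl codes posN rowsA rowsB rowsC rows_tbl 12 256 8 72 b0 28 22
    (by decide) parts_ok (by decide +kernel) slice_ok lit_ok 1 (by decide +kernel) delta bx84 hd84
    (by decide) rls84 rls_ok84 (by decide) (planOf lams84) 190 dD84 dE84 els84 rfl pay84 delta_le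
    (fun b hb => by
      interval_cases b
      · exact bucket84_0
      · exact bucket84_1
      · exact bucket84_2
      · exact bucket84_3
      · exact bucket84_4
      · exact bucket84_5
      · exact bucket84_6
      · exact bucket84_7)

end Vale.Agent.P098.Exact.Sos6.Q93
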