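import Vale.Agent.P098.Exact.Sos6.Q93.Common
import Vale.Agent.P098.Exact.Sos6.Q93.Box85B0
import Vale.Agent.P098.Exact.Sos6.Q93.Box85B1
import Vale.Agent.P098.Exact.Sos6.Q93.Box85B2
import Vale.Agent.P098.Exact.Sos6.Q93.Box85B3
import Vale.Agent.P098.Exact.Sos6.Q93.Box85B4
import Vale.Agent.P098.Exact.Sos6.Q93.Box85B5
import Vale.Agent.P098.Exact.Sos6.Q93.Box85B6
import Vale.Agent.P098.Exact.Sos6.Q93.Box85B7

/-! Generated data of the dimension six interior check. -/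

noncomputable section

namespace Vale.Agent.P098.Exact.Sos6.Q93

set_option maxRecDepth 100000

theorem pay85 : dtbl.payOK 190 dD85 dE85 (elTot els85) = true := by decide +kernel

theorem rls_ok85 : ∀ G ∈ rls85, ∃ Ns, tbl.facR 72 b0 28 22 Ns G = true := by
  intro G hG
  simp only [rls85, List.mem_cons, List.not_mem_nil, or_false] at hG
  rcases hG with rfl | rfl | rfl | rfl | rfl | rfl | rfl | rfl | rfl | rfl | rfl | rfl | rfl | rfl | rfl | rfl | rfl | rfl | rfl | rfl | rfl | rfl | rfl | rfl | rfl | rfl | rfl | rfl | rfl | rfl | rfl | rfl | rfl | rfl | rfl | rfl | rfl | rfl | rfl | rfl | rfl | rfl | rfl | rfl | rfl | rfl | rfl | rfl | rfl | rfl | rfl | rfl | rfl | rfl | rfl | rfl | rfl | rfl | rfl | rfl | rfl | rfl | rfl | rfl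
  · exact ⟨_, fac5440⟩
  · exact ⟨_, fac5441⟩
  · exact ⟨_, fac5442⟩
  · exact ⟨_, fac5443⟩
  · exact ⟨_, fac5444⟩
  · exact ⟨_, fac5445⟩
  · exact ⟨_, fac5446⟩
  · exact ⟨_, fac5447⟩
  · exact ⟨_, fac5448⟩
  · exact ⟨_, fac5449⟩
  · exact ⟨_, fac5450⟩
  · exact ⟨_, fac5451⟩
  · exact ⟨_, fac5452⟩
  · exact ⟨_, fac5453⟩
  · exact ⟨_, fac5454⟩
  · exact ⟨_, fac5455⟩
  · exact ⟨_, fac5456⟩
  · exact ⟨_, fac5457⟩
  · exact ⟨_, fac5458⟩
  · exact ⟨_, fac5459⟩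
  · exact ⟨_, fac5460⟩
  · exact ⟨_, fac5461⟩
  · exact ⟨_, fac5462⟩
  · exact ⟨_, fac5463⟩
  · exact ⟨_, fac5464⟩
  · exact ⟨_, fac5465⟩
  · exact ⟨_, fac5466⟩
  · exact ⟨_, fac5467⟩
  · exact ⟨_, fac5468⟩
  · exact ⟨_, fac5469⟩
  · exact ⟨_, fac5470⟩
  · exact ⟨_, fac5471⟩
  · exact ⟨_, fac5472⟩
  · exact ⟨_, fac5473⟩
  · exact ⟨_, fac5474⟩
  · exact ⟨_, fac5475⟩
  · exact ⟨_, fac5476⟩
  · exact ⟨_, fac5477⟩
  · exact ⟨_, fac5478⟩
  · exact ⟨_, fac5479⟩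
  · exact ⟨_, fac5480⟩
  · exact ⟨_, fac5481⟩
  · exact ⟨_, fac5482⟩
  · exact ⟨_, fac5483⟩
  · exact ⟨_, fac5484⟩
  · exact ⟨_, fac5485⟩
  · exact ⟨_, fac5486⟩
  · exact ⟨_, fac5487⟩
  · exact ⟨_, fac5488⟩
  · exact ⟨_, fac5489⟩
  · exact ⟨_, fac5490⟩
  · exact ⟨_, fac5491⟩
  · exact ⟨_, fac5492⟩
  · exact ⟨_, fac5493⟩
  · exact ⟨_, fac5494⟩
  · exact ⟨_, fac5495⟩
  · exact ⟨_, fac5496⟩
  · exact ⟨_, fac5497⟩
  · exact ⟨_, fac5498⟩
  · exact ⟨_, fac5499⟩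
  · exact ⟨_, fac5500⟩
  · exact ⟨_, fac5501⟩
  · exact ⟨_, fac5502⟩
  · exact ⟨_, fac5503⟩

theorem good85 : bx85.GoodK ((an : ℝ) / 100) (L.map (ITerm.term den)) (L2.map (ITerm.term den))
    (KL.map (KI.term den)) delta :=
  goodK_of_checkR an den (by decide) L L2 KL dtbl dtbl_ok rfl codes posN rowsA rowsB rowsC rows_tbl 12 256 8 72 b0 28 22
    (by decide) parts_ok (by decide +kernel) slice_ok lit_ok 1 (by decide +kernel) delta bx85 hd85
    (by decide) rls85 rls_ok85 (by decide) (planOf lams85) 190 dD85 dE85 els85 rfl pay85 delta_le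
    (fun b hb => by
      interval_cases b
      · exact bucket85_0
      · exact bucket85_1
      · exact bucket85_2
      · exact bucket85_3
      · exact bucket85_4
      · exact bucket85_5
      · exact bucket85_6
      · exact bucket85_7)

end Vale.Agent.P098.Exact.Sos6.Q93
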