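import Vale.Agent.P098.Exact.Sos6.Q93.Common
import Vale.Agent.P098.Exact.Sos6.Q93.Box86B0
import Vale.Agent.P098.Exact.Sos6.Q93.Box86B1
import Vale.Agent.P098.Exact.Sos6.Q93.Box86B2
import Vale.Agent.P098.Exact.Sos6.Q93.Box86B3
import Vale.Agent.P098.Exact.Sos6.Q93.Box86B4
import Vale.Agent.P098.Exact.Sos6.Q93.Box86B5
import Vale.Agent.P098.Exact.Sos6.Q93.Box86B6
import Vale.Agent.P098.Exact.Sos6.Q93.Box86B7

/-! Generated data of the dimension six interior check. -/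

noncomputable section

namespace Vale.Agent.P098.Exact.Sos6.Q93

set_option maxRecDepth 100000

theorem pay86 : dtbl.payOK 190 dD86 dE86 (elTot els86) = true := by decide +kernel

theorem rls_ok86 : ∀ G ∈ rls86, ∃ Ns, tbl.facR 72 b0 28 22 Ns G = true := by
  intro G hG
  simp only [rls86, List.mem_cons, List.not_mem_nil, or_false] at hG
  rcases hG with rfl | rfl | rfl | rfl | rfl | rfl | rfl | rfl | rfl | rfl | rfl | rfl | rfl | rfl | rfl | rfl | rfl | rfl | rfl | rfl | rfl | rfl | rfl | rfl | rfl | rfl | rfl | rfl | rfl | rfl | rfl | rfl | rfl | rfl | rfl | rfl | rfl | rfl | rfl | rfl | rfl | rfl | rfl | rfl | rfl | rfl | rfl | rfl | rfl | rfl | rfl | rfl | rfl | rfl | rfl | rfl | rfl | rfl | rfl | rfl | rfl | rfl | rfl | rfl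
  · exact ⟨_, fac5504⟩
  · exact ⟨_, fac5505⟩
  · exact ⟨_, fac5506⟩
  · exact ⟨_, fac5507⟩
  · exact ⟨_, fac5508⟩
  · exact ⟨_, fac5509⟩
  · exact ⟨_, fac5510⟩
  · exact ⟨_, fac5511⟩
  · exact ⟨_, fac5512⟩
  · exact ⟨_, fac5513⟩
  · exact ⟨_, fac5514⟩
  · exact ⟨_, fac5515⟩
  · exact ⟨_, fac5516⟩
  · exact ⟨_, fac5517⟩
  · exact ⟨_, fac5518⟩
  · exact ⟨_, fac5519⟩
  · exact ⟨_, fac5520⟩
  · exact ⟨_, fac5521⟩
  · exact ⟨_, fac5522⟩
  · exact ⟨_, fac5523⟩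
  · exact ⟨_, fac5524⟩
  · exact ⟨_, fac5525⟩
  · exact ⟨_, fac5526⟩
  · exact ⟨_, fac5527⟩
  · exact ⟨_, fac5528⟩
  · exact ⟨_, fac5529⟩
  · exact ⟨_, fac5530⟩
  · exact ⟨_, fac5531⟩
  · exact ⟨_, fac5532⟩
  · exact ⟨_, fac5533⟩
  · exact ⟨_, fac5534⟩
  · exact ⟨_, fac5535⟩
  · exact ⟨_, fac5536⟩
  · exact ⟨_, fac5537⟩
  · exact ⟨_, fac5538⟩
  · exact ⟨_, fac5539⟩
  · exact ⟨_, fac5540⟩
  · exact ⟨_, fac5541⟩
  · exact ⟨_, fac5542⟩
  · exact ⟨_, fac5543⟩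
  · exact ⟨_, fac5544⟩
  · exact ⟨_, fac5545⟩
  · exact ⟨_, fac5546⟩
  · exact ⟨_, fac5547⟩
  · exact ⟨_, fac5548⟩
  · exact ⟨_, fac5549⟩
  · exact ⟨_, fac5550⟩
  · exact ⟨_, fac5551⟩
  · exact ⟨_, fac5552⟩
  · exact ⟨_, fac5553⟩
  · exact ⟨_, fac5554⟩
  · exact ⟨_, fac5555⟩
  · exact ⟨_, fac5556⟩
  · exact ⟨_, fac5557⟩
  · exact ⟨_, fac5558⟩
  · exact ⟨_, fac5559⟩
  · exact ⟨_, fac5560⟩
  · exact ⟨_, fac5561⟩
  · exact ⟨_, fac5562⟩
  · exact ⟨_, fac5563⟩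
  · exact ⟨_, fac5564⟩
  · exact ⟨_, fac5565⟩
  · exact ⟨_, fac5566⟩
  · exact ⟨_, fac5567⟩

theorem good86 : bx86.GoodK ((an : ℝ) / 100) (L.map (ITerm.term den)) (L2.map (ITerm.term den))
    (KL.map (KI.term den)) delta :=
  goodK_of_checkR an den (by decide) L L2 KL dtbl dtbl_ok rfl codes posN rowsA rowsB rowsC rows_tbl 12 256 8 72 b0 28 22
    (by decide) parts_ok (by decide +kernel) slice_ok lit_ok 1 (by decide +kernel) delta bx86 hd86
    (by decide) rls86 rls_ok86 (by decide) (planOf lams86) 190 dD86 dE86 els86 rfl pay86 delta_le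
    (fun b hb => by
      interval_cases b
      · exact bucket86_0
      · exact bucket86_1
      · exact bucket86_2
      · exact bucket86_3
      · exact bucket86_4
      · exact bucket86_5
      · exact bucket86_6
      · exact bucket86_7)

end Vale.Agent.P098.Exact.Sos6.Q93
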