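import Vale.Agent.P098.Exact.Sos6.Q93.Common
import Vale.Agent.P098.Exact.Sos6.Q93.Box87B0
import Vale.Agent.P098.Exact.Sos6.Q93.Box87B1
import Vale.Agent.P098.Exact.Sos6.Q93.Box87B2
import Vale.Agent.P098.Exact.Sos6.Q93.Box87B3
import Vale.Agent.P098.Exact.Sos6.Q93.Box87B4
import Vale.Agent.P098.Exact.Sos6.Q93.Box87B5
import Vale.Agent.P098.Exact.Sos6.Q93.Box87B6
import Vale.Agent.P098.Exact.Sos6.Q93.Box87B7

/-! Generated data of the dimension six interior check. -/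

noncomputable section

namespace Vale.Agent.P098.Exact.Sos6.Q93

set_option maxRecDepth 100000

theorem pay87 : dtbl.payOK 190 dD87 dE87 (elTot els87) = true := by decide +kernel

theorem rls_ok87 : ∀ G ∈ rls87, ∃ Ns, tbl.facR 72 b0 28 22 Ns G = true := by
  intro G hG
  simp only [rls87, List.mem_cons, List.not_mem_nil, or_false] at hG
  rcases hG with rfl | rfl | rfl | rfl | rfl | rfl | rfl | rfl | rfl | rfl | rfl | rfl | rfl | rfl | rfl | rfl | rfl | rfl | rfl | rfl | rfl | rfl | rfl | rfl | rfl | rfl | rfl | rfl | rfl | rfl | rfl | rfl | rfl | rfl | rfl | rfl | rfl | rfl | rfl | rfl | rfl | rfl | rfl | rfl | rfl | rfl | rfl | rfl | rfl | rfl | rfl | rfl | rfl | rfl | rfl | rfl | rfl | rfl | rfl | rfl | rfl | rfl | rfl | rfl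
  · exact ⟨_, fac5568⟩
  · exact ⟨_, fac5569⟩
  · exact ⟨_, fac5570⟩
  · exact ⟨_, fac5571⟩
  · exact ⟨_, fac5572⟩
  · exact ⟨_, fac5573⟩
  · exact ⟨_, fac5574⟩
  · exact ⟨_, fac5575⟩
  · exact ⟨_, fac5576⟩
  · exact ⟨_, fac5577⟩
  · exact ⟨_, fac5578⟩
  · exact ⟨_, fac5579⟩
  · exact ⟨_, fac5580⟩
  · exact ⟨_, fac5581⟩
  · exact ⟨_, fac5582⟩
  · exact ⟨_, fac5583⟩
  · exact ⟨_, fac5584⟩
  · exact ⟨_, fac5585⟩
  · exact ⟨_, fac5586⟩
  · exact ⟨_, fac5587⟩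
  · exact ⟨_, fac5588⟩
  · exact ⟨_, fac5589⟩
  · exact ⟨_, fac5590⟩
  · exact ⟨_, fac5591⟩
  · exact ⟨_, fac5592⟩
  · exact ⟨_, fac5593⟩
  · exact ⟨_, fac5594⟩
  · exact ⟨_, fac5595⟩
  · exact ⟨_, fac5596⟩
  · exact ⟨_, fac5597⟩
  · exact ⟨_, fac5598⟩
  · exact ⟨_, fac5599⟩
  · exact ⟨_, fac5600⟩
  · exact ⟨_, fac5601⟩
  · exact ⟨_, fac5602⟩
  · exact ⟨_, fac5603⟩
  · exact ⟨_, fac5604⟩
  · exact ⟨_, fac5605⟩
  · exact ⟨_, fac5606⟩
  · exact ⟨_, fac5607⟩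
  · exact ⟨_, fac5608⟩
  · exact ⟨_, fac5609⟩
  · exact ⟨_, fac5610⟩
  · exact ⟨_, fac5611⟩
  · exact ⟨_, fac5612⟩
  · exact ⟨_, fac5613⟩
  · exact ⟨_, fac5614⟩
  · exact ⟨_, fac5615⟩
  · exact ⟨_, fac5616⟩
  · exact ⟨_, fac5617⟩
  · exact ⟨_, fac5618⟩
  · exact ⟨_, fac5619⟩
  · exact ⟨_, fac5620⟩
  · exact ⟨_, fac5621⟩
  · exact ⟨_, fac5622⟩
  · exact ⟨_, fac5623⟩
  · exact ⟨_, fac5624⟩
  · exact ⟨_, fac5625⟩
  · exact ⟨_, fac5626⟩
  · exact ⟨_, fac5627⟩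
  · exact ⟨_, fac5628⟩
  · exact ⟨_, fac5629⟩
  · exact ⟨_, fac5630⟩
  · exact ⟨_, fac5631⟩

theorem good87 : bx87.GoodK ((an : ℝ) / 100) (L.map (ITerm.term den)) (L2.map (ITerm.term den))
    (KL.map (KI.term den)) delta :=
  goodK_of_checkR an den (by decide) L L2 KL dtbl dtbl_ok rfl codes posN rowsA rowsB rowsC rows_tbl 12 256 8 72 b0 28 22
    (by decide) parts_ok (by decide +kernel) slice_ok lit_ok 1 (by decide +kernel) delta bx87 hd87
    (by decide) rls87 rls_ok87 (by decide) (planOf lams87) 190 dD87 dE87 els87 rfl pay87 delta_le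
    (fun b hb => by
      interval_cases b
      · exact bucket87_0
      · exact bucket87_1
      · exact bucket87_2
      · exact bucket87_3
      · exact bucket87_4
      · exact bucket87_5
      · exact bucket87_6
      · exact bucket87_7)

end Vale.Agent.P098.Exact.Sos6.Q93
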