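import Vale.Agent.P098.Exact.Sos6.Q93.Common
import Vale.Agent.P098.Exact.Sos6.Q93.Box88B0
import Vale.Agent.P098.Exact.Sos6.Q93.Box88B1
import Vale.Agent.P098.Exact.Sos6.Q93.Box88B2
import Vale.Agent.P098.Exact.Sos6.Q93.Box88B3
import Vale.Agent.P098.Exact.Sos6.Q93.Box88B4
import Vale.Agent.P098.Exact.Sos6.Q93.Box88B5
import Vale.Agent.P098.Exact.Sos6.Q93.Box88B6
import Vale.Agent.P098.Exact.Sos6.Q93.Box88B7

/-! Generated data of the dimension six interior check. -/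

noncomputable section

namespace Vale.Agent.P098.Exact.Sos6.Q93

set_option maxRecDepth 100000

theorem pay88 : dtbl.payOK 190 dD88 dE88 (elTot els88) = true := by decide +kernel

theorem rls_ok88 : ∀ G ∈ rls88, ∃ Ns, tbl.facR 72 b0 28 22 Ns G = true := by
  intro G hG
  simp only [rls88, List.mem_cons, List.not_mem_nil, or_false] at hG
  rcases hG with rfl | rfl | rfl | rfl | rfl | rfl | rfl | rfl | rfl | rfl | rfl | rfl | rfl | rfl | rfl | rfl | rfl | rfl | rfl | rfl | rfl | rfl | rfl | rfl | rfl | rfl | rfl | rfl | rfl | rfl | rfl | rfl | rfl | rfl | rfl | rfl | rfl | rfl | rfl | rfl | rfl | rfl | rfl | rfl | rfl | rfl | rfl | rfl | rfl | rfl | rfl | rfl | rfl | rfl | rfl | rfl | rfl | rfl | rfl | rfl | rfl | rfl | rfl | rfl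
  · exact ⟨_, fac5632⟩
  · exact ⟨_, fac5633⟩
  · exact ⟨_, fac5634⟩
  · exact ⟨_, fac5635⟩
  · exact ⟨_, fac5636⟩
  · exact ⟨_, fac5637⟩
  · exact ⟨_, fac5638⟩
  · exact ⟨_, fac5639⟩
  · exact ⟨_, fac5640⟩
  · exact ⟨_, fac5641⟩
  · exact ⟨_, fac5642⟩
  · exact ⟨_, fac5643⟩
  · exact ⟨_, fac5644⟩
  · exact ⟨_, fac5645⟩
  · exact ⟨_, fac5646⟩
  · exact ⟨_, fac5647⟩
  · exact ⟨_, fac5648⟩
  · exact ⟨_, fac5649⟩
  · exact ⟨_, fac5650⟩
  · exact ⟨_, fac5651⟩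
  · exact ⟨_, fac5652⟩
  · exact ⟨_, fac5653⟩
  · exact ⟨_, fac5654⟩
  · exact ⟨_, fac5655⟩
  · exact ⟨_, fac5656⟩
  · exact ⟨_, fac5657⟩
  · exact ⟨_, fac5658⟩
  · exact ⟨_, fac5659⟩
  · exact ⟨_, fac5660⟩
  · exact ⟨_, fac5661⟩
  · exact ⟨_, fac5662⟩
  · exact ⟨_, fac5663⟩
  · exact ⟨_, fac5664⟩
  · exact ⟨_, fac5665⟩
  · exact ⟨_, fac5666⟩
  · exact ⟨_, fac5667⟩
  · exact ⟨_, fac5668⟩
  · exact ⟨_, fac5669⟩
  · exact ⟨_, fac5670⟩
  · exact ⟨_, fac5671⟩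
  · exact ⟨_, fac5672⟩
  · exact ⟨_, fac5673⟩
  · exact ⟨_, fac5674⟩
  · exact ⟨_, fac5675⟩
  · exact ⟨_, fac5676⟩
  · exact ⟨_, fac5677⟩
  · exact ⟨_, fac5678⟩
  · exact ⟨_, fac5679⟩
  · exact ⟨_, fac5680⟩
  · exact ⟨_, fac5681⟩
  · exact ⟨_, fac5682⟩
  · exact ⟨_, fac5683⟩
  · exact ⟨_, fac5684⟩
  · exact ⟨_, fac5685⟩
  · exact ⟨_, fac5686⟩
  · exact ⟨_, fac5687⟩
  · exact ⟨_, fac5688⟩
  · exact ⟨_, fac5689⟩
  · exact ⟨_, fac5690⟩
  · exact ⟨_, fac5691⟩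
  · exact ⟨_, fac5692⟩
  · exact ⟨_, fac5693⟩
  · exact ⟨_, fac5694⟩
  · exact ⟨_, fac5695⟩

theorem good88 : bx88.GoodK ((an : ℝ) / 100) (L.map (ITerm.term den)) (L2.map (ITerm.term den))
    (KL.map (KI.term den)) delta :=
  goodK_of_checkR an den (by decide) L L2 KL dtbl dtbl_ok rfl codes posN rowsA rowsB rowsC rows_tbl 12 256 8 72 b0 28 22
    (by decide) parts_ok (by decide +kernel) slice_ok lit_ok 1 (by decide +kernel) delta bx88 hd88
    (by decide) rls88 rls_ok88 (by decide) (planOf lams88) 190 dD88 dE88 els88 rfl pay88 delta_le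
    (fun b hb => by
      interval_cases b
      · exact bucket88_0
      · exact bucket88_1
      · exact bucket88_2
      · exact bucket88_3
      · exact bucket88_4
      · exact bucket88_5
      · exact bucket88_6
      · exact bucket88_7)

end Vale.Agent.P098.Exact.Sos6.Q93
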