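import Vale.Agent.P098.Exact.Sos6.Q93.Common
import Vale.Agent.P098.Exact.Sos6.Q93.Box89B0
import Vale.Agent.P098.Exact.Sos6.Q93.Box89B1
import Vale.Agent.P098.Exact.Sos6.Q93.Box89B2
import Vale.Agent.P098.Exact.Sos6.Q93.Box89B3
import Vale.Agent.P098.Exact.Sos6.Q93.Box89B4
import Vale.Agent.P098.Exact.Sos6.Q93.Box89B5
import Vale.Agent.P098.Exact.Sos6.Q93.Box89B6
import Vale.Agent.P098.Exact.Sos6.Q93.Box89B7

/-! Generated data of the dimension six interior check. -/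

noncomputable section

namespace Vale.Agent.P098.Exact.Sos6.Q93

set_option maxRecDepth 100000

theorem pay89 : dtbl.payOK 190 dD89 dE89 (elTot els89) = true := by decide +kernel

theorem rls_ok89 : ∀ G ∈ rls89, ∃ Ns, tbl.facR 72 b0 28 22 Ns G = true := by
  intro G hG
  simp only [rls89, List.mem_cons, List.not_mem_nil, or_false] at hG
  rcases hG with rfl | rfl | rfl | rfl | rfl | rfl | rfl | rfl | rfl | rfl | rfl | rfl | rfl | rfl | rfl | rfl | rfl | rfl | rfl | rfl | rfl | rfl | rfl | rfl | rfl | rfl | rfl | rfl | rfl | rfl | rfl | rfl | rfl | rfl | rfl | rfl | rfl | rfl | rfl | rfl | rfl | rfl | rfl | rfl | rfl | rfl | rfl | rfl | rfl | rfl | rfl | rfl | rfl | rfl | rfl | rfl | rfl | rfl | rfl | rfl | rfl | rfl | rfl | rfl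
  · exact ⟨_, fac5696⟩
  · exact ⟨_, fac5697⟩
  · exact ⟨_, fac5698⟩
  · exact ⟨_, fac5699⟩
  · exact ⟨_, fac5700⟩
  · exact ⟨_, fac5701⟩
  · exact ⟨_, fac5702⟩
  · exact ⟨_, fac5703⟩
  · exact ⟨_, fac5704⟩
  · exact ⟨_, fac5705⟩
  · exact ⟨_, fac5706⟩
  · exact ⟨_, fac5707⟩
  · exact ⟨_, fac5708⟩
  · exact ⟨_, fac5709⟩
  · exact ⟨_, fac5710⟩
  · exact ⟨_, fac5711⟩
  · exact ⟨_, fac5712⟩
  · exact ⟨_, fac5713⟩
  · exact ⟨_, fac5714⟩
  · exact ⟨_, fac5715⟩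
  · exact ⟨_, fac5716⟩
  · exact ⟨_, fac5717⟩
  · exact ⟨_, fac5718⟩
  · exact ⟨_, fac5719⟩
  · exact ⟨_, fac5720⟩
  · exact ⟨_, fac5721⟩
  · exact ⟨_, fac5722⟩
  · exact ⟨_, fac5723⟩
  · exact ⟨_, fac5724⟩
  · exact ⟨_, fac5725⟩
  · exact ⟨_, fac5726⟩
  · exact ⟨_, fac5727⟩
  · exact ⟨_, fac5728⟩
  · exact ⟨_, fac5729⟩
  · exact ⟨_, fac5730⟩
  · exact ⟨_, fac5731⟩
  · exact ⟨_, fac5732⟩
  · exact ⟨_, fac5733⟩
  · exact ⟨_, fac5734⟩
  · exact ⟨_, fac5735⟩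
  · exact ⟨_, fac5736⟩
  · exact ⟨_, fac5737⟩
  · exact ⟨_, fac5738⟩
  · exact ⟨_, fac5739⟩
  · exact ⟨_, fac5740⟩
  · exact ⟨_, fac5741⟩
  · exact ⟨_, fac5742⟩
  · exact ⟨_, fac5743⟩
  · exact ⟨_, fac5744⟩
  · exact ⟨_, fac5745⟩
  · exact ⟨_, fac5746⟩
  · exact ⟨_, fac5747⟩
  · exact ⟨_, fac5748⟩
  · exact ⟨_, fac5749⟩
  · exact ⟨_, fac5750⟩
  · exact ⟨_, fac5751⟩
  · exact ⟨_, fac5752⟩
  · exact ⟨_, fac5753⟩
  · exact ⟨_, fac5754⟩
  · exact ⟨_, fac5755⟩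
  · exact ⟨_, fac5756⟩
  · exact ⟨_, fac5757⟩
  · exact ⟨_, fac5758⟩
  · exact ⟨_, fac5759⟩

theorem good89 : bx89.GoodK ((an : ℝ) / 100) (L.map (ITerm.term den)) (L2.map (ITerm.term den))
    (KL.map (KI.term den)) delta :=
  goodK_of_checkR an den (by decide) L L2 KL dtbl dtbl_ok rfl codes posN rowsA rowsB rowsC rows_tbl 12 256 8 72 b0 28 22
    (by decide) parts_ok (by decide +kernel) slice_ok lit_ok 1 (by decide +kernel) delta bx89 hd89
    (by decide) rls89 rls_ok89 (by decide) (planOf lams89) 190 dD89 dE89 els89 rfl pay89 delta_le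
    (fun b hb => by
      interval_cases b
      · exact bucket89_0
      · exact bucket89_1
      · exact bucket89_2
      · exact bucket89_3
      · exact bucket89_4
      · exact bucket89_5
      · exact bucket89_6
      · exact bucket89_7)

end Vale.Agent.P098.Exact.Sos6.Q93
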