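import Vale.Agent.P098.Exact.Sos6.Q93.Common
import Vale.Agent.P098.Exact.Sos6.Q93.Box8B0
import Vale.Agent.P098.Exact.Sos6.Q93.Box8B1
import Vale.Agent.P098.Exact.Sos6.Q93.Box8B2
import Vale.Agent.P098.Exact.Sos6.Q93.Box8B3
import Vale.Agent.P098.Exact.Sos6.Q93.Box8B4
import Vale.Agent.P098.Exact.Sos6.Q93.Box8B5
import Vale.Agent.P098.Exact.Sos6.Q93.Box8B6
import Vale.Agent.P098.Exact.Sos6.Q93.Box8B7

/-! Generated data of the dimension six interior check. -/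

noncomputable section

namespace Vale.Agent.P098.Exact.Sos6.Q93

set_option maxRecDepth 100000

theorem pay8 : dtbl.payOK 190 dD8 dE8 (elTot els8) = true := by decide +kernel

theorem rls_ok8 : ∀ G ∈ rls8, ∃ Ns, tbl.facR 72 b0 28 22 Ns G = true := by
  intro G hG
  simp only [rls8, List.mem_cons, List.not_mem_nil, or_false] at hG
  rcases hG with rfl | rfl | rfl | rfl | rfl | rfl | rfl | rfl | rfl | rfl | rfl | rfl | rfl | rfl | rfl | rfl | rfl | rfl | rfl | rfl | rfl | rfl | rfl | rfl | rfl | rfl | rfl | rfl | rfl | rfl | rfl | rfl | rfl | rfl | rfl | rfl | rfl | rfl | rfl | rfl | rfl | rfl | rfl | rfl | rfl | rfl | rfl | rfl | rfl | rfl | rfl | rfl | rfl | rfl | rfl | rfl | rfl | rfl | rfl | rfl | rfl | rfl | rfl | rfl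
  · exact ⟨_, fac512⟩
  · exact ⟨_, fac513⟩
  · exact ⟨_, fac514⟩
  · exact ⟨_, fac515⟩
  · exact ⟨_, fac516⟩
  · exact ⟨_, fac517⟩
  · exact ⟨_, fac518⟩
  · exact ⟨_, fac519⟩
  · exact ⟨_, fac520⟩
  · exact ⟨_, fac521⟩
  · exact ⟨_, fac522⟩
  · exact ⟨_, fac523⟩
  · exact ⟨_, fac524⟩
  · exact ⟨_, fac525⟩
  · exact ⟨_, fac526⟩
  · exact ⟨_, fac527⟩
  · exact ⟨_, fac528⟩
  · exact ⟨_, fac529⟩
  · exact ⟨_, fac530⟩
  · exact ⟨_, fac531⟩
  · exact ⟨_, fac532⟩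
  · exact ⟨_, fac533⟩
  · exact ⟨_, fac534⟩
  · exact ⟨_, fac535⟩
  · exact ⟨_, fac536⟩
  · exact ⟨_, fac537⟩
  · exact ⟨_, fac538⟩
  · exact ⟨_, fac539⟩
  · exact ⟨_, fac540⟩
  · exact ⟨_, fac541⟩
  · exact ⟨_, fac542⟩
  · exact ⟨_, fac543⟩
  · exact ⟨_, fac544⟩
  · exact ⟨_, fac545⟩
  · exact ⟨_, fac546⟩
  · exact ⟨_, fac547⟩
  · exact ⟨_, fac548⟩
  · exact ⟨_, fac549⟩
  · exact ⟨_, fac550⟩
  · exact ⟨_, fac551⟩
  · exact ⟨_, fac552⟩
  · exact ⟨_, fac553⟩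
  · exact ⟨_, fac554⟩
  · exact ⟨_, fac555⟩
  · exact ⟨_, fac556⟩
  · exact ⟨_, fac557⟩
  · exact ⟨_, fac558⟩
  · exact ⟨_, fac559⟩
  · exact ⟨_, fac560⟩
  · exact ⟨_, fac561⟩
  · exact ⟨_, fac562⟩
  · exact ⟨_, fac563⟩
  · exact ⟨_, fac564⟩
  · exact ⟨_, fac565⟩
  · exact ⟨_, fac566⟩
  · exact ⟨_, fac567⟩
  · exact ⟨_, fac568⟩
  · exact ⟨_, fac569⟩
  · exact ⟨_, fac570⟩
  · exact ⟨_, fac571⟩
  · exact ⟨_, fac572⟩
  · exact ⟨_, fac573⟩
  · exact ⟨_, fac574⟩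
  · exact ⟨_, fac575⟩

theorem good8 : bx8.GoodK ((an : ℝ) / 100) (L.map (ITerm.term den)) (L2.map (ITerm.term den))
    (KL.map (KI.term den)) delta :=
  goodK_of_checkR an den (by decide) L L2 KL dtbl dtbl_ok rfl codes posN rowsA rowsB rowsC rows_tbl 12 256 8 72 b0 28 22
    (by decide) parts_ok (by decide +kernel) slice_ok lit_ok 1 (by decide +kernel) delta bx8 hd8
    (by decide) rls8 rls_ok8 (by decide) (planOf lams8) 190 dD8 dE8 els8 rfl pay8 delta_le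
    (fun b hb => by
      interval_cases b
      · exact bucket8_0
      · exact bucket8_1
      · exact bucket8_2
      · exact bucket8_3
      · exact bucket8_4
      · exact bucket8_5
      · exact bucket8_6
      · exact bucket8_7)

end Vale.Agent.P098.Exact.Sos6.Q93
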