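import Vale.Agent.P098.Exact.Sos6.Q93.Common
import Vale.Agent.P098.Exact.Sos6.Q93.Box90B0
import Vale.Agent.P098.Exact.Sos6.Q93.Box90B1
import Vale.Agent.P098.Exact.Sos6.Q93.Box90B2
import Vale.Agent.P098.Exact.Sos6.Q93.Box90B3
import Vale.Agent.P098.Exact.Sos6.Q93.Box90B4
import Vale.Agent.P098.Exact.Sos6.Q93.Box90B5
import Vale.Agent.P098.Exact.Sos6.Q93.Box90B6
import Vale.Agent.P098.Exact.Sos6.Q93.Box90B7

/-! Generated data of the dimension six interior check. -/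

noncomputable section

namespace Vale.Agent.P098.Exact.Sos6.Q93

set_option maxRecDepth 100000

theorem pay90 : dtbl.payOK 190 dD90 dE90 (elTot els90) = true := by decide +kernel

theorem rls_ok90 : ∀ G ∈ rls90, ∃ Ns, tbl.facR 72 b0 28 22 Ns G = true := by
  intro G hG
  simp only [rls90, List.mem_cons, List.not_mem_nil, or_false] at hG
  rcases hG with rfl | rfl | rfl | rfl | rfl | rfl | rfl | rfl | rfl | rfl | rfl | rfl | rfl | rfl | rfl | rfl | rfl | rfl | rfl | rfl | rfl | rfl | rfl | rfl | rfl | rfl | rfl | rfl | rfl | rfl | rfl | rfl | rfl | rfl | rfl | rfl | rfl | rfl | rfl | rfl | rfl | rfl | rfl | rfl | rfl | rfl | rfl | rfl | rfl | rfl | rfl | rfl | rfl | rfl | rfl | rfl | rfl | rfl | rfl | rfl | rfl | rfl | rfl | rfl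
  · exact ⟨_, fac5760⟩
  · exact ⟨_, fac5761⟩
  · exact ⟨_, fac5762⟩
  · exact ⟨_, fac5763⟩
  · exact ⟨_, fac5764⟩
  · exact ⟨_, fac5765⟩
  · exact ⟨_, fac5766⟩
  · exact ⟨_, fac5767⟩
  · exact ⟨_, fac5768⟩
  · exact ⟨_, fac5769⟩
  · exact ⟨_, fac5770⟩
  · exact ⟨_, fac5771⟩
  · exact ⟨_, fac5772⟩
  · exact ⟨_, fac5773⟩
  · exact ⟨_, fac5774⟩
  · exact ⟨_, fac5775⟩
  · exact ⟨_, fac5776⟩
  · exact ⟨_, fac5777⟩
  · exact ⟨_, fac5778⟩
  · exact ⟨_, fac5779⟩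
  · exact ⟨_, fac5780⟩
  · exact ⟨_, fac5781⟩
  · exact ⟨_, fac5782⟩
  · exact ⟨_, fac5783⟩
  · exact ⟨_, fac5784⟩
  · exact ⟨_, fac5785⟩
  · exact ⟨_, fac5786⟩
  · exact ⟨_, fac5787⟩
  · exact ⟨_, fac5788⟩
  · exact ⟨_, fac5789⟩
  · exact ⟨_, fac5790⟩
  · exact ⟨_, fac5791⟩
  · exact ⟨_, fac5792⟩
  · exact ⟨_, fac5793⟩
  · exact ⟨_, fac5794⟩
  · exact ⟨_, fac5795⟩
  · exact ⟨_, fac5796⟩
  · exact ⟨_, fac5797⟩
  · exact ⟨_, fac5798⟩
  · exact ⟨_, fac5799⟩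
  · exact ⟨_, fac5800⟩
  · exact ⟨_, fac5801⟩
  · exact ⟨_, fac5802⟩
  · exact ⟨_, fac5803⟩
  · exact ⟨_, fac5804⟩
  · exact ⟨_, fac5805⟩
  · exact ⟨_, fac5806⟩
  · exact ⟨_, fac5807⟩
  · exact ⟨_, fac5808⟩
  · exact ⟨_, fac5809⟩
  · exact ⟨_, fac5810⟩
  · exact ⟨_, fac5811⟩
  · exact ⟨_, fac5812⟩
  · exact ⟨_, fac5813⟩
  · exact ⟨_, fac5814⟩
  · exact ⟨_, fac5815⟩
  · exact ⟨_, fac5816⟩
  · exact ⟨_, fac5817⟩
  · exact ⟨_, fac5818⟩
  · exact ⟨_, fac5819⟩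
  · exact ⟨_, fac5820⟩
  · exact ⟨_, fac5821⟩
  · exact ⟨_, fac5822⟩
  · exact ⟨_, fac5823⟩

theorem good90 : bx90.GoodK ((an : ℝ) / 100) (L.map (ITerm.term den)) (L2.map (ITerm.term den))
    (KL.map (KI.term den)) delta :=
  goodK_of_checkR an den (by decide) L L2 KL dtbl dtbl_ok rfl codes posN rowsA rowsB rowsC rows_tbl 12 256 8 72 b0 28 22
    (by decide) parts_ok (by decide +kernel) slice_ok lit_ok 1 (by decide +kernel) delta bx90 hd90
    (by decide) rls90 rls_ok90 (by decide) (planOf lams90) 190 dD90 dE90 els90 rfl pay90 delta_le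
    (fun b hb => by
      interval_cases b
      · exact bucket90_0
      · exact bucket90_1
      · exact bucket90_2
      · exact bucket90_3
      · exact bucket90_4
      · exact bucket90_5
      · exact bucket90_6
      · exact bucket90_7)

end Vale.Agent.P098.Exact.Sos6.Q93
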