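import Vale.Agent.P098.Exact.Sos6.Q93.Common
import Vale.Agent.P098.Exact.Sos6.Q93.Box91B0
import Vale.Agent.P098.Exact.Sos6.Q93.Box91B1
import Vale.Agent.P098.Exact.Sos6.Q93.Box91B2
import Vale.Agent.P098.Exact.Sos6.Q93.Box91B3
import Vale.Agent.P098.Exact.Sos6.Q93.Box91B4
import Vale.Agent.P098.Exact.Sos6.Q93.Box91B5
import Vale.Agent.P098.Exact.Sos6.Q93.Box91B6
import Vale.Agent.P098.Exact.Sos6.Q93.Box91B7

/-! Generated data of the dimension six interior check. -/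

noncomputable section

namespace Vale.Agent.P098.Exact.Sos6.Q93

set_option maxRecDepth 100000

theorem pay91 : dtbl.payOK 190 dD91 dE91 (elTot els91) = true := by decide +kernel

theorem rls_ok91 : ∀ G ∈ rls91, ∃ Ns, tbl.facR 72 b0 28 22 Ns G = true := by
  intro G hG
  simp only [rls91, List.mem_cons, List.not_mem_nil, or_false] at hG
  rcases hG with rfl | rfl | rfl | rfl | rfl | rfl | rfl | rfl | rfl | rfl | rfl | rfl | rfl | rfl | rfl | rfl | rfl | rfl | rfl | rfl | rfl | rfl | rfl | rfl | rfl | rfl | rfl | rfl | rfl | rfl | rfl | rfl | rfl | rfl | rfl | rfl | rfl | rfl | rfl | rfl | rfl | rfl | rfl | rfl | rfl | rfl | rfl | rfl | rfl | rfl | rfl | rfl | rfl | rfl | rfl | rfl | rfl | rfl | rfl | rfl | rfl | rfl | rfl | rfl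
  · exact ⟨_, fac5824⟩
  · exact ⟨_, fac5825⟩
  · exact ⟨_, fac5826⟩
  · exact ⟨_, fac5827⟩
  · exact ⟨_, fac5828⟩
  · exact ⟨_, fac5829⟩
  · exact ⟨_, fac5830⟩
  · exact ⟨_, fac5831⟩
  · exact ⟨_, fac5832⟩
  · exact ⟨_, fac5833⟩
  · exact ⟨_, fac5834⟩
  · exact ⟨_, fac5835⟩
  · exact ⟨_, fac5836⟩
  · exact ⟨_, fac5837⟩
  · exact ⟨_, fac5838⟩
  · exact ⟨_, fac5839⟩
  · exact ⟨_, fac5840⟩
  · exact ⟨_, fac5841⟩
  · exact ⟨_, fac5842⟩
  · exact ⟨_, fac5843⟩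
  · exact ⟨_, fac5844⟩
  · exact ⟨_, fac5845⟩
  · exact ⟨_, fac5846⟩
  · exact ⟨_, fac5847⟩
  · exact ⟨_, fac5848⟩
  · exact ⟨_, fac5849⟩
  · exact ⟨_, fac5850⟩
  · exact ⟨_, fac5851⟩
  · exact ⟨_, fac5852⟩
  · exact ⟨_, fac5853⟩
  · exact ⟨_, fac5854⟩
  · exact ⟨_, fac5855⟩
  · exact ⟨_, fac5856⟩
  · exact ⟨_, fac5857⟩
  · exact ⟨_, fac5858⟩
  · exact ⟨_, fac5859⟩
  · exact ⟨_, fac5860⟩
  · exact ⟨_, fac5861⟩
  · exact ⟨_, fac5862⟩
  · exact ⟨_, fac5863⟩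
  · exact ⟨_, fac5864⟩
  · exact ⟨_, fac5865⟩
  · exact ⟨_, fac5866⟩
  · exact ⟨_, fac5867⟩
  · exact ⟨_, fac5868⟩
  · exact ⟨_, fac5869⟩
  · exact ⟨_, fac5870⟩
  · exact ⟨_, fac5871⟩
  · exact ⟨_, fac5872⟩
  · exact ⟨_, fac5873⟩
  · exact ⟨_, fac5874⟩
  · exact ⟨_, fac5875⟩
  · exact ⟨_, fac5876⟩
  · exact ⟨_, fac5877⟩
  · exact ⟨_, fac5878⟩
  · exact ⟨_, fac5879⟩
  · exact ⟨_, fac5880⟩
  · exact ⟨_, fac5881⟩
  · exact ⟨_, fac5882⟩
  · exact ⟨_, fac5883⟩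
  · exact ⟨_, fac5884⟩
  · exact ⟨_, fac5885⟩
  · exact ⟨_, fac5886⟩
  · exact ⟨_, fac5887⟩

theorem good91 : bx91.GoodK ((an : ℝ) / 100) (L.map (ITerm.term den)) (L2.map (ITerm.term den))
    (KL.map (KI.term den)) delta :=
  goodK_of_checkR an den (by decide) L L2 KL dtbl dtbl_ok rfl codes posN rowsA rowsB rowsC rows_tbl 12 256 8 72 b0 28 22
    (by decide) parts_ok (by decide +kernel) slice_ok lit_ok 1 (by decide +kernel) delta bx91 hd91
    (by decide) rls91 rls_ok91 (by decide) (planOf lams91) 190 dD91 dE91 els91 rfl pay91 delta_le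
    (fun b hb => by
      interval_cases b
      · exact bucket91_0
      · exact bucket91_1
      · exact bucket91_2
      · exact bucket91_3
      · exact bucket91_4
      · exact bucket91_5
      · exact bucket91_6
      · exact bucket91_7)

end Vale.Agent.P098.Exact.Sos6.Q93
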