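import Vale.Agent.P098.Exact.Sos6.Q93.Common
import Vale.Agent.P098.Exact.Sos6.Q93.Box92B0
import Vale.Agent.P098.Exact.Sos6.Q93.Box92B1
import Vale.Agent.P098.Exact.Sos6.Q93.Box92B2
import Vale.Agent.P098.Exact.Sos6.Q93.Box92B3
import Vale.Agent.P098.Exact.Sos6.Q93.Box92B4
import Vale.Agent.P098.Exact.Sos6.Q93.Box92B5
import Vale.Agent.P098.Exact.Sos6.Q93.Box92B6
import Vale.Agent.P098.Exact.Sos6.Q93.Box92B7

/-! Generated data of the dimension six interior check. -/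

noncomputable section

namespace Vale.Agent.P098.Exact.Sos6.Q93

set_option maxRecDepth 100000

theorem pay92 : dtbl.payOK 190 dD92 dE92 (elTot els92) = true := by decide +kernel

theorem rls_ok92 : ∀ G ∈ rls92, ∃ Ns, tbl.facR 72 b0 28 22 Ns G = true := by
  intro G hG
  simp only [rls92, List.mem_cons, List.not_mem_nil, or_false] at hG
  rcases hG with rfl | rfl | rfl | rfl | rfl | rfl | rfl | rfl | rfl | rfl | rfl | rfl | rfl | rfl | rfl | rfl | rfl | rfl | rfl | rfl | rfl | rfl | rfl | rfl | rfl | rfl | rfl | rfl | rfl | rfl | rfl | rfl | rfl | rfl | rfl | rfl | rfl | rfl | rfl | rfl | rfl | rfl | rfl | rfl | rfl | rfl | rfl | rfl | rfl | rfl | rfl | rfl | rfl | rfl | rfl | rfl | rfl | rfl | rfl | rfl | rfl | rfl | rfl | rfl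
  · exact ⟨_, fac5888⟩
  · exact ⟨_, fac5889⟩
  · exact ⟨_, fac5890⟩
  · exact ⟨_, fac5891⟩
  · exact ⟨_, fac5892⟩
  · exact ⟨_, fac5893⟩
  · exact ⟨_, fac5894⟩
  · exact ⟨_, fac5895⟩
  · exact ⟨_, fac5896⟩
  · exact ⟨_, fac5897⟩
  · exact ⟨_, fac5898⟩
  · exact ⟨_, fac5899⟩
  · exact ⟨_, fac5900⟩
  · exact ⟨_, fac5901⟩
  · exact ⟨_, fac5902⟩
  · exact ⟨_, fac5903⟩
  · exact ⟨_, fac5904⟩
  · exact ⟨_, fac5905⟩
  · exact ⟨_, fac5906⟩
  · exact ⟨_, fac5907⟩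
  · exact ⟨_, fac5908⟩
  · exact ⟨_, fac5909⟩
  · exact ⟨_, fac5910⟩
  · exact ⟨_, fac5911⟩
  · exact ⟨_, fac5912⟩
  · exact ⟨_, fac5913⟩
  · exact ⟨_, fac5914⟩
  · exact ⟨_, fac5915⟩
  · exact ⟨_, fac5916⟩
  · exact ⟨_, fac5917⟩
  · exact ⟨_, fac5918⟩
  · exact ⟨_, fac5919⟩
  · exact ⟨_, fac5920⟩
  · exact ⟨_, fac5921⟩
  · exact ⟨_, fac5922⟩
  · exact ⟨_, fac5923⟩
  · exact ⟨_, fac5924⟩
  · exact ⟨_, fac5925⟩
  · exact ⟨_, fac5926⟩
  · exact ⟨_, fac5927⟩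
  · exact ⟨_, fac5928⟩
  · exact ⟨_, fac5929⟩
  · exact ⟨_, fac5930⟩
  · exact ⟨_, fac5931⟩
  · exact ⟨_, fac5932⟩
  · exact ⟨_, fac5933⟩
  · exact ⟨_, fac5934⟩
  · exact ⟨_, fac5935⟩
  · exact ⟨_, fac5936⟩
  · exact ⟨_, fac5937⟩
  · exact ⟨_, fac5938⟩
  · exact ⟨_, fac5939⟩
  · exact ⟨_, fac5940⟩
  · exact ⟨_, fac5941⟩
  · exact ⟨_, fac5942⟩
  · exact ⟨_, fac5943⟩
  · exact ⟨_, fac5944⟩
  · exact ⟨_, fac5945⟩
  · exact ⟨_, fac5946⟩
  · exact ⟨_, fac5947⟩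
  · exact ⟨_, fac5948⟩
  · exact ⟨_, fac5949⟩
  · exact ⟨_, fac5950⟩
  · exact ⟨_, fac5951⟩

theorem good92 : bx92.GoodK ((an : ℝ) / 100) (L.map (ITerm.term den)) (L2.map (ITerm.term den))
    (KL.map (KI.term den)) delta :=
  goodK_of_checkR an den (by decide) L L2 KL dtbl dtbl_ok rfl codes posN rowsA rowsB rowsC rows_tbl 12 256 8 72 b0 28 22
    (by decide) parts_ok (by decide +kernel) slice_ok lit_ok 1 (by decide +kernel) delta bx92 hd92
    (by decide) rls92 rls_ok92 (by decide) (planOf lams92) 190 dD92 dE92 els92 rfl pay92 delta_le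
    (fun b hb => by
      interval_cases b
      · exact bucket92_0
      · exact bucket92_1
      · exact bucket92_2
      · exact bucket92_3
      · exact bucket92_4
      · exact bucket92_5
      · exact bucket92_6
      · exact bucket92_7)

end Vale.Agent.P098.Exact.Sos6.Q93
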