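import Vale.Agent.P098.Exact.Sos6.Q93.Common
import Vale.Agent.P098.Exact.Sos6.Q93.Box93B0
import Vale.Agent.P098.Exact.Sos6.Q93.Box93B1
import Vale.Agent.P098.Exact.Sos6.Q93.Box93B2
import Vale.Agent.P098.Exact.Sos6.Q93.Box93B3
import Vale.Agent.P098.Exact.Sos6.Q93.Box93B4
import Vale.Agent.P098.Exact.Sos6.Q93.Box93B5
import Vale.Agent.P098.Exact.Sos6.Q93.Box93B6
import Vale.Agent.P098.Exact.Sos6.Q93.Box93B7

/-! Generated data of the dimension six interior check. -/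

noncomputable section

namespace Vale.Agent.P098.Exact.Sos6.Q93

set_option maxRecDepth 100000

theorem pay93 : dtbl.payOK 190 dD93 dE93 (elTot els93) = true := by decide +kernel

theorem rls_ok93 : ∀ G ∈ rls93, ∃ Ns, tbl.facR 72 b0 28 22 Ns G = true := by
  intro G hG
  simp only [rls93, List.mem_cons, List.not_mem_nil, or_false] at hG
  rcases hG with rfl | rfl | rfl | rfl | rfl | rfl | rfl | rfl | rfl | rfl | rfl | rfl | rfl | rfl | rfl | rfl | rfl | rfl | rfl | rfl | rfl | rfl | rfl | rfl | rfl | rfl | rfl | rfl | rfl | rfl | rfl | rfl | rfl | rfl | rfl | rfl | rfl | rfl | rfl | rfl | rfl | rfl | rfl | rfl | rfl | rfl | rfl | rfl | rfl | rfl | rfl | rfl | rfl | rfl | rfl | rfl | rfl | rfl | rfl | rfl | rfl | rfl | rfl | rfl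
  · exact ⟨_, fac5952⟩
  · exact ⟨_, fac5953⟩
  · exact ⟨_, fac5954⟩
  · exact ⟨_, fac5955⟩
  · exact ⟨_, fac5956⟩
  · exact ⟨_, fac5957⟩
  · exact ⟨_, fac5958⟩
  · exact ⟨_, fac5959⟩
  · exact ⟨_, fac5960⟩
  · exact ⟨_, fac5961⟩
  · exact ⟨_, fac5962⟩
  · exact ⟨_, fac5963⟩
  · exact ⟨_, fac5964⟩
  · exact ⟨_, fac5965⟩
  · exact ⟨_, fac5966⟩
  · exact ⟨_, fac5967⟩
  · exact ⟨_, fac5968⟩
  · exact ⟨_, fac5969⟩
  · exact ⟨_, fac5970⟩
  · exact ⟨_, fac5971⟩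
  · exact ⟨_, fac5972⟩
  · exact ⟨_, fac5973⟩
  · exact ⟨_, fac5974⟩
  · exact ⟨_, fac5975⟩
  · exact ⟨_, fac5976⟩
  · exact ⟨_, fac5977⟩
  · exact ⟨_, fac5978⟩
  · exact ⟨_, fac5979⟩
  · exact ⟨_, fac5980⟩
  · exact ⟨_, fac5981⟩
  · exact ⟨_, fac5982⟩
  · exact ⟨_, fac5983⟩
  · exact ⟨_, fac5984⟩
  · exact ⟨_, fac5985⟩
  · exact ⟨_, fac5986⟩
  · exact ⟨_, fac5987⟩
  · exact ⟨_, fac5988⟩
  · exact ⟨_, fac5989⟩
  · exact ⟨_, fac5990⟩
  · exact ⟨_, fac5991⟩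
  · exact ⟨_, fac5992⟩
  · exact ⟨_, fac5993⟩
  · exact ⟨_, fac5994⟩
  · exact ⟨_, fac5995⟩
  · exact ⟨_, fac5996⟩
  · exact ⟨_, fac5997⟩
  · exact ⟨_, fac5998⟩
  · exact ⟨_, fac5999⟩
  · exact ⟨_, fac6000⟩
  · exact ⟨_, fac6001⟩
  · exact ⟨_, fac6002⟩
  · exact ⟨_, fac6003⟩
  · exact ⟨_, fac6004⟩
  · exact ⟨_, fac6005⟩
  · exact ⟨_, fac6006⟩
  · exact ⟨_, fac6007⟩
  · exact ⟨_, fac6008⟩
  · exact ⟨_, fac6009⟩
  · exact ⟨_, fac6010⟩
  · exact ⟨_, fac6011⟩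
  · exact ⟨_, fac6012⟩
  · exact ⟨_, fac6013⟩
  · exact ⟨_, fac6014⟩
  · exact ⟨_, fac6015⟩

theorem good93 : bx93.GoodK ((an : ℝ) / 100) (L.map (ITerm.term den)) (L2.map (ITerm.term den))
    (KL.map (KI.term den)) delta :=
  goodK_of_checkR an den (by decide) L L2 KL dtbl dtbl_ok rfl codes posN rowsA rowsB rowsC rows_tbl 12 256 8 72 b0 28 22
    (by decide) parts_ok (by decide +kernel) slice_ok lit_ok 1 (by decide +kernel) delta bx93 hd93
    (by decide) rls93 rls_ok93 (by decide) (planOf lams93) 190 dD93 dE93 els93 rfl pay93 delta_le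
    (fun b hb => by
      interval_cases b
      · exact bucket93_0
      · exact bucket93_1
      · exact bucket93_2
      · exact bucket93_3
      · exact bucket93_4
      · exact bucket93_5
      · exact bucket93_6
      · exact bucket93_7)

end Vale.Agent.P098.Exact.Sos6.Q93
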