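import Vale.Agent.P098.Exact.Sos6.Q93.Common
import Vale.Agent.P098.Exact.Sos6.Q93.Box94B0
import Vale.Agent.P098.Exact.Sos6.Q93.Box94B1
import Vale.Agent.P098.Exact.Sos6.Q93.Box94B2
import Vale.Agent.P098.Exact.Sos6.Q93.Box94B3
import Vale.Agent.P098.Exact.Sos6.Q93.Box94B4
import Vale.Agent.P098.Exact.Sos6.Q93.Box94B5
import Vale.Agent.P098.Exact.Sos6.Q93.Box94B6
import Vale.Agent.P098.Exact.Sos6.Q93.Box94B7

/-! Generated data of the dimension six interior check. -/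

noncomputable section

namespace Vale.Agent.P098.Exact.Sos6.Q93

set_option maxRecDepth 100000

theorem pay94 : dtbl.payOK 190 dD94 dE94 (elTot els94) = true := by decide +kernel

theorem rls_ok94 : ∀ G ∈ rls94, ∃ Ns, tbl.facR 72 b0 28 22 Ns G = true := by
  intro G hG
  simp only [rls94, List.mem_cons, List.not_mem_nil, or_false] at hG
  rcases hG with rfl | rfl | rfl | rfl | rfl | rfl | rfl | rfl | rfl | rfl | rfl | rfl | rfl | rfl | rfl | rfl | rfl | rfl | rfl | rfl | rfl | rfl | rfl | rfl | rfl | rfl | rfl | rfl | rfl | rfl | rfl | rfl | rfl | rfl | rfl | rfl | rfl | rfl | rfl | rfl | rfl | rfl | rfl | rfl | rfl | rfl | rfl | rfl | rfl | rfl | rfl | rfl | rfl | rfl | rfl | rfl | rfl | rfl | rfl | rfl | rfl | rfl | rfl | rfl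
  · exact ⟨_, fac6016⟩
  · exact ⟨_, fac6017⟩
  · exact ⟨_, fac6018⟩
  · exact ⟨_, fac6019⟩
  · exact ⟨_, fac6020⟩
  · exact ⟨_, fac6021⟩
  · exact ⟨_, fac6022⟩
  · exact ⟨_, fac6023⟩
  · exact ⟨_, fac6024⟩
  · exact ⟨_, fac6025⟩
  · exact ⟨_, fac6026⟩
  · exact ⟨_, fac6027⟩
  · exact ⟨_, fac6028⟩
  · exact ⟨_, fac6029⟩
  · exact ⟨_, fac6030⟩
  · exact ⟨_, fac6031⟩
  · exact ⟨_, fac6032⟩
  · exact ⟨_, fac6033⟩
  · exact ⟨_, fac6034⟩
  · exact ⟨_, fac6035⟩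
  · exact ⟨_, fac6036⟩
  · exact ⟨_, fac6037⟩
  · exact ⟨_, fac6038⟩
  · exact ⟨_, fac6039⟩
  · exact ⟨_, fac6040⟩
  · exact ⟨_, fac6041⟩
  · exact ⟨_, fac6042⟩
  · exact ⟨_, fac6043⟩
  · exact ⟨_, fac6044⟩
  · exact ⟨_, fac6045⟩
  · exact ⟨_, fac6046⟩
  · exact ⟨_, fac6047⟩
  · exact ⟨_, fac6048⟩
  · exact ⟨_, fac6049⟩
  · exact ⟨_, fac6050⟩
  · exact ⟨_, fac6051⟩
  · exact ⟨_, fac6052⟩
  · exact ⟨_, fac6053⟩
  · exact ⟨_, fac6054⟩
  · exact ⟨_, fac6055⟩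
  · exact ⟨_, fac6056⟩
  · exact ⟨_, fac6057⟩
  · exact ⟨_, fac6058⟩
  · exact ⟨_, fac6059⟩
  · exact ⟨_, fac6060⟩
  · exact ⟨_, fac6061⟩
  · exact ⟨_, fac6062⟩
  · exact ⟨_, fac6063⟩
  · exact ⟨_, fac6064⟩
  · exact ⟨_, fac6065⟩
  · exact ⟨_, fac6066⟩
  · exact ⟨_, fac6067⟩
  · exact ⟨_, fac6068⟩
  · exact ⟨_, fac6069⟩
  · exact ⟨_, fac6070⟩
  · exact ⟨_, fac6071⟩
  · exact ⟨_, fac6072⟩
  · exact ⟨_, fac6073⟩
  · exact ⟨_, fac6074⟩
  · exact ⟨_, fac6075⟩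
  · exact ⟨_, fac6076⟩
  · exact ⟨_, fac6077⟩
  · exact ⟨_, fac6078⟩
  · exact ⟨_, fac6079⟩

theorem good94 : bx94.GoodK ((an : ℝ) / 100) (L.map (ITerm.term den)) (L2.map (ITerm.term den))
    (KL.map (KI.term den)) delta :=
  goodK_of_checkR an den (by decide) L L2 KL dtbl dtbl_ok rfl codes posN rowsA rowsB rowsC rows_tbl 12 256 8 72 b0 28 22
    (by decide) parts_ok (by decide +kernel) slice_ok lit_ok 1 (by decide +kernel) delta bx94 hd94
    (by decide) rls94 rls_ok94 (by decide) (planOf lams94) 190 dD94 dE94 els94 rfl pay94 delta_le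
    (fun b hb => by
      interval_cases b
      · exact bucket94_0
      · exact bucket94_1
      · exact bucket94_2
      · exact bucket94_3
      · exact bucket94_4
      · exact bucket94_5
      · exact bucket94_6
      · exact bucket94_7)

end Vale.Agent.P098.Exact.Sos6.Q93
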