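import Vale.Agent.P098.Exact.Sos6.Q93.Common
import Vale.Agent.P098.Exact.Sos6.Q93.Box95B0
import Vale.Agent.P098.Exact.Sos6.Q93.Box95B1
import Vale.Agent.P098.Exact.Sos6.Q93.Box95B2
import Vale.Agent.P098.Exact.Sos6.Q93.Box95B3
import Vale.Agent.P098.Exact.Sos6.Q93.Box95B4
import Vale.Agent.P098.Exact.Sos6.Q93.Box95B5
import Vale.Agent.P098.Exact.Sos6.Q93.Box95B6
import Vale.Agent.P098.Exact.Sos6.Q93.Box95B7

/-! Generated data of the dimension six interior check. -/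

noncomputable section

namespace Vale.Agent.P098.Exact.Sos6.Q93

set_option maxRecDepth 100000

theorem pay95 : dtbl.payOK 190 dD95 dE95 (elTot els95) = true := by decide +kernel

theorem rls_ok95 : ∀ G ∈ rls95, ∃ Ns, tbl.facR 72 b0 28 22 Ns G = true := by
  intro G hG
  simp only [rls95, List.mem_cons, List.not_mem_nil, or_false] at hG
  rcases hG with rfl | rfl | rfl | rfl | rfl | rfl | rfl | rfl | rfl | rfl | rfl | rfl | rfl | rfl | rfl | rfl | rfl | rfl | rfl | rfl | rfl | rfl | rfl | rfl | rfl | rfl | rfl | rfl | rfl | rfl | rfl | rfl | rfl | rfl | rfl | rfl | rfl | rfl | rfl | rfl | rfl | rfl | rfl | rfl | rfl | rfl | rfl | rfl | rfl | rfl | rfl | rfl | rfl | rfl | rfl | rfl | rfl | rfl | rfl | rfl | rfl | rfl | rfl | rfl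
  · exact ⟨_, fac6080⟩
  · exact ⟨_, fac6081⟩
  · exact ⟨_, fac6082⟩
  · exact ⟨_, fac6083⟩
  · exact ⟨_, fac6084⟩
  · exact ⟨_, fac6085⟩
  · exact ⟨_, fac6086⟩
  · exact ⟨_, fac6087⟩
  · exact ⟨_, fac6088⟩
  · exact ⟨_, fac6089⟩
  · exact ⟨_, fac6090⟩
  · exact ⟨_, fac6091⟩
  · exact ⟨_, fac6092⟩
  · exact ⟨_, fac6093⟩
  · exact ⟨_, fac6094⟩
  · exact ⟨_, fac6095⟩
  · exact ⟨_, fac6096⟩
  · exact ⟨_, fac6097⟩
  · exact ⟨_, fac6098⟩
  · exact ⟨_, fac6099⟩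
  · exact ⟨_, fac6100⟩
  · exact ⟨_, fac6101⟩
  · exact ⟨_, fac6102⟩
  · exact ⟨_, fac6103⟩
  · exact ⟨_, fac6104⟩
  · exact ⟨_, fac6105⟩
  · exact ⟨_, fac6106⟩
  · exact ⟨_, fac6107⟩
  · exact ⟨_, fac6108⟩
  · exact ⟨_, fac6109⟩
  · exact ⟨_, fac6110⟩
  · exact ⟨_, fac6111⟩
  · exact ⟨_, fac6112⟩
  · exact ⟨_, fac6113⟩
  · exact ⟨_, fac6114⟩
  · exact ⟨_, fac6115⟩
  · exact ⟨_, fac6116⟩
  · exact ⟨_, fac6117⟩
  · exact ⟨_, fac6118⟩
  · exact ⟨_, fac6119⟩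
  · exact ⟨_, fac6120⟩
  · exact ⟨_, fac6121⟩
  · exact ⟨_, fac6122⟩
  · exact ⟨_, fac6123⟩
  · exact ⟨_, fac6124⟩
  · exact ⟨_, fac6125⟩
  · exact ⟨_, fac6126⟩
  · exact ⟨_, fac6127⟩
  · exact ⟨_, fac6128⟩
  · exact ⟨_, fac6129⟩
  · exact ⟨_, fac6130⟩
  · exact ⟨_, fac6131⟩
  · exact ⟨_, fac6132⟩
  · exact ⟨_, fac6133⟩
  · exact ⟨_, fac6134⟩
  · exact ⟨_, fac6135⟩
  · exact ⟨_, fac6136⟩
  · exact ⟨_, fac6137⟩
  · exact ⟨_, fac6138⟩
  · exact ⟨_, fac6139⟩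
  · exact ⟨_, fac6140⟩
  · exact ⟨_, fac6141⟩
  · exact ⟨_, fac6142⟩
  · exact ⟨_, fac6143⟩

theorem good95 : bx95.GoodK ((an : ℝ) / 100) (L.map (ITerm.term den)) (L2.map (ITerm.term den))
    (KL.map (KI.term den)) delta :=
  goodK_of_checkR an den (by decide) L L2 KL dtbl dtbl_ok rfl codes posN rowsA rowsB rowsC rows_tbl 12 256 8 72 b0 28 22
    (by decide) parts_ok (by decide +kernel) slice_ok lit_ok 1 (by decide +kernel) delta bx95 hd95
    (by decide) rls95 rls_ok95 (by decide) (planOf lams95) 190 dD95 dE95 els95 rfl pay95 delta_le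
    (fun b hb => by
      interval_cases b
      · exact bucket95_0
      · exact bucket95_1
      · exact bucket95_2
      · exact bucket95_3
      · exact bucket95_4
      · exact bucket95_5
      · exact bucket95_6
      · exact bucket95_7)

end Vale.Agent.P098.Exact.Sos6.Q93
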