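import Vale.Agent.P098.Exact.Sos6.Q93.Common
import Vale.Agent.P098.Exact.Sos6.Q93.Box96B0
import Vale.Agent.P098.Exact.Sos6.Q93.Box96B1
import Vale.Agent.P098.Exact.Sos6.Q93.Box96B2
import Vale.Agent.P098.Exact.Sos6.Q93.Box96B3
import Vale.Agent.P098.Exact.Sos6.Q93.Box96B4
import Vale.Agent.P098.Exact.Sos6.Q93.Box96B5
import Vale.Agent.P098.Exact.Sos6.Q93.Box96B6
import Vale.Agent.P098.Exact.Sos6.Q93.Box96B7

/-! Generated data of the dimension six interior check. -/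

noncomputable section

namespace Vale.Agent.P098.Exact.Sos6.Q93

set_option maxRecDepth 100000

theorem pay96 : dtbl.payOK 190 dD96 dE96 (elTot els96) = true := by decide +kernel

theorem rls_ok96 : ∀ G ∈ rls96, ∃ Ns, tbl.facR 72 b0 28 22 Ns G = true := by
  intro G hG
  simp only [rls96, List.mem_cons, List.not_mem_nil, or_false] at hG
  rcases hG with rfl | rfl | rfl | rfl | rfl | rfl | rfl | rfl | rfl | rfl | rfl | rfl | rfl | rfl | rfl | rfl | rfl | rfl | rfl | rfl | rfl | rfl | rfl | rfl | rfl | rfl | rfl | rfl | rfl | rfl | rfl | rfl | rfl | rfl | rfl | rfl | rfl | rfl | rfl | rfl | rfl | rfl | rfl | rfl | rfl | rfl | rfl | rfl | rfl | rfl | rfl | rfl | rfl | rfl | rfl | rfl | rfl | rfl | rfl | rfl | rfl | rfl | rfl | rfl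
  · exact ⟨_, fac6144⟩
  · exact ⟨_, fac6145⟩
  · exact ⟨_, fac6146⟩
  · exact ⟨_, fac6147⟩
  · exact ⟨_, fac6148⟩
  · exact ⟨_, fac6149⟩
  · exact ⟨_, fac6150⟩
  · exact ⟨_, fac6151⟩
  · exact ⟨_, fac6152⟩
  · exact ⟨_, fac6153⟩
  · exact ⟨_, fac6154⟩
  · exact ⟨_, fac6155⟩
  · exact ⟨_, fac6156⟩
  · exact ⟨_, fac6157⟩
  · exact ⟨_, fac6158⟩
  · exact ⟨_, fac6159⟩
  · exact ⟨_, fac6160⟩
  · exact ⟨_, fac6161⟩
  · exact ⟨_, fac6162⟩
  · exact ⟨_, fac6163⟩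
  · exact ⟨_, fac6164⟩
  · exact ⟨_, fac6165⟩
  · exact ⟨_, fac6166⟩
  · exact ⟨_, fac6167⟩
  · exact ⟨_, fac6168⟩
  · exact ⟨_, fac6169⟩
  · exact ⟨_, fac6170⟩
  · exact ⟨_, fac6171⟩
  · exact ⟨_, fac6172⟩
  · exact ⟨_, fac6173⟩
  · exact ⟨_, fac6174⟩
  · exact ⟨_, fac6175⟩
  · exact ⟨_, fac6176⟩
  · exact ⟨_, fac6177⟩
  · exact ⟨_, fac6178⟩
  · exact ⟨_, fac6179⟩
  · exact ⟨_, fac6180⟩
  · exact ⟨_, fac6181⟩
  · exact ⟨_, fac6182⟩
  · exact ⟨_, fac6183⟩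
  · exact ⟨_, fac6184⟩
  · exact ⟨_, fac6185⟩
  · exact ⟨_, fac6186⟩
  · exact ⟨_, fac6187⟩
  · exact ⟨_, fac6188⟩
  · exact ⟨_, fac6189⟩
  · exact ⟨_, fac6190⟩
  · exact ⟨_, fac6191⟩
  · exact ⟨_, fac6192⟩
  · exact ⟨_, fac6193⟩
  · exact ⟨_, fac6194⟩
  · exact ⟨_, fac6195⟩
  · exact ⟨_, fac6196⟩
  · exact ⟨_, fac6197⟩
  · exact ⟨_, fac6198⟩
  · exact ⟨_, fac6199⟩
  · exact ⟨_, fac6200⟩
  · exact ⟨_, fac6201⟩
  · exact ⟨_, fac6202⟩
  · exact ⟨_, fac6203⟩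
  · exact ⟨_, fac6204⟩
  · exact ⟨_, fac6205⟩
  · exact ⟨_, fac6206⟩
  · exact ⟨_, fac6207⟩

theorem good96 : bx96.GoodK ((an : ℝ) / 100) (L.map (ITerm.term den)) (L2.map (ITerm.term den))
    (KL.map (KI.term den)) delta :=
  goodK_of_checkR an den (by decide) L L2 KL dtbl dtbl_ok rfl codes posN rowsA rowsB rowsC rows_tbl 12 256 8 72 b0 28 22
    (by decide) parts_ok (by decide +kernel) slice_ok lit_ok 1 (by decide +kernel) delta bx96 hd96
    (by decide) rls96 rls_ok96 (by decide) (planOf lams96) 190 dD96 dE96 els96 rfl pay96 delta_le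
    (fun b hb => by
      interval_cases b
      · exact bucket96_0
      · exact bucket96_1
      · exact bucket96_2
      · exact bucket96_3
      · exact bucket96_4
      · exact bucket96_5
      · exact bucket96_6
      · exact bucket96_7)

end Vale.Agent.P098.Exact.Sos6.Q93
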