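import Vale.Agent.P098.Exact.Sos6.Q93.Common
import Vale.Agent.P098.Exact.Sos6.Q93.Box97B0
import Vale.Agent.P098.Exact.Sos6.Q93.Box97B1
import Vale.Agent.P098.Exact.Sos6.Q93.Box97B2
import Vale.Agent.P098.Exact.Sos6.Q93.Box97B3
import Vale.Agent.P098.Exact.Sos6.Q93.Box97B4
import Vale.Agent.P098.Exact.Sos6.Q93.Box97B5
import Vale.Agent.P098.Exact.Sos6.Q93.Box97B6
import Vale.Agent.P098.Exact.Sos6.Q93.Box97B7

/-! Generated data of the dimension six interior check. -/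

noncomputable section

namespace Vale.Agent.P098.Exact.Sos6.Q93

set_option maxRecDepth 100000

theorem pay97 : dtbl.payOK 190 dD97 dE97 (elTot els97) = true := by decide +kernel

theorem rls_ok97 : ∀ G ∈ rls97, ∃ Ns, tbl.facR 72 b0 28 22 Ns G = true := by
  intro G hG
  simp only [rls97, List.mem_cons, List.not_mem_nil, or_false] at hG
  rcases hG with rfl | rfl | rfl | rfl | rfl | rfl | rfl | rfl | rfl | rfl | rfl | rfl | rfl | rfl | rfl | rfl | rfl | rfl | rfl | rfl | rfl | rfl | rfl | rfl | rfl | rfl | rfl | rfl | rfl | rfl | rfl | rfl | rfl | rfl | rfl | rfl | rfl | rfl | rfl | rfl | rfl | rfl | rfl | rfl | rfl | rfl | rfl | rfl | rfl | rfl | rfl | rfl | rfl | rfl | rfl | rfl | rfl | rfl | rfl | rfl | rfl | rfl | rfl | rfl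
  · exact ⟨_, fac6208⟩
  · exact ⟨_, fac6209⟩
  · exact ⟨_, fac6210⟩
  · exact ⟨_, fac6211⟩
  · exact ⟨_, fac6212⟩
  · exact ⟨_, fac6213⟩
  · exact ⟨_, fac6214⟩
  · exact ⟨_, fac6215⟩
  · exact ⟨_, fac6216⟩
  · exact ⟨_, fac6217⟩
  · exact ⟨_, fac6218⟩
  · exact ⟨_, fac6219⟩
  · exact ⟨_, fac6220⟩
  · exact ⟨_, fac6221⟩
  · exact ⟨_, fac6222⟩
  · exact ⟨_, fac6223⟩
  · exact ⟨_, fac6224⟩
  · exact ⟨_, fac6225⟩
  · exact ⟨_, fac6226⟩
  · exact ⟨_, fac6227⟩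
  · exact ⟨_, fac6228⟩
  · exact ⟨_, fac6229⟩
  · exact ⟨_, fac6230⟩
  · exact ⟨_, fac6231⟩
  · exact ⟨_, fac6232⟩
  · exact ⟨_, fac6233⟩
  · exact ⟨_, fac6234⟩
  · exact ⟨_, fac6235⟩
  · exact ⟨_, fac6236⟩
  · exact ⟨_, fac6237⟩
  · exact ⟨_, fac6238⟩
  · exact ⟨_, fac6239⟩
  · exact ⟨_, fac6240⟩
  · exact ⟨_, fac6241⟩
  · exact ⟨_, fac6242⟩
  · exact ⟨_, fac6243⟩
  · exact ⟨_, fac6244⟩
  · exact ⟨_, fac6245⟩
  · exact ⟨_, fac6246⟩
  · exact ⟨_, fac6247⟩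
  · exact ⟨_, fac6248⟩
  · exact ⟨_, fac6249⟩
  · exact ⟨_, fac6250⟩
  · exact ⟨_, fac6251⟩
  · exact ⟨_, fac6252⟩
  · exact ⟨_, fac6253⟩
  · exact ⟨_, fac6254⟩
  · exact ⟨_, fac6255⟩
  · exact ⟨_, fac6256⟩
  · exact ⟨_, fac6257⟩
  · exact ⟨_, fac6258⟩
  · exact ⟨_, fac6259⟩
  · exact ⟨_, fac6260⟩
  · exact ⟨_, fac6261⟩
  · exact ⟨_, fac6262⟩
  · exact ⟨_, fac6263⟩
  · exact ⟨_, fac6264⟩
  · exact ⟨_, fac6265⟩
  · exact ⟨_, fac6266⟩
  · exact ⟨_, fac6267⟩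
  · exact ⟨_, fac6268⟩
  · exact ⟨_, fac6269⟩
  · exact ⟨_, fac6270⟩
  · exact ⟨_, fac6271⟩

theorem good97 : bx97.GoodK ((an : ℝ) / 100) (L.map (ITerm.term den)) (L2.map (ITerm.term den))
    (KL.map (KI.term den)) delta :=
  goodK_of_checkR an den (by decide) L L2 KL dtbl dtbl_ok rfl codes posN rowsA rowsB rowsC rows_tbl 12 256 8 72 b0 28 22
    (by decide) parts_ok (by decide +kernel) slice_ok lit_ok 1 (by decide +kernel) delta bx97 hd97
    (by decide) rls97 rls_ok97 (by decide) (planOf lams97) 190 dD97 dE97 els97 rfl pay97 delta_le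
    (fun b hb => by
      interval_cases b
      · exact bucket97_0
      · exact bucket97_1
      · exact bucket97_2
      · exact bucket97_3
      · exact bucket97_4
      · exact bucket97_5
      · exact bucket97_6
      · exact bucket97_7)

end Vale.Agent.P098.Exact.Sos6.Q93
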