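import Vale.Agent.P098.Exact.Sos6.Q93.Common
import Vale.Agent.P098.Exact.Sos6.Q93.Box98B0
import Vale.Agent.P098.Exact.Sos6.Q93.Box98B1
import Vale.Agent.P098.Exact.Sos6.Q93.Box98B2
import Vale.Agent.P098.Exact.Sos6.Q93.Box98B3
import Vale.Agent.P098.Exact.Sos6.Q93.Box98B4
import Vale.Agent.P098.Exact.Sos6.Q93.Box98B5
import Vale.Agent.P098.Exact.Sos6.Q93.Box98B6
import Vale.Agent.P098.Exact.Sos6.Q93.Box98B7

/-! Generated data of the dimension six interior check. -/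

noncomputable section

namespace Vale.Agent.P098.Exact.Sos6.Q93

set_option maxRecDepth 100000

theorem pay98 : dtbl.payOK 190 dD98 dE98 (elTot els98) = true := by decide +kernel

theorem rls_ok98 : ∀ G ∈ rls98, ∃ Ns, tbl.facR 72 b0 28 22 Ns G = true := by
  intro G hG
  simp only [rls98, List.mem_cons, List.not_mem_nil, or_false] at hG
  rcases hG with rfl | rfl | rfl | rfl | rfl | rfl | rfl | rfl | rfl | rfl | rfl | rfl | rfl | rfl | rfl | rfl | rfl | rfl | rfl | rfl | rfl | rfl | rfl | rfl | rfl | rfl | rfl | rfl | rfl | rfl | rfl | rfl | rfl | rfl | rfl | rfl | rfl | rfl | rfl | rfl | rfl | rfl | rfl | rfl | rfl | rfl | rfl | rfl | rfl | rfl | rfl | rfl | rfl | rfl | rfl | rfl | rfl | rfl | rfl | rfl | rfl | rfl | rfl | rfl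
  · exact ⟨_, fac6272⟩
  · exact ⟨_, fac6273⟩
  · exact ⟨_, fac6274⟩
  · exact ⟨_, fac6275⟩
  · exact ⟨_, fac6276⟩
  · exact ⟨_, fac6277⟩
  · exact ⟨_, fac6278⟩
  · exact ⟨_, fac6279⟩
  · exact ⟨_, fac6280⟩
  · exact ⟨_, fac6281⟩
  · exact ⟨_, fac6282⟩
  · exact ⟨_, fac6283⟩
  · exact ⟨_, fac6284⟩
  · exact ⟨_, fac6285⟩
  · exact ⟨_, fac6286⟩
  · exact ⟨_, fac6287⟩
  · exact ⟨_, fac6288⟩
  · exact ⟨_, fac6289⟩
  · exact ⟨_, fac6290⟩
  · exact ⟨_, fac6291⟩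
  · exact ⟨_, fac6292⟩
  · exact ⟨_, fac6293⟩
  · exact ⟨_, fac6294⟩
  · exact ⟨_, fac6295⟩
  · exact ⟨_, fac6296⟩
  · exact ⟨_, fac6297⟩
  · exact ⟨_, fac6298⟩
  · exact ⟨_, fac6299⟩
  · exact ⟨_, fac6300⟩
  · exact ⟨_, fac6301⟩
  · exact ⟨_, fac6302⟩
  · exact ⟨_, fac6303⟩
  · exact ⟨_, fac6304⟩
  · exact ⟨_, fac6305⟩
  · exact ⟨_, fac6306⟩
  · exact ⟨_, fac6307⟩
  · exact ⟨_, fac6308⟩
  · exact ⟨_, fac6309⟩
  · exact ⟨_, fac6310⟩
  · exact ⟨_, fac6311⟩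
  · exact ⟨_, fac6312⟩
  · exact ⟨_, fac6313⟩
  · exact ⟨_, fac6314⟩
  · exact ⟨_, fac6315⟩
  · exact ⟨_, fac6316⟩
  · exact ⟨_, fac6317⟩
  · exact ⟨_, fac6318⟩
  · exact ⟨_, fac6319⟩
  · exact ⟨_, fac6320⟩
  · exact ⟨_, fac6321⟩
  · exact ⟨_, fac6322⟩
  · exact ⟨_, fac6323⟩
  · exact ⟨_, fac6324⟩
  · exact ⟨_, fac6325⟩
  · exact ⟨_, fac6326⟩
  · exact ⟨_, fac6327⟩
  · exact ⟨_, fac6328⟩
  · exact ⟨_, fac6329⟩
  · exact ⟨_, fac6330⟩
  · exact ⟨_, fac6331⟩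
  · exact ⟨_, fac6332⟩
  · exact ⟨_, fac6333⟩
  · exact ⟨_, fac6334⟩
  · exact ⟨_, fac6335⟩

theorem good98 : bx98.GoodK ((an : ℝ) / 100) (L.map (ITerm.term den)) (L2.map (ITerm.term den))
    (KL.map (KI.term den)) delta :=
  goodK_of_checkR an den (by decide) L L2 KL dtbl dtbl_ok rfl codes posN rowsA rowsB rowsC rows_tbl 12 256 8 72 b0 28 22
    (by decide) parts_ok (by decide +kernel) slice_ok lit_ok 1 (by decide +kernel) delta bx98 hd98
    (by decide) rls98 rls_ok98 (by decide) (planOf lams98) 190 dD98 dE98 els98 rfl pay98 delta_le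
    (fun b hb => by
      interval_cases b
      · exact bucket98_0
      · exact bucket98_1
      · exact bucket98_2
      · exact bucket98_3
      · exact bucket98_4
      · exact bucket98_5
      · exact bucket98_6
      · exact bucket98_7)

end Vale.Agent.P098.Exact.Sos6.Q93
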