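import Vale.Agent.P098.Exact.Sos6.Q93.Common
import Vale.Agent.P098.Exact.Sos6.Q93.Box99B0
import Vale.Agent.P098.Exact.Sos6.Q93.Box99B1
import Vale.Agent.P098.Exact.Sos6.Q93.Box99B2
import Vale.Agent.P098.Exact.Sos6.Q93.Box99B3
import Vale.Agent.P098.Exact.Sos6.Q93.Box99B4
import Vale.Agent.P098.Exact.Sos6.Q93.Box99B5
import Vale.Agent.P098.Exact.Sos6.Q93.Box99B6
import Vale.Agent.P098.Exact.Sos6.Q93.Box99B7

/-! Generated data of the dimension six interior check. -/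

noncomputable section

namespace Vale.Agent.P098.Exact.Sos6.Q93

set_option maxRecDepth 100000

theorem pay99 : dtbl.payOK 190 dD99 dE99 (elTot els99) = true := by decide +kernel

theorem rls_ok99 : ∀ G ∈ rls99, ∃ Ns, tbl.facR 72 b0 28 22 Ns G = true := by
  intro G hG
  simp only [rls99, List.mem_cons, List.not_mem_nil, or_false] at hG
  rcases hG with rfl | rfl | rfl | rfl | rfl | rfl | rfl | rfl | rfl | rfl | rfl | rfl | rfl | rfl | rfl | rfl | rfl | rfl | rfl | rfl | rfl | rfl | rfl | rfl | rfl | rfl | rfl | rfl | rfl | rfl | rfl | rfl | rfl | rfl | rfl | rfl | rfl | rfl | rfl | rfl | rfl | rfl | rfl | rfl | rfl | rfl | rfl | rfl | rfl | rfl | rfl | rfl | rfl | rfl | rfl | rfl | rfl | rfl | rfl | rfl | rfl | rfl | rfl | rfl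
  · exact ⟨_, fac6336⟩
  · exact ⟨_, fac6337⟩
  · exact ⟨_, fac6338⟩
  · exact ⟨_, fac6339⟩
  · exact ⟨_, fac6340⟩
  · exact ⟨_, fac6341⟩
  · exact ⟨_, fac6342⟩
  · exact ⟨_, fac6343⟩
  · exact ⟨_, fac6344⟩
  · exact ⟨_, fac6345⟩
  · exact ⟨_, fac6346⟩
  · exact ⟨_, fac6347⟩
  · exact ⟨_, fac6348⟩
  · exact ⟨_, fac6349⟩
  · exact ⟨_, fac6350⟩
  · exact ⟨_, fac6351⟩
  · exact ⟨_, fac6352⟩
  · exact ⟨_, fac6353⟩
  · exact ⟨_, fac6354⟩
  · exact ⟨_, fac6355⟩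
  · exact ⟨_, fac6356⟩
  · exact ⟨_, fac6357⟩
  · exact ⟨_, fac6358⟩
  · exact ⟨_, fac6359⟩
  · exact ⟨_, fac6360⟩
  · exact ⟨_, fac6361⟩
  · exact ⟨_, fac6362⟩
  · exact ⟨_, fac6363⟩
  · exact ⟨_, fac6364⟩
  · exact ⟨_, fac6365⟩
  · exact ⟨_, fac6366⟩
  · exact ⟨_, fac6367⟩
  · exact ⟨_, fac6368⟩
  · exact ⟨_, fac6369⟩
  · exact ⟨_, fac6370⟩
  · exact ⟨_, fac6371⟩
  · exact ⟨_, fac6372⟩
  · exact ⟨_, fac6373⟩
  · exact ⟨_, fac6374⟩
  · exact ⟨_, fac6375⟩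
  · exact ⟨_, fac6376⟩
  · exact ⟨_, fac6377⟩
  · exact ⟨_, fac6378⟩
  · exact ⟨_, fac6379⟩
  · exact ⟨_, fac6380⟩
  · exact ⟨_, fac6381⟩
  · exact ⟨_, fac6382⟩
  · exact ⟨_, fac6383⟩
  · exact ⟨_, fac6384⟩
  · exact ⟨_, fac6385⟩
  · exact ⟨_, fac6386⟩
  · exact ⟨_, fac6387⟩
  · exact ⟨_, fac6388⟩
  · exact ⟨_, fac6389⟩
  · exact ⟨_, fac6390⟩
  · exact ⟨_, fac6391⟩
  · exact ⟨_, fac6392⟩
  · exact ⟨_, fac6393⟩
  · exact ⟨_, fac6394⟩
  · exact ⟨_, fac6395⟩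
  · exact ⟨_, fac6396⟩
  · exact ⟨_, fac6397⟩
  · exact ⟨_, fac6398⟩
  · exact ⟨_, fac6399⟩

theorem good99 : bx99.GoodK ((an : ℝ) / 100) (L.map (ITerm.term den)) (L2.map (ITerm.term den))
    (KL.map (KI.term den)) delta :=
  goodK_of_checkR an den (by decide) L L2 KL dtbl dtbl_ok rfl codes posN rowsA rowsB rowsC rows_tbl 12 256 8 72 b0 28 22
    (by decide) parts_ok (by decide +kernel) slice_ok lit_ok 1 (by decide +kernel) delta bx99 hd99
    (by decide) rls99 rls_ok99 (by decide) (planOf lams99) 190 dD99 dE99 els99 rfl pay99 delta_le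
    (fun b hb => by
      interval_cases b
      · exact bucket99_0
      · exact bucket99_1
      · exact bucket99_2
      · exact bucket99_3
      · exact bucket99_4
      · exact bucket99_5
      · exact bucket99_6
      · exact bucket99_7)

end Vale.Agent.P098.Exact.Sos6.Q93
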