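import Vale.Agent.P098.Exact.Sos6.Q93.Common
import Vale.Agent.P098.Exact.Sos6.Q93.Box9B0
import Vale.Agent.P098.Exact.Sos6.Q93.Box9B1
import Vale.Agent.P098.Exact.Sos6.Q93.Box9B2
import Vale.Agent.P098.Exact.Sos6.Q93.Box9B3
import Vale.Agent.P098.Exact.Sos6.Q93.Box9B4
import Vale.Agent.P098.Exact.Sos6.Q93.Box9B5
import Vale.Agent.P098.Exact.Sos6.Q93.Box9B6
import Vale.Agent.P098.Exact.Sos6.Q93.Box9B7

/-! Generated data of the dimension six interior check. -/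

noncomputable section

namespace Vale.Agent.P098.Exact.Sos6.Q93

set_option maxRecDepth 100000

theorem pay9 : dtbl.payOK 190 dD9 dE9 (elTot els9) = true := by decide +kernel

theorem rls_ok9 : ∀ G ∈ rls9, ∃ Ns, tbl.facR 72 b0 28 22 Ns G = true := by
  intro G hG
  simp only [rls9, List.mem_cons, List.not_mem_nil, or_false] at hG
  rcases hG with rfl | rfl | rfl | rfl | rfl | rfl | rfl | rfl | rfl | rfl | rfl | rfl | rfl | rfl | rfl | rfl | rfl | rfl | rfl | rfl | rfl | rfl | rfl | rfl | rfl | rfl | rfl | rfl | rfl | rfl | rfl | rfl | rfl | rfl | rfl | rfl | rfl | rfl | rfl | rfl | rfl | rfl | rfl | rfl | rfl | rfl | rfl | rfl | rfl | rfl | rfl | rfl | rfl | rfl | rfl | rfl | rfl | rfl | rfl | rfl | rfl | rfl | rfl | rfl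
  · exact ⟨_, fac576⟩
  · exact ⟨_, fac577⟩
  · exact ⟨_, fac578⟩
  · exact ⟨_, fac579⟩
  · exact ⟨_, fac580⟩
  · exact ⟨_, fac581⟩
  · exact ⟨_, fac582⟩
  · exact ⟨_, fac583⟩
  · exact ⟨_, fac584⟩
  · exact ⟨_, fac585⟩
  · exact ⟨_, fac586⟩
  · exact ⟨_, fac587⟩
  · exact ⟨_, fac588⟩
  · exact ⟨_, fac589⟩
  · exact ⟨_, fac590⟩
  · exact ⟨_, fac591⟩
  · exact ⟨_, fac592⟩
  · exact ⟨_, fac593⟩
  · exact ⟨_, fac594⟩
  · exact ⟨_, fac595⟩
  · exact ⟨_, fac596⟩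
  · exact ⟨_, fac597⟩
  · exact ⟨_, fac598⟩
  · exact ⟨_, fac599⟩
  · exact ⟨_, fac600⟩
  · exact ⟨_, fac601⟩
  · exact ⟨_, fac602⟩
  · exact ⟨_, fac603⟩
  · exact ⟨_, fac604⟩
  · exact ⟨_, fac605⟩
  · exact ⟨_, fac606⟩
  · exact ⟨_, fac607⟩
  · exact ⟨_, fac608⟩
  · exact ⟨_, fac609⟩
  · exact ⟨_, fac610⟩
  · exact ⟨_, fac611⟩
  · exact ⟨_, fac612⟩
  · exact ⟨_, fac613⟩
  · exact ⟨_, fac614⟩
  · exact ⟨_, fac615⟩
  · exact ⟨_, fac616⟩
  · exact ⟨_, fac617⟩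
  · exact ⟨_, fac618⟩
  · exact ⟨_, fac619⟩
  · exact ⟨_, fac620⟩
  · exact ⟨_, fac621⟩
  · exact ⟨_, fac622⟩
  · exact ⟨_, fac623⟩
  · exact ⟨_, fac624⟩
  · exact ⟨_, fac625⟩
  · exact ⟨_, fac626⟩
  · exact ⟨_, fac627⟩
  · exact ⟨_, fac628⟩
  · exact ⟨_, fac629⟩
  · exact ⟨_, fac630⟩
  · exact ⟨_, fac631⟩
  · exact ⟨_, fac632⟩
  · exact ⟨_, fac633⟩
  · exact ⟨_, fac634⟩
  · exact ⟨_, fac635⟩
  · exact ⟨_, fac636⟩
  · exact ⟨_, fac637⟩
  · exact ⟨_, fac638⟩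
  · exact ⟨_, fac639⟩

theorem good9 : bx9.GoodK ((an : ℝ) / 100) (L.map (ITerm.term den)) (L2.map (ITerm.term den))
    (KL.map (KI.term den)) delta :=
  goodK_of_checkR an den (by decide) L L2 KL dtbl dtbl_ok rfl codes posN rowsA rowsB rowsC rows_tbl 12 256 8 72 b0 28 22
    (by decide) parts_ok (by decide +kernel) slice_ok lit_ok 1 (by decide +kernel) delta bx9 hd9
    (by decide) rls9 rls_ok9 (by decide) (planOf lams9) 190 dD9 dE9 els9 rfl pay9 delta_le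
    (fun b hb => by
      interval_cases b
      · exact bucket9_0
      · exact bucket9_1
      · exact bucket9_2
      · exact bucket9_3
      · exact bucket9_4
      · exact bucket9_5
      · exact bucket9_6
      · exact bucket9_7)

end Vale.Agent.P098.Exact.Sos6.Q93
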