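import Vale.Agent.P098.Exact.Sos6.Q93.Defs

noncomputable section

namespace Vale.Agent.P098.Exact.Sos6.Q93

set_option maxRecDepth 100000

theorem chkA3 : pieceOK (pieceP fops ptP yP an den L L2 KL 0 3) (slotCs gl) rowsA3 = true := by decide +kernel

end Vale.Agent.P098.Exact.Sos6.Q93
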