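import Vale.Agent.P098.Exact.Sos6.Q93.Defs

noncomputable section

namespace Vale.Agent.P098.Exact.Sos6.Q93

set_option maxRecDepth 100000

theorem slots_ok : gl.all slotF = true := by decide +kernel
theorem codes_ok : codesOK codes gl 0 = true := by decide +kernel
theorem perm_ok : ∀ k ∈ [0, 1, 2, 3, 4], permOK k codes gl.length (posN k) gl 0 = true := by decide +kernel
theorem chkB : pieceOK (pieceW fops ptP yP an den L L2 KL 5) (slotCs gl) rowsB = true := by decide +kernel
theorem chkC : pieceOK (lapW fops ptP L L2 KL) (slotCs gl) rowsC = true := by decide +kernel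

end Vale.Agent.P098.Exact.Sos6.Q93
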