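import Vale.Agent.P098.Exact.Sos6.Q93.ChkA0
import Vale.Agent.P098.Exact.Sos6.Q93.ChkA1
import Vale.Agent.P098.Exact.Sos6.Q93.ChkA2
import Vale.Agent.P098.Exact.Sos6.Q93.ChkA3
import Vale.Agent.P098.Exact.Sos6.Q93.ChkA4
import Vale.Agent.P098.Exact.Sos6.Q93.ChkA5
import Vale.Agent.P098.Exact.Sos6.Q93.ChkP

noncomputable section

namespace Vale.Agent.P098.Exact.Sos6.Q93

set_option maxRecDepth 100000

theorem rows_chk : rowsChk an den L L2 KL gl codes posN rowsA rowsB rowsC :=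
  ⟨slots_ok, codes_ok, perm_ok, pieceVal_of an den L L2 KL gl slots_ok _ _ _ _ _ _ chkA0 chkA1 chkA2 chkA3 chkA4 chkA5, chkB, chkC⟩

end Vale.Agent.P098.Exact.Sos6.Q93
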