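import Vale.Agent.P098.Exact.Sos6.Q93.DData
import Vale.Agent.P098.Exact.Sos6.Q93.Chk
import Vale.Agent.P098.Exact.Sos6.Q93.Wts
import Vale.Agent.P098.Exact.Sos6.Lit
import Vale.Agent.P098.Exact.Sos6.Q93.EOK0
import Vale.Agent.P098.Exact.Sos6.Q93.EOK1
import Vale.Agent.P098.Exact.Sos6.Q93.EOK2
import Vale.Agent.P098.Exact.Sos6.Q93.EOK3
import Vale.Agent.P098.Exact.Sos6.Q93.EOK4
import Vale.Agent.P098.Exact.Sos6.Q93.EOK5
import Vale.Agent.P098.Exact.Sos6.Q93.EOK6
import Vale.Agent.P098.Exact.Sos6.Q93.EOK7
import Mathlib.Tactic.IntervalCases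

/-! Generated data of the dimension six interior check. -/

noncomputable section

namespace Vale.Agent.P098.Exact.Sos6.Q93

set_option maxRecDepth 100000

theorem gl_eq : tbl.gl = gl := rfl

theorem rows_tbl : rowsChk an den L L2 KL tbl.gl codes posN rowsA rowsB rowsC := by
  rw [gl_eq]
  exact rows_chk

theorem parts_ok : partsOK tbl.gl.length (partsOf posN rowsA rowsB rowsC) = true := by decide +kernel

theorem slice0 : sliceOK 272 12 0 256 parts = true := by decide +kernel

theorem slice1 : sliceOK 272 12 256 256 parts = true := by decide +kernel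

theorem slice2 : sliceOK 272 12 512 256 parts = true := by decide +kernel

theorem slice3 : sliceOK 272 12 768 256 parts = true := by decide +kernel

theorem slice4 : sliceOK 272 12 1024 256 parts = true := by decide +kernel

theorem slice5 : sliceOK 272 12 1280 256 parts = true := by decide +kernel

theorem slice6 : sliceOK 272 12 1536 256 parts = true := by decide +kernel

theorem slice7 : sliceOK 272 12 1792 256 parts = true := by decide +kernel

theorem slice_ok : ∀ b, b < 8 → sliceOK tbl.W 12 (b * 256) 256 (partsOf posN rowsA rowsB rowsC) = true := by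
  intro b hb
  interval_cases b
  · exact slice0
  · exact slice1
  · exact slice2
  · exact slice3
  · exact slice4
  · exact slice5
  · exact slice6
  · exact slice7

/-- Margin of every box. -/
def delta : ℝ := 1 / (2 * 1728 * ((1073741824 : ℝ) * 4096 ^ 12 * 2 ^ 12 * (40000 * 4096)))

theorem delta_pos : 0 < delta := by unfold delta; positivity

theorem delta_le : delta * (2 * 1728 * (((1073741824 : ℕ) : ℝ) * 4096 ^ 12 * 2 ^ 12 * (40000 * den))) ≤ ((1 : ℕ) : ℝ) := by
  simp only [delta, den, Nat.cast_ofNat, Nat.cast_one]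
  norm_num


end Vale.Agent.P098.Exact.Sos6.Q93
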