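import Vale.Agent.P098.Exact.Sos6.Q93.TblOK
import Vale.Agent.P098.Exact.Sos6.CheckR

/-! Generated data of the dimension six interior check. -/

noncomputable section

namespace Vale.Agent.P098.Exact.Sos6.Q93

set_option maxRecDepth 100000

def spl0 : List (List (ℕ × ℕ)) := [[(257, 257)], [(257, 258)], [(258, 258)], [(46, 46)], [(335, 335)], [(309, 309)], [(290, 290)], [(274, 274)], [(45, 46), (334, 335)], [(176, 176)], [(176, 177)], [(177, 177)], [(334, 334)], [(45, 45)], [(228, 228)], [(209, 209)], [(193, 193)], [(44, 46), (308, 309)], [(44, 45), (227, 228)], [(121, 121)], [(121, 122)], [(122, 122)], [(308, 308)], [(227, 227)], [(44, 44)], [(154, 154)], [(138, 138)], [(43, 46), (289, 290)], [(43, 45), (208, 209)], [(43, 44), (153, 154)], [(85, 85)], [(85, 86)], [(86, 86)], [(289, 289)], [(208, 208)], [(153, 153)], [(43, 43)], [(102, 102)], [(42, 46), (273, 274)], [(42, 45), (192, 193)], [(42,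 44), (137, 138)], [(42, 43), (101, 102)], [(65, 65)], [(65, 66)], [(66, 66)], [(273, 273)], [(192, 192)], [(137, 137)], [(101, 101)], [(42, 42)], [(34, 46), (255, 257)], [(35, 46), (255, 258), (256, 257)], [(36, 46), (256, 258)], [(37, 46)], [(38, 46), (333, 335)], [(39, 46), (307, 309)], [(40, 46), (288, 290)], [(41, 46), (272, 274)], [(34, 45), (174, 176)], [(35, 45), (174, 177), (175, 176)], [(36, 45), (175, 177)], [(37, 45), (333, 334)], [(38, 45)], [(39, 45), (226, 228)], [(40, 45), (207, 209)], [(41, 45), (191, 193)], [(34, 44), (119, 121)], [(35, 44), (119, 122), (120, 121)], [(36, 44), (120, 122)], [(37, 44), (307, 308)], [(38, 44), (226, 227)], [(39, 44)], [(40, 44), (152, 154)], [(41, 44), (136, 138)], [(34, 43), (83, 85)], [(35, 43), (83, 86), (84, 85)], [(36, 43), (84, 86)], [(37, 43), (288, 289)], [(38, 43), (207, 208)], [(39, 43), (152, 153)], [(40, 43)], [(41, 43), (100, 102)],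 [(34, 42), (63, 65)], [(35, 42), (63, 66), (64, 65)], [(36, 42), (64, 66)], [(37, 42), (272, 273)], [(38, 42), (191, 192)], [(39, 42), (136, 137)], [(40, 42), (100, 101)], [(41, 42)], [(34, 34)], [(34, 35)], [(34, 36), (35, 35)], [(35, 36)], [(36, 36)], [(34, 37), (255, 255)], [(35, 37), (255, 256)], [(36, 37), (256, 256)], [(37, 37)], [(34, 38), (174, 174)], [(35, 38), (174, 175)], [(36, 38), (175, 175)], [(37, 38), (333, 333)], [(38, 38)], [(34, 39), (119, 119)], [(35, 39), (119, 120)], [(36, 39), (120, 120)], [(37, 39), (307, 307)], [(38, 39), (226, 226)], [(39, 39)], [(34, 40), (83, 83)], [(35, 40), (83, 84)], [(36, 40), (84, 84)], [(37, 40), (288, 288)], [(38, 40), (207, 207)], [(39, 40), (152, 152)], [(40, 40)], [(34, 41), (63, 63)], [(35, 41), (63, 64)], [(36, 41), (64, 64)], [(37, 41), (272, 272)], [(38, 41), (191, 191)], [(39, 41), (136, 136)], [(40, 41), (100, 100)], [(41, 41)], [(20,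 46), (247, 257)], [(21, 46), (247, 258), (248, 257)], [(22, 46), (248, 258), (249, 257)]]
def spl128 : List (List (ℕ × ℕ)) := [[(23, 46), (249, 258)], [(24, 46), (250, 257)], [(25, 46), (250, 258)], [(26, 46), (251, 257), (331, 335)], [(27, 46), (251, 258), (332, 335)], [(28, 46), (252, 257), (305, 309)], [(29, 46), (252, 258), (306, 309)], [(30, 46), (253, 257), (286, 290)], [(31, 46), (253, 258), (287, 290)], [(32, 46), (254, 257), (270, 274)], [(33, 46), (254, 258), (271, 274)], [(20, 45), (166, 176)], [(21, 45), (166, 177), (167, 176)], [(22, 45), (167, 177), (168, 176)], [(23, 45), (168, 177)], [(24, 45), (169, 176), (331, 334)], [(25, 45), (169, 177), (332, 334)], [(26, 45), (170, 176)], [(27, 45), (170, 177)], [(28, 45), (171, 176), (224, 228)], [(29, 45), (171, 177), (225, 228)], [(30, 45), (172, 176), (205, 209)], [(31, 45), (172, 177), (206, 209)], [(32, 45), (173, 176), (189, 193)],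 [(33, 45), (173, 177), (190, 193)], [(20, 44), (111, 121)], [(21, 44), (111, 122), (112, 121)], [(22, 44), (112, 122), (113, 121)], [(23, 44), (113, 122)], [(24, 44), (114, 121), (305, 308)], [(25, 44), (114, 122), (306, 308)], [(26, 44), (115, 121), (224, 227)], [(27, 44), (115, 122), (225, 227)], [(28, 44), (116, 121)], [(29, 44), (116, 122)], [(30, 44), (117, 121), (150, 154)], [(31, 44), (117, 122), (151, 154)], [(32, 44), (118, 121), (134, 138)], [(33, 44), (118, 122), (135, 138)], [(20, 43), (75, 85)], [(21, 43), (75, 86), (76, 85)], [(22, 43), (76, 86), (77, 85)], [(23, 43), (77, 86)], [(24, 43), (78, 85), (286, 289)], [(25, 43), (78, 86), (287, 289)], [(26, 43), (79, 85), (205, 208)], [(27, 43), (79, 86), (206, 208)], [(28, 43), (80, 85), (150, 153)], [(29, 43), (80, 86), (151, 153)], [(30, 43), (81, 85)], [(31, 43), (81, 86)], [(32, 43), (82, 85), (98, 102)], [(33, 43), (82, 86), (99,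 102)], [(20, 42), (55, 65)], [(21, 42), (55, 66), (56, 65)], [(22, 42), (56, 66), (57, 65)], [(23, 42), (57, 66)], [(24, 42), (58, 65), (270, 273)], [(25, 42), (58, 66), (271, 273)], [(26, 42), (59, 65), (189, 192)], [(27, 42), (59, 66), (190, 192)], [(28, 42), (60, 65), (134, 137)], [(29, 42), (60, 66), (135, 137)], [(30, 42), (61, 65), (98, 101)], [(31, 42), (61, 66), (99, 101)], [(32, 42), (62, 65)], [(33, 42), (62, 66)], [(20, 34)], [(20, 35), (21, 34)], [(20, 36), (21, 35), (22, 34)], [(21, 36), (22, 35), (23, 34)], [(22, 36), (23, 35)], [(23, 36)], [(20, 37), (24, 34), (247, 255)], [(21, 37), (24, 35), (25, 34), (247, 256), (248, 255)], [(22, 37), (24, 36), (25, 35), (248, 256), (249, 255)], [(23, 37), (25, 36), (249, 256)], [(24, 37), (250, 255)], [(25, 37), (250, 256)], [(20, 38), (26, 34), (166, 174)], [(21, 38), (26, 35), (27, 34), (166, 175), (167, 174)], [(22, 38), (26, 36), (27, 35),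 (167, 175), (168, 174)], [(23, 38), (27, 36), (168, 175)], [(24, 38), (26, 37), (169, 174), (251, 255), (331, 333)], [(25, 38), (27, 37), (169, 175), (251, 256), (332, 333)], [(26, 38), (170, 174)], [(27, 38), (170, 175)], [(20, 39), (28, 34), (111, 119)], [(21, 39), (28, 35), (29, 34), (111, 120), (112, 119)], [(22, 39), (28, 36), (29, 35), (112, 120), (113, 119)], [(23, 39), (29, 36), (113, 120)], [(24, 39), (28, 37), (114, 119), (252, 255), (305, 307)], [(25, 39), (29, 37), (114, 120), (252, 256), (306, 307)], [(26, 39), (28, 38), (115, 119), (171, 174), (224, 226)], [(27, 39), (29, 38), (115, 120), (171, 175), (225, 226)], [(28, 39), (116, 119)], [(29, 39), (116, 120)], [(20, 40), (30, 34), (75, 83)], [(21, 40), (30, 35), (31, 34), (75, 84), (76, 83)], [(22, 40), (30, 36), (31, 35), (76, 84), (77, 83)], [(23, 40), (31, 36), (77, 84)], [(24, 40), (30, 37), (78, 83), (253, 255), (286, 288)],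 [(25, 40), (31, 37), (78, 84), (253, 256), (287, 288)], [(26, 40), (30, 38), (79, 83), (172, 174), (205, 207)], [(27, 40), (31, 38), (79, 84), (172, 175), (206, 207)], [(28, 40), (30, 39), (80, 83), (117, 119), (150, 152)], [(29, 40), (31, 39), (80, 84), (117, 120), (151, 152)], [(30, 40), (81, 83)], [(31, 40), (81, 84)], [(20, 41), (32, 34), (55, 63)], [(21, 41), (32, 35), (33, 34), (55, 64), (56, 63)], [(22, 41), (32, 36), (33, 35), (56, 64), (57, 63)], [(23, 41), (33, 36), (57, 64)], [(24, 41), (32, 37), (58, 63), (254, 255), (270, 272)], [(25, 41), (33, 37), (58, 64), (254, 256), (271, 272)], [(26, 41), (32, 38), (59, 63), (173, 174), (189, 191)], [(27, 41), (33, 38), (59, 64), (173, 175), (190, 191)], [(28, 41), (32, 39), (60, 63), (118, 119), (134, 136)], [(29, 41), (33, 39), (60, 64), (118, 120), (135, 136)], [(30, 41), (32, 40), (61, 63), (82, 83), (98, 100)], [(31, 41), (33, 40), (61,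 64), (82, 84), (99, 100)], [(32, 41), (62, 63)], [(33, 41), (62, 64)], [(20, 20)], [(20, 21)], [(20, 22), (21, 21)], [(20, 23), (21, 22)], [(21, 23), (22, 22)]]
def spl256 : List (List (ℕ × ℕ)) := [[(22, 23)], [(23, 23)], [(20, 24), (247, 247)], [(20, 25), (21, 24), (247, 248)], [(21, 25), (22, 24), (247, 249), (248, 248)], [(22, 25), (23, 24), (248, 249)], [(23, 25), (249, 249)], [(24, 24), (247, 250)], [(24, 25), (248, 250)], [(25, 25), (249, 250)], [(250, 250)], [(20, 26), (166, 166)], [(20, 27), (21, 26), (166, 167)], [(21, 27), (22, 26), (166, 168), (167, 167)], [(22, 27), (23, 26), (167, 168)], [(23, 27), (168, 168)], [(24, 26), (166, 169), (247, 251), (331, 331)], [(24, 27), (25, 26), (167, 169), (248, 251), (331, 332)], [(25, 27), (168, 169), (249, 251), (332, 332)], [(169, 169), (250, 251)], [(26, 26), (166, 170)], [(26, 27), (167, 170)], [(27, 27), (168, 170)], [(169, 170), (251, 251)],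 [(170, 170)], [(20, 28), (111, 111)], [(20, 29), (21, 28), (111, 112)], [(21, 29), (22, 28), (111, 113), (112, 112)], [(22, 29), (23, 28), (112, 113)], [(23, 29), (113, 113)], [(24, 28), (111, 114), (247, 252), (305, 305)], [(24, 29), (25, 28), (112, 114), (248, 252), (305, 306)], [(25, 29), (113, 114), (249, 252), (306, 306)], [(114, 114), (250, 252)], [(26, 28), (111, 115), (166, 171), (224, 224)], [(26, 29), (27, 28), (112, 115), (167, 171), (224, 225)], [(27, 29), (113, 115), (168, 171), (225, 225)], [(114, 115), (169, 171), (251, 252), (348, 348)], [(115, 115), (170, 171)], [(28, 28), (111, 116)], [(28, 29), (112, 116)], [(29, 29), (113, 116)], [(114, 116), (252, 252)], [(115, 116), (171, 171)], [(116, 116)], [(20, 30), (75, 75)], [(20, 31), (21, 30), (75, 76)], [(21, 31), (22, 30), (75, 77), (76, 76)], [(22, 31), (23, 30), (76, 77)], [(23, 31), (77, 77)], [(24, 30), (75, 78), (247, 253),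 (286, 286)], [(24, 31), (25, 30), (76, 78), (248, 253), (286, 287)], [(25, 31), (77, 78), (249, 253), (287, 287)], [(78, 78), (250, 253)], [(26, 30), (75, 79), (166, 172), (205, 205)], [(26, 31), (27, 30), (76, 79), (167, 172), (205, 206)], [(27, 31), (77, 79), (168, 172), (206, 206)], [(78, 79), (169, 172), (251, 253), (341, 341)], [(79, 79), (170, 172)], [(28, 30), (75, 80), (111, 117), (150, 150)], [(28, 31), (29, 30), (76, 80), (112, 117), (150, 151)], [(29, 31), (77, 80), (113, 117), (151, 151)], [(78, 80), (114, 117), (252, 253), (315, 315)], [(79, 80), (115, 117), (171, 172), (234, 234)], [(80, 80), (116, 117)], [(30, 30), (75, 81)], [(30, 31), (76, 81)], [(31, 31), (77, 81)], [(78, 81), (253, 253)], [(79, 81), (172, 172)], [(80, 81), (117, 117)], [(81, 81)], [(20, 32), (55, 55)], [(20, 33), (21, 32), (55, 56)], [(21, 33), (22, 32), (55, 57), (56, 56)], [(22, 33), (23, 32), (56, 57)], [(23,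 33), (57, 57)], [(24, 32), (55, 58), (247, 254), (270, 270)], [(24, 33), (25, 32), (56, 58), (248, 254), (270, 271)], [(25, 33), (57, 58), (249, 254), (271, 271)], [(58, 58), (250, 254)], [(26, 32), (55, 59), (166, 173), (189, 189)], [(26, 33), (27, 32), (56, 59), (167, 173), (189, 190)], [(27, 33), (57, 59), (168, 173), (190, 190)], [(58, 59), (169, 173), (251, 254), (338, 338)], [(59, 59), (170, 173)], [(28, 32), (55, 60), (111, 118), (134, 134)], [(28, 33), (29, 32), (56, 60), (112, 118), (134, 135)], [(29, 33), (57, 60), (113, 118), (135, 135)], [(58, 60), (114, 118), (252, 254), (312, 312)], [(59, 60), (115, 118), (171, 173), (231, 231)], [(60, 60), (116, 118)], [(30, 32), (55, 61), (75, 82), (98, 98)], [(30, 33), (31, 32), (56, 61), (76, 82), (98, 99)], [(31, 33), (57, 61), (77, 82), (99, 99)], [(58, 61), (78, 82), (253, 254), (293, 293)], [(59, 61), (79, 82), (172, 173), (212, 212)], [(60,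 61), (80, 82), (117, 118), (157, 157)], [(61, 61), (81, 82)], [(32, 32), (55, 62)], [(32, 33), (56, 62)], [(33, 33), (57, 62)], [(58, 62), (254, 254)], [(59, 62), (173, 173)], [(60, 62), (118, 118)], [(61, 62), (82, 82)], [(62, 62)], [(304, 309), (330, 335)], [(223, 228), (330, 334)], [(223, 227), (304, 308)], [(223, 226), (304, 307), (330, 333)], [(223, 224), (304, 305), (330, 331), (346, 348)], [(223, 225), (304, 306), (330, 332), (347, 348)], [(346, 346)], [(346, 347)], [(347, 347)], [(223, 223)], [(304, 304)], [(330, 330)], [(356, 356)], [(352, 352)], [(285, 290), (329, 335)], [(204, 209), (329, 334)], [(204, 208), (285, 289)], [(204, 207), (285, 288), (329, 333)], [(204, 205), (285, 286), (329, 331), (339, 341)], [(204, 206), (285, 287), (329, 332), (340, 341)], [(329, 330), (355, 356)]]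
def spl384 : List (List (ℕ × ℕ)) := [[(339, 339)], [(339, 340)], [(340, 340)], [(204, 204)], [(285, 285)], [(355, 355)], [(329, 329)], [(345, 345)], [(284, 290), (303, 309)], [(149, 154), (303, 308)], [(149, 153), (284, 289)], [(149, 152), (284, 288), (303, 307)], [(149, 150), (284, 286), (303, 305), (313, 315)], [(149, 151), (284, 287), (303, 306), (314, 315)], [(303, 304), (354, 356)], [(284, 285), (354, 355)], [(313, 313)], [(313, 314)], [(314, 314)], [(149, 149)], [(354, 354)], [(284, 284)], [(303, 303)], [(319, 319)], [(203, 209), (222, 228)], [(148, 154), (222, 227)], [(148, 153), (203, 208)], [(148, 152), (203, 207), (222, 226)], [(148, 150), (203, 205), (222, 224), (232, 234)], [(148, 151), (203, 206), (222, 225), (233, 234)], [(222, 223), (353, 356)], [(203, 204), (353, 355)], [(148, 149), (353, 354)], [(232, 232)], [(232, 233)], [(233, 233)], [(353, 353)], [(148, 148)], [(203, 203)],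 [(222, 222)], [(238, 238)], [(269, 274), (328, 335)], [(188, 193), (328, 334)], [(188, 192), (269, 273)], [(188, 191), (269, 272), (328, 333)], [(188, 189), (269, 270), (328, 331), (336, 338)], [(188, 190), (269, 271), (328, 332), (337, 338)], [(328, 330), (351, 352)], [(328, 329), (344, 345)], [(336, 336)], [(336, 337)], [(337, 337)], [(188, 188)], [(269, 269)], [(351, 351)], [(344, 344)], [(328, 328)], [(268, 274), (302, 309)], [(133, 138), (302, 308)], [(133, 137), (268, 273)], [(133, 136), (268, 272), (302, 307)], [(133, 134), (268, 270), (302, 305), (310, 312)], [(133, 135), (268, 271), (302, 306), (311, 312)], [(302, 304), (350, 352)], [(302, 303), (318, 319)], [(268, 269), (350, 351)], [(310, 310)], [(310, 311)], [(311, 311)], [(133, 133)], [(350, 350)], [(268, 268)], [(318, 318)], [(302, 302)], [(187, 193), (221, 228)], [(132, 138), (221, 227)], [(132, 137), (187, 192)], [(132, 136), (187,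 191), (221, 226)], [(132, 134), (187, 189), (221, 224), (229, 231)], [(132, 135), (187, 190), (221, 225), (230, 231)], [(221, 223), (349, 352)], [(221, 222), (237, 238)], [(187, 188), (349, 351)], [(132, 133), (349, 350)], [(229, 229)], [(229, 230)], [(230, 230)], [(349, 349)], [(132, 132)], [(187, 187)], [(237, 237)], [(221, 221)], [(267, 274), (283, 290)], [(97, 102), (283, 289)], [(97, 101), (267, 273)], [(97, 100), (267, 272), (283, 288)], [(97, 98), (267, 270), (283, 286), (291, 293)], [(97, 99), (267, 271), (283, 287), (292, 293)], [(283, 285), (343, 345)], [(283, 284), (317, 319)], [(267, 269), (343, 344)], [(267, 268), (317, 318)], [(291, 291)], [(291, 292)], [(292, 292)], [(97, 97)], [(343, 343)], [(317, 317)], [(267, 267)], [(283, 283)], [(186, 193), (202, 209)], [(96, 102), (202, 208)], [(96, 101), (186, 192)], [(96, 100), (186, 191), (202, 207)], [(96, 98), (186, 189), (202, 205),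 (210, 212)], [(96, 99), (186, 190), (202, 206), (211, 212)], [(202, 204), (342, 345)], [(202, 203), (236, 238)], [(186, 188), (342, 344)], [(186, 187), (236, 237)], [(96, 97), (342, 343)], [(210, 210)], [(210, 211)], [(211, 211)], [(342, 342)], [(96, 96)], [(236, 236)], [(186, 186)]]
def spl512 : List (List (ℕ × ℕ)) := [[(202, 202)], [(131, 138), (147, 154)], [(95, 102), (147, 153)], [(95, 101), (131, 137)], [(95, 100), (131, 136), (147, 152)], [(95, 98), (131, 134), (147, 150), (155, 157)], [(95, 99), (131, 135), (147, 151), (156, 157)], [(147, 149), (316, 319)], [(147, 148), (235, 238)], [(131, 133), (316, 318)], [(131, 132), (235, 237)], [(95, 97), (316, 317)], [(95, 96), (235, 236)], [(155, 155)], [(155, 156)], [(156, 156)], [(316, 316)], [(235, 235)], [(95, 95)], [(131, 131)], [(147, 147)], [(245, 257)], [(245, 258), (246, 257)], [(246, 258)], [(19, 46)], [(327, 335)], [(301, 309)], [(282,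 290)], [(266, 274)], [(19, 45), (327, 334)], [(19, 44), (301, 308)], [(19, 43), (282, 289)], [(19, 42), (266, 273)], [(19, 34), (245, 255)], [(19, 35), (245, 256), (246, 255)], [(19, 36), (246, 256)], [(19, 37)], [(19, 38), (327, 333)], [(19, 39), (301, 307)], [(19, 40), (282, 288)], [(19, 41), (266, 272)], [(19, 20), (245, 247)], [(19, 21), (245, 248), (246, 247)], [(19, 22), (245, 249), (246, 248)], [(19, 23), (246, 249)], [(19, 24), (245, 250)], [(19, 25), (246, 250)], [(19, 26), (245, 251), (327, 331)], [(19, 27), (246, 251), (327, 332)], [(19, 28), (245, 252), (301, 305)], [(19, 29), (246, 252), (301, 306)], [(19, 30), (245, 253), (282, 286)], [(19, 31), (246, 253), (282, 287)], [(19, 32), (245, 254), (266, 270)], [(19, 33), (246, 254), (266, 271)], [(301, 304), (327, 330)], [(282, 285), (327, 329)], [(282, 284), (301, 303)], [(266, 269), (327, 328)], [(266, 268), (301, 302)], [(266, 267),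 (282, 283)], [(245, 245)], [(245, 246)], [(246, 246)], [(19, 19)], [(327, 327)], [(301, 301)], [(282, 282)], [(266, 266)], [(243, 257)], [(243, 258), (244, 257)], [(244, 258)], [(18, 46)], [(326, 335)], [(300, 309)], [(281, 290)], [(265, 274)], [(18, 45), (326, 334)], [(18, 44), (300, 308)], [(18, 43), (281, 289)], [(18, 42), (265, 273)], [(18, 34), (243, 255)], [(18, 35), (243, 256), (244, 255)], [(18, 36), (244, 256)], [(18, 37)], [(18, 38), (326, 333)], [(18, 39), (300, 307)], [(18, 40), (281, 288)], [(18, 41), (265, 272)], [(18, 20), (243, 247)], [(18, 21), (243, 248), (244, 247)], [(18, 22), (243, 249), (244, 248)], [(18, 23), (244, 249)], [(18, 24), (243, 250)], [(18, 25), (244, 250)], [(18, 26), (243, 251), (326, 331)], [(18, 27), (244, 251), (326, 332)], [(18, 28), (243, 252), (300, 305)], [(18, 29), (244, 252), (300, 306)], [(18, 30), (243, 253), (281, 286)], [(18, 31), (244, 253), (281,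 287)], [(18, 32), (243, 254), (265, 270)], [(18, 33), (244, 254), (265, 271)], [(300, 304), (326, 330)], [(281, 285), (326, 329)], [(281, 284), (300, 303)], [(265, 269), (326, 328)], [(265, 268), (300, 302)], [(265, 267), (281, 283)], [(243, 245)], [(243, 246), (244, 245)], [(244, 246)], [(18, 19)], [(326, 327)], [(300, 301)], [(281, 282)], [(265, 266)], [(243, 243)], [(243, 244)], [(244, 244)], [(18, 18)], [(326, 326)], [(300, 300)], [(281, 281)], [(265, 265)], [(241, 257)], [(241, 258), (242, 257)], [(242, 258)]]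
def spl640 : List (List (ℕ × ℕ)) := [[(17, 46)], [(325, 335)], [(299, 309)], [(280, 290)], [(264, 274)], [(17, 45), (325, 334)], [(17, 44), (299, 308)], [(17, 43), (280, 289)], [(17, 42), (264, 273)], [(17, 34), (241, 255)], [(17, 35), (241, 256), (242, 255)], [(17, 36), (242, 256)], [(17, 37)], [(17, 38), (325, 333)], [(17, 39), (299, 307)], [(17, 40), (280, 288)], [(17, 41), (264, 272)], [(17, 20), (241, 247)], [(17, 21), (241, 248), (242, 247)], [(17, 22), (241, 249), (242, 248)], [(17, 23), (242, 249)], [(17, 24), (241, 250)], [(17, 25), (242, 250)], [(17, 26), (241, 251), (325, 331)], [(17, 27), (242, 251), (325, 332)], [(17, 28), (241, 252), (299, 305)], [(17, 29), (242, 252), (299, 306)], [(17, 30), (241, 253), (280, 286)], [(17, 31), (242, 253), (280, 287)], [(17, 32), (241, 254), (264, 270)], [(17, 33), (242, 254), (264, 271)], [(299, 304), (325, 330)], [(280, 285), (325, 329)], [(280,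 284), (299, 303)], [(264, 269), (325, 328)], [(264, 268), (299, 302)], [(264, 267), (280, 283)], [(241, 245)], [(241, 246), (242, 245)], [(242, 246)], [(17, 19)], [(325, 327)], [(299, 301)], [(280, 282)], [(264, 266)], [(241, 243)], [(241, 244), (242, 243)], [(242, 244)], [(17, 18)], [(325, 326)], [(299, 300)], [(280, 281)], [(264, 265)], [(241, 241)], [(241, 242)], [(242, 242)], [(17, 17)], [(325, 325)], [(299, 299)], [(280, 280)], [(264, 264)], [(239, 257)], [(239, 258), (240, 257)], [(240, 258)], [(16, 46)], [(324, 335)], [(298, 309)], [(279, 290)], [(263, 274)], [(16, 45), (324, 334)], [(16, 44), (298, 308)], [(16, 43), (279, 289)], [(16, 42), (263, 273)], [(16, 34), (239, 255)], [(16, 35), (239, 256), (240, 255)], [(16, 36), (240, 256)], [(16, 37)], [(16, 38), (324, 333)], [(16, 39), (298, 307)], [(16, 40), (279, 288)], [(16, 41), (263, 272)], [(16, 20), (239, 247)], [(16, 21), (239, 248),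 (240, 247)], [(16, 22), (239, 249), (240, 248)], [(16, 23), (240, 249)], [(16, 24), (239, 250)], [(16, 25), (240, 250)], [(16, 26), (239, 251), (324, 331)], [(16, 27), (240, 251), (324, 332)], [(16, 28), (239, 252), (298, 305)], [(16, 29), (240, 252), (298, 306)], [(16, 30), (239, 253), (279, 286)], [(16, 31), (240, 253), (279, 287)], [(16, 32), (239, 254), (263, 270)], [(16, 33), (240, 254), (263, 271)], [(298, 304), (324, 330)], [(279, 285), (324, 329)], [(279, 284), (298, 303)], [(263, 269), (324, 328)], [(263, 268), (298, 302)], [(263, 267), (279, 283)], [(239, 245)], [(239, 246), (240, 245)], [(240, 246)], [(16, 19)], [(324, 327)], [(298, 301)], [(279, 282)], [(263, 266)], [(239, 243)], [(239, 244), (240, 243)], [(240, 244)], [(16, 18)], [(324, 326)], [(298, 300)], [(279, 281)], [(263, 265)], [(239, 241)], [(239, 242), (240, 241)], [(240, 242)], [(16, 17)], [(324, 325)], [(298, 299)], [(279,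 280)], [(263, 264)], [(239, 239)], [(239, 240)], [(240, 240)]]
def spl768 : List (List (ℕ × ℕ)) := [[(16, 16)], [(324, 324)], [(298, 298)], [(279, 279)], [(263, 263)], [(15, 46), (323, 335)], [(164, 176)], [(164, 177), (165, 176)], [(165, 177)], [(323, 334)], [(15, 45)], [(220, 228)], [(201, 209)], [(185, 193)], [(15, 44), (220, 227)], [(15, 43), (201, 208)], [(15, 42), (185, 192)], [(15, 34), (164, 174)], [(15, 35), (164, 175), (165, 174)], [(15, 36), (165, 175)], [(15, 37), (323, 333)], [(15, 38)], [(15, 39), (220, 226)], [(15, 40), (201, 207)], [(15, 41), (185, 191)], [(15, 20), (164, 166)], [(15, 21), (164, 167), (165, 166)], [(15, 22), (164, 168), (165, 167)], [(15, 23), (165, 168)], [(15, 24), (164, 169), (323, 331)], [(15, 25), (165, 169), (323, 332)], [(15, 26), (164, 170)], [(15, 27), (165, 170)], [(15, 28), (164, 171), (220, 224)], [(15, 29), (165, 171), (220, 225)], [(15, 30), (164,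 172), (201, 205)], [(15, 31), (165, 172), (201, 206)], [(15, 32), (164, 173), (185, 189)], [(15, 33), (165, 173), (185, 190)], [(220, 223), (323, 330)], [(201, 204), (323, 329)], [(201, 203), (220, 222)], [(185, 188), (323, 328)], [(185, 187), (220, 221)], [(185, 186), (201, 202)], [(15, 19), (323, 327)], [(15, 18), (323, 326)], [(15, 17), (323, 325)], [(15, 16), (323, 324)], [(164, 164)], [(164, 165)], [(165, 165)], [(323, 323)], [(15, 15)], [(220, 220)], [(201, 201)], [(185, 185)], [(14, 46), (322, 335)], [(162, 176)], [(162, 177), (163, 176)], [(163, 177)], [(322, 334)], [(14, 45)], [(219, 228)], [(200, 209)], [(184, 193)], [(14, 44), (219, 227)], [(14, 43), (200, 208)], [(14, 42), (184, 192)], [(14, 34), (162, 174)], [(14, 35), (162, 175), (163, 174)], [(14, 36), (163, 175)], [(14, 37), (322, 333)], [(14, 38)], [(14, 39), (219, 226)], [(14, 40), (200, 207)], [(14, 41), (184, 191)], [(14, 20),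 (162, 166)], [(14, 21), (162, 167), (163, 166)], [(14, 22), (162, 168), (163, 167)], [(14, 23), (163, 168)], [(14, 24), (162, 169), (322, 331)], [(14, 25), (163, 169), (322, 332)], [(14, 26), (162, 170)], [(14, 27), (163, 170)], [(14, 28), (162, 171), (219, 224)], [(14, 29), (163, 171), (219, 225)], [(14, 30), (162, 172), (200, 205)], [(14, 31), (163, 172), (200, 206)], [(14, 32), (162, 173), (184, 189)], [(14, 33), (163, 173), (184, 190)], [(219, 223), (322, 330)], [(200, 204), (322, 329)], [(200, 203), (219, 222)], [(184, 188), (322, 328)], [(184, 187), (219, 221)], [(184, 186), (200, 202)], [(14, 19), (322, 327)], [(14, 18), (322, 326)], [(14, 17), (322, 325)], [(14, 16), (322, 324)], [(162, 164)], [(162, 165), (163, 164)], [(163, 165)], [(322, 323)], [(14, 15)], [(219, 220)], [(200, 201)], [(184, 185)], [(162, 162)], [(162, 163)], [(163, 163)], [(322, 322)], [(14, 14)], [(219, 219)], [(200,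 200)], [(184, 184)], [(13, 46), (321, 335)], [(160, 176)], [(160, 177), (161, 176)], [(161, 177)], [(321, 334)], [(13, 45)], [(218, 228)], [(199, 209)], [(183, 193)], [(13, 44), (218, 227)], [(13, 43), (199, 208)]]
def spl896 : List (List (ℕ × ℕ)) := [[(13, 42), (183, 192)], [(13, 34), (160, 174)], [(13, 35), (160, 175), (161, 174)], [(13, 36), (161, 175)], [(13, 37), (321, 333)], [(13, 38)], [(13, 39), (218, 226)], [(13, 40), (199, 207)], [(13, 41), (183, 191)], [(13, 20), (160, 166)], [(13, 21), (160, 167), (161, 166)], [(13, 22), (160, 168), (161, 167)], [(13, 23), (161, 168)], [(13, 24), (160, 169), (321, 331)], [(13, 25), (161, 169), (321, 332)], [(13, 26), (160, 170)], [(13, 27), (161, 170)], [(13, 28), (160, 171), (218, 224)], [(13, 29), (161, 171), (218, 225)], [(13, 30), (160, 172), (199, 205)], [(13, 31), (161, 172), (199, 206)], [(13, 32), (160, 173), (183, 189)], [(13, 33), (161, 173),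 (183, 190)], [(218, 223), (321, 330)], [(199, 204), (321, 329)], [(199, 203), (218, 222)], [(183, 188), (321, 328)], [(183, 187), (218, 221)], [(183, 186), (199, 202)], [(13, 19), (321, 327)], [(13, 18), (321, 326)], [(13, 17), (321, 325)], [(13, 16), (321, 324)], [(160, 164)], [(160, 165), (161, 164)], [(161, 165)], [(321, 323)], [(13, 15)], [(218, 220)], [(199, 201)], [(183, 185)], [(160, 162)], [(160, 163), (161, 162)], [(161, 163)], [(321, 322)], [(13, 14)], [(218, 219)], [(199, 200)], [(183, 184)], [(160, 160)], [(160, 161)], [(161, 161)], [(321, 321)], [(13, 13)], [(218, 218)], [(199, 199)], [(183, 183)], [(12, 46), (320, 335)], [(158, 176)], [(158, 177), (159, 176)], [(159, 177)], [(320, 334)], [(12, 45)], [(217, 228)], [(198, 209)], [(182, 193)], [(12, 44), (217, 227)], [(12, 43), (198, 208)], [(12, 42), (182, 192)], [(12, 34), (158, 174)], [(12, 35), (158, 175), (159, 174)], [(12, 36),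 (159, 175)], [(12, 37), (320, 333)], [(12, 38)], [(12, 39), (217, 226)], [(12, 40), (198, 207)], [(12, 41), (182, 191)], [(12, 20), (158, 166)], [(12, 21), (158, 167), (159, 166)], [(12, 22), (158, 168), (159, 167)], [(12, 23), (159, 168)], [(12, 24), (158, 169), (320, 331)], [(12, 25), (159, 169), (320, 332)], [(12, 26), (158, 170)], [(12, 27), (159, 170)], [(12, 28), (158, 171), (217, 224)], [(12, 29), (159, 171), (217, 225)], [(12, 30), (158, 172), (198, 205)], [(12, 31), (159, 172), (198, 206)], [(12, 32), (158, 173), (182, 189)], [(12, 33), (159, 173), (182, 190)], [(217, 223), (320, 330)], [(198, 204), (320, 329)], [(198, 203), (217, 222)], [(182, 188), (320, 328)], [(182, 187), (217, 221)], [(182, 186), (198, 202)], [(12, 19), (320, 327)], [(12, 18), (320, 326)], [(12, 17), (320, 325)], [(12, 16), (320, 324)], [(158, 164)], [(158, 165), (159, 164)], [(159, 165)], [(320, 323)], [(12, 15)],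 [(217, 220)], [(198, 201)], [(182, 185)], [(158, 162)], [(158, 163), (159, 162)], [(159, 163)], [(320, 322)], [(12, 14)], [(217, 219)], [(198, 200)], [(182, 184)], [(158, 160)], [(158, 161), (159, 160)], [(159, 161)], [(320, 321)], [(12, 13)], [(217, 218)], [(198, 199)], [(182, 183)], [(158, 158)], [(158, 159)], [(159, 159)]]
def spl1024 : List (List (ℕ × ℕ)) := [[(320, 320)], [(12, 12)], [(217, 217)], [(198, 198)], [(182, 182)], [(11, 46), (297, 309)], [(11, 45), (216, 228)], [(109, 121)], [(109, 122), (110, 121)], [(110, 122)], [(297, 308)], [(216, 227)], [(11, 44)], [(146, 154)], [(130, 138)], [(11, 43), (146, 153)], [(11, 42), (130, 137)], [(11, 34), (109, 119)], [(11, 35), (109, 120), (110, 119)], [(11, 36), (110, 120)], [(11, 37), (297, 307)], [(11, 38), (216, 226)], [(11, 39)], [(11, 40), (146, 152)], [(11, 41), (130, 136)], [(11, 20), (109, 111)], [(11, 21), (109, 112), (110, 111)], [(11,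 22), (109, 113), (110, 112)], [(11, 23), (110, 113)], [(11, 24), (109, 114), (297, 305)], [(11, 25), (110, 114), (297, 306)], [(11, 26), (109, 115), (216, 224)], [(11, 27), (110, 115), (216, 225)], [(11, 28), (109, 116)], [(11, 29), (110, 116)], [(11, 30), (109, 117), (146, 150)], [(11, 31), (110, 117), (146, 151)], [(11, 32), (109, 118), (130, 134)], [(11, 33), (110, 118), (130, 135)], [(216, 223), (297, 304)], [(146, 149), (297, 303)], [(146, 148), (216, 222)], [(130, 133), (297, 302)], [(130, 132), (216, 221)], [(130, 131), (146, 147)], [(11, 19), (297, 301)], [(11, 18), (297, 300)], [(11, 17), (297, 299)], [(11, 16), (297, 298)], [(11, 15), (216, 220)], [(11, 14), (216, 219)], [(11, 13), (216, 218)], [(11, 12), (216, 217)], [(109, 109)], [(109, 110)], [(110, 110)], [(297, 297)], [(216, 216)], [(11, 11)], [(146, 146)], [(130, 130)], [(10, 46), (296, 309)], [(10, 45), (215, 228)], [(107, 121)],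 [(107, 122), (108, 121)], [(108, 122)], [(296, 308)], [(215, 227)], [(10, 44)], [(145, 154)], [(129, 138)], [(10, 43), (145, 153)], [(10, 42), (129, 137)], [(10, 34), (107, 119)], [(10, 35), (107, 120), (108, 119)], [(10, 36), (108, 120)], [(10, 37), (296, 307)], [(10, 38), (215, 226)], [(10, 39)], [(10, 40), (145, 152)], [(10, 41), (129, 136)], [(10, 20), (107, 111)], [(10, 21), (107, 112), (108, 111)], [(10, 22), (107, 113), (108, 112)], [(10, 23), (108, 113)], [(10, 24), (107, 114), (296, 305)], [(10, 25), (108, 114), (296, 306)], [(10, 26), (107, 115), (215, 224)], [(10, 27), (108, 115), (215, 225)], [(10, 28), (107, 116)], [(10, 29), (108, 116)], [(10, 30), (107, 117), (145, 150)], [(10, 31), (108, 117), (145, 151)], [(10, 32), (107, 118), (129, 134)], [(10, 33), (108, 118), (129, 135)], [(215, 223), (296, 304)], [(145, 149), (296, 303)], [(145, 148), (215, 222)], [(129, 133), (296, 302)],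 [(129, 132), (215, 221)], [(129, 131), (145, 147)], [(10, 19), (296, 301)], [(10, 18), (296, 300)], [(10, 17), (296, 299)], [(10, 16), (296, 298)], [(10, 15), (215, 220)], [(10, 14), (215, 219)], [(10, 13), (215, 218)], [(10, 12), (215, 217)], [(107, 109)], [(107, 110), (108, 109)], [(108, 110)], [(296, 297)], [(215, 216)], [(10, 11)], [(145, 146)], [(129, 130)], [(107, 107)], [(107, 108)], [(108, 108)], [(296, 296)], [(215, 215)], [(10, 10)], [(145, 145)], [(129, 129)], [(9, 46), (295, 309)], [(9, 45), (214, 228)], [(105, 121)]]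
def spl1152 : List (List (ℕ × ℕ)) := [[(105, 122), (106, 121)], [(106, 122)], [(295, 308)], [(214, 227)], [(9, 44)], [(144, 154)], [(128, 138)], [(9, 43), (144, 153)], [(9, 42), (128, 137)], [(9, 34), (105, 119)], [(9, 35), (105, 120), (106, 119)], [(9, 36), (106, 120)], [(9, 37), (295, 307)], [(9, 38), (214, 226)], [(9, 39)], [(9, 40), (144, 152)], [(9, 41), (128, 136)], [(9, 20), (105, 111)], [(9, 21), (105, 112), (106, 111)], [(9, 22), (105, 113), (106, 112)], [(9, 23), (106, 113)], [(9, 24), (105, 114), (295, 305)], [(9, 25), (106, 114), (295, 306)], [(9, 26), (105, 115), (214, 224)], [(9, 27), (106, 115), (214, 225)], [(9, 28), (105, 116)], [(9, 29), (106, 116)], [(9, 30), (105, 117), (144, 150)], [(9, 31), (106, 117), (144, 151)], [(9, 32), (105, 118), (128, 134)], [(9, 33), (106, 118), (128, 135)], [(214, 223), (295, 304)], [(144, 149), (295, 303)], [(144, 148), (214, 222)], [(128, 133),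 (295, 302)], [(128, 132), (214, 221)], [(128, 131), (144, 147)], [(9, 19), (295, 301)], [(9, 18), (295, 300)], [(9, 17), (295, 299)], [(9, 16), (295, 298)], [(9, 15), (214, 220)], [(9, 14), (214, 219)], [(9, 13), (214, 218)], [(9, 12), (214, 217)], [(105, 109)], [(105, 110), (106, 109)], [(106, 110)], [(295, 297)], [(214, 216)], [(9, 11)], [(144, 146)], [(128, 130)], [(105, 107)], [(105, 108), (106, 107)], [(106, 108)], [(295, 296)], [(214, 215)], [(9, 10)], [(144, 145)], [(128, 129)], [(105, 105)], [(105, 106)], [(106, 106)], [(295, 295)], [(214, 214)], [(9, 9)], [(144, 144)], [(128, 128)], [(8, 46), (294, 309)], [(8, 45), (213, 228)], [(103, 121)], [(103, 122), (104, 121)], [(104, 122)], [(294, 308)], [(213, 227)], [(8, 44)], [(143, 154)], [(127, 138)], [(8, 43), (143, 153)], [(8, 42), (127, 137)], [(8, 34), (103, 119)], [(8, 35), (103, 120), (104, 119)], [(8, 36), (104, 120)], [(8, 37), (294,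 307)], [(8, 38), (213, 226)], [(8, 39)], [(8, 40), (143, 152)], [(8, 41), (127, 136)], [(8, 20), (103, 111)], [(8, 21), (103, 112), (104, 111)], [(8, 22), (103, 113), (104, 112)], [(8, 23), (104, 113)], [(8, 24), (103, 114), (294, 305)], [(8, 25), (104, 114), (294, 306)], [(8, 26), (103, 115), (213, 224)], [(8, 27), (104, 115), (213, 225)], [(8, 28), (103, 116)], [(8, 29), (104, 116)], [(8, 30), (103, 117), (143, 150)], [(8, 31), (104, 117), (143, 151)], [(8, 32), (103, 118), (127, 134)], [(8, 33), (104, 118), (127, 135)], [(213, 223), (294, 304)], [(143, 149), (294, 303)], [(143, 148), (213, 222)], [(127, 133), (294, 302)], [(127, 132), (213, 221)], [(127, 131), (143, 147)], [(8, 19), (294, 301)], [(8, 18), (294, 300)], [(8, 17), (294, 299)], [(8, 16), (294, 298)], [(8, 15), (213, 220)], [(8, 14), (213, 219)], [(8, 13), (213, 218)], [(8, 12), (213, 217)], [(103, 109)], [(103, 110), (104, 109)],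 [(104, 110)], [(294, 297)], [(213, 216)], [(8, 11)], [(143, 146)], [(127, 130)], [(103, 107)], [(103, 108), (104, 107)], [(104, 108)]]
def spl1280 : List (List (ℕ × ℕ)) := [[(294, 296)], [(213, 215)], [(8, 10)], [(143, 145)], [(127, 129)], [(103, 105)], [(103, 106), (104, 105)], [(104, 106)], [(294, 295)], [(213, 214)], [(8, 9)], [(143, 144)], [(127, 128)], [(103, 103)], [(103, 104)], [(104, 104)], [(294, 294)], [(213, 213)], [(8, 8)], [(143, 143)], [(127, 127)], [(7, 46), (278, 290)], [(7, 45), (197, 209)], [(7, 44), (142, 154)], [(73, 85)], [(73, 86), (74, 85)], [(74, 86)], [(278, 289)], [(197, 208)], [(142, 153)], [(7, 43)], [(94, 102)], [(7, 42), (94, 101)], [(7, 34), (73, 83)], [(7, 35), (73, 84), (74, 83)], [(7, 36), (74, 84)], [(7, 37), (278, 288)], [(7, 38), (197, 207)], [(7, 39), (142, 152)], [(7, 40)], [(7, 41), (94, 100)], [(7, 20), (73, 75)], [(7, 21), (73, 76), (74, 75)], [(7, 22),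 (73, 77), (74, 76)], [(7, 23), (74, 77)], [(7, 24), (73, 78), (278, 286)], [(7, 25), (74, 78), (278, 287)], [(7, 26), (73, 79), (197, 205)], [(7, 27), (74, 79), (197, 206)], [(7, 28), (73, 80), (142, 150)], [(7, 29), (74, 80), (142, 151)], [(7, 30), (73, 81)], [(7, 31), (74, 81)], [(7, 32), (73, 82), (94, 98)], [(7, 33), (74, 82), (94, 99)], [(197, 204), (278, 285)], [(142, 149), (278, 284)], [(142, 148), (197, 203)], [(94, 97), (278, 283)], [(94, 96), (197, 202)], [(94, 95), (142, 147)], [(7, 19), (278, 282)], [(7, 18), (278, 281)], [(7, 17), (278, 280)], [(7, 16), (278, 279)], [(7, 15), (197, 201)], [(7, 14), (197, 200)], [(7, 13), (197, 199)], [(7, 12), (197, 198)], [(7, 11), (142, 146)], [(7, 10), (142, 145)], [(7, 9), (142, 144)], [(7, 8), (142, 143)], [(73, 73)], [(73, 74)], [(74, 74)], [(278, 278)], [(197, 197)], [(142, 142)], [(7, 7)], [(94, 94)], [(6, 46), (277, 290)], [(6, 45), (196,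 209)], [(6, 44), (141, 154)], [(71, 85)], [(71, 86), (72, 85)], [(72, 86)], [(277, 289)], [(196, 208)], [(141, 153)], [(6, 43)], [(93, 102)], [(6, 42), (93, 101)], [(6, 34), (71, 83)], [(6, 35), (71, 84), (72, 83)], [(6, 36), (72, 84)], [(6, 37), (277, 288)], [(6, 38), (196, 207)], [(6, 39), (141, 152)], [(6, 40)], [(6, 41), (93, 100)], [(6, 20), (71, 75)], [(6, 21), (71, 76), (72, 75)], [(6, 22), (71, 77), (72, 76)], [(6, 23), (72, 77)], [(6, 24), (71, 78), (277, 286)], [(6, 25), (72, 78), (277, 287)], [(6, 26), (71, 79), (196, 205)], [(6, 27), (72, 79), (196, 206)], [(6, 28), (71, 80), (141, 150)], [(6, 29), (72, 80), (141, 151)], [(6, 30), (71, 81)], [(6, 31), (72, 81)], [(6, 32), (71, 82), (93, 98)], [(6, 33), (72, 82), (93, 99)], [(196, 204), (277, 285)], [(141, 149), (277, 284)], [(141, 148), (196, 203)], [(93, 97), (277, 283)], [(93, 96), (196, 202)], [(93, 95), (141, 147)], [(6, 19), (277,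 282)], [(6, 18), (277, 281)], [(6, 17), (277, 280)], [(6, 16), (277, 279)], [(6, 15), (196, 201)], [(6, 14), (196, 200)], [(6, 13), (196, 199)]]
def spl1408 : List (List (ℕ × ℕ)) := [[(6, 12), (196, 198)], [(6, 11), (141, 146)], [(6, 10), (141, 145)], [(6, 9), (141, 144)], [(6, 8), (141, 143)], [(71, 73)], [(71, 74), (72, 73)], [(72, 74)], [(277, 278)], [(196, 197)], [(141, 142)], [(6, 7)], [(93, 94)], [(71, 71)], [(71, 72)], [(72, 72)], [(277, 277)], [(196, 196)], [(141, 141)], [(6, 6)], [(93, 93)], [(5, 46), (276, 290)], [(5, 45), (195, 209)], [(5, 44), (140, 154)], [(69, 85)], [(69, 86), (70, 85)], [(70, 86)], [(276, 289)], [(195, 208)], [(140, 153)], [(5, 43)], [(92, 102)], [(5, 42), (92, 101)], [(5, 34), (69, 83)], [(5, 35), (69, 84), (70, 83)], [(5, 36), (70, 84)], [(5, 37), (276, 288)], [(5, 38), (195, 207)], [(5, 39), (140, 152)], [(5, 40)], [(5, 41), (92, 100)], [(5, 20), (69, 75)], [(5,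 21), (69, 76), (70, 75)], [(5, 22), (69, 77), (70, 76)], [(5, 23), (70, 77)], [(5, 24), (69, 78), (276, 286)], [(5, 25), (70, 78), (276, 287)], [(5, 26), (69, 79), (195, 205)], [(5, 27), (70, 79), (195, 206)], [(5, 28), (69, 80), (140, 150)], [(5, 29), (70, 80), (140, 151)], [(5, 30), (69, 81)], [(5, 31), (70, 81)], [(5, 32), (69, 82), (92, 98)], [(5, 33), (70, 82), (92, 99)], [(195, 204), (276, 285)], [(140, 149), (276, 284)], [(140, 148), (195, 203)], [(92, 97), (276, 283)], [(92, 96), (195, 202)], [(92, 95), (140, 147)], [(5, 19), (276, 282)], [(5, 18), (276, 281)], [(5, 17), (276, 280)], [(5, 16), (276, 279)], [(5, 15), (195, 201)], [(5, 14), (195, 200)], [(5, 13), (195, 199)], [(5, 12), (195, 198)], [(5, 11), (140, 146)], [(5, 10), (140, 145)], [(5, 9), (140, 144)], [(5, 8), (140, 143)], [(69, 73)], [(69, 74), (70, 73)], [(70, 74)], [(276, 278)], [(195, 197)], [(140, 142)], [(5, 7)], [(92,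 94)], [(69, 71)], [(69, 72), (70, 71)], [(70, 72)], [(276, 277)], [(195, 196)], [(140, 141)], [(5, 6)], [(92, 93)], [(69, 69)], [(69, 70)], [(70, 70)], [(276, 276)], [(195, 195)], [(140, 140)], [(5, 5)], [(92, 92)], [(4, 46), (275, 290)], [(4, 45), (194, 209)], [(4, 44), (139, 154)], [(67, 85)], [(67, 86), (68, 85)], [(68, 86)], [(275, 289)], [(194, 208)], [(139, 153)], [(4, 43)], [(91, 102)], [(4, 42), (91, 101)], [(4, 34), (67, 83)], [(4, 35), (67, 84), (68, 83)], [(4, 36), (68, 84)], [(4, 37), (275, 288)], [(4, 38), (194, 207)], [(4, 39), (139, 152)], [(4, 40)], [(4, 41), (91, 100)], [(4, 20), (67, 75)], [(4, 21), (67, 76), (68, 75)], [(4, 22), (67, 77), (68, 76)], [(4, 23), (68, 77)], [(4, 24), (67, 78), (275, 286)], [(4, 25), (68, 78), (275, 287)], [(4, 26), (67, 79), (194, 205)], [(4, 27), (68, 79), (194, 206)], [(4, 28), (67, 80), (139, 150)], [(4, 29), (68, 80), (139, 151)], [(4, 30),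 (67, 81)]]
def spl1536 : List (List (ℕ × ℕ)) := [[(4, 31), (68, 81)], [(4, 32), (67, 82), (91, 98)], [(4, 33), (68, 82), (91, 99)], [(194, 204), (275, 285)], [(139, 149), (275, 284)], [(139, 148), (194, 203)], [(91, 97), (275, 283)], [(91, 96), (194, 202)], [(91, 95), (139, 147)], [(4, 19), (275, 282)], [(4, 18), (275, 281)], [(4, 17), (275, 280)], [(4, 16), (275, 279)], [(4, 15), (194, 201)], [(4, 14), (194, 200)], [(4, 13), (194, 199)], [(4, 12), (194, 198)], [(4, 11), (139, 146)], [(4, 10), (139, 145)], [(4, 9), (139, 144)], [(4, 8), (139, 143)], [(67, 73)], [(67, 74), (68, 73)], [(68, 74)], [(275, 278)], [(194, 197)], [(139, 142)], [(4, 7)], [(91, 94)], [(67, 71)], [(67, 72), (68, 71)], [(68, 72)], [(275, 277)], [(194, 196)], [(139, 141)], [(4, 6)], [(91, 93)], [(67, 69)], [(67, 70), (68, 69)], [(68, 70)], [(275, 276)], [(194, 195)], [(139, 140)], [(4, 5)], [(91, 92)], [(67, 67)], [(67, 68)],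 [(68, 68)], [(275, 275)], [(194, 194)], [(139, 139)], [(4, 4)], [(91, 91)], [(3, 46), (262, 274)], [(3, 45), (181, 193)], [(3, 44), (126, 138)], [(3, 43), (90, 102)], [(53, 65)], [(53, 66), (54, 65)], [(54, 66)], [(262, 273)], [(181, 192)], [(126, 137)], [(90, 101)], [(3, 42)], [(3, 34), (53, 63)], [(3, 35), (53, 64), (54, 63)], [(3, 36), (54, 64)], [(3, 37), (262, 272)], [(3, 38), (181, 191)], [(3, 39), (126, 136)], [(3, 40), (90, 100)], [(3, 41)], [(3, 20), (53, 55)], [(3, 21), (53, 56), (54, 55)], [(3, 22), (53, 57), (54, 56)], [(3, 23), (54, 57)], [(3, 24), (53, 58), (262, 270)], [(3, 25), (54, 58), (262, 271)], [(3, 26), (53, 59), (181, 189)], [(3, 27), (54, 59), (181, 190)], [(3, 28), (53, 60), (126, 134)], [(3, 29), (54, 60), (126, 135)], [(3, 30), (53, 61), (90, 98)], [(3, 31), (54, 61), (90, 99)], [(3, 32), (53, 62)], [(3, 33), (54, 62)], [(181, 188), (262, 269)], [(126, 133), (262, 268)],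 [(126, 132), (181, 187)], [(90, 97), (262, 267)], [(90, 96), (181, 186)], [(90, 95), (126, 131)], [(3, 19), (262, 266)], [(3, 18), (262, 265)], [(3, 17), (262, 264)], [(3, 16), (262, 263)], [(3, 15), (181, 185)], [(3, 14), (181, 184)], [(3, 13), (181, 183)], [(3, 12), (181, 182)], [(3, 11), (126, 130)], [(3, 10), (126, 129)], [(3, 9), (126, 128)], [(3, 8), (126, 127)], [(3, 7), (90, 94)], [(3, 6), (90, 93)], [(3, 5), (90, 92)], [(3, 4), (90, 91)], [(53, 53)], [(53, 54)], [(54, 54)], [(262, 262)], [(181, 181)], [(126, 126)], [(90, 90)], [(3, 3)], [(2, 46), (261, 274)], [(2, 45), (180, 193)], [(2, 44), (125, 138)], [(2, 43), (89, 102)], [(51, 65)], [(51, 66), (52, 65)], [(52, 66)], [(261, 273)], [(180, 192)], [(125, 137)], [(89, 101)]]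
def spl1664 : List (List (ℕ × ℕ)) := [[(2, 42)], [(2, 34), (51, 63)], [(2, 35), (51, 64), (52, 63)], [(2, 36), (52, 64)], [(2, 37), (261, 272)], [(2, 38), (180, 191)], [(2, 39), (125, 136)], [(2, 40), (89, 100)], [(2, 41)], [(2, 20), (51, 55)], [(2, 21), (51, 56), (52, 55)], [(2, 22), (51, 57), (52, 56)], [(2, 23), (52, 57)], [(2, 24), (51, 58), (261, 270)], [(2, 25), (52, 58), (261, 271)], [(2, 26), (51, 59), (180, 189)], [(2, 27), (52, 59), (180, 190)], [(2, 28), (51, 60), (125, 134)], [(2, 29), (52, 60), (125, 135)], [(2, 30), (51, 61), (89, 98)], [(2, 31), (52, 61), (89, 99)], [(2, 32), (51, 62)], [(2, 33), (52, 62)], [(180, 188), (261, 269)], [(125, 133), (261, 268)], [(125, 132), (180, 187)], [(89, 97), (261, 267)], [(89, 96), (180, 186)], [(89, 95), (125, 131)], [(2, 19), (261, 266)], [(2, 18), (261, 265)], [(2, 17), (261, 264)], [(2, 16), (261, 263)], [(2, 15), (180, 185)], [(2, 14), (180,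 184)], [(2, 13), (180, 183)], [(2, 12), (180, 182)], [(2, 11), (125, 130)], [(2, 10), (125, 129)], [(2, 9), (125, 128)], [(2, 8), (125, 127)], [(2, 7), (89, 94)], [(2, 6), (89, 93)], [(2, 5), (89, 92)], [(2, 4), (89, 91)], [(51, 53)], [(51, 54), (52, 53)], [(52, 54)], [(261, 262)], [(180, 181)], [(125, 126)], [(89, 90)], [(2, 3)], [(51, 51)], [(51, 52)], [(52, 52)], [(261, 261)], [(180, 180)], [(125, 125)], [(89, 89)], [(2, 2)], [(1, 46), (260, 274)], [(1, 45), (179, 193)], [(1, 44), (124, 138)], [(1, 43), (88, 102)], [(49, 65)], [(49, 66), (50, 65)], [(50, 66)], [(260, 273)], [(179, 192)], [(124, 137)], [(88, 101)], [(1, 42)], [(1, 34), (49, 63)], [(1, 35), (49, 64), (50, 63)], [(1, 36), (50, 64)], [(1, 37), (260, 272)], [(1, 38), (179, 191)], [(1, 39), (124, 136)], [(1, 40), (88, 100)], [(1, 41)], [(1, 20), (49, 55)], [(1, 21), (49, 56), (50, 55)], [(1, 22), (49, 57), (50, 56)], [(1, 23), (50,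 57)], [(1, 24), (49, 58), (260, 270)], [(1, 25), (50, 58), (260, 271)], [(1, 26), (49, 59), (179, 189)], [(1, 27), (50, 59), (179, 190)], [(1, 28), (49, 60), (124, 134)], [(1, 29), (50, 60), (124, 135)], [(1, 30), (49, 61), (88, 98)], [(1, 31), (50, 61), (88, 99)], [(1, 32), (49, 62)], [(1, 33), (50, 62)], [(179, 188), (260, 269)], [(124, 133), (260, 268)], [(124, 132), (179, 187)], [(88, 97), (260, 267)], [(88, 96), (179, 186)], [(88, 95), (124, 131)], [(1, 19), (260, 266)], [(1, 18), (260, 265)], [(1, 17), (260, 264)], [(1, 16), (260, 263)], [(1, 15), (179, 185)], [(1, 14), (179, 184)], [(1, 13), (179, 183)], [(1, 12), (179, 182)], [(1, 11), (124, 130)], [(1, 10), (124, 129)], [(1, 9), (124, 128)], [(1, 8), (124, 127)], [(1, 7), (88, 94)], [(1, 6), (88, 93)], [(1, 5), (88, 92)], [(1, 4), (88, 91)], [(49, 53)], [(49, 54), (50, 53)], [(50, 54)], [(260, 262)], [(179, 181)], [(124, 126)], [(88,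 90)], [(1, 3)], [(49, 51)], [(49, 52), (50, 51)], [(50, 52)]]
def spl1792 : List (List (ℕ × ℕ)) := [[(260, 261)], [(179, 180)], [(124, 125)], [(88, 89)], [(1, 2)], [(49, 49)], [(49, 50)], [(50, 50)], [(260, 260)], [(179, 179)], [(124, 124)], [(88, 88)], [(1, 1)], [(0, 46), (259, 274)], [(0, 45), (178, 193)], [(0, 44), (123, 138)], [(0, 43), (87, 102)], [(47, 65)], [(47, 66), (48, 65)], [(48, 66)], [(259, 273)], [(178, 192)], [(123, 137)], [(87, 101)], [(0, 42)], [(0, 34), (47, 63)], [(0, 35), (47, 64), (48, 63)], [(0, 36), (48, 64)], [(0, 37), (259, 272)], [(0, 38), (178, 191)], [(0, 39), (123, 136)], [(0, 40), (87, 100)], [(0, 41)], [(0, 20), (47, 55)], [(0, 21), (47, 56), (48, 55)], [(0, 22), (47, 57), (48, 56)], [(0, 23), (48, 57)], [(0, 24), (47, 58), (259, 270)], [(0, 25), (48, 58), (259, 271)], [(0, 26), (47, 59), (178, 189)], [(0, 27), (48, 59), (178, 190)], [(0, 28), (47, 60), (123, 134)],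 [(0, 29), (48, 60), (123, 135)], [(0, 30), (47, 61), (87, 98)], [(0, 31), (48, 61), (87, 99)], [(0, 32), (47, 62)], [(0, 33), (48, 62)], [(178, 188), (259, 269)], [(123, 133), (259, 268)], [(123, 132), (178, 187)], [(87, 97), (259, 267)], [(87, 96), (178, 186)], [(87, 95), (123, 131)], [(0, 19), (259, 266)], [(0, 18), (259, 265)], [(0, 17), (259, 264)], [(0, 16), (259, 263)], [(0, 15), (178, 185)], [(0, 14), (178, 184)], [(0, 13), (178, 183)], [(0, 12), (178, 182)], [(0, 11), (123, 130)], [(0, 10), (123, 129)], [(0, 9), (123, 128)], [(0, 8), (123, 127)], [(0, 7), (87, 94)], [(0, 6), (87, 93)], [(0, 5), (87, 92)], [(0, 4), (87, 91)], [(47, 53)], [(47, 54), (48, 53)], [(48, 54)], [(259, 262)], [(178, 181)], [(123, 126)], [(87, 90)], [(0, 3)], [(47, 51)], [(47, 52), (48, 51)], [(48, 52)], [(259, 261)], [(178, 180)], [(123, 125)], [(87, 89)], [(0, 2)], [(47, 49)], [(47, 50), (48, 49)], [(48, 50)],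 [(259, 260)], [(178, 179)], [(123, 124)], [(87, 88)], [(0, 1)], [(47, 47)], [(47, 48)], [(48, 48)], [(259, 259)], [(178, 178)], [(123, 123)], [(87, 87)], [(0, 0)]]
def spl : List (List (ℕ × ℕ)) := List.flatten [spl0, spl128, spl256, spl384, spl512, spl640, spl768, spl896, spl1024, spl1152, spl1280, spl1408, spl1536, spl1664, spl1792]
def sq : Sq := [(1892, ⟨0, [1, 0, 0, 0, 0, 0]⟩), (1804, ⟨1, [1, 0, 0, 0, 0, 0]⟩), (1724, ⟨2, [1, 0, 0, 0, 0, 0]⟩), (1652, ⟨3, [1, 0, 0, 0, 0, 0]⟩), (1587, ⟨4, [0, 1, 0, 0, 0, 0]⟩), (1503, ⟨5, [0, 1, 0, 0, 0, 0]⟩), (1427, ⟨6, [0, 1, 0, 0, 0, 0]⟩), (1359, ⟨7, [0, 1, 0, 0, 0, 0]⟩), (1298, ⟨8, [0, 0, 1, 0, 0, 0]⟩), (1218, ⟨9, [0, 0, 1, 0, 0, 0]⟩), (1146, ⟨10, [0, 0, 1, 0, 0, 0]⟩), (1082, ⟨11, [0, 0, 1, 0, 0, 0]⟩), (1025, ⟨12, [0, 0, 0, 1, 0, 0]⟩), (949, ⟨13, [0, 0, 0, 1, 0, 0]⟩), (881, ⟨14, [0, 0, 0, 1, 0, 0]⟩), (821, ⟨15, [0, 0, 0, 1, 0, 0]⟩), (768, ⟨16, [0, 0, 0, 0,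 1, 0]⟩), (696, ⟨17, [0, 0, 0, 0, 1, 0]⟩), (632, ⟨18, [0, 0, 0, 0, 1, 0]⟩), (576, ⟨19, [0, 0, 0, 0, 1, 0]⟩), (251, ⟨30, [0, 0, 0, 0, 0, 0]⟩), (253, ⟨30, [0, 0, 0, 0, 0, 1]⟩), (255, ⟨30, [0, 0, 0, 0, 0, 2]⟩), (257, ⟨30, [0, 0, 0, 0, 0, 3]⟩), (263, ⟨30, [0, 0, 0, 0, 2, 0]⟩), (265, ⟨30, [0, 0, 0, 0, 2, 1]⟩), (276, ⟨30, [0, 0, 0, 2, 0, 0]⟩), (278, ⟨30, [0, 0, 0, 2, 0, 1]⟩), (295, ⟨30, [0, 0, 2, 0, 0, 0]⟩), (297, ⟨30, [0, 0, 2, 0, 0, 1]⟩), (321, ⟨30, [0, 2, 0, 0, 0, 0]⟩), (323, ⟨30, [0, 2, 0, 0, 0, 1]⟩), (355, ⟨30, [2, 0, 0, 0, 0, 0]⟩), (357, ⟨30, [2, 0, 0, 0, 0, 1]⟩), (90, ⟨31, [0, 0, 0, 0, 0, 0]⟩), (92, ⟨31, [0, 0, 0, 0, 0, 1]⟩), (94, ⟨31, [0, 0, 0, 0, 0, 2]⟩), (98, ⟨31, [0, 0, 0, 0, 2, 0]⟩), (103, ⟨31, [0, 0, 0, 2, 0, 0]⟩), (109, ⟨31, [0, 0, 2, 0, 0, 0]⟩), (116, ⟨31, [0, 2, 0, 0, 0, 0]⟩), (124, ⟨31, [2, 0, 0, 0, 0, 0]⟩), (49, ⟨32, [1, 0, 0, 0, 0, 0]⟩), (36, ⟨33, [0, 1, 0, 0, 0, 0]⟩), (24, ⟨34, [0,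 0, 1, 0, 0, 0]⟩), (13, ⟨35, [0, 0, 0, 1, 0, 0]⟩), (3, ⟨36, [0, 0, 0, 0, 1, 0]⟩), (1885, ⟨0, [0, 0, 0, 0, 0, 0]⟩), (1887, ⟨0, [0, 0, 0, 0, 0, 1]⟩), (1797, ⟨1, [0, 0, 0, 0, 0, 0]⟩), (1799, ⟨1, [0, 0, 0, 0, 0, 1]⟩), (1717, ⟨2, [0, 0, 0, 0, 0, 0]⟩), (1719, ⟨2, [0, 0, 0, 0, 0, 1]⟩), (1645, ⟨3, [0, 0, 0, 0, 0, 0]⟩), (1647, ⟨3, [0, 0, 0, 0, 0, 1]⟩), (328, ⟨30, [1, 0, 0, 0, 0, 0]⟩), (330, ⟨30, [1, 0, 0, 0, 0, 1]⟩), (332, ⟨30, [1, 0, 0, 0, 0, 2]⟩), (336, ⟨30, [1, 0, 0, 0, 2, 0]⟩), (341, ⟨30, [1, 0, 0, 2, 0, 0]⟩), (347, ⟨30, [1, 0, 2, 0, 0, 0]⟩), (354, ⟨30, [1, 2, 0, 0, 0, 0]⟩), (362, ⟨30, [3, 0, 0, 0, 0, 0]⟩), (117, ⟨31, [1, 0, 0, 0, 0, 0]⟩), (119, ⟨31, [1, 0, 0, 0, 0, 1]⟩), (42, ⟨32, [0, 0, 0, 0, 0, 0]⟩), (44, ⟨32, [0, 0, 0, 0, 0, 1]⟩), (1581, ⟨4, [0, 0, 0, 0, 0, 0]⟩), (1583, ⟨4, [0, 0, 0, 0, 0, 1]⟩), (1497, ⟨5, [0, 0, 0, 0, 0, 0]⟩), (1499, ⟨5, [0, 0, 0, 0, 0, 1]⟩), (1421, ⟨6, [0, 0, 0, 0, 0, 0]⟩), (1423,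 ⟨6, [0, 0, 0, 0, 0, 1]⟩), (1353, ⟨7, [0, 0, 0, 0, 0, 0]⟩), (1355, ⟨7, [0, 0, 0, 0, 0, 1]⟩), (301, ⟨30, [0, 1, 0, 0, 0, 0]⟩), (303, ⟨30, [0, 1, 0, 0, 0, 1]⟩), (305, ⟨30, [0, 1, 0, 0, 0, 2]⟩), (309, ⟨30, [0, 1, 0, 0, 2, 0]⟩), (314, ⟨30, [0, 1, 0, 2, 0, 0]⟩), (320, ⟨30, [0, 1, 2, 0, 0, 0]⟩), (327, ⟨30, [0, 3, 0, 0, 0, 0]⟩), (361, ⟨30, [2, 1, 0, 0, 0, 0]⟩), (110, ⟨31, [0, 1, 0, 0, 0, 0]⟩), (112, ⟨31, [0, 1, 0, 0, 0, 1]⟩), (30, ⟨33, [0, 0, 0, 0, 0, 0]⟩), (32, ⟨33, [0, 0, 0, 0, 0, 1]⟩), (1891, ⟨0, [0, 1, 0, 0, 0, 0]⟩), (1803, ⟨1, [0, 1, 0, 0, 0, 0]⟩), (1723, ⟨2, [0, 1, 0, 0, 0, 0]⟩), (1651, ⟨3, [0, 1, 0, 0, 0, 0]⟩), (1588, ⟨4, [1, 0, 0, 0, 0, 0]⟩), (1504, ⟨5, [1, 0, 0, 0, 0, 0]⟩), (1428, ⟨6, [1, 0, 0, 0, 0, 0]⟩), (1360, ⟨7, [1, 0, 0, 0, 0, 0]⟩), (530, ⟨20, [0, 0, 1, 0, 0, 0]⟩), (509, ⟨21, [0, 0, 0, 1, 0, 0]⟩), (489, ⟨22, [0, 0, 0, 0, 1, 0]⟩), (348, ⟨30, [1, 1, 0, 0, 0, 0]⟩), (350, ⟨30, [1, 1, 0, 0,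 0, 1]⟩), (123, ⟨31, [1, 1, 0, 0, 0, 0]⟩), (48, ⟨32, [0, 1, 0, 0, 0, 0]⟩), (37, ⟨33, [1, 0, 0, 0, 0, 0]⟩), (1293, ⟨8, [0, 0, 0, 0, 0, 0]⟩), (1295, ⟨8, [0, 0, 0, 0, 0, 1]⟩), (1213, ⟨9, [0, 0, 0, 0, 0, 0]⟩), (1215, ⟨9, [0, 0, 0, 0, 0, 1]⟩), (1141, ⟨10, [0, 0, 0, 0, 0, 0]⟩), (1143, ⟨10, [0, 0, 0, 0, 0, 1]⟩), (1077, ⟨11, [0, 0, 0, 0, 0, 0]⟩), (1079, ⟨11, [0, 0, 0, 0, 0, 1]⟩), (281, ⟨30, [0, 0, 1, 0, 0, 0]⟩), (283, ⟨30, [0, 0, 1, 0, 0, 1]⟩), (285, ⟨30, [0, 0, 1, 0, 0, 2]⟩), (289, ⟨30, [0, 0, 1, 0, 2, 0]⟩), (294, ⟨30, [0, 0, 1, 2, 0, 0]⟩), (300, ⟨30, [0, 0, 3, 0, 0, 0]⟩), (326, ⟨30, [0, 2, 1, 0, 0, 0]⟩), (360, ⟨30, [2, 0, 1, 0, 0, 0]⟩), (104, ⟨31, [0, 0, 1, 0, 0, 0]⟩), (106, ⟨31, [0, 0, 1, 0, 0, 1]⟩), (19, ⟨34, [0, 0, 0, 0, 0, 0]⟩), (21, ⟨34, [0, 0, 0, 0, 0, 1]⟩), (1890, ⟨0, [0, 0, 1, 0, 0, 0]⟩), (1802, ⟨1, [0, 0, 1, 0, 0, 0]⟩), (1722, ⟨2, [0, 0, 1, 0, 0, 0]⟩), (1650, ⟨3, [0, 0, 1, 0, 0, 0]⟩), (1300,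 ⟨8, [1, 0, 0, 0, 0, 0]⟩), (1220, ⟨9, [1, 0, 0, 0, 0, 0]⟩), (1148, ⟨10, [1, 0, 0, 0, 0, 0]⟩), (1084, ⟨11, [1, 0, 0, 0, 0, 0]⟩), (531, ⟨20, [0, 1, 0, 0, 0, 0]⟩), (472, ⟨23, [0, 0, 0, 1, 0, 0]⟩), (453, ⟨24, [0, 0, 0, 0, 1, 0]⟩), (342, ⟨30, [1, 0, 1, 0, 0, 0]⟩), (344, ⟨30, [1, 0, 1, 0, 0, 1]⟩), (122, ⟨31, [1, 0, 1, 0, 0, 0]⟩), (47, ⟨32, [0, 0, 1, 0, 0, 0]⟩), (26, ⟨34, [1, 0, 0, 0, 0, 0]⟩), (1586, ⟨4, [0, 0, 1, 0, 0, 0]⟩), (1502, ⟨5, [0, 0, 1, 0, 0, 0]⟩), (1426, ⟨6, [0, 0, 1, 0, 0, 0]⟩), (1358, ⟨7, [0, 0, 1, 0, 0, 0]⟩), (1299, ⟨8, [0, 1, 0, 0, 0, 0]⟩), (1219, ⟨9, [0, 1, 0, 0, 0, 0]⟩), (1147, ⟨10, [0, 1, 0, 0, 0, 0]⟩), (1083, ⟨11, [0, 1, 0, 0, 0, 0]⟩), (532, ⟨20, [1, 0, 0, 0, 0, 0]⟩), (421, ⟨26, [0, 0, 0, 1, 0, 0]⟩), (403, ⟨27, [0, 0, 0, 0, 1, 0]⟩), (315, ⟨30, [0, 1, 1, 0, 0, 0]⟩), (317, ⟨30, [0, 1, 1, 0, 0, 1]⟩), (115, ⟨31, [0, 1, 1, 0, 0, 0]⟩), (35, ⟨33, [0, 0, 1, 0, 0, 0]⟩), (25, ⟨34, [0, 1, 0, 0,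 0, 0]⟩), (525, ⟨20, [0, 0, 0, 0, 0, 0]⟩), (527, ⟨20, [0, 0, 0, 0, 0, 1]⟩), (353, ⟨30, [1, 1, 1, 0, 0, 0]⟩), (1021, ⟨12, [0, 0, 0, 0, 0, 0]⟩), (1023, ⟨12, [0, 0, 0, 0, 0, 1]⟩), (945, ⟨13, [0, 0, 0, 0, 0, 0]⟩), (947, ⟨13, [0, 0, 0, 0, 0, 1]⟩), (877, ⟨14, [0, 0, 0, 0, 0, 0]⟩), (879, ⟨14, [0, 0, 0, 0, 0, 1]⟩), (817, ⟨15, [0, 0, 0, 0, 0, 0]⟩), (819, ⟨15, [0, 0, 0, 0, 0, 1]⟩), (267, ⟨30, [0, 0, 0, 1, 0, 0]⟩), (269, ⟨30, [0, 0, 0, 1, 0, 1]⟩), (271, ⟨30, [0, 0, 0, 1, 0, 2]⟩), (275, ⟨30, [0, 0, 0, 1, 2, 0]⟩), (280, ⟨30, [0, 0, 0, 3, 0, 0]⟩), (299, ⟨30, [0, 0, 2, 1, 0, 0]⟩), (325, ⟨30, [0, 2, 0, 1, 0, 0]⟩), (359, ⟨30, [2, 0, 0, 1, 0, 0]⟩), (99, ⟨31, [0, 0, 0, 1, 0, 0]⟩), (101, ⟨31, [0, 0, 0, 1, 0, 1]⟩), (9, ⟨35, [0, 0, 0, 0, 0, 0]⟩), (11, ⟨35, [0, 0, 0, 0, 0, 1]⟩), (1889, ⟨0, [0, 0, 0, 1, 0, 0]⟩), (1801, ⟨1, [0, 0, 0, 1, 0, 0]⟩), (1721, ⟨2, [0, 0, 0, 1, 0, 0]⟩), (1649, ⟨3, [0, 0, 0, 1, 0, 0]⟩), (1028, ⟨12,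 [1, 0, 0, 0, 0, 0]⟩), (952, ⟨13, [1, 0, 0, 0, 0, 0]⟩), (884, ⟨14, [1, 0, 0, 0, 0, 0]⟩), (824, ⟨15, [1, 0, 0, 0, 0, 0]⟩), (511, ⟨21, [0, 1, 0, 0, 0, 0]⟩), (473, ⟨23, [0, 0, 1, 0, 0, 0]⟩), (436, ⟨25, [0, 0, 0, 0, 1, 0]⟩), (337, ⟨30, [1, 0, 0, 1, 0, 0]⟩), (339, ⟨30, [1, 0, 0, 1, 0, 1]⟩), (121, ⟨31, [1, 0, 0, 1, 0, 0]⟩), (46, ⟨32, [0, 0, 0, 1, 0, 0]⟩), (16, ⟨35, [1, 0, 0, 0, 0, 0]⟩), (1585, ⟨4, [0, 0, 0, 1, 0, 0]⟩), (1501, ⟨5, [0, 0, 0, 1, 0, 0]⟩), (1425, ⟨6, [0, 0, 0, 1, 0, 0]⟩), (1357, ⟨7, [0, 0, 0, 1, 0, 0]⟩), (1027, ⟨12, [0, 1, 0, 0, 0, 0]⟩), (951, ⟨13, [0, 1, 0, 0, 0, 0]⟩), (883, ⟨14, [0, 1, 0, 0, 0, 0]⟩), (823, ⟨15, [0, 1, 0, 0, 0, 0]⟩), (512, ⟨21, [1, 0, 0, 0, 0, 0]⟩), (422, ⟨26, [0, 0, 1, 0, 0, 0]⟩), (387, ⟨28, [0, 0, 0, 0, 1, 0]⟩), (310, ⟨30, [0, 1, 0, 1, 0, 0]⟩), (312, ⟨30, [0, 1, 0, 1, 0, 1]⟩), (114, ⟨31, [0, 1, 0, 1, 0, 0]⟩), (34, ⟨33, [0, 0, 0, 1, 0, 0]⟩), (15, ⟨35, [0, 1, 0, 0, 0, 0]⟩),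 (505, ⟨21, [0, 0, 0, 0, 0, 0]⟩), (507, ⟨21, [0, 0, 0, 0, 0, 1]⟩), (352, ⟨30, [1, 1, 0, 1, 0, 0]⟩), (1297, ⟨8, [0, 0, 0, 1, 0, 0]⟩), (1217, ⟨9, [0, 0, 0, 1, 0, 0]⟩), (1145, ⟨10, [0, 0, 0, 1, 0, 0]⟩), (1081, ⟨11, [0, 0, 0, 1, 0, 0]⟩), (1026, ⟨12, [0, 0, 1, 0, 0, 0]⟩), (950, ⟨13, [0, 0, 1, 0, 0, 0]⟩), (882, ⟨14, [0, 0, 1, 0, 0, 0]⟩), (822, ⟨15, [0, 0, 1, 0, 0, 0]⟩), (475, ⟨23, [1, 0, 0, 0, 0, 0]⟩), (423, ⟨26, [0, 1, 0, 0, 0, 0]⟩), (372, ⟨29, [0, 0, 0, 0, 1, 0]⟩), (290, ⟨30, [0, 0, 1, 1, 0, 0]⟩), (292, ⟨30, [0, 0, 1, 1, 0, 1]⟩), (108, ⟨31, [0, 0, 1, 1, 0, 0]⟩), (23, ⟨34, [0, 0, 0, 1, 0, 0]⟩), (14, ⟨35, [0, 0, 1, 0, 0, 0]⟩), (468, ⟨23, [0, 0, 0, 0, 0, 0]⟩), (470, ⟨23, [0, 0, 0, 0, 0, 1]⟩), (346, ⟨30, [1, 0, 1, 1, 0, 0]⟩), (417, ⟨26, [0, 0, 0, 0, 0, 0]⟩), (419, ⟨26, [0, 0, 0, 0, 0, 1]⟩), (319, ⟨30, [0, 1, 1, 1, 0, 0]⟩), (529, ⟨20, [0, 0, 0, 1, 0, 0]⟩), (510, ⟨21, [0, 0, 1, 0, 0, 0]⟩), (474, ⟨23, [0,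 1, 0, 0, 0, 0]⟩), (424, ⟨26, [1, 0, 0, 0, 0, 0]⟩), (765, ⟨16, [0, 0, 0, 0, 0, 0]⟩), (767, ⟨16, [0, 0, 0, 0, 0, 1]⟩), (693, ⟨17, [0, 0, 0, 0, 0, 0]⟩), (695, ⟨17, [0, 0, 0, 0, 0, 1]⟩), (629, ⟨18, [0, 0, 0, 0, 0, 0]⟩), (631, ⟨18, [0, 0, 0, 0, 0, 1]⟩), (573, ⟨19, [0, 0, 0, 0, 0, 0]⟩), (575, ⟨19, [0, 0, 0, 0, 0, 1]⟩), (258, ⟨30, [0, 0, 0, 0, 1, 0]⟩), (260, ⟨30, [0, 0, 0, 0, 1, 1]⟩), (262, ⟨30, [0, 0, 0, 0, 1, 2]⟩), (266, ⟨30, [0, 0, 0, 0, 3, 0]⟩), (279, ⟨30, [0, 0, 0, 2, 1, 0]⟩), (298, ⟨30, [0, 0, 2, 0, 1, 0]⟩), (324, ⟨30, [0, 2, 0, 0, 1, 0]⟩), (358, ⟨30, [2, 0, 0, 0, 1, 0]⟩), (95, ⟨31, [0, 0, 0, 0, 1, 0]⟩), (97, ⟨31, [0, 0, 0, 0, 1, 1]⟩), (0, ⟨36, [0, 0, 0, 0, 0, 0]⟩), (2, ⟨36, [0, 0, 0, 0, 0, 1]⟩), (1888, ⟨0, [0, 0, 0, 0, 1, 0]⟩), (1800, ⟨1, [0, 0, 0, 0, 1, 0]⟩), (1720, ⟨2, [0, 0, 0, 0, 1, 0]⟩), (1648, ⟨3, [0, 0, 0, 0, 1, 0]⟩), (772, ⟨16, [1, 0, 0, 0, 0, 0]⟩), (700, ⟨17, [1, 0, 0, 0, 0, 0]⟩), (636,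 ⟨18, [1, 0, 0, 0, 0, 0]⟩), (580, ⟨19, [1, 0, 0, 0, 0, 0]⟩), (492, ⟨22, [0, 1, 0, 0, 0, 0]⟩), (455, ⟨24, [0, 0, 1, 0, 0, 0]⟩), (437, ⟨25, [0, 0, 0, 1, 0, 0]⟩), (333, ⟨30, [1, 0, 0, 0, 1, 0]⟩), (335, ⟨30, [1, 0, 0, 0, 1, 1]⟩), (120, ⟨31, [1, 0, 0, 0, 1, 0]⟩), (45, ⟨32, [0, 0, 0, 0, 1, 0]⟩), (7, ⟨36, [1, 0, 0, 0, 0, 0]⟩), (1584, ⟨4, [0, 0, 0, 0, 1, 0]⟩), (1500, ⟨5, [0, 0, 0, 0, 1, 0]⟩), (1424, ⟨6, [0, 0, 0, 0, 1, 0]⟩), (1356, ⟨7, [0, 0, 0, 0, 1, 0]⟩), (771, ⟨16, [0, 1, 0, 0, 0, 0]⟩), (699, ⟨17, [0, 1, 0, 0, 0, 0]⟩), (635, ⟨18, [0, 1, 0, 0, 0, 0]⟩), (579, ⟨19, [0, 1, 0, 0, 0, 0]⟩), (493, ⟨22, [1, 0, 0, 0, 0, 0]⟩), (405, ⟨27, [0, 0, 1, 0, 0, 0]⟩), (388, ⟨28, [0, 0, 0, 1, 0, 0]⟩), (306, ⟨30, [0, 1, 0, 0, 1, 0]⟩), (308, ⟨30, [0, 1, 0, 0, 1, 1]⟩), (113, ⟨31, [0, 1, 0, 0, 1, 0]⟩), (33, ⟨33, [0, 0, 0, 0, 1, 0]⟩), (6, ⟨36, [0, 1, 0, 0, 0, 0]⟩), (486, ⟨22, [0, 0, 0, 0, 0, 0]⟩), (488, ⟨22, [0, 0, 0, 0, 0,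 1]⟩), (351, ⟨30, [1, 1, 0, 0, 1, 0]⟩), (1296, ⟨8, [0, 0, 0, 0, 1, 0]⟩), (1216, ⟨9, [0, 0, 0, 0, 1, 0]⟩), (1144, ⟨10, [0, 0, 0, 0, 1, 0]⟩), (1080, ⟨11, [0, 0, 0, 0, 1, 0]⟩), (770, ⟨16, [0, 0, 1, 0, 0, 0]⟩), (698, ⟨17, [0, 0, 1, 0, 0, 0]⟩), (634, ⟨18, [0, 0, 1, 0, 0, 0]⟩), (578, ⟨19, [0, 0, 1, 0, 0, 0]⟩), (457, ⟨24, [1, 0, 0, 0, 0, 0]⟩), (406, ⟨27, [0, 1, 0, 0, 0, 0]⟩), (373, ⟨29, [0, 0, 0, 1, 0, 0]⟩), (286, ⟨30, [0, 0, 1, 0, 1, 0]⟩), (288, ⟨30, [0, 0, 1, 0, 1, 1]⟩), (107, ⟨31, [0, 0, 1, 0, 1, 0]⟩), (22, ⟨34, [0, 0, 0, 0, 1, 0]⟩), (5, ⟨36, [0, 0, 1, 0, 0, 0]⟩), (450, ⟨24, [0, 0, 0, 0, 0, 0]⟩), (452, ⟨24, [0, 0, 0, 0, 0, 1]⟩), (345, ⟨30, [1, 0, 1, 0, 1, 0]⟩), (400, ⟨27, [0, 0, 0, 0, 0, 0]⟩), (402, ⟨27, [0, 0, 0, 0, 0, 1]⟩), (318, ⟨30, [0, 1, 1, 0, 1, 0]⟩), (528, ⟨20, [0, 0, 0, 0, 1, 0]⟩), (491, ⟨22, [0, 0, 1, 0, 0, 0]⟩), (456, ⟨24, [0, 1, 0, 0, 0, 0]⟩), (407, ⟨27, [1, 0, 0, 0, 0, 0]⟩), (1024, ⟨12,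 [0, 0, 0, 0, 1, 0]⟩), (948, ⟨13, [0, 0, 0, 0, 1, 0]⟩), (880, ⟨14, [0, 0, 0, 0, 1, 0]⟩), (820, ⟨15, [0, 0, 0, 0, 1, 0]⟩), (769, ⟨16, [0, 0, 0, 1, 0, 0]⟩), (697, ⟨17, [0, 0, 0, 1, 0, 0]⟩), (633, ⟨18, [0, 0, 0, 1, 0, 0]⟩), (577, ⟨19, [0, 0, 0, 1, 0, 0]⟩), (440, ⟨25, [1, 0, 0, 0, 0, 0]⟩), (390, ⟨28, [0, 1, 0, 0, 0, 0]⟩), (374, ⟨29, [0, 0, 1, 0, 0, 0]⟩), (272, ⟨30, [0, 0, 0, 1, 1, 0]⟩), (274, ⟨30, [0, 0, 0, 1, 1, 1]⟩), (102, ⟨31, [0, 0, 0, 1, 1, 0]⟩), (12, ⟨35, [0, 0, 0, 0, 1, 0]⟩), (4, ⟨36, [0, 0, 0, 1, 0, 0]⟩), (433, ⟨25, [0, 0, 0, 0, 0, 0]⟩), (435, ⟨25, [0, 0, 0, 0, 0, 1]⟩), (340, ⟨30, [1, 0, 0, 1, 1, 0]⟩), (384, ⟨28, [0, 0, 0, 0, 0, 0]⟩), (386, ⟨28, [0, 0, 0, 0, 0, 1]⟩), (313, ⟨30, [0, 1, 0, 1, 1, 0]⟩), (508, ⟨21, [0, 0, 0, 0, 1, 0]⟩), (490, ⟨22, [0, 0, 0, 1, 0, 0]⟩), (439, ⟨25, [0, 1, 0, 0, 0, 0]⟩), (391, ⟨28, [1, 0, 0, 0, 0, 0]⟩), (369, ⟨29, [0, 0, 0, 0, 0, 0]⟩), (371, ⟨29, [0, 0, 0, 0, 0, 1]⟩),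 (293, ⟨30, [0, 0, 1, 1, 1, 0]⟩), (471, ⟨23, [0, 0, 0, 0, 1, 0]⟩), (454, ⟨24, [0, 0, 0, 1, 0, 0]⟩), (438, ⟨25, [0, 0, 1, 0, 0, 0]⟩), (376, ⟨29, [1, 0, 0, 0, 0, 0]⟩), (420, ⟨26, [0, 0, 0, 0, 1, 0]⟩), (404, ⟨27, [0, 0, 0, 1, 0, 0]⟩), (389, ⟨28, [0, 0, 1, 0, 0, 0]⟩), (375, ⟨29, [0, 1, 0, 0, 0, 0]⟩)]
def dtbl : DTbl := ⟨tbl, sq, spl, [47, 49, 51, 53, 67, 69, 71, 73, 103, 105, 107, 109, 158, 160, 162, 164, 239, 241, 243, 245, 155, 210, 291, 229, 310, 336, 232, 313, 339, 346, 20, 34, 65, 85, 121, 176, 257, 357]⟩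
theorem sq_ok : sqOK tbl.n tbl.gam sq = true := by decide +kernel
theorem spl_ok : splOK tbl.gam sq spl 0 = true := by decide +kernel
theorem dtbl_ok : dtbl.Ok :=
  ⟨tbl_ok, sq_ok, spl_ok, by decide +kernel, by decide +kernel⟩

end Vale.Agent.P098.Exact.Sos6.Q93
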