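import Vale.Agent.P098.Exact.Sos6.Rows

noncomputable section

namespace Vale.Agent.P098.Exact.Sos6.Q93


def rowsB_0 : Rows := []

end Vale.Agent.P098.Exact.Sos6.Q93
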