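import Vale.Agent.P098.Exact.Sos6.Rows

noncomputable section

namespace Vale.Agent.P098.Exact.Sos6.Q93

def rC_0_ : Row := [
  (90, -655360000), (0, -185440000), (0, -381440000), (0, -669800000), (1, -2028160000), (0, 113200000), (2, -2028160000), (0, 113200000),
  (3, -2028160000), (0, 113200000), (4, -2028160000), (0, 113200000), (5, -2028160000), (0, 113200000)]

def rC_1_ : Row := [
  (90, -749440000), (0, 734680000), (0, 772200000), (0, 555200000), (1, 212320000), (0, 4400000), (2, 212320000), (0, 4400000),
  (3, 212320000), (0, 4400000), (4, 212320000), (0, 4400000), (5, 212320000), (0, 4400000)]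

def rC_2_ : Row := [
  (90, -502560000), (0, 47080000), (0, -1354680000), (0, 307600000), (1, 187520000), (0, 307600000), (2, 187520000), (0, 307600000),
  (3, 187520000), (0, 307600000), (4, 187520000), (0, 307600000), (5, 187520000), (0, 307600000)]

def rC_3_ : Row := [
  (95, -58440000), (0, -108800000)]

def rC_4_ : Row := [
  (95, -74000000), (0, -19800000)]

def rC_5_ : Row := [
  (95, -131880000), (0, 128400000)]

def rC_6_ : Row := [
  (90, 489960000), (0, 186480000), (0, 730800000), (2, 2838920000), (0, -80800000), (2, 1524000000), (4, 1524000000), (5, 1524000000),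
  (6, 1524000000)]

def rC_7_ : Row := [
  (90, 156960000), (0, 178680000), (0, 380040000), (2, 1513040000), (0, -36600000), (2, 350880000), (4, 350880000), (5, 350880000),
  (6, 350880000)]

def rC_8_ : Row := [
  (90, -361440000), (0, 209760000), (0, 91080000), (2, 350120000), (0, 81200000), (2, 91080000), (4, 91080000), (5, 91080000),
  (6, 91080000)]

def rC_9_ : Row := [
  (90, 392160000), (0, -602880000), (0, -728400000), (2, -1382520000), (3, -624600000), (4, -624600000), (5, -624600000), (6, -624600000)]

def rC_10_ : Row := [
  (90, 582240000), (0, 106200000), (0, 223440000), (2, 43440000), (3, -357240000), (4, -357240000), (5, -357240000), (6, -357240000)]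

def rC_11_ : Row := [
  (90, -195480000), (0, 152520000), (0, 225120000), (2, 192360000), (3, 225120000), (4, 225120000), (5, 225120000), (6, 225120000)]

def rC_12_ : Row := [
  (95, -1051560000)]

def rC_13_ : Row := [
  (95, -346200000)]

def rC_14_ : Row := [
  (95, -157800000)]

def rC_15_ : Row := [
  (95, 524400000)]

def rC_16_ : Row := [
  (95, 408240000)]

def rC_17_ : Row := [
  (95, -16200000)]

def rC_18_ : Row := [
  (99, -58440000), (0, -108800000)]

def rC_19_ : Row := [
  (99, -74000000), (0, -19800000)]

def rC_20_ : Row := [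
  (99, -131880000), (0, 128400000)]

def rC_21_ : Row := [
  (99, 374400000)]

def rC_22_ : Row := [
  (99, -305640000)]

def rC_23_ : Row := [
  (99, -290880000)]

def rC_24_ : Row := [
  (99, 40080000)]

def rC_25_ : Row := [
  (99, -155640000)]

def rC_26_ : Row := [
  (99, -176520000)]

def rC_27_ : Row := [
  (90, 489960000), (0, 186480000), (0, 730800000), (2, 1524000000), (3, 2838920000), (0, -80800000), (3, 1524000000), (5, 1524000000),
  (6, 1524000000)]

def rC_28_ : Row := [
  (90, 156960000), (0, 178680000), (0, 380040000), (2, 350880000), (3, 1513040000), (0, -36600000), (3, 350880000), (5, 350880000),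
  (6, 350880000)]

def rC_29_ : Row := [
  (90, -361440000), (0, 209760000), (0, 91080000), (2, 91080000), (3, 350120000), (0, 81200000), (3, 91080000), (5, 91080000),
  (6, 91080000)]

def rC_30_ : Row := [
  (95, 374400000)]

def rC_31_ : Row := [
  (95, -305640000)]

def rC_32_ : Row := [
  (95, -290880000)]

def rC_33_ : Row := [
  (95, -1091640000), (3, -1091640000)]

def rC_34_ : Row := [
  (95, -190560000), (3, -190560000)]

def rC_35_ : Row := [
  (95, 18720000), (3, 18720000)]

def rC_36_ : Row := [
  (99, 524400000)]

def rC_37_ : Row := [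
  (99, 408240000)]

def rC_38_ : Row := [
  (99, -16200000)]

def rC_39_ : Row := [
  (90, 392160000), (0, -602880000), (0, -728400000), (2, -624600000), (3, -1382520000), (4, -624600000), (5, -624600000), (6, -624600000)]

def rC_40_ : Row := [
  (90, 582240000), (0, 106200000), (0, 223440000), (2, -357240000), (3, 43440000), (4, -357240000), (5, -357240000), (6, -357240000)]

def rC_41_ : Row := [
  (90, -195480000), (0, 152520000), (0, 225120000), (2, 225120000), (3, 192360000), (4, 225120000), (5, 225120000), (6, 225120000)]

def rC_42_ : Row := [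
  (95, 40080000)]

def rC_43_ : Row := [
  (95, -155640000)]

def rC_44_ : Row := [
  (95, -176520000)]

def rC_45_ : Row := [
  (95, 524400000)]

def rC_46_ : Row := [
  (95, 408240000)]

def rC_47_ : Row := [
  (95, -16200000)]

def rC_48_ : Row := [
  (99, -1051560000)]

def rC_49_ : Row := [
  (99, -346200000)]

def rC_50_ : Row := [
  (99, -157800000)]

def rC_51_ : Row := [
  (99, 524400000)]

def rC_52_ : Row := [
  (99, 408240000)]

def rC_53_ : Row := [
  (99, -16200000)]

def rC_54_ : Row := [
  (104, -58440000), (0, -108800000)]

def rC_55_ : Row := [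
  (104, -74000000), (0, -19800000)]

def rC_56_ : Row := [
  (104, -131880000), (0, 128400000)]

def rC_57_ : Row := [
  (104, 374400000)]

def rC_58_ : Row := [
  (104, -305640000)]

def rC_59_ : Row := [
  (104, -290880000)]

def rC_60_ : Row := [
  (104, 40080000)]

def rC_61_ : Row := [
  (104, -155640000)]

def rC_62_ : Row := [
  (104, -176520000)]

def rC_63_ : Row := [
  (104, 374400000)]

def rC_64_ : Row := [
  (104, -305640000)]

def rC_65_ : Row := [
  (104, -290880000)]

def rC_66_ : Row := [
  (104, 40080000)]

def rC_67_ : Row := [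
  (104, -155640000)]

def rC_68_ : Row := [
  (104, -176520000)]

def rC_69_ : Row := [
  (90, 489960000), (0, 186480000), (0, 730800000), (2, 1524000000), (3, 1524000000), (4, 2838920000), (0, -80800000), (4, 1524000000),
  (6, 1524000000)]

def rC_70_ : Row := [
  (90, 156960000), (0, 178680000), (0, 380040000), (2, 350880000), (3, 350880000), (4, 1513040000), (0, -36600000), (4, 350880000),
  (6, 350880000)]

def rC_71_ : Row := [
  (90, -361440000), (0, 209760000), (0, 91080000), (2, 91080000), (3, 91080000), (4, 350120000), (0, 81200000), (4, 91080000),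
  (6, 91080000)]

def rC_72_ : Row := [
  (95, 374400000)]

def rC_73_ : Row := [
  (95, -305640000)]

def rC_74_ : Row := [
  (95, -290880000)]

def rC_75_ : Row := [
  (95, -1091640000), (8, -1091640000)]

def rC_76_ : Row := [
  (95, -190560000), (8, -190560000)]

def rC_77_ : Row := [
  (95, 18720000), (8, 18720000)]

def rC_78_ : Row := [
  (104, 524400000)]

def rC_79_ : Row := [
  (104, 408240000)]

def rC_80_ : Row := [
  (104, -16200000)]

def rC_81_ : Row := [
  (99, 374400000)]

def rC_82_ : Row := [
  (99, -305640000)]

def rC_83_ : Row := [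
  (99, -290880000)]

def rC_84_ : Row := [
  (99, -1091640000), (4, -1091640000)]

def rC_85_ : Row := [
  (99, -190560000), (4, -190560000)]

def rC_86_ : Row := [
  (99, 18720000), (4, 18720000)]

def rC_87_ : Row := [
  (104, 524400000)]

def rC_88_ : Row := [
  (104, 408240000)]

def rC_89_ : Row := [
  (104, -16200000)]

def rC_90_ : Row := [
  (90, 392160000), (0, -602880000), (0, -728400000), (2, -624600000), (3, -624600000), (4, -1382520000), (5, -624600000), (6, -624600000)]

def rC_91_ : Row := [
  (90, 582240000), (0, 106200000), (0, 223440000), (2, -357240000), (3, -357240000), (4, 43440000), (5, -357240000), (6, -357240000)]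

def rC_92_ : Row := [
  (90, -195480000), (0, 152520000), (0, 225120000), (2, 225120000), (3, 225120000), (4, 192360000), (5, 225120000), (6, 225120000)]

def rC_93_ : Row := [
  (95, 40080000)]

def rC_94_ : Row := [
  (95, -155640000)]

def rC_95_ : Row := [
  (95, -176520000)]

def rC_96_ : Row := [
  (95, 524400000)]

def rC_97_ : Row := [
  (95, 408240000)]

def rC_98_ : Row := [
  (95, -16200000)]

def rC_99_ : Row := [
  (99, 40080000)]

def rC_100_ : Row := [
  (99, -155640000)]

def rC_101_ : Row := [
  (99, -176520000)]

def rC_102_ : Row := [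
  (99, 524400000)]

def rC_103_ : Row := [
  (99, 408240000)]

def rC_104_ : Row := [
  (99, -16200000)]

def rC_105_ : Row := [
  (104, -1051560000)]

def rC_106_ : Row := [
  (104, -346200000)]

def rC_107_ : Row := [
  (104, -157800000)]

def rC_108_ : Row := [
  (104, 524400000)]

def rC_109_ : Row := [
  (104, 408240000)]

def rC_110_ : Row := [
  (104, -16200000)]

def rC_111_ : Row := [
  (110, -58440000), (0, -108800000)]

def rC_112_ : Row := [
  (110, -74000000), (0, -19800000)]

def rC_113_ : Row := [
  (110, -131880000), (0, 128400000)]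

def rC_114_ : Row := [
  (110, 374400000)]

def rC_115_ : Row := [
  (110, -305640000)]

def rC_116_ : Row := [
  (110, -290880000)]

def rC_117_ : Row := [
  (110, 40080000)]

def rC_118_ : Row := [
  (110, -155640000)]

def rC_119_ : Row := [
  (110, -176520000)]

def rC_120_ : Row := [
  (110, 374400000)]

def rC_121_ : Row := [
  (110, -305640000)]

def rC_122_ : Row := [
  (110, -290880000)]

def rC_123_ : Row := [
  (110, 40080000)]

def rC_124_ : Row := [
  (110, -155640000)]

def rC_125_ : Row := [
  (110, -176520000)]

def rC_126_ : Row := [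
  (110, 374400000)]

def rC_127_ : Row := [
  (110, -305640000)]

def rC_128_ : Row := [
  (110, -290880000)]

def rC_129_ : Row := [
  (110, 40080000)]

def rC_130_ : Row := [
  (110, -155640000)]

def rC_131_ : Row := [
  (110, -176520000)]

def rC_132_ : Row := [
  (90, 489960000), (0, 186480000), (0, 730800000), (2, 1524000000), (3, 1524000000), (4, 1524000000), (5, 2838920000), (0, -80800000),
  (5, 1524000000)]

def rC_133_ : Row := [
  (90, 156960000), (0, 178680000), (0, 380040000), (2, 350880000), (3, 350880000), (4, 350880000), (5, 1513040000), (0, -36600000),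
  (5, 350880000)]

def rC_134_ : Row := [
  (90, -361440000), (0, 209760000), (0, 91080000), (2, 91080000), (3, 91080000), (4, 91080000), (5, 350120000), (0, 81200000),
  (5, 91080000)]

def rC_135_ : Row := [
  (95, 374400000)]

def rC_136_ : Row := [
  (95, -305640000)]

def rC_137_ : Row := [
  (95, -290880000)]

def rC_138_ : Row := [
  (95, -1091640000), (14, -1091640000)]

def rC_139_ : Row := [
  (95, -190560000), (14, -190560000)]

def rC_140_ : Row := [
  (95, 18720000), (14, 18720000)]

def rC_141_ : Row := [
  (110, 524400000)]

def rC_142_ : Row := [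
  (110, 408240000)]

def rC_143_ : Row := [
  (110, -16200000)]

def rC_144_ : Row := [
  (99, 374400000)]

def rC_145_ : Row := [
  (99, -305640000)]

def rC_146_ : Row := [
  (99, -290880000)]

def rC_147_ : Row := [
  (99, -1091640000), (10, -1091640000)]

def rC_148_ : Row := [
  (99, -190560000), (10, -190560000)]

def rC_149_ : Row := [
  (99, 18720000), (10, 18720000)]

def rC_150_ : Row := [
  (110, 524400000)]

def rC_151_ : Row := [
  (110, 408240000)]

def rC_152_ : Row := [
  (110, -16200000)]

def rC_153_ : Row := [
  (104, 374400000)]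

def rC_154_ : Row := [
  (104, -305640000)]

def rC_155_ : Row := [
  (104, -290880000)]

def rC_156_ : Row := [
  (104, -1091640000), (5, -1091640000)]

def rC_157_ : Row := [
  (104, -190560000), (5, -190560000)]

def rC_158_ : Row := [
  (104, 18720000), (5, 18720000)]

def rC_159_ : Row := [
  (110, 524400000)]

def rC_160_ : Row := [
  (110, 408240000)]

def rC_161_ : Row := [
  (110, -16200000)]

def rC_162_ : Row := [
  (90, 392160000), (0, -602880000), (0, -728400000), (2, -624600000), (3, -624600000), (4, -624600000), (5, -1382520000), (6, -624600000)]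

def rC_163_ : Row := [
  (90, 582240000), (0, 106200000), (0, 223440000), (2, -357240000), (3, -357240000), (4, -357240000), (5, 43440000), (6, -357240000)]

def rC_164_ : Row := [
  (90, -195480000), (0, 152520000), (0, 225120000), (2, 225120000), (3, 225120000), (4, 225120000), (5, 192360000), (6, 225120000)]

def rC_165_ : Row := [
  (95, 40080000)]

def rC_166_ : Row := [
  (95, -155640000)]

def rC_167_ : Row := [
  (95, -176520000)]

def rC_168_ : Row := [
  (95, 524400000)]

def rC_169_ : Row := [
  (95, 408240000)]

def rC_170_ : Row := [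
  (95, -16200000)]

def rC_171_ : Row := [
  (99, 40080000)]

def rC_172_ : Row := [
  (99, -155640000)]

def rC_173_ : Row := [
  (99, -176520000)]

def rC_174_ : Row := [
  (99, 524400000)]

def rC_175_ : Row := [
  (99, 408240000)]

def rC_176_ : Row := [
  (99, -16200000)]

def rC_177_ : Row := [
  (104, 40080000)]

def rC_178_ : Row := [
  (104, -155640000)]

def rC_179_ : Row := [
  (104, -176520000)]

def rC_180_ : Row := [
  (104, 524400000)]

def rC_181_ : Row := [
  (104, 408240000)]

def rC_182_ : Row := [
  (104, -16200000)]

def rC_183_ : Row := [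
  (110, -1051560000)]

def rC_184_ : Row := [
  (110, -346200000)]

def rC_185_ : Row := [
  (110, -157800000)]

def rC_186_ : Row := [
  (110, 524400000)]

def rC_187_ : Row := [
  (110, 408240000)]

def rC_188_ : Row := [
  (110, -16200000)]

def rC_189_ : Row := [
  (117, -58440000), (0, -108800000)]

def rC_190_ : Row := [
  (117, -74000000), (0, -19800000)]

def rC_191_ : Row := [
  (117, -131880000), (0, 128400000)]

def rC_192_ : Row := [
  (117, 374400000)]

def rC_193_ : Row := [
  (117, -305640000)]

def rC_194_ : Row := [
  (117, -290880000)]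

def rC_195_ : Row := [
  (117, 40080000)]

def rC_196_ : Row := [
  (117, -155640000)]

def rC_197_ : Row := [
  (117, -176520000)]

def rC_198_ : Row := [
  (117, 374400000)]

def rC_199_ : Row := [
  (117, -305640000)]

def rC_200_ : Row := [
  (117, -290880000)]

def rC_201_ : Row := [
  (117, 40080000)]

def rC_202_ : Row := [
  (117, -155640000)]

def rC_203_ : Row := [
  (117, -176520000)]

def rC_204_ : Row := [
  (117, 374400000)]

def rC_205_ : Row := [
  (117, -305640000)]

def rC_206_ : Row := [
  (117, -290880000)]

def rC_207_ : Row := [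
  (117, 40080000)]

def rC_208_ : Row := [
  (117, -155640000)]

def rC_209_ : Row := [
  (117, -176520000)]

def rC_210_ : Row := [
  (117, 374400000)]

def rC_211_ : Row := [
  (117, -305640000)]

def rC_212_ : Row := [
  (117, -290880000)]

def rC_213_ : Row := [
  (117, 40080000)]

def rC_214_ : Row := [
  (117, -155640000)]

def rC_215_ : Row := [
  (117, -176520000)]

def rC_216_ : Row := [
  (90, 489960000), (0, 186480000), (0, 730800000), (2, 1524000000), (3, 1524000000), (4, 1524000000), (5, 1524000000), (6, 2838920000),
  (0, -80800000)]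

def rC_217_ : Row := [
  (90, 156960000), (0, 178680000), (0, 380040000), (2, 350880000), (3, 350880000), (4, 350880000), (5, 350880000), (6, 1513040000),
  (0, -36600000)]

def rC_218_ : Row := [
  (90, -361440000), (0, 209760000), (0, 91080000), (2, 91080000), (3, 91080000), (4, 91080000), (5, 91080000), (6, 350120000),
  (0, 81200000)]

def rC_219_ : Row := [
  (95, 374400000)]

def rC_220_ : Row := [
  (95, -305640000)]

def rC_221_ : Row := [
  (95, -290880000)]

def rC_222_ : Row := [
  (95, -1091640000), (21, -1091640000)]

def rC_223_ : Row := [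
  (95, -190560000), (21, -190560000)]

def rC_224_ : Row := [
  (95, 18720000), (21, 18720000)]

def rC_225_ : Row := [
  (117, 524400000)]

def rC_226_ : Row := [
  (117, 408240000)]

def rC_227_ : Row := [
  (117, -16200000)]

def rC_228_ : Row := [
  (99, 374400000)]

def rC_229_ : Row := [
  (99, -305640000)]

def rC_230_ : Row := [
  (99, -290880000)]

def rC_231_ : Row := [
  (99, -1091640000), (17, -1091640000)]

def rC_232_ : Row := [
  (99, -190560000), (17, -190560000)]

def rC_233_ : Row := [
  (99, 18720000), (17, 18720000)]

def rC_234_ : Row := [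
  (117, 524400000)]

def rC_235_ : Row := [
  (117, 408240000)]

def rC_236_ : Row := [
  (117, -16200000)]

def rC_237_ : Row := [
  (104, 374400000)]

def rC_238_ : Row := [
  (104, -305640000)]

def rC_239_ : Row := [
  (104, -290880000)]

def rC_240_ : Row := [
  (104, -1091640000), (12, -1091640000)]

def rC_241_ : Row := [
  (104, -190560000), (12, -190560000)]

def rC_242_ : Row := [
  (104, 18720000), (12, 18720000)]

def rC_243_ : Row := [
  (117, 524400000)]

def rC_244_ : Row := [
  (117, 408240000)]

def rC_245_ : Row := [
  (117, -16200000)]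

def rC_246_ : Row := [
  (110, 374400000)]

def rC_247_ : Row := [
  (110, -305640000)]

def rC_248_ : Row := [
  (110, -290880000)]

def rC_249_ : Row := [
  (110, -1091640000), (6, -1091640000)]

def rC_250_ : Row := [
  (110, -190560000), (6, -190560000)]

def rC_251_ : Row := [
  (110, 18720000), (6, 18720000)]

def rC_252_ : Row := [
  (117, 524400000)]

def rC_253_ : Row := [
  (117, 408240000)]

def rC_254_ : Row := [
  (117, -16200000)]

def rC_255_ : Row := [
  (90, 392160000), (0, -602880000), (0, -728400000), (2, -624600000), (3, -624600000), (4, -624600000), (5, -624600000), (6, -1382520000)]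

def rC_256_ : Row := [
  (90, 582240000), (0, 106200000), (0, 223440000), (2, -357240000), (3, -357240000), (4, -357240000), (5, -357240000), (6, 43440000)]

def rC_257_ : Row := [
  (90, -195480000), (0, 152520000), (0, 225120000), (2, 225120000), (3, 225120000), (4, 225120000), (5, 225120000), (6, 192360000)]

def rC_258_ : Row := [
  (95, 40080000)]

def rC_259_ : Row := [
  (95, -155640000)]

def rC_260_ : Row := [
  (95, -176520000)]

def rC_261_ : Row := [
  (95, 524400000)]

def rC_262_ : Row := [
  (95, 408240000)]

def rC_263_ : Row := [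
  (95, -16200000)]

def rC_264_ : Row := [
  (99, 40080000)]

def rC_265_ : Row := [
  (99, -155640000)]

def rC_266_ : Row := [
  (99, -176520000)]

def rC_267_ : Row := [
  (99, 524400000)]

def rC_268_ : Row := [
  (99, 408240000)]

def rC_269_ : Row := [
  (99, -16200000)]

def rC_270_ : Row := [
  (104, 40080000)]

def rC_271_ : Row := [
  (104, -155640000)]

def rC_272_ : Row := [
  (104, -176520000)]

def rC_273_ : Row := [
  (104, 524400000)]

def rC_274_ : Row := [
  (104, 408240000)]

def rC_275_ : Row := [
  (104, -16200000)]

def rC_276_ : Row := [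
  (110, 40080000)]

def rC_277_ : Row := [
  (110, -155640000)]

def rC_278_ : Row := [
  (110, -176520000)]

def rC_279_ : Row := [
  (110, 524400000)]

def rC_280_ : Row := [
  (110, 408240000)]

def rC_281_ : Row := [
  (110, -16200000)]

def rC_282_ : Row := [
  (117, -1051560000)]

def rC_283_ : Row := [
  (117, -346200000)]

def rC_284_ : Row := [
  (117, -157800000)]

def rC_285_ : Row := [
  (117, 524400000)]

def rC_286_ : Row := [
  (117, 408240000)]

def rC_287_ : Row := [
  (117, -16200000)]


def rowsC_0 : Rows := [
  (0, rC_0_), (1048576, rC_1_), (2097152, rC_2_), (65536, rC_3_),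
  (1114112, rC_4_), (2162688, rC_5_), (131072, rC_6_), (1179648, rC_7_),
  (2228224, rC_8_), (196608, rC_9_), (1245184, rC_10_), (2293760, rC_11_),
  (262144, rC_12_), (1310720, rC_13_), (2359296, rC_14_), (327680, rC_15_),
  (1376256, rC_16_), (2424832, rC_17_), (4096, rC_18_), (1052672, rC_19_),
  (2101248, rC_20_), (135168, rC_21_), (1183744, rC_22_), (2232320, rC_23_),
  (200704, rC_24_), (1249280, rC_25_), (2297856, rC_26_), (8192, rC_27_),
  (1056768, rC_28_), (2105344, rC_29_), (73728, rC_30_), (1122304, rC_31_),
  (2170880, rC_32_), (139264, rC_33_), (1187840, rC_34_), (2236416, rC_35_),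
  (204800, rC_36_), (1253376, rC_37_), (2301952, rC_38_), (12288, rC_39_),
  (1060864, rC_40_), (2109440, rC_41_), (77824, rC_42_), (1126400, rC_43_),
  (2174976, rC_44_), (143360, rC_45_), (1191936, rC_46_), (2240512, rC_47_),
  (16384, rC_48_), (1064960, rC_49_), (2113536, rC_50_), (20480, rC_51_),
  (1069056, rC_52_), (2117632, rC_53_), (256, rC_54_), (1048832, rC_55_),
  (2097408, rC_56_), (131328, rC_57_), (1179904, rC_58_), (2228480, rC_59_),
  (196864, rC_60_), (1245440, rC_61_), (2294016, rC_62_), (8448, rC_63_),
  (1057024, rC_64_), (2105600, rC_65_), (12544, rC_66_), (1061120, rC_67_),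
  (2109696, rC_68_), (512, rC_69_), (1049088, rC_70_), (2097664, rC_71_),
  (66048, rC_72_), (1114624, rC_73_), (2163200, rC_74_), (131584, rC_75_),
  (1180160, rC_76_), (2228736, rC_77_), (197120, rC_78_), (1245696, rC_79_),
  (2294272, rC_80_), (4608, rC_81_), (1053184, rC_82_), (2101760, rC_83_),
  (8704, rC_84_), (1057280, rC_85_), (2105856, rC_86_), (12800, rC_87_),
  (1061376, rC_88_), (2109952, rC_89_), (768, rC_90_), (1049344, rC_91_),
  (2097920, rC_92_), (66304, rC_93_), (1114880, rC_94_), (2163456, rC_95_),
  (131840, rC_96_), (1180416, rC_97_), (2228992, rC_98_), (4864, rC_99_),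
  (1053440, rC_100_), (2102016, rC_101_), (8960, rC_102_), (1057536, rC_103_),
  (2106112, rC_104_), (1024, rC_105_), (1049600, rC_106_), (2098176, rC_107_),
  (1280, rC_108_), (1049856, rC_109_), (2098432, rC_110_), (16, rC_111_),
  (1048592, rC_112_), (2097168, rC_113_), (131088, rC_114_), (1179664, rC_115_),
  (2228240, rC_116_), (196624, rC_117_), (1245200, rC_118_), (2293776, rC_119_),
  (8208, rC_120_), (1056784, rC_121_), (2105360, rC_122_), (12304, rC_123_),
  (1060880, rC_124_), (2109456, rC_125_), (528, rC_126_), (1049104, rC_127_),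
  (2097680, rC_128_), (784, rC_129_), (1049360, rC_130_), (2097936, rC_131_),
  (32, rC_132_), (1048608, rC_133_), (2097184, rC_134_), (65568, rC_135_),
  (1114144, rC_136_), (2162720, rC_137_), (131104, rC_138_), (1179680, rC_139_),
  (2228256, rC_140_), (196640, rC_141_), (1245216, rC_142_), (2293792, rC_143_),
  (4128, rC_144_), (1052704, rC_145_), (2101280, rC_146_), (8224, rC_147_),
  (1056800, rC_148_), (2105376, rC_149_), (12320, rC_150_), (1060896, rC_151_),
  (2109472, rC_152_), (288, rC_153_), (1048864, rC_154_), (2097440, rC_155_),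
  (544, rC_156_), (1049120, rC_157_), (2097696, rC_158_), (800, rC_159_),
  (1049376, rC_160_), (2097952, rC_161_), (48, rC_162_), (1048624, rC_163_),
  (2097200, rC_164_), (65584, rC_165_), (1114160, rC_166_), (2162736, rC_167_),
  (131120, rC_168_), (1179696, rC_169_), (2228272, rC_170_), (4144, rC_171_),
  (1052720, rC_172_), (2101296, rC_173_), (8240, rC_174_), (1056816, rC_175_),
  (2105392, rC_176_), (304, rC_177_), (1048880, rC_178_), (2097456, rC_179_),
  (560, rC_180_), (1049136, rC_181_), (2097712, rC_182_), (64, rC_183_),
  (1048640, rC_184_), (2097216, rC_185_), (80, rC_186_), (1048656, rC_187_),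
  (2097232, rC_188_), (1, rC_189_), (1048577, rC_190_), (2097153, rC_191_),
  (131073, rC_192_), (1179649, rC_193_), (2228225, rC_194_), (196609, rC_195_),
  (1245185, rC_196_), (2293761, rC_197_), (8193, rC_198_), (1056769, rC_199_),
  (2105345, rC_200_), (12289, rC_201_), (1060865, rC_202_), (2109441, rC_203_),
  (513, rC_204_), (1049089, rC_205_), (2097665, rC_206_), (769, rC_207_),
  (1049345, rC_208_), (2097921, rC_209_), (33, rC_210_), (1048609, rC_211_),
  (2097185, rC_212_), (49, rC_213_), (1048625, rC_214_), (2097201, rC_215_),
  (2, rC_216_), (1048578, rC_217_), (2097154, rC_218_), (65538, rC_219_),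
  (1114114, rC_220_), (2162690, rC_221_), (131074, rC_222_), (1179650, rC_223_),
  (2228226, rC_224_), (196610, rC_225_), (1245186, rC_226_), (2293762, rC_227_),
  (4098, rC_228_), (1052674, rC_229_), (2101250, rC_230_), (8194, rC_231_),
  (1056770, rC_232_), (2105346, rC_233_), (12290, rC_234_), (1060866, rC_235_),
  (2109442, rC_236_), (258, rC_237_), (1048834, rC_238_), (2097410, rC_239_),
  (514, rC_240_), (1049090, rC_241_), (2097666, rC_242_), (770, rC_243_),
  (1049346, rC_244_), (2097922, rC_245_), (18, rC_246_), (1048594, rC_247_),
  (2097170, rC_248_), (34, rC_249_), (1048610, rC_250_), (2097186, rC_251_),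
  (50, rC_252_), (1048626, rC_253_), (2097202, rC_254_), (3, rC_255_),
  (1048579, rC_256_), (2097155, rC_257_), (65539, rC_258_), (1114115, rC_259_),
  (2162691, rC_260_), (131075, rC_261_), (1179651, rC_262_), (2228227, rC_263_),
  (4099, rC_264_), (1052675, rC_265_), (2101251, rC_266_), (8195, rC_267_),
  (1056771, rC_268_), (2105347, rC_269_), (259, rC_270_), (1048835, rC_271_),
  (2097411, rC_272_), (515, rC_273_), (1049091, rC_274_), (2097667, rC_275_),
  (19, rC_276_), (1048595, rC_277_), (2097171, rC_278_), (35, rC_279_),
  (1048611, rC_280_), (2097187, rC_281_), (4, rC_282_), (1048580, rC_283_),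
  (2097156, rC_284_), (5, rC_285_), (1048581, rC_286_), (2097157, rC_287_)]

end Vale.Agent.P098.Exact.Sos6.Q93
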