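import Vale.Agent.P098.Exact.Sos6.Expand
import Vale.Agent.P098.Exact.Sos6.Q93.Gl
import Vale.Agent.P098.Exact.Sos6.Q93.RowsA0_0
import Vale.Agent.P098.Exact.Sos6.Q93.RowsA0_1
import Vale.Agent.P098.Exact.Sos6.Q93.RowsA1_0
import Vale.Agent.P098.Exact.Sos6.Q93.RowsA2_0
import Vale.Agent.P098.Exact.Sos6.Q93.RowsA3_0
import Vale.Agent.P098.Exact.Sos6.Q93.RowsA4_0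
import Vale.Agent.P098.Exact.Sos6.Q93.RowsA5_0
import Vale.Agent.P098.Exact.Sos6.Q93.RowsB_0
import Vale.Agent.P098.Exact.Sos6.Q93.RowsC_0

noncomputable section

namespace Vale.Agent.P098.Exact.Sos6.Q93

def an : ℤ := 65
def den : ℕ := 4096
def L : List ITerm := [
  ⟨4083, .a1, 0, 0, 0, 0⟩, ⟨1554, .a1, 0, 0, 0, 1⟩, ⟨-6610, .a1, 0, 0, 0, 2⟩, ⟨3120, .a1, 0, 0, 1, 0⟩,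
  ⟨12700, .a1, 0, 1, 0, 0⟩, ⟨1308, .a1, 1, 0, 0, 0⟩, ⟨1489, .a1, 1, 0, 0, 1⟩, ⟨243, .a1, 1, 0, 0, 2⟩,
  ⟨-2547, .a1, 1, 0, 1, 0⟩, ⟨2924, .a1, 1, 1, 0, 0⟩, ⟨-3012, .a1, 2, 0, 0, 0⟩, ⟨1748, .a1, 2, 0, 0, 1⟩,
  ⟨-2424, .a1, 2, 0, 1, 0⟩, ⟨759, .a1, 2, 1, 0, 0⟩, ⟨3268, .a2, 0, 0, 0, 0⟩, ⟨-5024, .a2, 0, 0, 0, 1⟩,
  ⟨-865, .a2, 0, 0, 0, 2⟩, ⟨334, .a2, 0, 0, 1, 0⟩, ⟨-5205, .a2, 0, 1, 0, 0⟩, ⟨4852, .a2, 1, 0, 0, 0⟩,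
  ⟨885, .a2, 1, 0, 0, 1⟩, ⟨4839, .a2, 1, 0, 0, 2⟩, ⟨-1297, .a2, 1, 0, 1, 0⟩, ⟨-2977, .a2, 1, 1, 0, 0⟩,
  ⟨-1629, .a2, 2, 0, 0, 0⟩, ⟨1271, .a2, 2, 0, 0, 1⟩, ⟨-1471, .a2, 2, 0, 1, 0⟩, ⟨1876, .a2, 2, 1, 0, 0⟩,
  ⟨9937, .s0, 0, 0, 0, 0⟩, ⟨4650, .s0, 1, 0, 0, 0⟩, ⟨5649, .s0, 2, 0, 0, 0⟩, ⟨-6805, .s1, 0, 0, 0, 0⟩,
  ⟨-12422, .s1, 1, 0, 0, 0⟩, ⟨-7936, .s1, 2, 0, 0, 0⟩, ⟨-16685, .s2, 0, 0, 0, 0⟩, ⟨3391, .s2, 1, 0, 0, 0⟩,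
  ⟨1946, .s2, 2, 0, 0, 0⟩, ⟨6357, .u0, 0, 0, 0, 0⟩, ⟨-4985, .u0, 0, 0, 0, 1⟩, ⟨-4054, .u0, 0, 0, 0, 2⟩,
  ⟨22719, .u0, 0, 0, 1, 0⟩, ⟨-2169, .u0, 0, 0, 1, 1⟩, ⟨17477, .u0, 0, 1, 0, 0⟩, ⟨16491, .u0, 0, 1, 0, 1⟩,
  ⟨-14829, .u0, 1, 0, 0, 0⟩, ⟨-2060, .u0, 1, 0, 0, 1⟩, ⟨3343, .u0, 1, 0, 0, 2⟩, ⟨571, .u0, 1, 0, 1, 0⟩,
  ⟨5193, .u0, 1, 0, 1, 1⟩, ⟨8138, .u0, 1, 1, 0, 0⟩, ⟨5673, .u0, 1, 1, 0, 1⟩, ⟨-11188, .u0, 2, 0, 0, 0⟩,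
  ⟨4593, .u0, 2, 0, 0, 1⟩, ⟨6361, .u0, 2, 0, 1, 0⟩, ⟨11630, .u0, 2, 1, 0, 0⟩, ⟨11493, .u1, 0, 0, 0, 0⟩,
  ⟨11976, .u1, 0, 0, 0, 1⟩, ⟨-10819, .u1, 0, 0, 0, 2⟩, ⟨11773, .u1, 0, 0, 1, 0⟩, ⟨-2129, .u1, 0, 0, 1, 1⟩,
  ⟨-695, .u1, 0, 1, 0, 0⟩, ⟨-7910, .u1, 0, 1, 0, 1⟩, ⟨3485, .u1, 1, 0, 0, 0⟩, ⟨2426, .u1, 1, 0, 0, 1⟩,
  ⟨-4399, .u1, 1, 0, 0, 2⟩, ⟨7390, .u1, 1, 0, 1, 0⟩, ⟨-1078, .u1, 1, 0, 1, 1⟩, ⟨-17, .u1, 1, 1, 0, 0⟩,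
  ⟨4186, .u1, 1, 1, 0, 1⟩, ⟨-5175, .u1, 2, 0, 0, 0⟩, ⟨-2635, .u1, 2, 0, 0, 1⟩, ⟨-4616, .u1, 2, 0, 1, 0⟩,
  ⟨3284, .u1, 2, 1, 0, 0⟩, ⟨-4654, .u2, 0, 0, 0, 0⟩, ⟨2741, .u2, 0, 0, 0, 1⟩, ⟨21778, .u2, 0, 0, 0, 2⟩,
  ⟨-23250, .u2, 0, 0, 1, 0⟩, ⟨4232, .u2, 0, 0, 1, 1⟩, ⟨-16566, .u2, 0, 1, 0, 0⟩, ⟨-18348, .u2, 0, 1, 0, 1⟩,
  ⟨7063, .u2, 1, 0, 0, 0⟩, ⟨-1336, .u2, 1, 0, 0, 1⟩, ⟨4076, .u2, 1, 0, 0, 2⟩, ⟨-7323, .u2, 1, 0, 1, 0⟩,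
  ⟨2821, .u2, 1, 0, 1, 1⟩, ⟨-6896, .u2, 1, 1, 0, 0⟩, ⟨-1959, .u2, 1, 1, 0, 1⟩, ⟨4706, .u2, 2, 0, 0, 0⟩,
  ⟨1336, .u2, 2, 0, 0, 1⟩, ⟨-763, .u2, 2, 0, 1, 0⟩, ⟨-840, .u2, 2, 1, 0, 0⟩, ⟨752, .dw, 0, 0, 0, 0⟩,
  ⟨-4448, .dw, 0, 0, 0, 1⟩, ⟨3915, .dw, 0, 0, 0, 2⟩, ⟨544, .dw, 0, 0, 1, 0⟩, ⟨-566, .dw, 0, 1, 0, 0⟩,
  ⟨5, .dw, 1, 0, 0, 0⟩, ⟨-2849, .dw, 1, 0, 0, 1⟩, ⟨-2754, .dw, 1, 0, 0, 2⟩, ⟨99, .dw, 1, 0, 1, 0⟩,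
  ⟨-22, .dw, 1, 1, 0, 0⟩, ⟨1307, .dw, 2, 0, 0, 0⟩, ⟨7711, .dw, 2, 0, 0, 1⟩, ⟨-642, .dw, 2, 0, 1, 0⟩,
  ⟨-1538, .dw, 2, 1, 0, 0⟩, ⟨7249, .s11, 0, 0, 0, 0⟩, ⟨2495, .s11, 1, 0, 0, 0⟩, ⟨205, .s11, 2, 0, 0, 0⟩]
def L2 : List ITerm := [
  ⟨-9097, .a1, 0, 0, 0, 0⟩, ⟨-1588, .a1, 1, 0, 0, 0⟩, ⟨156, .a1, 2, 0, 0, 0⟩, ⟨4370, .a2, 0, 0, 0, 0⟩,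
  ⟨3402, .a2, 1, 0, 0, 0⟩, ⟨-135, .a2, 2, 0, 0, 0⟩, ⟨-13810, .u0, 0, 0, 0, 0⟩, ⟨682, .u0, 0, 0, 0, 1⟩,
  ⟨-9513, .u0, 1, 0, 0, 0⟩, ⟨1297, .u0, 1, 0, 0, 1⟩, ⟨-676, .u0, 2, 0, 0, 0⟩, ⟨-5751, .u1, 0, 0, 0, 0⟩,
  ⟨669, .u1, 0, 0, 0, 1⟩, ⟨364, .u1, 1, 0, 0, 0⟩, ⟨3252, .u1, 1, 0, 0, 1⟩, ⟨640, .u1, 2, 0, 0, 0⟩,
  ⟨-199, .u2, 0, 0, 0, 0⟩, ⟨-3693, .u2, 0, 0, 0, 1⟩, ⟨-3657, .u2, 1, 0, 0, 0⟩, ⟨-622, .u2, 1, 0, 0, 1⟩,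
  ⟨56, .u2, 2, 0, 0, 0⟩, ⟨404, .dw, 0, 0, 0, 0⟩, ⟨183, .dw, 1, 0, 0, 0⟩, ⟨-406, .dw, 2, 0, 0, 0⟩]
def KL : List KI := [
  ⟨4096, 0, 0, 0, 0, 0⟩, ⟨-13322, 0, 0, 0, 1, 0⟩, ⟨219, 0, 0, 0, 0, 1⟩, ⟨-4732, 0, 0, 0, 0, 2⟩,
  ⟨7818, 0, 0, 1, 0, 0⟩, ⟨12676, 0, 1, 0, 0, 0⟩, ⟨4684, 1, 0, 0, 0, 0⟩, ⟨-16580, 1, 0, 0, 1, 0⟩,
  ⟨-4598, 1, 0, 0, 0, 1⟩, ⟨62, 1, 0, 0, 0, 2⟩, ⟨3950, 1, 0, 1, 0, 0⟩, ⟨-1327, 1, 1, 0, 0, 0⟩,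
  ⟨3141, 2, 0, 0, 0, 0⟩, ⟨-7571, 2, 0, 0, 1, 0⟩, ⟨-1928, 2, 0, 0, 0, 1⟩, ⟨5061, 2, 0, 1, 0, 0⟩,
  ⟨-1172, 2, 1, 0, 0, 0⟩]
def rowsA0 : Rows := List.flatten [rowsA0_0, rowsA0_1]
def rowsA1 : Rows := List.flatten [rowsA1_0]
def rowsA2 : Rows := List.flatten [rowsA2_0]
def rowsA3 : Rows := List.flatten [rowsA3_0]
def rowsA4 : Rows := List.flatten [rowsA4_0]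
def rowsA5 : Rows := List.flatten [rowsA5_0]
def rowsB : Rows := List.flatten [rowsB_0]
def rowsC : Rows := List.flatten [rowsC_0]
def rowsA : Rows := rowsA0 ++ rowsA1 ++ rowsA2 ++ rowsA3 ++ rowsA4 ++ rowsA5
def parts : List Part := partsOf posN rowsA rowsB rowsC

end Vale.Agent.P098.Exact.Sos6.Q93
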