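import Vale.Agent.P098.Exact.Sos6.Q93.TableEq
import Vale.Agent.P098.Exact.D6.Boundary
import Vale.Agent.P098.Exact.D6.Top

/-! From the boxes of the interior check to the statement in dimensions one to six. -/

noncomputable section

namespace Vale.Agent.P098.Exact.Sos6.Q93

open Vale.Agent.P098.Reg

/-- Checked boxes covering the chart settle dimensions one to six. -/
theorem target_of_boxes (δ : ℝ) (hδ : 0 < δ) (boxes : List Box) (T : Sos6.Tree)
    (hc : covers boxes T root = true)
    (hg : ∀ x ∈ boxes, x.GoodK ((an : ℝ) / 100) (L.map (ITerm.term den))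
      (L2.map (ITerm.term den)) (KL.map (KI.term den)) δ) :
    ∀ d : ℕ, 1 ≤ d → d ≤ 6 → Target d :=
  D6.target_six ⟨D6.certOfBoxes an den L L2 KL (by decide) (by decide) δ hδ boxes T hc hg
    fun h t3 t4 H => by
      rw [L_eq, L2_eq, KL_eq]
      exact D6.boundary_table h t3 t4 H⟩

end Vale.Agent.P098.Exact.Sos6.Q93
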