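import Vale.Agent.P098.Exact.Sos6.Q93.Defs
import Vale.Agent.P098.Exact.D6.Table

/-! The integer tables of the interior check are the tables of dimension six. -/

noncomputable section

namespace Vale.Agent.P098.Exact.Sos6.Q93

theorem L_eq : L.map (ITerm.term den) = D6.table := by
  simp [L, den, ITerm.term, D6.table]

theorem L2_eq : L2.map (ITerm.term den) = D6.table2 := by
  simp [L2, den, ITerm.term, D6.table2]

theorem KL_eq : KL.map (KI.term den) = D6.ktable := by
  simp [KL, den, KI.term, D6.ktable]

theorem al_eq : ((an : ℝ) / 100) = D6.al := by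
  norm_num [an, D6.al]

end Vale.Agent.P098.Exact.Sos6.Q93
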