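import Vale.Agent.P098.Exact.Sos6.Q93.TblData

/-! The generated table is consistent. -/

namespace Vale.Agent.P098.Exact.Sos6.Q93

open Sos6

theorem tbl_lists : tbl.listsOK = true := by decide +kernel

theorem tbl_blocks : tbl.blocksOK = true := by decide +kernel

theorem tbl_classes : tbl.classesOK = true := by decide +kernel

theorem tbl_coords0 : (List.range' 0 10).all tbl.coordOK = true := by decide +kernel

theorem tbl_coords10 : (List.range' 10 10).all tbl.coordOK = true := by decide +kernel

theorem tbl_coords20 : (List.range' 20 10).all tbl.coordOK = true := by decide +kernel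

theorem tbl_coords30 : (List.range' 30 8).all tbl.coordOK = true := by decide +kernel

theorem tbl_ok : tbl.Ok := by
  refine ⟨tbl_lists, tbl_blocks, tbl_classes, fun a ha => ?_⟩
  have ha' : a < 38 := ha
  by_cases h0 : a < 10
  · exact List.all_eq_true.1 tbl_coords0 a (by simp; omega)
  by_cases h10 : a < 20
  · exact List.all_eq_true.1 tbl_coords10 a (by simp; omega)
  by_cases h20 : a < 30
  · exact List.all_eq_true.1 tbl_coords20 a (by simp; omega)
  exact List.all_eq_true.1 tbl_coords30 a (by simp; omega)

end Vale.Agent.P098.Exact.Sos6.Q93
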